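/-
Row 245 / S0484 (every smooth quartic surface is Oka, stated in the punctured cone).
Basic definitions of the target formalism (DESIGN-T, helper178).

* the target is the punctured cone `Cone F = {y ≠ 0, F y = 0}` in `ℂ⁴`; all maps are `ℂ⁴`-valued
  functions, all closeness is in the sup norm of `Fin 4 → ℂ`;
* sources are arbitrary (finite dimensional) complex normed spaces, passive polydiscs are closed
  balls of `Fin p → ℂ` (sup norm) centred at `0`.
-/
import Mathlib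
import Claimed.Prelude.Def_0412

set_option autoImplicit false

namespace Claimed.Agent.R245

open MvPolynomial Metric Set

/-- the ambient space of the cone -/
abbrev V4 : Type := Fin 4 → ℂ

/-- the punctured cone over the quartic -/
def Cone (F : MvPolynomial (Fin 4) ℂ) : Set V4 := {y | y ≠ 0 ∧ eval y F = 0}

/-- the gradient of `F` as a map `ℂ⁴ → ℂ⁴` -/
noncomputable def grad (F : MvPolynomial (Fin 4) ℂ) (y : V4) : V4 := fun i => eval y (pderiv i F)

/-- the bilinear (not hermitian) pairing on `ℂ⁴` -/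
noncomputable def dot (a b : V4) : ℂ := ∑ i, a i * b i

section maps

variable {E : Type*} [NormedAddCommGroup E] [NormedSpace ℂ E]

/-- holomorphic on `W` with values in the cone -/
def HolOn (F : MvPolynomial (Fin 4) ℂ) (f : E → V4) (W : Set E) : Prop :=
  DifferentiableOn ℂ f W ∧ MapsTo f W (Cone F)

/-- holomorphic on some open neighbourhood of `S` with values in the cone -/
def HolNear (F : MvPolynomial (Fin 4) ℂ) (f : E → V4) (S : Set E) : Prop :=
  ∃ W : Set E, IsOpen W ∧ S ⊆ W ∧ HolOn F f W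

/-- entire with values in the cone -/
def Entire (F : MvPolynomial (Fin 4) ℂ) (G : E → V4) : Prop :=
  Differentiable ℂ G ∧ ∀ z, G z ∈ Cone F

/-- every map holomorphic near `S` is a uniform limit on `S` of entire maps -/
def Approx (F : MvPolynomial (Fin 4) ℂ) (S : Set E) : Prop :=
  ∀ f : E → V4, HolNear F f S → ∀ ε : ℝ, 0 < ε → ∃ G : E → V4, Entire F G ∧ ∀ z ∈ S, ‖G z - f z‖ < ε

end maps

/-- The statement `𝒜_r` of Section 4: approximation on (convex compact in dimension `r`) × polydisc. -/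
def PropA (F : MvPolynomial (Fin 4) ℂ) (r : ℕ) : Prop :=
  ∀ (E : Type) [NormedAddCommGroup E] [NormedSpace ℂ E] [FiniteDimensional ℂ E],
    Module.finrank ℂ E = r → ∀ (p : ℕ) (C : Set E) (ρ : ℝ), IsCompact C → Convex ℝ C → C.Nonempty →
      0 < ρ → Approx F (C ×ˢ closedBall (0 : Fin p → ℂ) ρ)

/-- CAP in the cone, sup-norm version -/
def CAPCone (F : MvPolynomial (Fin 4) ℂ) : Prop :=
  ∀ (m : ℕ) (K : Set (Fin m → ℂ)), IsCompact K → Convex ℝ K → K.Nonempty → Approx F K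

/-! ### property `L` -/

/-- the closed rectangle `[x₀,x₁] × [y₀,y₁]` (in the coordinate `w = log s`: a polar sector) -/
def URect (x₀ x₁ y₀ y₁ : ℝ) : Set ℂ := {z | x₀ ≤ z.re ∧ z.re ≤ x₁ ∧ y₀ ≤ z.im ∧ z.im ≤ y₁}

/-- the `U`-shaped band of thickness `h` along the left, bottom and top sides of the rectangle
(it is open towards `+Re`):  `URect` minus `(x₀+h, x₁] × (y₀+h, y₁-h)`. -/
def UBand (x₀ x₁ y₀ y₁ h : ℝ) : Set ℂ :=
  {z | z ∈ URect x₀ x₁ y₀ y₁ ∧ (z.re ≤ x₀ + h ∨ z.im ≤ y₀ + h ∨ y₁ - h ≤ z.im)}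

/-- `V` is a witness neighbourhood for the local operation `L` (Def 2.1 of the paper, for the only
special pairs that are used: `UBand ⊂ URect`; polar sectors are obtained by precomposing with
`exp` / a branch of `log`). -/
def IsWitness (F : MvPolynomial (Fin 4) ℂ) (V : Set V4) : Prop :=
  IsOpen V ∧ ∀ (x₀ x₁ y₀ y₁ h : ℝ), 0 < h → x₀ + h < x₁ → y₀ + 2 * h < y₁ →
    ∀ (q : ℕ) (ρ₀ ρ : ℝ), 0 < ρ₀ → ρ₀ < ρ →
    ∀ f : ℂ × (Fin q → ℂ) → V4,
      (∃ W : Set (ℂ × (Fin q → ℂ)), IsOpen W ∧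
        UBand x₀ x₁ y₀ y₁ h ×ˢ closedBall (0 : Fin q → ℂ) ρ ⊆ W ∧ HolOn F f W ∧ MapsTo f W V) →
      ∀ ε : ℝ, 0 < ε → ∃ g : ℂ × (Fin q → ℂ) → V4,
        HolNear F g (URect x₀ x₁ y₀ y₁ ×ˢ closedBall (0 : Fin q → ℂ) ρ₀) ∧
        ∀ z ∈ UBand x₀ x₁ y₀ y₁ h ×ˢ closedBall (0 : Fin q → ℂ) ρ₀, ‖g z - f z‖ < ε

/-- property `L` at the point `y` of the cone -/
def HasL (F : MvPolynomial (Fin 4) ℂ) (y : V4) : Prop := ∃ V : Set V4, IsWitness F V ∧ y ∈ V

/-- property `L` everywhere -/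
def LEverywhere (F : MvPolynomial (Fin 4) ℂ) : Prop := ∀ y ∈ Cone F, HasL F y

end Claimed.Agent.R245
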