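/-
Row 245 / S0484, sec 2.1 (Prop loc:criterion: two complete directions give property `L`), cone form.
Architect: helper187.   Definitions.
-/
import Mathlib
import Claimed.Agent.R245.Defs

set_option autoImplicit false

namespace Claimed.Agent.R245

open MvPolynomial Metric Set

/-- strip coordinates `(z₀, z₁, z₂)`: two strip variables and the logarithm of the scaling factor -/
abbrev V3 : Type := Fin 3 → ℂ

/-- the vector `(a, b, c)` of `V3` -/
def vec3 (a b c : ℂ) : V3 := ![a, b, c]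

/-- the chart of the cone attached to a strip `s`:  `(z₀, z₁, z₂) ↦ exp z₂ • s (z₀, z₁)` -/
noncomputable def Sig (s : ℂ × ℂ → V4) (z : V3) : V4 := Complex.exp (z 2) • s (z 0, z 1)

/-- the strip `s` is regular at the origin: `Sig s` is an immersion at `0` -/
def StripReg (s : ℂ × ℂ → V4) : Prop :=
  LinearIndependent ℂ ![s (0, 0), fderiv ℂ s (0, 0) (1, 0), fderiv ℂ s (0, 0) (0, 1)]

/-- **Germ part of the hypothesis of the criterion.**  Two germs `s1, s2` of strips on the bidisc of radius `b`, with values in the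
cone, regular at the origin, which agree on the first axis. -/
structure StripGerm (F : MvPolynomial (Fin 4) ℂ) (b : ℝ) (s1 s2 : ℂ × ℂ → V4) : Prop where
  b_pos : 0 < b
  hol1 : HolOn F s1 (ball (0 : ℂ) b ×ˢ ball (0 : ℂ) b)
  hol2 : HolOn F s2 (ball (0 : ℂ) b ×ˢ ball (0 : ℂ) b)
  axis : ∀ z : ℂ, ‖z‖ < b → s1 (z, 0) = s2 (z, 0)
  reg1 : StripReg s1
  reg2 : StripReg s2

/-- **The hypothesis of the criterion** (Prop. loc:criterion, finite-length version, displaced point `c`, thin first strip).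
* `s1, s2`: a `StripGerm`;  `s2` is moreover defined and regular near the displaced point `(0, c)` of its central leaf;
* `long1`: `s1` is a uniform limit on the bidisc of strips `S1` which are long (`R`) in the FIRST variable; their width `b'` in the second
  variable may depend on `R` (but not on the accuracy `δ`); near the origin `S1` lives on the full bidisc;
* `long2`: `s2` is a uniform limit, on the bidisc and on the bidisc around `(0, c)`, of strips `S2` which are long in the SECOND variable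
  (uniform width `b`). -/
structure StripPair (F : MvPolynomial (Fin 4) ℂ) (b : ℝ) (c : ℂ) (s1 s2 : ℂ × ℂ → V4) : Prop
    extends StripGerm F b s1 s2 where
  hol2c : HolOn F s2 (ball (0 : ℂ) b ×ˢ ball c b)
  reg2c : StripReg (fun p : ℂ × ℂ => s2 (p.1, p.2 + c))
  long1 : ∀ R : ℝ, b ≤ R → ∃ b' : ℝ, 0 < b' ∧ b' ≤ b ∧ ∀ δ : ℝ, 0 < δ → ∃ S1 : ℂ × ℂ → V4,
    HolOn F S1 (ball (0 : ℂ) R ×ˢ ball (0 : ℂ) b' ∪ ball (0 : ℂ) b ×ˢ ball (0 : ℂ) b) ∧
    ∀ p ∈ ball (0 : ℂ) b ×ˢ ball (0 : ℂ) b, ‖S1 p - s1 p‖ < δ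
  long2 : ∀ R δ : ℝ, b + ‖c‖ ≤ R → 0 < δ → ∃ S2 : ℂ × ℂ → V4,
    HolOn F S2 (ball (0 : ℂ) b ×ˢ ball (0 : ℂ) R) ∧
    (∀ p ∈ ball (0 : ℂ) b ×ˢ ball (0 : ℂ) b, ‖S2 p - s2 p‖ < δ) ∧
    ∀ p ∈ ball (0 : ℂ) b ×ˢ ball c b, ‖S2 p - s2 p‖ < δ

/-- additive splitting with bound `κ` for `G`-valued bounded holomorphic functions on `UA ∩ UB` -/
def SplitsG {X : Type*} [NormedAddCommGroup X] [NormedSpace ℂ X] (G : Type*) [NormedAddCommGroup G]
    [NormedSpace ℂ G] (UA UB : Set X) (κ : ℝ) : Prop :=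
  ∀ (u : X → G) (B : ℝ), 0 ≤ B → DifferentiableOn ℂ u (UA ∩ UB) → (∀ x ∈ UA ∩ UB, ‖u x‖ ≤ B) →
    ∃ a b : X → G, DifferentiableOn ℂ a UA ∧ DifferentiableOn ℂ b UB ∧ (∀ x ∈ UA, ‖a x‖ ≤ κ * B) ∧
      (∀ x ∈ UB, ‖b x‖ ≤ κ * B) ∧ ∀ x ∈ UA ∩ UB, a x - b x = u x

/-! ### planar geometry of a `U`-pair -/

/-- the depth of `z` inside the core `(x₀+h, ∞) × (y₀+h, y₁-h)` of the `U`-pair (negative outside the core) -/
noncomputable def uDepth (x₀ y₀ y₁ h : ℝ) (z : ℂ) : ℝ :=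
  min (z.re - x₀ - h) (min (z.im - y₀ - h) (y₁ - h - z.im))

/-- the open rectangle enlarged by `e` -/
def ORect (x₀ x₁ y₀ y₁ e : ℝ) : Set ℂ :=
  {z | x₀ - e < z.re ∧ z.re < x₁ + e ∧ y₀ - e < z.im ∧ z.im < y₁ + e}

/-- the closed rectangle enlarged by `e` -/
def CRect (x₀ x₁ y₀ y₁ e : ℝ) : Set ℂ :=
  {z | x₀ - e ≤ z.re ∧ z.re ≤ x₁ + e ∧ y₀ - e ≤ z.im ∧ z.im ≤ y₁ + e}

end Claimed.Agent.R245
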