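/-
Row 245 / S0484, sec 2.1 (criterion), architect: helper187.   Package CR-CHART: the inverse chart of a regular strip.
ONE FILE = ONE PACKAGE = ONE OWNER.  Do not change the statement; helper lemmas: prefix `crc_`, keep them in this file.
Black box: `scv_analyticOnNhd` (R245/SCVOsg.lean): DifferentiableOn on an open subset of a finite dimensional space ⇒ analytic.
-/
import Mathlib
import Claimed.Agent.R245.SCV
import Claimed.Agent.R245.CritDefs
import Claimed.Agent.R245.L2Poly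

set_option autoImplicit false

namespace Claimed.Agent.R245

open MvPolynomial Metric Set Filter Topology Claims.C0412

/-- the linear map `(z₀, z₁, z₂) ↦ (z₀, z₁)` -/
noncomputable def crc_A : V3 →L[ℂ] ℂ × ℂ :=
  (ContinuousLinearMap.proj 0 : V3 →L[ℂ] ℂ).prod (ContinuousLinearMap.proj 1 : V3 →L[ℂ] ℂ)

theorem crc_A_apply (z : V3) : crc_A z = (z 0, z 1) := rfl

theorem crc_analyticAt_Sig {s : ℂ × ℂ → V4} (hs : AnalyticAt ℂ s (0, 0)) :
    AnalyticAt ℂ (Sig s) 0 := by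
  have h1 : AnalyticAt ℂ (fun z : V3 => s (crc_A z)) 0 := by
    have h : AnalyticAt ℂ s (crc_A 0) := by simpa [crc_A_apply] using hs
    exact h.comp (crc_A.analyticAt 0)
  have h2 : AnalyticAt ℂ (fun z : V3 => Complex.exp (z 2)) 0 :=
    ((ContinuousLinearMap.proj 2 : V3 →L[ℂ] ℂ).analyticAt 0).cexp'
  exact h2.smul h1

theorem crc_hasFDerivAt_Sig {s : ℂ × ℂ → V4} (hs : DifferentiableAt ℂ s (0, 0)) :
    HasFDerivAt (Sig s) ((fderiv ℂ s (0, 0)).comp crc_A +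
      (ContinuousLinearMap.proj 2 : V3 →L[ℂ] ℂ).smulRight (s (0, 0))) 0 := by
  have h1 : HasFDerivAt (fun z : V3 => s (crc_A z)) ((fderiv ℂ s (0, 0)).comp crc_A) 0 := by
    have h : HasFDerivAt s (fderiv ℂ s (0, 0)) (crc_A 0) := by
      simpa [crc_A_apply] using hs.hasFDerivAt
    exact h.comp 0 crc_A.hasFDerivAt
  have h2 : HasFDerivAt (fun z : V3 => Complex.exp (z 2))
      (ContinuousLinearMap.proj 2 : V3 →L[ℂ] ℂ) 0 := by
    have h3 : HasFDerivAt (fun z : V3 => z 2) (ContinuousLinearMap.proj 2 : V3 →L[ℂ] ℂ) 0 :=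
      (ContinuousLinearMap.proj 2 : V3 →L[ℂ] ℂ).hasFDerivAt
    have h4 := h3.cexp
    simpa using h4
  have h5 := h2.smul h1
  have e : (Complex.exp ((0 : V3) 2) • (fderiv ℂ s (0, 0)).comp crc_A +
      (ContinuousLinearMap.proj 2 : V3 →L[ℂ] ℂ).smulRight (s (crc_A 0)))
      = (fderiv ℂ s (0, 0)).comp crc_A +
      (ContinuousLinearMap.proj 2 : V3 →L[ℂ] ℂ).smulRight (s (0, 0)) := by
    simp [crc_A_apply]
  rw [e] at h5
  exact h5

theorem crc_Sig_zero (s : ℂ × ℂ → V4) : Sig s 0 = s (0, 0) := by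
  simp [Sig]

/-- the thickened chart -/
noncomputable def crc_hat (s : ℂ × ℂ → V4) (ν : V4) (p : V3 × ℂ) : V4 := Sig s p.1 + p.2 • ν

/-- its derivative at the origin -/
noncomputable def crc_L (s : ℂ × ℂ → V4) (ν : V4) : V3 × ℂ →L[ℂ] V4 :=
  ((fderiv ℂ s (0, 0)).comp crc_A +
      (ContinuousLinearMap.proj 2 : V3 →L[ℂ] ℂ).smulRight (s (0, 0))).comp
        (ContinuousLinearMap.fst ℂ V3 ℂ) +
    (ContinuousLinearMap.snd ℂ V3 ℂ).smulRight ν

theorem crc_L_apply (s : ℂ × ℂ → V4) (ν : V4) (p : V3 × ℂ) :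
    crc_L s ν p = fderiv ℂ s (0, 0) (p.1 0, p.1 1) + p.1 2 • s (0, 0) + p.2 • ν := by
  simp [crc_L, crc_A_apply]

theorem crc_hat_zero (s : ℂ × ℂ → V4) (ν : V4) : crc_hat s ν 0 = s (0, 0) := by
  simp [crc_hat, crc_Sig_zero]

theorem crc_analyticAt_hat {s : ℂ × ℂ → V4} (hs : AnalyticAt ℂ s (0, 0)) (ν : V4) :
    AnalyticAt ℂ (crc_hat s ν) 0 := by
  have h1 : AnalyticAt ℂ (fun p : V3 × ℂ => Sig s p.1) 0 := by
    have h : AnalyticAt ℂ (Sig s) ((0 : V3 × ℂ).1) := crc_analyticAt_Sig hs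
    exact h.comp analyticAt_fst
  have h2 : AnalyticAt ℂ (fun p : V3 × ℂ => p.2 • ν) 0 := analyticAt_snd.smul analyticAt_const
  exact h1.add h2

theorem crc_hasFDerivAt_hat {s : ℂ × ℂ → V4} (hs : DifferentiableAt ℂ s (0, 0)) (ν : V4) :
    HasFDerivAt (crc_hat s ν) (crc_L s ν) 0 := by
  have h1 : HasFDerivAt (fun p : V3 × ℂ => Sig s p.1)
      (((fderiv ℂ s (0, 0)).comp crc_A +
      (ContinuousLinearMap.proj 2 : V3 →L[ℂ] ℂ).smulRight (s (0, 0))).comp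
        (ContinuousLinearMap.fst ℂ V3 ℂ)) 0 := by
    have h : HasFDerivAt (Sig s) _ ((0 : V3 × ℂ).1) := crc_hasFDerivAt_Sig hs
    exact h.comp 0 hasFDerivAt_fst
  have h2 : HasFDerivAt (fun p : V3 × ℂ => p.2 • ν)
      ((ContinuousLinearMap.snd ℂ V3 ℂ).smulRight ν) 0 :=
    (hasFDerivAt_snd (𝕜 := ℂ) (E := V3) (F := ℂ) (p := 0)).smul_const ν
  exact h1.add h2

/-- the differential of `F` kills the tangent vectors of a map into the cone -/
theorem crc_dF_comp (F : MvPolynomial (Fin 4) ℂ) {b : ℝ} (hb : 0 < b) {s : ℂ × ℂ → V4}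
    (hs : HolOn F s (ball (0 : ℂ) b ×ˢ ball (0 : ℂ) b)) (v : ℂ × ℂ) :
    dot (grad F (s (0, 0))) (fderiv ℂ s (0, 0) v) = 0 := by
  have hU : IsOpen (ball (0 : ℂ) b ×ˢ ball (0 : ℂ) b) := isOpen_ball.prod isOpen_ball
  have h0 : ((0 : ℂ), (0 : ℂ)) ∈ ball (0 : ℂ) b ×ˢ ball (0 : ℂ) b :=
    ⟨mem_ball_self hb, mem_ball_self hb⟩
  have hd : HasFDerivAt s (fderiv ℂ s (0, 0)) (0, 0) :=
    (hs.1.differentiableAt (hU.mem_nhds h0)).hasFDerivAt
  have h1 : HasFDerivAt (fun p => eval (s p) F)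
      ((l2dotL (grad F (s (0, 0)))).comp (fderiv ℂ s (0, 0))) (0, 0) :=
    (l2_hasFDerivAt_eval F (s (0, 0))).comp (0, 0) hd
  have h2 : HasFDerivAt (fun p => eval (s p) F) (0 : ℂ × ℂ →L[ℂ] ℂ) (0, 0) := by
    have h3 : (fun p => eval (s p) F) =ᶠ[𝓝 ((0 : ℂ), (0 : ℂ))] fun _ => (0 : ℂ) := by
      filter_upwards [hU.mem_nhds h0] with p hp using (hs.2 hp).2
    exact (hasFDerivAt_const (0 : ℂ) ((0 : ℂ), (0 : ℂ))).congr_of_eventuallyEq h3
  have h4 := congrArg (fun L : ℂ × ℂ →L[ℂ] ℂ => L v) (h1.unique h2)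
  simpa [l2dotL_apply] using h4

theorem crc_L_injective (F : MvPolynomial (Fin 4) ℂ) (hF : IsSmoothQuarticForm F) {b : ℝ}
    (hb : 0 < b) {s : ℂ × ℂ → V4} (hs : HolOn F s (ball (0 : ℂ) b ×ˢ ball (0 : ℂ) b))
    (hreg : StripReg s) {ν : V4} (hν : dot (grad F (s (0, 0))) ν ≠ 0) :
    Function.Injective (crc_L s ν) := by
  rw [injective_iff_map_eq_zero]
  intro p hp
  rw [crc_L_apply] at hp
  have h0 : ((0 : ℂ), (0 : ℂ)) ∈ ball (0 : ℂ) b ×ˢ ball (0 : ℂ) b :=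
    ⟨mem_ball_self hb, mem_ball_self hb⟩
  have hx0 : s (0, 0) ∈ Cone F := hs.2 h0
  have h1 := congrArg (l2dotL (grad F (s (0, 0)))) hp
  rw [map_add, map_add, map_smul, map_smul, map_zero, l2dotL_apply, l2dotL_apply, l2dotL_apply,
    crc_dF_comp F hb hs, l2_euler hF.1, hx0.2] at h1
  have hw : p.2 = 0 := by
    have : p.2 * dot (grad F (s (0, 0))) ν = 0 := by simpa using h1
    exact (mul_eq_zero.1 this).resolve_right hν
  rw [hw, zero_smul, add_zero] at hp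
  have h2 : ((p.1 0, p.1 1) : ℂ × ℂ) = p.1 0 • ((1 : ℂ), (0 : ℂ)) + p.1 1 • ((0 : ℂ), (1 : ℂ)) := by
    simp
  rw [h2, map_add, map_smul, map_smul] at hp
  have h3 := Fintype.linearIndependent_iff.1 hreg ![p.1 2, p.1 0, p.1 1] (by
    simp only [Fin.sum_univ_three]
    simp only [Matrix.cons_val_zero, Matrix.cons_val_one, Matrix.cons_val_two, Matrix.head_cons,
      Matrix.tail_cons]
    rw [← hp]
    abel)
  have e0 : p.1 2 = 0 := by simpa using h3 0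
  have e1 : p.1 0 = 0 := by simpa using h3 1
  have e2 : p.1 1 = 0 := by simpa using h3 2
  refine Prod.ext ?_ hw
  funext i
  fin_cases i
  · exact e1
  · exact e2
  · exact e0

theorem crc_exists_nu {g : V4} (hg : g ≠ 0) : ∃ ν : V4, dot g ν ≠ 0 := by
  obtain ⟨i, hi⟩ : ∃ i, g i ≠ 0 := by
    by_contra h
    push Not at h
    exact hg (funext h)
  refine ⟨Pi.single i 1, ?_⟩
  have : dot g (Pi.single i 1) = g i := by
    simp [dot, Pi.single_apply]
  rwa [this]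

/-- **Inverse chart.**  `s` a strip germ on the bidisc of radius `b` with values in the cone, regular at the origin,
`x₀ = s (0,0)`.  There is a holomorphic `Ψ : ball x₀ r₀ → V3` (defined on an open ball of `ℂ⁴`), bounded by `b`, which inverts
`Sig s z = exp z₂ • s (z₀, z₁)`:  `Ψ (Sig s z) = z` for `‖z‖ < r₂` and `Sig s (Ψ y) = y` for the points `y` OF THE CONE in the ball.
Route: `x₀ ≠ 0`, so `grad F x₀ ≠ 0` (smoothness); choose `ν : V4` with `dot (grad F x₀) ν ≠ 0` (a basis vector).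
`Σ̂ : V3 × ℂ → V4`, `Σ̂ (z, w) = Sig s z + w • ν` is analytic near `0` (`scv_analyticOnNhd` for `s`), its derivative at `0` is
`(z, w) ↦ z 0 • ∂₁s + z 1 • ∂₂s + z 2 • x₀ + w • ν`.  It is injective: apply `dF_{x₀} = dot (grad F x₀) ·`; it kills `∂₁s, ∂₂s`
(differentiate `eval (s p) F = 0`) and `x₀` (Euler, or differentiate `eval (exp t • x₀) F = exp (4 t) * 0`; homogeneity:
`MvPolynomial.IsHomogeneous.eval₂`/`IsHomogeneous` + `eval_smul`-type lemma), so `w = 0`, then `StripReg`.  Source and target have dimension `4`: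
`LinearEquiv.ofInjectiveEndo`-style (`LinearMap.linearEquivOfInjective` with `finrank` equality), `.toContinuousLinearEquiv`.
Inverse function theorem: `ContDiffAt.toOpenPartialHomeomorph` / `ContDiffAt.to_localInverse` (`𝕜 = ℂ`, `n = 1` or `ω`);
`ContDiffAt.eventually` ⇒ the local inverse `Φ` is differentiable on a ball `ball x₀ r₀`; `Ψ y := (Φ y).1`.  Shrink `r₀` so that
`‖Φ y‖ < min b (small)` (continuity, `Φ x₀ = 0`), `Σ̂ (Φ y) = y`.
KEY POINT `(Φ y).2 = 0` for `y ∈ Cone F` close to `x₀`: `p := Sig s (Φ y).1 ∈ Cone F` (the cone is stable under `exp _ •`), `y = p + w • ν`,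
`eval y F = eval p F = 0`; `y ↦ eval y F` has a strict derivative `dF_{x₀}` at `x₀`
(`HasStrictFDerivAt`, from `ContDiff`/polynomial), i.e. `‖eval y F - eval p F - dF_{x₀} (y - p)‖ ≤ c ‖y - p‖` for `y, p` close to `x₀`,
with `c := ‖dF_{x₀} ν‖ / (2 ‖ν‖)`; hence `‖w‖ ‖dF_{x₀} ν‖ ≤ ‖w‖ ‖dF_{x₀} ν‖ / 2`, `w = 0`.
Finally choose `r₂ ≤ b` with `Sig s z ∈ ball x₀ r₀` and `Φ (Σ̂ (z, 0)) = (z, 0)` for `‖z‖ < r₂`. -/
theorem cr_chart (F : MvPolynomial (Fin 4) ℂ) (hF : IsSmoothQuarticForm F) {b : ℝ} (hb : 0 < b)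
    {s : ℂ × ℂ → V4} (hs : HolOn F s (ball (0 : ℂ) b ×ˢ ball (0 : ℂ) b)) (hreg : StripReg s) :
    ∃ (r₀ r₂ : ℝ) (Ψ : V4 → V3), 0 < r₀ ∧ 0 < r₂ ∧ r₂ ≤ b ∧
      DifferentiableOn ℂ Ψ (ball (s (0, 0)) r₀) ∧
      (∀ y ∈ ball (s (0, 0)) r₀, ‖Ψ y‖ < b) ∧
      (∀ z : V3, ‖z‖ < r₂ → Sig s z ∈ ball (s (0, 0)) r₀ ∧ Ψ (Sig s z) = z) ∧
      (∀ y ∈ ball (s (0, 0)) r₀, y ∈ Cone F → Sig s (Ψ y) = y) := by
  have hU : IsOpen (ball (0 : ℂ) b ×ˢ ball (0 : ℂ) b) := isOpen_ball.prod isOpen_ball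
  have h0 : ((0 : ℂ), (0 : ℂ)) ∈ ball (0 : ℂ) b ×ˢ ball (0 : ℂ) b :=
    ⟨mem_ball_self hb, mem_ball_self hb⟩
  have hx0 : s (0, 0) ∈ Cone F := hs.2 h0
  have hsa : AnalyticAt ℂ s (0, 0) := scv_analyticOnNhd hU hs.1 _ h0
  obtain ⟨ν, hν⟩ := crc_exists_nu (l2_grad_ne_zero hF hx0)
  have hν0 : ν ≠ 0 := by
    rintro rfl
    exact hν (by simp [dot])
  -- the derivative is an equivalence
  have hinj := crc_L_injective F hF hb hs hreg hν
  have hdim : Module.finrank ℂ (V3 × ℂ) = Module.finrank ℂ V4 := by simp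
  let e : (V3 × ℂ) ≃L[ℂ] V4 :=
    (LinearMap.linearEquivOfInjective (crc_L s ν : V3 × ℂ →ₗ[ℂ] V4) hinj hdim).toContinuousLinearEquiv
  have he : (e : V3 × ℂ →L[ℂ] V4) = crc_L s ν := by
    refine ContinuousLinearMap.ext fun p => ?_
    rfl
  have hc : ContDiffAt ℂ 1 (crc_hat s ν) 0 := (crc_analyticAt_hat hsa ν).contDiffAt
  have hd : HasFDerivAt (crc_hat s ν) (e : V3 × ℂ →L[ℂ] V4) 0 := by
    rw [he]
    exact crc_hasFDerivAt_hat hsa.differentiableAt ν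
  have hst : HasStrictFDerivAt (crc_hat s ν) (e : V3 × ℂ →L[ℂ] V4) 0 :=
    hc.hasStrictFDerivAt' hd one_ne_zero
  obtain ⟨Φ, hΦ⟩ : ∃ Φ : V4 → V3 × ℂ, Φ = hst.localInverse (crc_hat s ν) e 0 := ⟨_, rfl⟩
  have hz : crc_hat s ν 0 = s (0, 0) := crc_hat_zero s ν
  have hΦc : ContDiffAt ℂ 1 Φ (s (0, 0)) := by
    have := hc.to_localInverse hd one_ne_zero
    rw [hz] at this
    rw [hΦ]
    exact this
  have hΦ0 : Φ (s (0, 0)) = 0 := by
    have := hst.localInverse_apply_image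
    rw [hz] at this
    rw [hΦ]
    exact this
  have hΦl : ∀ᶠ p in 𝓝 (0 : V3 × ℂ), Φ (crc_hat s ν p) = p := by
    rw [hΦ]
    exact hst.eventually_left_inverse
  have hΦr : ∀ᶠ y in 𝓝 (s (0, 0)), crc_hat s ν (Φ y) = y := by
    have := hst.eventually_right_inverse
    rw [hz] at this
    rw [hΦ]
    exact this
  have hΦt : Tendsto Φ (𝓝 (s (0, 0))) (𝓝 0) := by
    have := hΦc.continuousAt.tendsto
    rwa [hΦ0] at this
  -- (a) differentiability near `x₀`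
  have hA : ∀ᶠ y in 𝓝 (s (0, 0)), DifferentiableAt ℂ Φ y := by
    filter_upwards [hΦc.eventually (by simp)] with y hy
    exact hy.differentiableAt one_ne_zero
  -- (b) smallness
  have hB : ∀ᶠ y in 𝓝 (s (0, 0)), ‖Φ y‖ < b := by
    have := hΦt (ball_mem_nhds (0 : V3 × ℂ) hb)
    filter_upwards [this] with y hy
    simpa using hy
  -- (d) the strict derivative of `F`
  have hSigc : ContinuousAt (Sig s) 0 := (crc_analyticAt_Sig hsa).continuousAt
  have hFst : HasStrictFDerivAt (fun y : V4 => eval y F) (l2dotL (grad F (s (0, 0)))) (s (0, 0)) := by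
    have h1 : AnalyticAt ℂ (fun y : V4 => eval y F) (s (0, 0)) :=
      scv_analyticOnNhd isOpen_univ (l2_differentiable_eval F).differentiableOn _ (mem_univ _)
    have h2 := h1.hasStrictFDerivAt
    rwa [(l2_hasFDerivAt_eval F (s (0, 0))).fderiv] at h2
  have hcpos : 0 < ‖dot (grad F (s (0, 0))) ν‖ / (2 * ‖ν‖) :=
    div_pos (norm_pos_iff.2 hν) (mul_pos two_pos (norm_pos_iff.2 hν0))
  have hD0 := hFst.isLittleO.def hcpos
  have hpair : Tendsto (fun y : V4 => (y, Sig s (Φ y).1)) (𝓝 (s (0, 0)))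
      (𝓝 (s (0, 0), s (0, 0))) := by
    refine tendsto_id.prodMk_nhds ?_
    have h1 : Tendsto (fun y => (Φ y).1) (𝓝 (s (0, 0))) (𝓝 (0 : V3)) :=
      (continuous_fst.tendsto (0 : V3 × ℂ)).comp hΦt
    have h2 := hSigc.tendsto.comp h1
    rwa [crc_Sig_zero] at h2
  have hD := hpair.eventually hD0
  obtain ⟨r₀, hr₀, hball⟩ := Metric.eventually_nhds_iff_ball.1 (hA.and (hB.and (hΦr.and hD)))
  -- the radius `r₂`
  have hE1 : ∀ᶠ z in 𝓝 (0 : V3), Sig s z ∈ ball (s (0, 0)) r₀ := by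
    have h1 := hSigc.tendsto
    rw [crc_Sig_zero] at h1
    exact h1 (ball_mem_nhds _ hr₀)
  have hE2 : ∀ᶠ z in 𝓝 (0 : V3), Φ (crc_hat s ν (z, 0)) = (z, 0) := by
    have h1 : Tendsto (fun z : V3 => ((z, 0) : V3 × ℂ)) (𝓝 0) (𝓝 (0 : V3 × ℂ)) := by
      have : Continuous (fun z : V3 => ((z, 0) : V3 × ℂ)) := by fun_prop
      exact this.tendsto' _ _ rfl
    exact h1.eventually hΦl
  obtain ⟨r₂, hr₂, hball2⟩ := Metric.eventually_nhds_iff_ball.1 (hE1.and hE2)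
  refine ⟨r₀, min r₂ b, fun y => (Φ y).1, hr₀, lt_min hr₂ hb, min_le_right _ _, ?_, ?_, ?_, ?_⟩
  · intro y hy
    exact ((hball y hy).1.fst).differentiableWithinAt
  · intro y hy
    exact (norm_fst_le (Φ y)).trans_lt (hball y hy).2.1
  · intro z hz
    have hz' : z ∈ ball (0 : V3) r₂ := by
      rw [mem_ball_zero_iff]
      exact hz.trans_le (min_le_left _ _)
    obtain ⟨h1, h2⟩ := hball2 z hz'
    refine ⟨h1, ?_⟩
    have h3 : crc_hat s ν (z, 0) = Sig s z := by simp [crc_hat]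
    rw [h3] at h2
    show (Φ (Sig s z)).1 = z
    rw [h2]
  · intro y hy hyC
    obtain ⟨-, hb1, hr1, hd1⟩ := hball y hy
    have hzb : ‖(Φ y).1‖ < b := (norm_fst_le (Φ y)).trans_lt hb1
    have hmem : ((Φ y).1 0, (Φ y).1 1) ∈ ball (0 : ℂ) b ×ˢ ball (0 : ℂ) b := by
      constructor
      · rw [mem_ball_zero_iff]
        exact (norm_le_pi_norm _ 0).trans_lt hzb
      · rw [mem_ball_zero_iff]
        exact (norm_le_pi_norm _ 1).trans_lt hzb
    have hp : Sig s (Φ y).1 ∈ Cone F := l2_smul_mem_cone hF.1 (Complex.exp_ne_zero _) (hs.2 hmem)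
    have hy' : y - Sig s (Φ y).1 = (Φ y).2 • ν := by
      have h1 : y = Sig s (Φ y).1 + (Φ y).2 • ν := hr1.symm
      rw [sub_eq_iff_eq_add, add_comm]
      exact h1
    simp only at hd1
    rw [hyC.2, hp.2, hy', map_smul, l2dotL_apply, norm_smul, sub_zero, zero_sub, norm_neg,
      norm_smul] at hd1
    have hw : (Φ y).2 = 0 := by
      by_contra hne
      have hpos : 0 < ‖(Φ y).2‖ := norm_pos_iff.2 hne
      have hνpos : 0 < ‖ν‖ := norm_pos_iff.2 hν0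
      have hdpos : 0 < ‖dot (grad F (s (0, 0))) ν‖ := norm_pos_iff.2 hν
      have e1 : ‖dot (grad F (s (0, 0))) ν‖ / (2 * ‖ν‖) * (‖(Φ y).2‖ * ‖ν‖)
          = ‖(Φ y).2‖ * ‖dot (grad F (s (0, 0))) ν‖ / 2 := by
        field_simp
      rw [e1] at hd1
      nlinarith [mul_pos hpos hdpos]
    rw [hw, zero_smul, sub_eq_zero] at hy'
    exact hy'.symm

end Claimed.Agent.R245
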