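/-
Row 245 / S0484, sec 2.1 (criterion), architect: helper187.   Package CR-GEO: planar geometry of a `U`-pair.
ONE FILE = ONE PACKAGE = ONE OWNER.  Do not change the statements; helper lemmas: prefix `crgeo_`, keep them in this file.
Mathlib only (+ Defs).
-/
import Mathlib
import Claimed.Agent.R245.CritDefs

set_option autoImplicit false

namespace Claimed.Agent.R245

open Metric Set Filter Topology

theorem cr_continuous_uDepth (x₀ y₀ y₁ h : ℝ) : Continuous (uDepth x₀ y₀ y₁ h) := by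
  unfold uDepth
  fun_prop

theorem cr_isOpen_ORect (x₀ x₁ y₀ y₁ e : ℝ) : IsOpen (ORect x₀ x₁ y₀ y₁ e) := by
  simp only [ORect, ofPred_and]
  exact (isOpen_lt continuous_const Complex.continuous_re).inter
    ((isOpen_lt Complex.continuous_re continuous_const).inter
      ((isOpen_lt continuous_const Complex.continuous_im).inter
        (isOpen_lt Complex.continuous_im continuous_const)))

theorem crgeo_CRect_eq (x₀ x₁ y₀ y₁ e : ℝ) :
    CRect x₀ x₁ y₀ y₁ e = Icc (x₀ - e) (x₁ + e) ×ℂ Icc (y₀ - e) (y₁ + e) := by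
  ext z
  constructor
  · rintro ⟨h1, h2, h3, h4⟩
    exact ⟨⟨h1, h2⟩, ⟨h3, h4⟩⟩
  · rintro ⟨⟨h1, h2⟩, ⟨h3, h4⟩⟩
    exact ⟨h1, h2, h3, h4⟩

theorem cr_isCompact_CRect (x₀ x₁ y₀ y₁ e : ℝ) : IsCompact (CRect x₀ x₁ y₀ y₁ e) := by
  rw [crgeo_CRect_eq]
  exact isCompact_Icc.reProdIm isCompact_Icc

theorem crgeo_isCompact_UBand (x₀ x₁ y₀ y₁ h : ℝ) : IsCompact (UBand x₀ x₁ y₀ y₁ h) := by
  have e : UBand x₀ x₁ y₀ y₁ h = CRect x₀ x₁ y₀ y₁ 0 ∩
      ({z : ℂ | z.re ≤ x₀ + h} ∪ ({z : ℂ | z.im ≤ y₀ + h} ∪ {z : ℂ | y₁ - h ≤ z.im})) := by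
    ext z
    constructor
    · rintro ⟨⟨h1, h2, h3, h4⟩, h5⟩
      exact ⟨⟨by linarith, by linarith, by linarith, by linarith⟩, h5⟩
    · rintro ⟨⟨h1, h2, h3, h4⟩, h5⟩
      exact ⟨⟨by linarith, by linarith, by linarith, by linarith⟩, h5⟩
  rw [e]
  refine (cr_isCompact_CRect _ _ _ _ _).inter_right ?_
  exact (isClosed_le Complex.continuous_re continuous_const).union
    ((isClosed_le Complex.continuous_im continuous_const).union
      (isClosed_le continuous_const Complex.continuous_im))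

/-- clamping a real number to an interval -/
theorem crgeo_clamp {lo hi e t : ℝ} (he : 0 < e) (hlh : lo ≤ hi) (h1 : lo - e < t)
    (h2 : t < hi + e) :
    ∃ c : ℝ, lo ≤ c ∧ c ≤ hi ∧ |t - c| < e := by
  refine ⟨max lo (min hi t), le_max_left _ _, max_le hlh (min_le_left _ _), ?_⟩
  rw [abs_lt]
  rcases le_total hi t with h | h
  · rw [min_eq_left h, max_eq_right hlh]
    constructor <;> linarith
  · rw [min_eq_right h]
    rcases le_total lo t with h' | h'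
    · rw [max_eq_right h']
      constructor <;> linarith
    · rw [max_eq_left h']
      constructor <;> linarith

/-- a point of `N_e` is `2e`-close to the band -/
theorem crgeo_near {x₀ x₁ y₀ y₁ h e : ℝ} (he : 0 < e) (hh : 0 < h) (hx : x₀ + h < x₁)
    (hy : y₀ + 2 * h < y₁)
    {z : ℂ} (hz : z ∈ ORect x₀ x₁ y₀ y₁ e) (hd : uDepth x₀ y₀ y₁ h z < e) :
    ∃ z' ∈ UBand x₀ x₁ y₀ y₁ h, dist z z' < 2 * e := by
  obtain ⟨h1, h2, h3, h4⟩ := hz
  have key : ∀ a b : ℝ, |z.re - a| < e → |z.im - b| < e → dist z (⟨a, b⟩ : ℂ) < 2 * e := by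
    intro a b ha hb
    rw [dist_eq_norm]
    have := Complex.norm_le_abs_re_add_abs_im (z - ⟨a, b⟩)
    simp only [Complex.sub_re, Complex.sub_im] at this
    linarith
  unfold uDepth at hd
  rw [min_lt_iff, min_lt_iff] at hd
  rcases hd with hd | hd | hd
  · obtain ⟨a, ha1, ha2, ha3⟩ := crgeo_clamp (lo := x₀) (hi := x₀ + h) (e := e) (t := z.re)
      he (by linarith) h1 (by linarith)
    obtain ⟨b, hb1, hb2, hb3⟩ := crgeo_clamp (lo := y₀) (hi := y₁) (e := e) (t := z.im)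
      he (by linarith) h3 h4
    exact ⟨⟨a, b⟩, ⟨⟨ha1, by show a ≤ x₁; linarith, hb1, hb2⟩, Or.inl ha2⟩, key a b ha3 hb3⟩
  · obtain ⟨a, ha1, ha2, ha3⟩ := crgeo_clamp (lo := x₀) (hi := x₁) (e := e) (t := z.re)
      he (by linarith) h1 h2
    obtain ⟨b, hb1, hb2, hb3⟩ := crgeo_clamp (lo := y₀) (hi := y₀ + h) (e := e) (t := z.im)
      he (by linarith) h3 (by linarith)
    exact ⟨⟨a, b⟩, ⟨⟨ha1, ha2, hb1, by show b ≤ y₁; linarith⟩, Or.inr (Or.inl hb2)⟩,
      key a b ha3 hb3⟩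
  · obtain ⟨a, ha1, ha2, ha3⟩ := crgeo_clamp (lo := x₀) (hi := x₁) (e := e) (t := z.re)
      he (by linarith) h1 h2
    obtain ⟨b, hb1, hb2, hb3⟩ := crgeo_clamp (lo := y₁ - h) (hi := y₁) (e := e) (t := z.im)
      he (by linarith) (by linarith) h4
    exact ⟨⟨a, b⟩, ⟨⟨ha1, ha2, by show y₀ ≤ b; linarith, hb2⟩, Or.inr (Or.inr hb1)⟩,
      key a b ha3 hb3⟩

/-- **Thickening.**  An open set containing `UBand × closedBall 0 ρ` contains `N_e × closedBall 0 ρ`, where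
`N_e = ORect e ∩ {uDepth < e}`, for some `e > 0`.
Route: `UBand` is compact (closed subset of the compact `CRect … 0 = URect`), so is the product;
`IsCompact.exists_thickening_subset_open` gives `δ > 0` with `thickening δ (UBand ×ˢ closedBall 0 ρ) ⊆ W`.  Take `e := δ / 4`.
For `z ∈ N_e` construct `z' ∈ UBand` with `dist z z' ≤ 2 e` (clamp: `re' := max x₀ (min x₁ re)`, `im' := max y₀ (min y₁ im)`; if the clamped point has
positive depth `< e`, move the coordinate that realises the minimum by `< e`: `re' := x₀ + h`, or `im' := y₀ + h`, or `im' := y₁ - h`;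
`dist z z' ≤ |re - re'| + |im - im'|`); the distance in the product is the max. -/
theorem cr_thick {x₀ x₁ y₀ y₁ h : ℝ} (hh : 0 < h) (hx : x₀ + h < x₁) (hy : y₀ + 2 * h < y₁) {q : ℕ}
    {ρ : ℝ} {W : Set (ℂ × (Fin q → ℂ))} (hW : IsOpen W)
    (hsub : UBand x₀ x₁ y₀ y₁ h ×ˢ closedBall (0 : Fin q → ℂ) ρ ⊆ W) :
    ∃ e : ℝ, 0 < e ∧
      (ORect x₀ x₁ y₀ y₁ e ∩ {z | uDepth x₀ y₀ y₁ h z < e}) ×ˢ closedBall (0 : Fin q → ℂ) ρ ⊆ W := by
  have hK : IsCompact (UBand x₀ x₁ y₀ y₁ h ×ˢ closedBall (0 : Fin q → ℂ) ρ) :=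
    (crgeo_isCompact_UBand _ _ _ _ _).prod (isCompact_closedBall _ _)
  obtain ⟨δ, hδ, hδW⟩ := hK.exists_thickening_subset_open hW hsub
  refine ⟨δ / 2, by positivity, ?_⟩
  rintro ⟨z, t⟩ ⟨⟨hz, hd⟩, ht⟩
  obtain ⟨z', hz', hzz'⟩ := crgeo_near (by positivity) hh hx hy hz hd
  refine hδW (mem_thickening_iff.2 ⟨(z', t), ⟨hz', ht⟩, ?_⟩)
  rw [Prod.dist_eq, dist_self, max_eq_left dist_nonneg]
  linarith

theorem crgeo_convex_reProdIm {s t : Set ℝ} (hs : Convex ℝ s) (ht : Convex ℝ t) :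
    Convex ℝ (s ×ℂ t) :=
  (hs.linear_preimage Complex.reLm).inter (ht.linear_preimage Complex.imLm)

/-- **The complement of (band of depth `≤ α`) ∪ (core of depth `≥ β`) is connected.**
Route: with `X_c = x₀ + h + c`, `Y⁰_c = y₀ + h + c`, `Y¹_c = y₁ - h - c` the complement is the union of the seven convex sets
`H_L = {re < x₀ - e}`, `H_R = {x₁ + e < re}`, `H_B = {im < y₀ - e}`, `H_T = {y₁ + e < im}` (complement of `CRect`) and
`C_L = HS ∩ {re < X_β}`, `C_B = HS ∩ {im < Y⁰_β}`, `C_T = HS ∩ {Y¹_β < im}`, where `HS = {X_α < re, Y⁰_α < im < Y¹_α} = {α < uDepth}`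
(and `{uDepth < β} = {re < X_β} ∪ {im < Y⁰_β} ∪ {Y¹_β < im}`).  Each is convex (intersection of half planes:
`convex_halfSpace_re_lt` etc.), hence preconnected (`Convex.isPreconnected`).  Chain them with `IsPreconnected.union` and explicit common points:
`H_L ∩ H_B`, `H_B ∩ H_R`, `H_R ∩ H_T`, `H_R ∩ C_B` (`re` large, `im = (Y⁰_α + Y⁰_β)/2`), `H_R ∩ C_T`, `C_B ∩ C_L`. -/
theorem cr_compl_preconnected {x₀ x₁ y₀ y₁ h e α β : ℝ} (hαβ : α < β)
    (hβ : y₀ + h + β < y₁ - h - β) :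
    IsPreconnected (CRect x₀ x₁ y₀ y₁ e ∩
      ({z | uDepth x₀ y₀ y₁ h z ≤ α} ∪ {z | β ≤ uDepth x₀ y₀ y₁ h z}))ᶜ := by
  set HL : Set ℂ := Iio (x₀ - e) ×ℂ univ with hHL
  set HR : Set ℂ := Ioi (x₁ + e) ×ℂ univ with hHR
  set HB : Set ℂ := univ ×ℂ Iio (y₀ - e) with hHB
  set HT : Set ℂ := univ ×ℂ Ioi (y₁ + e) with hHT
  set CL : Set ℂ := Ioo (x₀ + h + α) (x₀ + h + β) ×ℂ Ioo (y₀ + h + α) (y₁ - h - α) with hCL
  set CB : Set ℂ := Ioi (x₀ + h + α) ×ℂ Ioo (y₀ + h + α) (y₀ + h + β) with hCB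
  set CT : Set ℂ := Ioi (x₀ + h + α) ×ℂ Ioo (y₁ - h - β) (y₁ - h - α) with hCT
  have cHL : IsPreconnected HL := (crgeo_convex_reProdIm (convex_Iio _) convex_univ).isPreconnected
  have cHR : IsPreconnected HR := (crgeo_convex_reProdIm (convex_Ioi _) convex_univ).isPreconnected
  have cHB : IsPreconnected HB := (crgeo_convex_reProdIm convex_univ (convex_Iio _)).isPreconnected
  have cHT : IsPreconnected HT := (crgeo_convex_reProdIm convex_univ (convex_Ioi _)).isPreconnected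
  have cCL : IsPreconnected CL := (crgeo_convex_reProdIm (convex_Ioo _ _) (convex_Ioo _ _)).isPreconnected
  have cCB : IsPreconnected CB := (crgeo_convex_reProdIm (convex_Ioi _) (convex_Ioo _ _)).isPreconnected
  have cCT : IsPreconnected CT := (crgeo_convex_reProdIm (convex_Ioi _) (convex_Ioo _ _)).isPreconnected
  have hset : (CRect x₀ x₁ y₀ y₁ e ∩
      ({z | uDepth x₀ y₀ y₁ h z ≤ α} ∪ {z | β ≤ uDepth x₀ y₀ y₁ h z}))ᶜ
      = HL ∪ HB ∪ HR ∪ HT ∪ CB ∪ CT ∪ CL := by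
    ext z
    have m1 : z ∈ HL ↔ z.re < x₀ - e := by simp [hHL, Complex.mem_reProdIm]
    have m2 : z ∈ HR ↔ x₁ + e < z.re := by simp [hHR, Complex.mem_reProdIm]
    have m3 : z ∈ HB ↔ z.im < y₀ - e := by simp [hHB, Complex.mem_reProdIm]
    have m4 : z ∈ HT ↔ y₁ + e < z.im := by simp [hHT, Complex.mem_reProdIm]
    have m5 : z ∈ CL ↔ (x₀ + h + α < z.re ∧ z.re < x₀ + h + β) ∧
        (y₀ + h + α < z.im ∧ z.im < y₁ - h - α) := by simp [hCL, Complex.mem_reProdIm]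
    have m6 : z ∈ CB ↔ x₀ + h + α < z.re ∧ (y₀ + h + α < z.im ∧ z.im < y₀ + h + β) := by
      simp [hCB, Complex.mem_reProdIm]
    have m7 : z ∈ CT ↔ x₀ + h + α < z.re ∧ (y₁ - h - β < z.im ∧ z.im < y₁ - h - α) := by
      simp [hCT, Complex.mem_reProdIm]
    have m8 : z ∈ CRect x₀ x₁ y₀ y₁ e ↔
        x₀ - e ≤ z.re ∧ z.re ≤ x₁ + e ∧ y₀ - e ≤ z.im ∧ z.im ≤ y₁ + e := Iff.rfl
    have m9 : z ∈ {z | uDepth x₀ y₀ y₁ h z ≤ α} ↔
        (z.re - x₀ - h ≤ α ∨ z.im - y₀ - h ≤ α ∨ y₁ - h - z.im ≤ α) := by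
      show uDepth x₀ y₀ y₁ h z ≤ α ↔ _
      unfold uDepth
      rw [min_le_iff, min_le_iff]
    have m10 : z ∈ {z | β ≤ uDepth x₀ y₀ y₁ h z} ↔
        (β ≤ z.re - x₀ - h ∧ β ≤ z.im - y₀ - h ∧ β ≤ y₁ - h - z.im) := by
      show β ≤ uDepth x₀ y₀ y₁ h z ↔ _
      unfold uDepth
      rw [le_min_iff, le_min_iff]
    simp only [mem_compl_iff, mem_inter_iff, mem_union, m1, m2, m3, m4, m5, m6, m7, m8, m9, m10]
    constructor
    · intro hz
      by_contra hcon
      simp only [not_or, not_and, not_lt] at hcon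
      obtain ⟨⟨⟨⟨⟨⟨c1, c3⟩, c2⟩, c4⟩, c6⟩, c7⟩, c5⟩ := hcon
      apply hz
      refine ⟨⟨c1, c2, c3, c4⟩, ?_⟩
      by_contra hcon2
      simp only [not_or, not_and, not_le] at hcon2
      obtain ⟨⟨d1, d2, d3⟩, d4⟩ := hcon2
      have e1 : x₀ + h + α < z.re := by linarith
      have e2 : y₀ + h + α < z.im := by linarith
      have e3 : z.im < y₁ - h - α := by linarith
      have f6 := c6 e1 e2
      have f7 : y₁ - h - β < z.im → False := fun hlt => by
        have := c7 e1 hlt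
        linarith
      have f7' : z.im ≤ y₁ - h - β := not_lt.1 f7
      have f5 : x₀ + h + β ≤ z.re := by
        by_contra hlt
        have := c5 ⟨e1, not_le.1 hlt⟩ e2
        linarith
      have := d4 (by linarith) (by linarith)
      linarith
    · rintro hz ⟨⟨c1, c2, c3, c4⟩, hc⟩
      rcases hz with (((((hz | hz) | hz) | hz) | hz) | hz) | hz
      · linarith
      · linarith
      · linarith
      · linarith
      · obtain ⟨g1, g2, g3⟩ := hz
        rcases hc with (hc | hc | hc) | ⟨hc1, hc2, hc3⟩ <;> linarith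
      · obtain ⟨g1, g2, g3⟩ := hz
        rcases hc with (hc | hc | hc) | ⟨hc1, hc2, hc3⟩ <;> linarith
      · obtain ⟨⟨g1, g2⟩, g3, g4⟩ := hz
        rcases hc with (hc | hc | hc) | ⟨hc1, hc2, hc3⟩ <;> linarith
  rw [hset]
  -- a large real part
  set Rr : ℝ := max (x₁ + e) (x₀ + h + α) + 1 with hRr
  have hR1 : x₁ + e < Rr := by
    have := le_max_left (x₁ + e) (x₀ + h + α)
    linarith
  have hR2 : x₀ + h + α < Rr := by
    have := le_max_right (x₁ + e) (x₀ + h + α)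
    linarith
  have u1 : IsPreconnected (HL ∪ HB) :=
    IsPreconnected.union (⟨x₀ - e - 1, y₀ - e - 1⟩ : ℂ)
      (by simp [hHL, Complex.mem_reProdIm]) (by simp [hHB, Complex.mem_reProdIm]) cHL cHB
  have u2 : IsPreconnected (HL ∪ HB ∪ HR) :=
    IsPreconnected.union (⟨x₁ + e + 1, y₀ - e - 1⟩ : ℂ)
      (Or.inr (by simp [hHB, Complex.mem_reProdIm])) (by simp [hHR, Complex.mem_reProdIm]) u1 cHR
  have u3 : IsPreconnected (HL ∪ HB ∪ HR ∪ HT) :=
    IsPreconnected.union (⟨x₁ + e + 1, y₁ + e + 1⟩ : ℂ)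
      (Or.inr (by simp [hHR, Complex.mem_reProdIm])) (by simp [hHT, Complex.mem_reProdIm]) u2 cHT
  have u4 : IsPreconnected (HL ∪ HB ∪ HR ∪ HT ∪ CB) :=
    IsPreconnected.union (⟨Rr, y₀ + h + (α + β) / 2⟩ : ℂ)
      (Or.inl (Or.inr (by
        rw [hHR, Complex.mem_reProdIm]
        exact ⟨hR1, mem_univ _⟩)))
      (by
        rw [hCB, Complex.mem_reProdIm]
        exact ⟨hR2, by show _ < _; linarith, by show _ < _; linarith⟩) u3 cCB
  have u5 : IsPreconnected (HL ∪ HB ∪ HR ∪ HT ∪ CB ∪ CT) :=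
    IsPreconnected.union (⟨Rr, y₁ - h - (α + β) / 2⟩ : ℂ)
      (Or.inl (Or.inl (Or.inr (by
        rw [hHR, Complex.mem_reProdIm]
        exact ⟨hR1, mem_univ _⟩))))
      (by
        rw [hCT, Complex.mem_reProdIm]
        exact ⟨hR2, by show _ < _; linarith, by show _ < _; linarith⟩) u4 cCT
  exact IsPreconnected.union (⟨x₀ + h + (α + β) / 2, y₀ + h + (α + β) / 2⟩ : ℂ)
      (Or.inl (Or.inr (by
        rw [hCB, Complex.mem_reProdIm]
        exact ⟨by show x₀ + h + α < x₀ + h + (α + β) / 2; linarith, by show _ < _; linarith,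
          by show _ < _; linarith⟩)))
      (by
        rw [hCL, Complex.mem_reProdIm]
        exact ⟨⟨by show _ < _; linarith, by show _ < _; linarith⟩,
          by show _ < _; linarith, by show _ < _; linarith⟩) u5 cCL

end Claimed.Agent.R245
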