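/-
Row 245 / S0484, sec 2.2 (architect: helper98).  Planar cut data (definition) and package L2-CUT (existence of the cutoff).
ONE FILE = ONE PACKAGE = ONE OWNER.  Statements FROZEN; helper lemmas: prefix `l2cut_`, in this file.
-/
import Mathlib

set_option autoImplicit false

namespace Claimed.Agent.R245

open Set Metric Filter Topology

/-- **Planar cut datum.**  Two open sets `UA, UB ⊆ ℂ`, a `C¹` cutoff `χ` with values in `[0,1]` which vanishes near every
point of `UA \ UB` and is `1` near every point of `UB \ UA`; `d` bounds the distance from `UA ∪ UB` to the overlap and `M`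
bounds the derivative of `χ` on the overlap.  The splitting constant is `1 + 2 d M`. -/
structure L2Cut (UA UB : Set ℂ) (χ : ℂ → ℝ) (d M : ℝ) : Prop where
  openA : IsOpen UA
  openB : IsOpen UB
  smooth : ContDiff ℝ 1 χ
  nonneg : ∀ s, 0 ≤ χ s
  le_one : ∀ s, χ s ≤ 1
  zeroA : ∀ s ∈ UA \ UB, ∀ᶠ z in 𝓝 s, χ z = 0
  oneB : ∀ s ∈ UB \ UA, ∀ᶠ z in 𝓝 s, χ z = 1
  d_nonneg : 0 ≤ d
  M_nonneg : 0 ≤ M
  dist_le : ∀ s ∈ UA ∪ UB, ∀ ζ ∈ UA ∩ UB, dist s ζ ≤ d
  deriv_le : ∀ ζ ∈ UA ∩ UB, ‖fderiv ℝ χ ζ‖ ≤ M

/-- the roles of `UA` and `UB` can be exchanged (`χ ↦ 1 - χ`). -/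
theorem L2Cut.symm {UA UB : Set ℂ} {χ : ℂ → ℝ} {d M : ℝ} (h : L2Cut UA UB χ d M) :
    L2Cut UB UA (fun s => 1 - χ s) d M where
  openA := h.openB
  openB := h.openA
  smooth := contDiff_const.sub h.smooth
  nonneg := fun s => sub_nonneg.2 (h.le_one s)
  le_one := fun s => by linarith [h.nonneg s]
  zeroA := fun s hs => (h.oneB s hs).mono fun z hz => by rw [hz, sub_self]
  oneB := fun s hs => (h.zeroA s hs).mono fun z hz => by rw [hz, sub_zero]
  d_nonneg := h.d_nonneg
  M_nonneg := h.M_nonneg
  dist_le := fun s hs ζ hζ => h.dist_le s hs.symm ζ ⟨hζ.2, hζ.1⟩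
  deriv_le := fun ζ hζ => by
    rw [fderiv_const_sub, norm_neg]
    exact h.deriv_le ζ ⟨hζ.2, hζ.1⟩

/-- **CUT.**  Bounded open sets with disjoint closed fringes admit a cut datum.
Route: `E₀ = closure (UA \ UB)`, `E₁ = closure (UB \ UA)` are compact and disjoint: `Disjoint.exists_cthickenings` gives
`δ > 0` with disjoint closed `δ`-thickenings; a smooth Urysohn function (`exists_contMDiff_zero_one_of_isClosed` /
`exists_smooth_zero_one_of_isClosed` for the manifold `ℂ` over `ℝ`, then `ContMDiff.contDiff`; or build it from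
`Real.smoothTransition` and smooth bump functions) which is `0` on the first and `1` on the second thickening, values in
`[0,1]`.  `cthickening δ E₀ ∈ 𝓝 s` for `s ∈ E₀`.  `d` := diameter bound of the bounded set `UA ∪ UB`; `M` := a bound of
the continuous function `‖fderiv ℝ χ ·‖` on the compact set `closure (UA ∩ UB)`. -/
theorem l2_cut_exists {UA UB : Set ℂ} (hA : IsOpen UA) (hB : IsOpen UB)
    (hbA : Bornology.IsBounded UA) (hbB : Bornology.IsBounded UB)
    (hsep : Disjoint (closure (UA \ UB)) (closure (UB \ UA))) :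
    ∃ (χ : ℂ → ℝ) (d M : ℝ), L2Cut UA UB χ d M := by
  have hc0 : IsCompact (closure (UA \ UB)) := (hbA.subset sdiff_subset).isCompact_closure
  obtain ⟨δ, hδ, hdisj⟩ := hsep.exists_cthickenings hc0 isClosed_closure
  obtain ⟨f, hf0, hf1, hf01⟩ := exists_contMDiffMap_zero_one_of_isClosed (n := 1) (modelWithCornersSelf ℝ ℂ)
    (isClosed_cthickening (δ := δ) (E := closure (UA \ UB)))
    (isClosed_cthickening (δ := δ) (E := closure (UB \ UA))) hdisj
  have hsm : ContDiff ℝ 1 (f : ℂ → ℝ) := f.contMDiff.contDiff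
  have hnhds : ∀ (S : Set ℂ), ∀ s ∈ S, cthickening δ (closure S) ∈ 𝓝 s := by
    intro S s hs
    refine Filter.mem_of_superset (isOpen_thickening.mem_nhds ?_)
      (thickening_subset_cthickening δ (closure S))
    exact self_subset_thickening hδ _ (subset_closure hs)
  obtain ⟨C, hC⟩ := Metric.isBounded_iff.1 (hbA.union hbB)
  obtain ⟨K, hK⟩ := ((hbA.subset inter_subset_left).isCompact_closure (s := UA ∩ UB)).exists_bound_of_continuousOn
    (f := fderiv ℝ (f : ℂ → ℝ)) (hsm.continuous_fderiv one_ne_zero).continuousOn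
  refine ⟨f, max C 0, max K 0, ?_⟩
  exact
    { openA := hA
      openB := hB
      smooth := hsm
      nonneg := fun s => (hf01 s).1
      le_one := fun s => (hf01 s).2
      zeroA := fun s hs => by
        filter_upwards [hnhds _ s hs] with z hz using hf0 hz
      oneB := fun s hs => by
        filter_upwards [hnhds _ s hs] with z hz using hf1 hz
      d_nonneg := le_max_right _ _
      M_nonneg := le_max_right _ _
      dist_le := fun s hs ζ hζ => (hC hs (Or.inl hζ.1)).trans (le_max_left _ _)
      deriv_le := fun ζ hζ => (hK ζ (subset_closure hζ)).trans (le_max_left _ _) }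

end Claimed.Agent.R245
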