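/-
Row 245 / S0484, sec 2.2 (architect: helper98).  Package L2-CG: the Cauchy transform of bounded measurable functions.
ONE FILE = ONE PACKAGE = ONE OWNER.  Statements FROZEN; helper lemmas: prefix `l2cg_`, in this file.

Engine: `Claimed/Agent/R280/RET/Cauchy.lean` (sorry-free): `retDbar f z = (∂_x f + i ∂_y f)/2`,
`retCauchy φ w = π⁻¹ • ∫ z, (w - z)⁻¹ • φ z`, `retCT_integrableOn_inv_norm`, `retCT_pompeiu`,
`retCauchy_differentiableOn` (for CONTINUOUS compactly supported `φ`; copy its proof for `l2cg_differentiableAt`).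
-/
import Mathlib
import Claimed.Agent.R280.RET.Cauchy

set_option autoImplicit false

namespace Claimed.Agent.R245

open Set Metric Filter Topology MeasureTheory Claimed.Agent.R280

variable {G : Type*} [NormedAddCommGroup G] [NormedSpace ℂ G] [CompleteSpace G]

/-- The Cauchy kernel times a bounded measurable function with bounded support is integrable.
Route: dominate by `M * ‖w - z‖⁻¹` on `ball w (R + ‖w‖ + 1)` (`retCT_integrableOn_inv_norm`, translated). -/
theorem l2cg_integrable {φ : ℂ → G} (hm : AEStronglyMeasurable φ volume) {M R : ℝ}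
    (hM : ∀ z, ‖φ z‖ ≤ M) (hs : ∀ z, R < ‖z‖ → φ z = 0) (w : ℂ) :
    Integrable (fun z : ℂ => (w - z)⁻¹ • φ z) := by
  have hM0 : 0 ≤ M := (norm_nonneg _).trans (hM 0)
  have hint : Integrable ((ball (0 : ℂ) (R + ‖w‖ + 1)).indicator (fun z => ‖z‖⁻¹)) :=
    (integrable_indicator_iff measurableSet_ball).2 (retCT_integrableOn_inv_norm _)
  refine ((hint.comp_sub_left w).const_mul M).mono'
    (((measurable_const.sub measurable_id).inv).aestronglyMeasurable.smul hm)
    (Filter.Eventually.of_forall fun z => ?_)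
  by_cases hz : R < ‖z‖
  · rw [hs z hz, smul_zero, norm_zero]
    exact mul_nonneg hM0 (indicator_nonneg (fun z _ => inv_nonneg.2 (norm_nonneg z)) _)
  · have h1 : w - z ∈ ball (0 : ℂ) (R + ‖w‖ + 1) := by
      rw [mem_ball_zero_iff]
      have := norm_sub_le w z
      linarith [not_lt.1 hz]
    rw [indicator_of_mem h1, norm_smul, norm_inv, mul_comm]
    exact mul_le_mul_of_nonneg_right (hM z) (inv_nonneg.2 (norm_nonneg _))

/-- `∫_{‖z‖ ≤ d} ‖z‖⁻¹ = 2 π d` -/
theorem l2cg_integral_inv_norm {d : ℝ} (hd : 0 ≤ d) :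
    Integrable ((closedBall (0 : ℂ) d).indicator (fun z => ‖z‖⁻¹)) ∧
      ∫ z, (closedBall (0 : ℂ) d).indicator (fun z => ‖z‖⁻¹) z = 2 * Real.pi * d := by
  constructor
  · refine (integrable_indicator_iff measurableSet_closedBall).2
      ((retCT_integrableOn_inv_norm (d + 1)).mono_set (closedBall_subset_ball (by linarith)))
  · have e : ∀ z : ℂ, (closedBall (0 : ℂ) d).indicator (fun z => ‖z‖⁻¹) z
        = (Iic d).indicator (fun y : ℝ => y⁻¹) ‖z‖ := by
      intro z
      by_cases hz : ‖z‖ ≤ d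
      · rw [indicator_of_mem (mem_closedBall_zero_iff.2 hz), indicator_of_mem (mem_Iic.2 hz)]
      · rw [indicator_of_notMem (fun h => hz (mem_closedBall_zero_iff.1 h)),
          indicator_of_notMem (fun h => hz (mem_Iic.1 h))]
    simp_rw [e]
    rw [MeasureTheory.integral_fun_norm_addHaar (μ := volume) (E := ℂ)
      ((Iic d).indicator (fun y : ℝ => y⁻¹))]
    have h1 : (volume : Measure ℂ).real (ball 0 1) = Real.pi := by
      rw [Measure.real, Complex.volume_ball]
      simp
    have h2 : ∫ y in Ioi (0 : ℝ), y ^ (Module.finrank ℝ ℂ - 1) • (Iic d).indicator (fun y : ℝ => y⁻¹) y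
        = d := by
      have h3 : ∀ y ∈ Ioi (0 : ℝ), y ^ (Module.finrank ℝ ℂ - 1) • (Iic d).indicator (fun y : ℝ => y⁻¹) y
          = (Iic d).indicator (fun _ : ℝ => (1 : ℝ)) y := by
        intro y hy
        have hy0 : y ≠ 0 := (mem_Ioi.1 hy).ne'
        by_cases hyd : y ≤ d
        · rw [indicator_of_mem (mem_Iic.2 hyd), indicator_of_mem (mem_Iic.2 hyd)]
          simp [Complex.finrank_real_complex, hy0]
        · rw [indicator_of_notMem (fun h => hyd (mem_Iic.1 h)),
            indicator_of_notMem (fun h => hyd (mem_Iic.1 h)), smul_zero]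
      rw [setIntegral_congr_fun measurableSet_Ioi h3, setIntegral_indicator measurableSet_Iic,
        Ioi_inter_Iic]
      simp [hd]
    rw [h1, h2, Complex.finrank_real_complex]
    simp
    ring

/-- `‖retCauchy φ w‖ ≤ 2 d M` if `‖φ‖ ≤ M` and `φ = 0` outside `closedBall w d`.
Route: `norm_integral_le_of_norm_le` with the bound `M * ‖w - z‖⁻¹ 1_{‖w - z‖ ≤ d}`, whose integral is `2 π d M`
(`MeasureTheory.Measure.integral_fun_norm_addHaar`: `∫ f ‖x‖ = 2 • π • ∫_{y>0} y • f y`; volume of the unit disc: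
`Complex.volume_ball`). -/
theorem l2cg_bound {φ : ℂ → G} {M d : ℝ} (hd : 0 ≤ d) (hM : ∀ z, ‖φ z‖ ≤ M) (w : ℂ)
    (hs : ∀ z, d < ‖w - z‖ → φ z = 0) : ‖retCauchy φ w‖ ≤ 2 * d * M := by
  have hM0 : 0 ≤ M := (norm_nonneg _).trans (hM 0)
  obtain ⟨hint, hval⟩ := l2cg_integral_inv_norm hd
  have hb : ∀ z, ‖(w - z)⁻¹ • φ z‖
      ≤ M * (closedBall (0 : ℂ) d).indicator (fun z => ‖z‖⁻¹) (w - z) := by
    intro z
    by_cases hz : d < ‖w - z‖
    · rw [hs z hz, smul_zero, norm_zero]
      exact mul_nonneg hM0 (indicator_nonneg (fun z _ => inv_nonneg.2 (norm_nonneg z)) _)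
    · rw [indicator_of_mem (mem_closedBall_zero_iff.2 (not_lt.1 hz)), norm_smul, norm_inv, mul_comm]
      exact mul_le_mul_of_nonneg_right (hM z) (inv_nonneg.2 (norm_nonneg _))
  have h1 := norm_integral_le_of_norm_le ((hint.comp_sub_left w).const_mul M)
    (Filter.Eventually.of_forall hb)
  rw [integral_const_mul,
    integral_sub_left_eq_self ((closedBall (0 : ℂ) d).indicator (fun z => ‖z‖⁻¹)) volume w,
    hval] at h1
  calc ‖retCauchy φ w‖ = Real.pi⁻¹ * ‖∫ z : ℂ, (w - z)⁻¹ • φ z‖ := by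
        rw [retCauchy, norm_smul, norm_inv, Complex.norm_real, Real.norm_of_nonneg Real.pi_pos.le]
    _ ≤ Real.pi⁻¹ * (M * (2 * Real.pi * d)) := by gcongr
    _ = 2 * d * M := by
        have := Real.pi_pos.ne'
        field_simp

/-- The Cauchy transform is holomorphic where `φ` vanishes.
Route: as `retCauchy_differentiableOn`: `hasDerivAt_integral_of_dominated_loc_of_deriv_le` on `ball w₀ (ε/2)`,
derivative `-(w - z)⁻² • φ z`, dominated by `(ε/2)⁻² * M * 1_{‖z‖ ≤ R}`. -/
theorem l2cg_differentiableAt {φ : ℂ → G} (hm : AEStronglyMeasurable φ volume) {M R : ℝ}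
    (hM : ∀ z, ‖φ z‖ ≤ M) (hs : ∀ z, R < ‖z‖ → φ z = 0) {w₀ : ℂ} {ε : ℝ} (hε : 0 < ε)
    (h0 : ∀ z ∈ ball w₀ ε, φ z = 0) : DifferentiableAt ℂ (retCauchy φ) w₀ := by
  have hM0 : 0 ≤ M := (norm_nonneg _).trans (hM 0)
  have hφint : Integrable φ := by
    refine Integrable.mono' (g := (closedBall (0 : ℂ) R).indicator (fun _ => M))
      ((integrable_indicator_iff measurableSet_closedBall).2
        (integrableOn_const measure_closedBall_lt_top.ne)) hm
      (Filter.Eventually.of_forall fun z => ?_)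
    by_cases hz : R < ‖z‖
    · rw [hs z hz, norm_zero]
      exact indicator_nonneg (fun _ _ => hM0) _
    · rw [indicator_of_mem (mem_closedBall_zero_iff.2 (not_lt.1 hz))]
      exact hM z
  have hfar : ∀ z, φ z ≠ 0 → ∀ w ∈ ball w₀ (ε / 2), ε / 2 ≤ ‖w - z‖ := by
    intro z hz w hw
    by_contra hcon
    have h1 : dist z w₀ < ε := by
      calc dist z w₀ ≤ dist z w + dist w w₀ := dist_triangle _ _ _
        _ < ε / 2 + ε / 2 := by
            refine add_lt_add ?_ hw
            rw [dist_comm, dist_eq_norm]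
            exact not_le.1 hcon
        _ = ε := by ring
    exact hz (h0 z h1)
  have hmeas : ∀ w : ℂ, AEStronglyMeasurable (fun z : ℂ => (w - z)⁻¹ • φ z) volume := fun w =>
    ((measurable_const.sub measurable_id).inv).aestronglyMeasurable.smul hm
  have key := (hasDerivAt_integral_of_dominated_loc_of_deriv_le (𝕜 := ℂ) (μ := volume)
    (F := fun w z => (w - z)⁻¹ • φ z) (F' := fun w z => (-1 / (w - z) ^ 2) • φ z)
    (bound := fun z => ((ε / 2) ^ 2)⁻¹ * ‖φ z‖) (x₀ := w₀)
    (ball_mem_nhds w₀ (half_pos hε)) (Filter.Eventually.of_forall hmeas)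
    (l2cg_integrable hm hM hs w₀) ?_ ?_ ?_ ?_).2
  · unfold retCauchy
    exact (key.differentiableAt).const_smul _
  · exact ((measurable_const.div ((measurable_const.sub measurable_id).pow_const
      2))).aestronglyMeasurable.smul hm
  · refine Filter.Eventually.of_forall fun z w hw => ?_
    by_cases hz : φ z = 0
    · rw [hz]
      simp
    · rw [norm_smul]
      refine mul_le_mul_of_nonneg_right ?_ (norm_nonneg _)
      rw [norm_div, norm_neg, norm_one, norm_pow, one_div]
      have h1 := hfar z hz w hw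
      have h2 : 0 < ε / 2 := half_pos hε
      gcongr
  · exact hφint.norm.const_mul _
  · refine Filter.Eventually.of_forall fun z w hw => ?_
    by_cases hz : φ z = 0
    · simp only [hz, smul_zero]
      exact hasDerivAt_const _ _
    · have h1 := hfar z hz w hw
      have h2 : w - z ≠ 0 := by
        intro h0
        rw [h0, norm_zero] at h1
        linarith
      have h3 : HasDerivAt (fun w : ℂ => (w - z)⁻¹) (-1 / (w - z) ^ 2) w :=
        ((hasDerivAt_id w).sub_const z).fun_inv h2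
      exact h3.smul_const (φ z)

/-- **Cauchy–Pompeiu** for compactly supported `C¹` functions.
Route: `retCT_pompeiu` applied to `t ↦ ψ (w + t)` and the substitution `z = w + t`
(`integral_add_left_eq_self`): `π⁻¹ ∫ (w - z)⁻¹ ∂̄ψ(z) = -π⁻¹ (1/2) ∫ t⁻¹ (D 1 + i D i) = ψ w`. -/
theorem l2cg_pompeiu {ψ : ℂ → G} (hc : ContDiff ℝ 1 ψ) (hs : HasCompactSupport ψ) (w : ℂ) :
    retCauchy (retDbar ψ) w = ψ w := by
  have hc' : ContDiff ℝ 1 (fun t => ψ (w + t)) := hc.comp (contDiff_const.add contDiff_id)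
  have hs' : HasCompactSupport (fun t => ψ (w + t)) := hs.comp_homeomorph (Homeomorph.addLeft w)
  have h1 := retCT_pompeiu hc' hs'
  simp only [fderiv_comp_add_left, add_zero] at h1
  unfold retCauchy
  rw [← integral_add_left_eq_self (fun z => (w - z)⁻¹ • retDbar ψ z) w]
  have e : ∀ t : ℂ, (w - (w + t))⁻¹ • retDbar ψ (w + t)
      = (-(1 / 2) : ℂ) • (t⁻¹ • (fderiv ℝ ψ (w + t) 1 + Complex.I • fderiv ℝ ψ (w + t) Complex.I)) := by
    intro t
    unfold retDbar
    rw [smul_smul, smul_smul]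
    congr 1
    rw [sub_add_cancel_left, inv_neg]
    ring
  simp_rw [e]
  rw [integral_smul, h1, smul_smul, smul_smul]
  have hpi : (Real.pi : ℂ) ≠ 0 := by exact_mod_cast Real.pi_pos.ne'
  have e2 : (Real.pi : ℂ)⁻¹ * -(1 / 2) * -((2 * Real.pi : ℝ) : ℂ) = 1 := by
    push_cast
    field_simp
  rw [e2, one_smul]

/-- additivity of the Cauchy transform on the class of `l2cg_integrable`. -/
theorem l2cg_sub {φ ψ : ℂ → G} (hm : AEStronglyMeasurable φ volume)
    (hm' : AEStronglyMeasurable ψ volume) {M R : ℝ} (hM : ∀ z, ‖φ z‖ ≤ M) (hM' : ∀ z, ‖ψ z‖ ≤ M)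
    (hs : ∀ z, R < ‖z‖ → φ z = 0) (hs' : ∀ z, R < ‖z‖ → ψ z = 0) (w : ℂ) :
    retCauchy (fun z => φ z - ψ z) w = retCauchy φ w - retCauchy ψ w := by
  unfold retCauchy
  rw [← smul_sub, ← integral_sub (l2cg_integrable hm hM hs w) (l2cg_integrable hm' hM' hs' w)]
  simp only [smul_sub]

end Claimed.Agent.R245
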