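/-
Row 245 / S0484, sec 2.2 (architect: helper98).  Package L2-SPLIT1: Lemma loc:splitting in ONE variable (no parameters).
ONE FILE = ONE PACKAGE = ONE OWNER.  Statements FROZEN; helper lemmas: prefix `l2s1_`, in this file.
Black boxes: `L2CG.lean` (Cauchy transform of bounded measurable functions), `L2Cut.lean` (`L2Cut`, `L2Cut.symm`).
-/
import Mathlib
import Claimed.Agent.R245.L2CG
import Claimed.Agent.R245.L2Cut

set_option autoImplicit false

namespace Claimed.Agent.R245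

open Set Metric Filter Topology MeasureTheory Claimed.Agent.R280

variable {G : Type*} [NormedAddCommGroup G] [NormedSpace ℂ G] [CompleteSpace G]

/-- the right hand side `u ∂̄χ` of the `∂̄`-equation, extended by `0` off the overlap -/
noncomputable def l2G (UA UB : Set ℂ) (χ : ℂ → ℝ) (u : ℂ → G) : ℂ → G :=
  (UA ∩ UB).indicator (fun ζ => retDbar (fun s => (χ s : ℂ)) ζ • u ζ)

theorem l2s1_fderiv_ofReal {χ : ℂ → ℝ} {ζ : ℂ} (h : DifferentiableAt ℝ χ ζ) (v : ℂ) :
    fderiv ℝ (fun s => (χ s : ℂ)) ζ v = ((fderiv ℝ χ ζ v : ℝ) : ℂ) := by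
  have h1 : HasFDerivAt (fun s => (χ s : ℂ)) (Complex.ofRealCLM.comp (fderiv ℝ χ ζ)) ζ :=
    Complex.ofRealCLM.hasFDerivAt.comp ζ h.hasFDerivAt
  rw [h1.fderiv]
  rfl

/-- `‖∂̄χ‖ ≤ ‖Dχ‖`. -/
theorem l2_norm_dbar_le {χ : ℂ → ℝ} {ζ : ℂ} (h : DifferentiableAt ℝ χ ζ) :
    ‖retDbar (fun s => (χ s : ℂ)) ζ‖ ≤ ‖fderiv ℝ χ ζ‖ := by
  unfold retDbar
  rw [l2s1_fderiv_ofReal h, l2s1_fderiv_ofReal h, norm_smul]
  have h1 : ‖fderiv ℝ χ ζ 1‖ ≤ ‖fderiv ℝ χ ζ‖ := by
    simpa using (fderiv ℝ χ ζ).le_opNorm 1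
  have h2 : ‖fderiv ℝ χ ζ Complex.I‖ ≤ ‖fderiv ℝ χ ζ‖ := by
    simpa using (fderiv ℝ χ ζ).le_opNorm Complex.I
  have h3 : ‖((fderiv ℝ χ ζ 1 : ℝ) : ℂ) + Complex.I • ((fderiv ℝ χ ζ Complex.I : ℝ) : ℂ)‖
      ≤ ‖fderiv ℝ χ ζ 1‖ + ‖fderiv ℝ χ ζ Complex.I‖ := by
    refine (norm_add_le _ _).trans ?_
    rw [norm_smul, Complex.norm_I, one_mul, Complex.norm_real, Complex.norm_real]
  have h4 : ‖(1 / 2 : ℂ)‖ = 1 / 2 := by norm_num
  rw [h4]
  linarith

theorem l2s1_continuous_dbar {F : ℂ → G} (h : ContDiff ℝ 1 F) : Continuous (retDbar F) := by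
  unfold retDbar
  have h1 : Continuous (fderiv ℝ F) := h.continuous_fderiv one_ne_zero
  exact ((h1.clm_apply continuous_const).add ((h1.clm_apply continuous_const).const_smul _)).const_smul _

theorem l2s1_contDiff_ofReal {χ : ℂ → ℝ} (h : ContDiff ℝ 1 χ) :
    ContDiff ℝ 1 (fun s => (χ s : ℂ)) :=
  Complex.ofRealCLM.contDiff.comp h

/-- measurability, bound and support of `l2G` (what `L2CG.lean` needs). -/
theorem l2G_props {UA UB : Set ℂ} {χ : ℂ → ℝ} {d M : ℝ} (h : L2Cut UA UB χ d M) {u : ℂ → G}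
    (hu : ContinuousOn u (UA ∩ UB)) {B : ℝ} (hB0 : 0 ≤ B) (hB : ∀ ζ ∈ UA ∩ UB, ‖u ζ‖ ≤ B) :
    AEStronglyMeasurable (l2G UA UB χ u) volume ∧ (∀ z, ‖l2G UA UB χ u z‖ ≤ M * B) ∧
      (∀ z, z ∉ UA ∩ UB → l2G UA UB χ u z = 0) ∧ ∃ R : ℝ, ∀ z, R < ‖z‖ → l2G UA UB χ u z = 0 := by
  have hop : IsOpen (UA ∩ UB) := h.openA.inter h.openB
  have h0 : ∀ z, z ∉ UA ∩ UB → l2G UA UB χ u z = 0 := fun z hz => indicator_of_notMem hz _
  refine ⟨?_, ?_, h0, ?_⟩
  · unfold l2G
    rw [aestronglyMeasurable_indicator_iff hop.measurableSet]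
    exact ((l2s1_continuous_dbar (l2s1_contDiff_ofReal h.smooth)).continuousOn.smul
      hu).aestronglyMeasurable hop.measurableSet
  · intro z
    by_cases hz : z ∈ UA ∩ UB
    · unfold l2G
      rw [indicator_of_mem hz, norm_smul]
      exact mul_le_mul ((l2_norm_dbar_le (h.smooth.differentiable one_ne_zero z)).trans
        (h.deriv_le z hz)) (hB z hz) (norm_nonneg _) h.M_nonneg
    · rw [h0 z hz, norm_zero]
      exact mul_nonneg h.M_nonneg hB0
  · by_cases hne : (UA ∩ UB).Nonempty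
    · obtain ⟨ζ₀, hζ₀⟩ := hne
      refine ⟨‖ζ₀‖ + d, fun z hz => h0 z fun hzC => ?_⟩
      have h1 := h.dist_le z (Or.inl hzC.1) ζ₀ hζ₀
      have h2 : ‖z‖ ≤ ‖ζ₀‖ + dist z ζ₀ := by
        rw [dist_eq_norm]
        have := norm_add_le ζ₀ (z - ζ₀)
        simpa using this
      linarith
    · refine ⟨0, fun z _ => h0 z fun hzC => hne ⟨z, hzC⟩⟩


/-- the local statement behind `l2_split1_A`: a function `w` which is `C¹` on a ball around `s₀` with `∂̄ w = g` there, `g`
bounded measurable with bounded support: `w - retCauchy g` is holomorphic at `s₀`. -/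
theorem l2s1_local {w g : ℂ → G} {s₀ : ℂ} {r : ℝ} (hr : 0 < r)
    (hw : ContDiffOn ℝ 1 w (ball s₀ r)) (hwg : ∀ z ∈ ball s₀ r, retDbar w z = g z)
    (hm : AEStronglyMeasurable g volume) {M R : ℝ} (hM : ∀ z, ‖g z‖ ≤ M)
    (hs : ∀ z, R < ‖z‖ → g z = 0) :
    DifferentiableAt ℂ (fun s => w s - retCauchy g s) s₀ := by
  -- the bump
  let ψ : ContDiffBump s₀ := ⟨r / 3, r / 2, by positivity, by linarith⟩
  have hψin : ψ.rIn = r / 3 := rfl
  have hψout : ψ.rOut = r / 2 := rfl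
  have hψc : ContDiff ℝ 1 (fun z => ((ψ z : ℝ) : ℂ)) := l2s1_contDiff_ofReal ψ.contDiff
  set F : ℂ → G := fun z => ((ψ z : ℝ) : ℂ) • w z with hF
  have hFout : ∀ z, z ∉ ball s₀ r → F =ᶠ[𝓝 z] 0 := by
    intro z hz
    have hz' : z ∉ tsupport (ψ : ℂ → ℝ) := by
      rw [ψ.tsupport_eq, hψout]
      intro hz2
      apply hz
      rw [mem_closedBall] at hz2
      rw [mem_ball]
      linarith
    have h1 : (ψ : ℂ → ℝ) =ᶠ[𝓝 z] 0 := notMem_tsupport_iff_eventuallyEq.1 hz'
    filter_upwards [h1] with y hy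
    simp [hF, hy]
  have hFc : ContDiff ℝ 1 F := by
    rw [contDiff_iff_contDiffAt]
    intro z
    by_cases hz : z ∈ ball s₀ r
    · exact hψc.contDiffAt.smul (hw.contDiffAt (isOpen_ball.mem_nhds hz))
    · exact (contDiffAt_const (c := (0 : G))).congr_of_eventuallyEq (hFout z hz)
  have hFs : HasCompactSupport F := by
    have h1 : HasCompactSupport (fun z => ((ψ z : ℝ) : ℂ)) :=
      ψ.hasCompactSupport.comp_left (g := fun x : ℝ => (x : ℂ)) Complex.ofReal_zero
    exact h1.smul_right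
  have hpom : ∀ z, retCauchy (retDbar F) z = F z := l2cg_pompeiu hFc hFs
  -- properties of `∂̄ F`
  have hdc : Continuous (retDbar F) := l2s1_continuous_dbar hFc
  have hd0 : ∀ z, z ∉ ball s₀ r → retDbar F z = 0 := by
    intro z hz
    rw [retDbar_congr (hFout z hz)]
    simp [retDbar]
  have hds : HasCompactSupport (retDbar F) := by
    refine HasCompactSupport.intro (isCompact_closedBall s₀ r) fun z hz => hd0 z fun hz2 => hz ?_
    exact ball_subset_closedBall hz2
  obtain ⟨M', hM'⟩ := hds.exists_bound_of_continuous hdc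
  have hds' : ∀ z, ‖s₀‖ + r < ‖z‖ → retDbar F z = 0 := by
    intro z hz
    refine hd0 z fun hz2 => ?_
    rw [mem_ball, dist_eq_norm] at hz2
    have := norm_add_le s₀ (z - s₀)
    rw [add_sub_cancel] at this
    linarith
  -- common constants
  set M₀ := max M M' with hM₀
  set R₀ := max R (‖s₀‖ + r) with hR₀
  have a1 : ∀ z, ‖retDbar F z‖ ≤ M₀ := fun z => (hM' z).trans (le_max_right _ _)
  have a2 : ∀ z, ‖g z‖ ≤ M₀ := fun z => (hM z).trans (le_max_left _ _)
  have a3 : ∀ z, R₀ < ‖z‖ → retDbar F z = 0 := fun z hz => hds' z ((le_max_right _ _).trans_lt hz)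
  have a4 : ∀ z, R₀ < ‖z‖ → g z = 0 := fun z hz => hs z ((le_max_left _ _).trans_lt hz)
  have hsub : ∀ z, retCauchy (fun y => retDbar F y - g y) z = F z - retCauchy g z := by
    intro z
    rw [l2cg_sub hdc.aestronglyMeasurable hm a1 a2 a3 a4 z, hpom]
  have hFw : ∀ z ∈ ball s₀ (r / 3), F =ᶠ[𝓝 z] w := by
    intro z hz
    filter_upwards [isOpen_ball.mem_nhds hz] with y hy
    have : ψ y = 1 := ψ.one_of_mem_closedBall (by rw [hψin]; exact ball_subset_closedBall hy)
    simp [hF, this]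
  have hvan : ∀ z ∈ ball s₀ (r / 3), retDbar F z - g z = 0 := by
    intro z hz
    rw [retDbar_congr (hFw z hz), hwg z (ball_subset_ball (by linarith) hz), sub_self]
  have hdiff : DifferentiableAt ℂ (retCauchy (fun y => retDbar F y - g y)) s₀ := by
    refine l2cg_differentiableAt (M := M₀ + M₀) (R := R₀) (hdc.aestronglyMeasurable.sub hm) ?_ ?_
      (by positivity : 0 < r / 3) hvan
    · intro z
      exact (norm_sub_le _ _).trans (add_le_add (a1 z) (a2 z))
    · intro z hz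
      show retDbar F z - g z = 0
      rw [a3 z hz, a4 z hz, sub_self]
  refine hdiff.congr_of_eventuallyEq ?_
  filter_upwards [isOpen_ball.mem_nhds (mem_ball_self (by positivity : 0 < r / 3))] with z hz
  rw [hsub z, (hFw z hz).eq_of_nhds]


/-- **One-variable splitting, `A` side**: `χ u 1_C - CG(u ∂̄χ 1_C)` is holomorphic on `UA`.
Route.  Put `w = 1_C χ u`, `g = l2G …`.  Fix `s₀ ∈ UA` and an open ball `N ∋ s₀`, `N ⊆ UA`, such that either `N ⊆ UA ∩ UB`
(if `s₀ ∈ UB`) or `χ = 0` on `N` (if `s₀ ∉ UB`, by `zeroA`).  In both cases `w` is `C¹` (real) on `N` and `retDbar w = g` on `N`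
(Leibniz `retDbar_smul`, `retDbar_eq_zero_of_differentiableAt`; in the second case `w = 0 = g` on `N`).  Take a smooth bump
`ψ` (`ContDiffBump`), `ψ = 1` on a smaller ball `N'`, `tsupport ψ ⊆ N`.  `ψ w` is `C¹` with compact support, so
`ψ w = retCauchy (retDbar (ψ w))` (`l2cg_pompeiu`).  Hence on `N'`:  `w - retCauchy g = retCauchy (retDbar (ψ w) - g)`
(`l2cg_sub`) and `retDbar (ψ w) - g` is bounded, measurable, boundedly supported and vanishes on `N'`:
`l2cg_differentiableAt`. -/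
theorem l2_split1_A {UA UB : Set ℂ} {χ : ℂ → ℝ} {d M : ℝ} (h : L2Cut UA UB χ d M) {u : ℂ → G}
    (hu : DifferentiableOn ℂ u (UA ∩ UB)) {B : ℝ} (hB : ∀ ζ ∈ UA ∩ UB, ‖u ζ‖ ≤ B) :
    DifferentiableOn ℂ (fun s => (UA ∩ UB).indicator (fun s => (χ s : ℂ) • u s) s
      - retCauchy (l2G UA UB χ u) s) UA := by
  have hop : IsOpen (UA ∩ UB) := h.openA.inter h.openB
  obtain ⟨hm, hM, -, R, hR⟩ := l2G_props h hu.continuousOn (le_max_right B 0)
    (fun ζ hζ => (hB ζ hζ).trans (le_max_left B 0))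
  have hχc : ContDiff ℝ 1 (fun s => (χ s : ℂ)) := l2s1_contDiff_ofReal h.smooth
  intro s₀ hs₀
  refine DifferentiableAt.differentiableWithinAt ?_
  by_cases hsB : s₀ ∈ UB
  · -- `s₀` in the overlap
    obtain ⟨r, hr, hball⟩ := Metric.isOpen_iff.1 hop s₀ ⟨hs₀, hsB⟩
    have huc : ContDiffOn ℝ 1 u (UA ∩ UB) := (hu.contDiffOn (n := 1) hop).restrict_scalars ℝ
    have hev : ∀ z ∈ UA ∩ UB, (UA ∩ UB).indicator (fun s => (χ s : ℂ) • u s) =ᶠ[𝓝 z]
        fun s => (χ s : ℂ) • u s := by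
      intro z hz
      filter_upwards [hop.mem_nhds hz] with y hy
      rw [indicator_of_mem hy]
    refine l2s1_local hr ?_ ?_ hm hM hR
    · intro z hz
      refine ContDiffAt.contDiffWithinAt ?_
      refine ContDiffAt.congr_of_eventuallyEq ?_ (hev z (hball hz))
      exact hχc.contDiffAt.smul (huc.contDiffAt (hop.mem_nhds (hball hz)))
    · intro z hz
      have hzC := hball hz
      rw [retDbar_congr (hev z hzC), retDbar_smul (hχc.differentiable one_ne_zero z)
        ((huc.contDiffAt (hop.mem_nhds hzC)).differentiableAt one_ne_zero),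
        retDbar_eq_zero_of_differentiableAt (hu.differentiableAt (hop.mem_nhds hzC)), smul_zero,
        add_zero]
      unfold l2G
      rw [indicator_of_mem hzC]
  · -- `χ = 0` near `s₀`
    obtain ⟨r, hr, hball⟩ := Metric.eventually_nhds_iff_ball.1 (h.zeroA s₀ ⟨hs₀, hsB⟩)
    have hev : ∀ z ∈ ball s₀ r, (UA ∩ UB).indicator (fun s => (χ s : ℂ) • u s) =ᶠ[𝓝 z] 0 := by
      intro z hz
      filter_upwards [isOpen_ball.mem_nhds hz] with y hy
      by_cases hyC : y ∈ UA ∩ UB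
      · rw [indicator_of_mem hyC, hball y hy]
        simp
      · rw [indicator_of_notMem hyC]
        rfl
    refine l2s1_local hr ?_ ?_ hm hM hR
    · intro z hz
      refine ContDiffAt.contDiffWithinAt ?_
      exact (contDiffAt_const (c := (0 : G))).congr_of_eventuallyEq (hev z hz)
    · intro z hz
      have h1 : retDbar (fun s => (χ s : ℂ)) z = 0 := by
        have : (fun s => (χ s : ℂ)) =ᶠ[𝓝 z] 0 := by
          filter_upwards [isOpen_ball.mem_nhds hz] with y hy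
          rw [hball y hy]
          simp
        rw [retDbar_congr this]
        simp [retDbar]
      have h2 : l2G UA UB χ u z = 0 := by
        unfold l2G
        by_cases hzC : z ∈ UA ∩ UB
        · rw [indicator_of_mem hzC, h1, zero_smul]
        · rw [indicator_of_notMem hzC]
      rw [retDbar_congr (hev z hz), h2]
      simp [retDbar]

/-- **One-variable splitting, `B` side.**  From `l2_split1_A` for `h.symm` and `-u`
(`l2G UB UA (1 - χ) (-u) = l2G UA UB χ u`). -/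
theorem l2_split1_B {UA UB : Set ℂ} {χ : ℂ → ℝ} {d M : ℝ} (h : L2Cut UA UB χ d M) {u : ℂ → G}
    (hu : DifferentiableOn ℂ u (UA ∩ UB)) {B : ℝ} (hB : ∀ ζ ∈ UA ∩ UB, ‖u ζ‖ ≤ B) :
    DifferentiableOn ℂ (fun s => (UA ∩ UB).indicator (fun s => ((χ s : ℂ) - 1) • u s) s
      - retCauchy (l2G UA UB χ u) s) UB := by
  have hcomm : UB ∩ UA = UA ∩ UB := inter_comm _ _
  have hA := l2_split1_A h.symm (u := fun s => - u s) (B := B) (by rw [hcomm]; exact hu.neg)
    (by rw [hcomm]; intro ζ hζ; rw [norm_neg]; exact hB ζ hζ)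
  have hχd : ∀ z, DifferentiableAt ℝ (fun s => (χ s : ℂ)) z :=
    (l2s1_contDiff_ofReal h.smooth).differentiable one_ne_zero
  have e1 : l2G UB UA (fun s => 1 - χ s) (fun s => - u s) = l2G UA UB χ u := by
    unfold l2G
    rw [hcomm]
    congr 1
    funext ζ
    have : retDbar (fun s => ((1 - χ s : ℝ) : ℂ)) ζ = - retDbar (fun s => (χ s : ℂ)) ζ := by
      have e : (fun s => ((1 - χ s : ℝ) : ℂ)) = fun s => (fun _ => (1 : ℂ)) s - (fun s => (χ s : ℂ)) s := by
        funext s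
        push_cast
        rfl
      rw [e, retDbar_sub (differentiableAt_const _) (hχd ζ)]
      simp [retDbar]
    rw [this, neg_smul, smul_neg, neg_neg]
  have e2 : (UB ∩ UA).indicator (fun s => ((1 - χ s : ℝ) : ℂ) • (- u s))
      = (UA ∩ UB).indicator (fun s => ((χ s : ℂ) - 1) • u s) := by
    rw [hcomm]
    congr 1
    funext s
    push_cast
    rw [smul_neg, ← neg_smul, neg_sub]
  rw [e1, e2] at hA
  exact hA

end Claimed.Agent.R245
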