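/-
Row 245 / S0484, sec 2.2 (architect: helper98).  Package L2-SPLIT: Lemma loc:splitting (planar Cauchy-Green splitting with
passive holomorphic parameters, no loss of domain, constant independent of the parameter space).
ONE FILE = ONE PACKAGE = ONE OWNER.  Statement FROZEN; helper lemmas: prefix `l2sp_`, in this file.
Black boxes: `L2Split1.lean`, `L2CG.lean`, `SCV.lean` (`scv_osgood_bdd`, `scv_integral`).
-/
import Mathlib
import Claimed.Agent.R245.SCV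
import Claimed.Agent.R245.L2Split1

set_option autoImplicit false

namespace Claimed.Agent.R245

open Set Metric Filter Topology MeasureTheory Claimed.Agent.R280

variable {G : Type*} [NormedAddCommGroup G] [NormedSpace ℂ G] [CompleteSpace G]
  {T : Type*} [NormedAddCommGroup T] [NormedSpace ℂ T] [FiniteDimensional ℂ T]

section aux

variable {UA UB : Set ℂ} {χ : ℂ → ℝ} {d M : ℝ} {W : Set T} {u : ℂ × T → G} {B : ℝ}

omit [CompleteSpace G] [FiniteDimensional ℂ T] in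
theorem l2sp_at (h : L2Cut UA UB χ d M) (hW : IsOpen W)
    (hu : DifferentiableOn ℂ u ((UA ∩ UB) ×ˢ W)) {s : ℂ} (hs : s ∈ UA ∩ UB) {t : T} (ht : t ∈ W) :
    DifferentiableAt ℂ u (s, t) :=
  (hu (s, t) ⟨hs, ht⟩).differentiableAt
    (((h.openA.inter h.openB).prod hW).mem_nhds ⟨hs, ht⟩)

omit [CompleteSpace G] [FiniteDimensional ℂ T] in
theorem l2sp_diff_s (h : L2Cut UA UB χ d M) (hW : IsOpen W)
    (hu : DifferentiableOn ℂ u ((UA ∩ UB) ×ˢ W)) {t : T} (ht : t ∈ W) :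
    DifferentiableOn ℂ (fun ζ => u (ζ, t)) (UA ∩ UB) := fun s hs =>
  ((l2sp_at h hW hu hs ht).comp s (by fun_prop : DifferentiableAt ℂ (fun ζ : ℂ => (ζ, t)) s)).differentiableWithinAt

/-- bound of the Cauchy-Green term -/
theorem l2sp_cg_bound (h : L2Cut UA UB χ d M) (hW : IsOpen W)
    (hu : DifferentiableOn ℂ u ((UA ∩ UB) ×ˢ W)) (hB0 : 0 ≤ B)
    (hB : ∀ z ∈ (UA ∩ UB) ×ˢ W, ‖u z‖ ≤ B) {s : ℂ} (hs : s ∈ UA ∪ UB) {t : T} (ht : t ∈ W) :
    ‖retCauchy (l2G UA UB χ (fun ζ => u (ζ, t))) s‖ ≤ 2 * d * (M * B) := by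
  obtain ⟨-, hb, hz, -⟩ := l2G_props h (l2sp_diff_s h hW hu ht).continuousOn hB0
    (fun ζ hζ => hB (ζ, t) ⟨hζ, ht⟩)
  refine l2cg_bound h.d_nonneg hb s fun z hzd => hz z fun hzC => ?_
  have := h.dist_le s hs z hzC
  rw [dist_eq_norm] at this
  linarith

/-- the Cauchy-Green term is holomorphic in the passive parameter -/
theorem l2sp_cg_diff_t (h : L2Cut UA UB χ d M) (hW : IsOpen W)
    (hu : DifferentiableOn ℂ u ((UA ∩ UB) ×ˢ W))
    (hB : ∀ z ∈ (UA ∩ UB) ×ˢ W, ‖u z‖ ≤ B) (s : ℂ) :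
    DifferentiableOn ℂ (fun t => retCauchy (l2G UA UB χ (fun ζ => u (ζ, t))) s) W := by
  have hCo : IsOpen (UA ∩ UB) := h.openA.inter h.openB
  obtain ⟨hm, hb, -, R, hR⟩ := l2G_props (G := ℂ) h (u := fun _ => (1 : ℂ)) continuousOn_const
    zero_le_one (fun ζ _ => by simp)
  have hint := l2cg_integrable hm hb hR s
  have hk : IntegrableOn (fun ζ => (s - ζ)⁻¹ * retDbar (fun s => (χ s : ℂ)) ζ) (UA ∩ UB) := by
    rw [← integrable_indicator_iff hCo.measurableSet]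
    refine hint.congr (Filter.Eventually.of_forall fun ζ => ?_)
    by_cases hζ : ζ ∈ UA ∩ UB
    · simp [l2G, indicator_of_mem hζ]
    · simp [l2G, indicator_of_notMem hζ]
  have key := scv_integral (μ := volume) hCo hW hu hB hk
  have e : ∀ t, retCauchy (l2G UA UB χ (fun ζ => u (ζ, t))) s
      = ((Real.pi : ℂ)⁻¹) • ∫ ζ in UA ∩ UB,
          ((s - ζ)⁻¹ * retDbar (fun s => (χ s : ℂ)) ζ) • u (ζ, t) := by
    intro t
    unfold retCauchy
    rw [← integral_indicator hCo.measurableSet]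
    congr 1
    refine integral_congr_ae (Filter.Eventually.of_forall fun ζ => ?_)
    by_cases hζ : ζ ∈ UA ∩ UB
    · simp [l2G, indicator_of_mem hζ, smul_smul]
    · simp [l2G, indicator_of_notMem hζ]
  simp_rw [e]
  exact key.const_smul _

/-- one side of the splitting -/
theorem l2sp_half (h : L2Cut UA UB χ d M) (hW : IsOpen W)
    (hu : DifferentiableOn ℂ u ((UA ∩ UB) ×ˢ W)) (hB0 : 0 ≤ B)
    (hB : ∀ z ∈ (UA ∩ UB) ×ˢ W, ‖u z‖ ≤ B) {U' : Set ℂ} (hU' : IsOpen U') (hsub : U' ⊆ UA ∪ UB)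
    {c : ℂ → ℂ} (hc : ∀ s, ‖c s‖ ≤ 1)
    (h1 : ∀ t ∈ W, DifferentiableOn ℂ (fun s => (UA ∩ UB).indicator (fun s => c s • u (s, t)) s
      - retCauchy (l2G UA UB χ (fun ζ => u (ζ, t))) s) U') :
    DifferentiableOn ℂ (fun z : ℂ × T => (UA ∩ UB).indicator (fun s => c s • u (s, z.2)) z.1
      - retCauchy (l2G UA UB χ (fun ζ => u (ζ, z.2))) z.1) (U' ×ˢ W) ∧
    ∀ z ∈ U' ×ˢ W, ‖(UA ∩ UB).indicator (fun s => c s • u (s, z.2)) z.1
      - retCauchy (l2G UA UB χ (fun ζ => u (ζ, z.2))) z.1‖ ≤ (1 + 2 * d * M) * B := by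
  have hbd : ∀ z ∈ U' ×ˢ W, ‖(UA ∩ UB).indicator (fun s => c s • u (s, z.2)) z.1
      - retCauchy (l2G UA UB χ (fun ζ => u (ζ, z.2))) z.1‖ ≤ (1 + 2 * d * M) * B := by
    intro z hz
    have h2 := l2sp_cg_bound h hW hu hB0 hB (hsub hz.1) hz.2
    have h3 : ‖(UA ∩ UB).indicator (fun s => c s • u (s, z.2)) z.1‖ ≤ B := by
      by_cases hzC : z.1 ∈ UA ∩ UB
      · rw [indicator_of_mem hzC, norm_smul]
        calc ‖c z.1‖ * ‖u (z.1, z.2)‖ ≤ 1 * B := by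
              gcongr
              · exact hc _
              · exact hB _ ⟨hzC, hz.2⟩
          _ = B := one_mul B
      · rw [indicator_of_notMem hzC, norm_zero]
        exact hB0
    calc _ ≤ ‖(UA ∩ UB).indicator (fun s => c s • u (s, z.2)) z.1‖
          + ‖retCauchy (l2G UA UB χ (fun ζ => u (ζ, z.2))) z.1‖ := norm_sub_le _ _
      _ ≤ B + 2 * d * (M * B) := add_le_add h3 h2
      _ = (1 + 2 * d * M) * B := by ring
  refine ⟨?_, hbd⟩
  refine (scv_osgood_bdd (hU'.prod hW) hbd ?_ ?_).differentiableOn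
  · intro z hz
    exact (h1 z.2 hz.2 z.1 hz.1).differentiableAt (hU'.mem_nhds hz.1)
  · intro z hz
    refine DifferentiableAt.sub ?_
      ((l2sp_cg_diff_t h hW hu hB z.1 z.2 hz.2).differentiableAt (hW.mem_nhds hz.2))
    by_cases hzC : z.1 ∈ UA ∩ UB
    · simp only [indicator_of_mem hzC]
      exact ((l2sp_at h hW hu hzC hz.2).comp z.2
        (by fun_prop : DifferentiableAt ℂ (fun y : T => (z.1, y)) z.2)).const_smul (c z.1)
    · simp only [indicator_of_notMem hzC]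
      exact differentiableAt_const _

end aux

/-- **Lemma loc:splitting.**
Route: `a (s,t) = 1_C(s) χ(s) u(s,t) - retCauchy (l2G UA UB χ (u(·,t))) s`, `b` the same with `χ - 1`.
* `a - b = u` on `C × W`: clear.
* bounds: `‖χ u‖ ≤ B`, `‖(χ-1) u‖ ≤ B`, `‖retCauchy …‖ ≤ 2 d (M B)` (`l2cg_bound`, `l2G_props`, `dist_le`).
* holomorphy: `scv_osgood_bdd` on the open set `UA ×ˢ W`: in `s` for fixed `t` by `l2_split1_A`; in `t` for fixed `s`:
  the first term is `0` or `χ(s) u(s,·)`; the second is `π⁻¹ ∫_C k(ζ) u(ζ,t)`, `k ζ = (s - ζ)⁻¹ ∂̄χ(ζ)`, integrable on `C`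
  (`l2cg_integrable` for the scalar function `1_C ∂̄χ`): `scv_integral`. -/
theorem l2_split {UA UB : Set ℂ} {χ : ℂ → ℝ} {d M : ℝ} (h : L2Cut UA UB χ d M) {W : Set T}
    (hW : IsOpen W) {u : ℂ × T → G} (hu : DifferentiableOn ℂ u ((UA ∩ UB) ×ˢ W)) {B : ℝ}
    (hB0 : 0 ≤ B) (hB : ∀ z ∈ (UA ∩ UB) ×ˢ W, ‖u z‖ ≤ B) :
    ∃ a b : ℂ × T → G, DifferentiableOn ℂ a (UA ×ˢ W) ∧ DifferentiableOn ℂ b (UB ×ˢ W) ∧
      (∀ z ∈ UA ×ˢ W, ‖a z‖ ≤ (1 + 2 * d * M) * B) ∧ (∀ z ∈ UB ×ˢ W, ‖b z‖ ≤ (1 + 2 * d * M) * B) ∧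
      ∀ z ∈ (UA ∩ UB) ×ˢ W, a z - b z = u z := by
  have hcA : ∀ s, ‖((χ s : ℝ) : ℂ)‖ ≤ 1 := fun s => by
    rw [Complex.norm_real, Real.norm_of_nonneg (h.nonneg s)]
    exact h.le_one s
  have hcB : ∀ s, ‖((χ s : ℝ) : ℂ) - 1‖ ≤ 1 := fun s => by
    have e : ((χ s : ℝ) : ℂ) - 1 = ((χ s - 1 : ℝ) : ℂ) := by push_cast; ring
    rw [e, Complex.norm_real, Real.norm_eq_abs, abs_le]
    constructor <;> linarith [h.nonneg s, h.le_one s]
  obtain ⟨hA1, hA2⟩ := l2sp_half h hW hu hB0 hB h.openA subset_union_left hcA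
    (fun t ht => l2_split1_A h (l2sp_diff_s h hW hu ht) (fun ζ hζ => hB (ζ, t) ⟨hζ, ht⟩))
  obtain ⟨hB1, hB2⟩ := l2sp_half h hW hu hB0 hB h.openB subset_union_right hcB
    (fun t ht => l2_split1_B h (l2sp_diff_s h hW hu ht) (fun ζ hζ => hB (ζ, t) ⟨hζ, ht⟩))
  refine ⟨_, _, hA1, hB1, hA2, hB2, fun z hz => ?_⟩
  simp only [indicator_of_mem hz.1]
  rw [sub_sub_sub_cancel_right, ← sub_smul, sub_sub_cancel, one_smul]

end Claimed.Agent.R245
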