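/-
Row 245 / S0484.  Tool RUNGE (parametric Runge theorem in one planar variable), architect: helper187.
Definitions.
-/
import Mathlib

set_option autoImplicit false

namespace Claimed.Agent.R245

open Set Metric Topology

/-- `φ` is a uniform limit on `K ×ˢ Pc` of functions holomorphic on `univ ×ˢ Wp`
(`K ⊆ ℂ` the planar compact set, `Pc ⊆ Wp` the compact set of passive parameters). -/
def RgAppr {T : Type*} [NormedAddCommGroup T] [NormedSpace ℂ T] (K : Set ℂ) (Pc Wp : Set T)
    (φ : ℂ × T → ℂ) : Prop :=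
  ∀ η : ℝ, 0 < η → ∃ h : ℂ × T → ℂ, DifferentiableOn ℂ h (univ ×ˢ Wp) ∧
    ∀ x ∈ K ×ˢ Pc, ‖h x - φ x‖ < η

end Claimed.Agent.R245
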