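/-
Row 245 / S0484.  Tool RUNGE, architect: helper187.   Package RG-INT: integrals of approximable functions.
ONE FILE = ONE PACKAGE = ONE OWNER.  Do not change the statement; helper lemmas: prefix `rgi_`, keep them in this file.
-/
import Mathlib
import Claimed.Agent.R245.RungeDefs

set_option autoImplicit false

namespace Claimed.Agent.R245

open Set Metric Topology MeasureTheory

/-- the set of approximable continuous functions on the compact `K ×ˢ Pc`. -/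
def rgi_A {T : Type*} [NormedAddCommGroup T] [NormedSpace ℂ T] (K : Set ℂ) (Pc Wp : Set T) :
    Set C(↥(K ×ˢ Pc), ℂ) :=
  {φ | ∀ η : ℝ, 0 < η → ∃ h : ℂ × T → ℂ, DifferentiableOn ℂ h (univ ×ˢ Wp) ∧
    ∀ x : ↥(K ×ˢ Pc), ‖h x.1 - φ x‖ < η}

theorem rgi_A_smul {T : Type*} [NormedAddCommGroup T] [NormedSpace ℂ T] {K : Set ℂ} {Pc Wp : Set T}
    (c : ℝ) {φ : C(↥(K ×ˢ Pc), ℂ)} (hφ : φ ∈ rgi_A K Pc Wp) : c • φ ∈ rgi_A K Pc Wp := by
  intro η hη
  have hc : 0 < |c| + 1 := by positivity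
  obtain ⟨h, hd, hh⟩ := hφ (η / (|c| + 1)) (by positivity)
  refine ⟨fun x => (c : ℂ) * h x, hd.const_mul _, fun x => ?_⟩
  have h1 : (c : ℂ) * h x.1 - (c • φ) x = (c : ℂ) * (h x.1 - φ x) := by
    simp [mul_sub]
  rw [h1, norm_mul, Complex.norm_real, Real.norm_eq_abs]
  calc |c| * ‖h x.1 - φ x‖ ≤ |c| * (η / (|c| + 1)) :=
        mul_le_mul_of_nonneg_left (hh x).le (abs_nonneg c)
    _ < (|c| + 1) * (η / (|c| + 1)) := by
        apply mul_lt_mul_of_pos_right (by linarith) (by positivity)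
    _ = η := by field_simp

theorem rgi_A_convex {T : Type*} [NormedAddCommGroup T] [NormedSpace ℂ T] (K : Set ℂ) (Pc Wp : Set T) :
    Convex ℝ (rgi_A K Pc Wp) := by
  intro φ hφ ψ hψ a b ha hb hab η hη
  obtain ⟨h₁, hd₁, hh₁⟩ := hφ η hη
  obtain ⟨h₂, hd₂, hh₂⟩ := hψ η hη
  refine ⟨fun x => (a : ℂ) * h₁ x + (b : ℂ) * h₂ x, (hd₁.const_mul _).add (hd₂.const_mul _),
    fun x => ?_⟩
  have h1 : (a : ℂ) * h₁ x.1 + (b : ℂ) * h₂ x.1 - (a • φ + b • ψ) x
      = (a : ℂ) * (h₁ x.1 - φ x) + (b : ℂ) * (h₂ x.1 - ψ x) := by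
    simp [mul_sub]; ring
  rw [h1]
  have h2 : ‖(a : ℂ) * (h₁ x.1 - φ x) + (b : ℂ) * (h₂ x.1 - ψ x)‖
      ≤ a * ‖h₁ x.1 - φ x‖ + b * ‖h₂ x.1 - ψ x‖ := by
    refine (norm_add_le _ _).trans ?_
    rw [norm_mul, norm_mul, Complex.norm_real, Complex.norm_real, Real.norm_eq_abs,
      Real.norm_eq_abs, abs_of_nonneg ha, abs_of_nonneg hb]
  refine lt_of_le_of_lt h2 ?_
  rcases ha.eq_or_lt with rfl | ha'
  · have hb1 : b = 1 := by linarith
    subst hb1
    simpa using hh₂ x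
  · have h3 : a * ‖h₁ x.1 - φ x‖ < a * η := mul_lt_mul_of_pos_left (hh₁ x) ha'
    have h4 : b * ‖h₂ x.1 - ψ x‖ ≤ b * η := mul_le_mul_of_nonneg_left (hh₂ x).le hb
    have h5 : a * η + b * η = η := by rw [← add_mul, hab, one_mul]
    linarith

theorem rgi_A_closed {T : Type*} [NormedAddCommGroup T] [NormedSpace ℂ T] {K : Set ℂ} {Pc : Set T}
    [CompactSpace ↥(K ×ˢ Pc)] (Wp : Set T) :
    IsClosed (rgi_A K Pc Wp) := by
  refine isClosed_of_closure_subset fun φ hφ η hη => ?_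
  obtain ⟨ψ, hψ, hd⟩ := Metric.mem_closure_iff.1 hφ (η / 2) (by positivity)
  obtain ⟨h, hh, hx⟩ := hψ (η / 2) (by positivity)
  refine ⟨h, hh, fun x => ?_⟩
  have h1 : ‖ψ x - φ x‖ ≤ dist φ ψ := by
    rw [← dist_eq_norm, dist_comm]
    exact ContinuousMap.dist_apply_le_dist x
  have h2 : h x.1 - φ x = (h x.1 - ψ x) + (ψ x - φ x) := by ring
  rw [h2]
  refine lt_of_le_of_lt (norm_add_le _ _) ?_
  have := hx x
  linarith

/-- **An integral of a continuous family of approximable functions is approximable.**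
Route A (Banach space): `X' := ↥(K ×ˢ Pc)` is a compact space; in `C(X', ℂ)` the set
`A := {φ | ∀ η > 0, ∃ h, DifferentiableOn ℂ h (univ ×ˢ Wp) ∧ ∀ x, ‖h x - φ x‖ < η}` is closed and convex (it is a closed
submodule).  `kk : ℂ → C(X', ℂ)`, `kk ζ = ⟨fun x => k ζ x, _⟩` for `ζ ∈ S`, `0` otherwise, is `ContinuousOn S`
(`continuousOn_iff_continuous_restrict`, `ContinuousMap.continuous_of_continuous_uncurry`), hence `IntegrableOn` the compact
`S` (`ContinuousOn.integrableOn_compact`).  If `volume S = 0` the integral is `0` (take `h = 0`).  Otherwise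
`Convex.set_average_mem` gives `⨍ ζ in S, kk ζ ∈ A`, and `∫ = (volume S).toReal • ⨍` (`MeasureTheory.setAverage_eq`), `A` is
stable under scalars.  Evaluation commutes with the integral: `ContinuousLinearMap.integral_comp_comm`
with `ContinuousMap.evalCLM ℂ x`.
Route B (by hand): uniform continuity of `k` on the compact `S ×ˢ (K ×ˢ Pc)`, a finite measurable partition of `S` into
pieces of small diameter, `∫_S k = ∑_j ∫_{S_j} k ≈ ∑_j vol(S_j) k ζ_j`. -/
theorem rg_integral {T : Type*} [NormedAddCommGroup T] [NormedSpace ℂ T] {K : Set ℂ} {Pc Wp : Set T}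
    (hK : IsCompact K) (hPc : IsCompact Pc) {S : Set ℂ} (hS : IsCompact S) {k : ℂ → ℂ × T → ℂ}
    (hk : ContinuousOn (fun p : ℂ × (ℂ × T) => k p.1 p.2) (S ×ˢ (K ×ˢ Pc)))
    (hA : ∀ ζ ∈ S, RgAppr K Pc Wp (k ζ)) :
    RgAppr K Pc Wp (fun x => ∫ ζ in S, k ζ x) := by
  classical
  have : CompactSpace ↥(K ×ˢ Pc) := isCompact_iff_compactSpace.1 (hK.prod hPc)
  -- the continuous map on `S × X'`
  have hc : Continuous (fun p : ↥S × ↥(K ×ˢ Pc) => k p.1.1 p.2.1) := by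
    have h1 : Continuous (fun p : ↥S × ↥(K ×ˢ Pc) => ((p.1.1, p.2.1) : ℂ × (ℂ × T))) := by fun_prop
    exact hk.comp_continuous h1 (fun p => ⟨p.1.2, p.2.2⟩)
  let kS : C(↥S, C(↥(K ×ˢ Pc), ℂ)) := ContinuousMap.curry ⟨_, hc⟩
  let kk : ℂ → C(↥(K ×ˢ Pc), ℂ) := fun ζ => if h : ζ ∈ S then kS ⟨ζ, h⟩ else 0
  have hkk : ∀ ζ (h : ζ ∈ S) (x : ↥(K ×ˢ Pc)), kk ζ x = k ζ x.1 := by
    intro ζ h x
    simp only [kk, dif_pos h]
    rfl
  have hcont : ContinuousOn kk S := by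
    rw [continuousOn_iff_continuous_domRestrict]
    have : S.domRestrict kk = kS := by
      funext ζ
      show kk ζ.1 = kS ζ
      simp only [kk, dif_pos ζ.2]
    rw [this]
    exact kS.continuous
  have hint : IntegrableOn kk S volume := hcont.integrableOn_compact hS
  have hmem : ∀ ζ ∈ S, kk ζ ∈ rgi_A K Pc Wp := by
    intro ζ hζ η hη
    obtain ⟨h, hd, hh⟩ := hA ζ hζ η hη
    exact ⟨h, hd, fun x => by rw [hkk ζ hζ]; exact hh x.1 x.2⟩
  have hI : (∫ ζ in S, kk ζ) ∈ rgi_A K Pc Wp := by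
    by_cases h0 : volume S = 0
    · rw [Measure.restrict_eq_zero.2 h0, integral_zero_measure]
      intro η hη
      exact ⟨fun _ => 0, differentiableOn_const _, fun x => by simpa using hη⟩
    · have h1 := (rgi_A_convex K Pc Wp).set_average_mem (rgi_A_closed Wp) h0 hS.measure_ne_top
        ((ae_restrict_iff' hS.measurableSet).2 (Filter.Eventually.of_forall hmem)) hint
      have h2 : (∫ ζ in S, kk ζ) = (volume.real S) • ⨍ ζ in S, kk ζ := by
        rw [setAverage_eq, smul_smul, mul_inv_cancel₀, one_smul]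
        exact (ENNReal.toReal_ne_zero).2 ⟨h0, hS.measure_ne_top⟩
      rw [h2]
      exact rgi_A_smul _ h1
  intro η hη
  obtain ⟨h, hd, hh⟩ := hI η hη
  refine ⟨h, hd, fun x hx => ?_⟩
  have h1 := hh ⟨x, hx⟩
  rw [ContinuousMap.integral_apply hint] at h1
  have h2 : ∫ ζ in S, kk ζ ⟨x, hx⟩ = ∫ ζ in S, k ζ x :=
    setIntegral_congr_fun hS.measurableSet fun ζ hζ => hkk ζ hζ ⟨x, hx⟩
  rw [h2] at h1
  exact h1

end Claimed.Agent.R245
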