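/-
Row 245 / S0484.  Tool RUNGE, architect: helper187.   Package RG-POLE: pole pushing.
ONE FILE = ONE PACKAGE = ONE OWNER.  Do not change the statement; helper lemmas: prefix `rgp_`, keep them in this file.
-/
import Mathlib

set_option autoImplicit false

namespace Claimed.Agent.R245

open Set Metric Topology

/-- The coordinate function on `K`. -/
noncomputable def rgp_X (K : Set ℂ) : C(K, ℂ) := ⟨Subtype.val, continuous_subtype_val⟩

/-- The closed algebra of uniform limits of polynomials. -/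
noncomputable def rgp_A (K : Set ℂ) [CompactSpace K] : Subalgebra ℂ C(K, ℂ) := (polynomialFunctions K).topologicalClosure

/-- The set of poles whose resolvent is a uniform limit of polynomials. -/
def rgp_S (K : Set ℂ) [CompactSpace K] : Set ℂ :=
  {ζ | ∃ g ∈ rgp_A K, g * (rgp_X K - algebraMap ℂ C(K, ℂ) ζ) = 1}

theorem rgp_X_mem (K : Set ℂ) [CompactSpace K] : rgp_X K ∈ rgp_A K := by
  apply Subalgebra.le_topologicalClosure
  refine ⟨Polynomial.X, trivial, ?_⟩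
  ext s
  simp [rgp_X]

theorem rgp_geom_mem {K : Set ℂ} [CompactSpace K] {u : C(K, ℂ)} (hu : u ∈ rgp_A K) (h1 : ‖u‖ < 1) :
    (∑' n : ℕ, u ^ n) ∈ rgp_A K := by
  have hs := summable_geometric_of_norm_lt_one h1
  have hcl : IsClosed (rgp_A K : Set C(K, ℂ)) := Subalgebra.isClosed_topologicalClosure _
  refine hcl.mem_of_tendsto hs.hasSum (Filter.Eventually.of_forall fun s => ?_)
  exact Subalgebra.sum_mem _ fun n _ => Subalgebra.pow_mem _ hu n

/-- values of an inverse -/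
theorem rgp_val {K : Set ℂ} {ζ : ℂ} {g : C(K, ℂ)}
    (hg : g * (rgp_X K - algebraMap ℂ C(K, ℂ) ζ) = 1) (s : K) : g s = ((s : ℂ) - ζ)⁻¹ := by
  have h := congrArg (fun f : C(K, ℂ) => f s) hg
  exact eq_inv_of_mul_eq_one_left (by simpa [rgp_X] using h)

theorem rgp_S_sub {K : Set ℂ} [CompactSpace K] : rgp_S K ⊆ Kᶜ := by
  rintro ζ ⟨g, -, hg⟩ hζ
  have h := congrArg (fun f : C(K, ℂ) => f ⟨ζ, hζ⟩) hg
  simp [rgp_X] at h

/-- PUSH. -/
theorem rgp_push {K : Set ℂ} [CompactSpace K] {ζ ζ' : ℂ} {g : C(K, ℂ)} (hgA : g ∈ rgp_A K)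
    (hg : g * (rgp_X K - algebraMap ℂ C(K, ℂ) ζ') = 1) (h1 : ‖ζ - ζ'‖ * ‖g‖ < 1) : ζ ∈ rgp_S K := by
  set u : C(K, ℂ) := (ζ - ζ') • g with hu
  have huA : u ∈ rgp_A K := Subalgebra.smul_mem _ hgA _
  have hun : ‖u‖ < 1 := lt_of_le_of_lt (norm_smul_le _ _) h1
  refine ⟨(∑' n : ℕ, u ^ n) * g, Subalgebra.mul_mem _ (rgp_geom_mem huA hun) hgA, ?_⟩
  have h2 : g * (rgp_X K - algebraMap ℂ C(K, ℂ) ζ) = 1 - u := by
    have : rgp_X K - algebraMap ℂ C(K, ℂ) ζ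
        = (rgp_X K - algebraMap ℂ C(K, ℂ) ζ') - algebraMap ℂ C(K, ℂ) (ζ - ζ') := by
      rw [map_sub]; ring
    rw [this, mul_sub, hg, hu, Algebra.smul_def, mul_comm g]
  rw [mul_assoc, h2, geom_series_mul_neg u hun]

theorem rgp_S_open {K : Set ℂ} [CompactSpace K] : IsOpen (rgp_S K) := by
  rw [Metric.isOpen_iff]
  rintro ζ' ⟨g, hgA, hg⟩
  refine ⟨(‖g‖ + 1)⁻¹, by positivity, fun ζ hζ => rgp_push hgA hg ?_⟩
  rw [mem_ball, dist_eq_norm] at hζ
  have hpos : 0 < ‖g‖ + 1 := by positivity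
  calc ‖ζ - ζ'‖ * ‖g‖ ≤ ‖ζ - ζ'‖ * (‖g‖ + 1) := by gcongr; linarith
    _ < (‖g‖ + 1)⁻¹ * (‖g‖ + 1) := by gcongr
    _ = 1 := inv_mul_cancel₀ hpos.ne'

theorem rgp_S_compl_open {K : Set ℂ} [CompactSpace K] (hK : IsClosed K) : IsOpen (Kᶜ \ rgp_S K) := by
  rw [Metric.isOpen_iff]
  rintro ζ ⟨hζK, hζS⟩
  obtain ⟨ε, hε, hball⟩ := Metric.isOpen_iff.mp hK.isOpen_compl ζ hζK
  refine ⟨ε / 2, by positivity, fun ζ' hζ' => ⟨hball (ball_subset_ball (by linarith) hζ'), ?_⟩⟩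
  rintro ⟨g, hgA, hg⟩
  apply hζS
  refine rgp_push hgA hg ?_
  rw [mem_ball, dist_eq_norm] at hζ'
  have hgn : ‖g‖ ≤ (ε / 2)⁻¹ := by
    rw [ContinuousMap.norm_le _ (by positivity)]
    intro s
    rw [rgp_val hg s, norm_inv]
    apply inv_anti₀ (by positivity)
    have h1 : ε ≤ ‖(s : ℂ) - ζ‖ := by
      by_contra hlt
      push Not at hlt
      exact hball (by rw [mem_ball, dist_eq_norm]; exact hlt) s.2
    have h2 : ‖(s : ℂ) - ζ‖ ≤ ‖(s : ℂ) - ζ'‖ + ‖ζ' - ζ‖ := by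
      have := norm_add_le ((s : ℂ) - ζ') (ζ' - ζ)
      simpa using this
    linarith
  have h3 : ‖ζ - ζ'‖ < ε / 2 := by rw [norm_sub_rev]; exact hζ'
  calc ‖ζ - ζ'‖ * ‖g‖ ≤ ‖ζ - ζ'‖ * (ε / 2)⁻¹ := by gcongr
    _ < (ε / 2) * (ε / 2)⁻¹ := by gcongr
    _ = 1 := mul_inv_cancel₀ (by positivity)

theorem rgp_S_nonempty {K : Set ℂ} [CompactSpace K] : (rgp_S K).Nonempty := by
  set R : ℝ := ‖rgp_X K‖ + 1 with hR
  have hRpos : 0 < R := by positivity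
  have hRne : (R : ℂ) ≠ 0 := by exact_mod_cast hRpos.ne'
  set u : C(K, ℂ) := ((R : ℂ)⁻¹) • rgp_X K with hu
  have huA : u ∈ rgp_A K := Subalgebra.smul_mem _ (rgp_X_mem K) _
  have hun : ‖u‖ < 1 := by
    refine lt_of_le_of_lt (norm_smul_le _ _) ?_
    rw [norm_inv, Complex.norm_real, Real.norm_of_nonneg hRpos.le, inv_mul_lt_iff₀ hRpos]
    linarith
  refine ⟨(R : ℂ), (-(R : ℂ)⁻¹) • (∑' n : ℕ, u ^ n), Subalgebra.smul_mem _ (rgp_geom_mem huA hun) _, ?_⟩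
  have h2 : (-(R : ℂ)⁻¹) • (rgp_X K - algebraMap ℂ C(K, ℂ) (R : ℂ)) = 1 - u := by
    rw [smul_sub, hu, Algebra.algebraMap_eq_smul_one, smul_smul, neg_mul, inv_mul_cancel₀ hRne]
    simp only [neg_smul, one_smul]
    ring
  rw [smul_mul_assoc, ← mul_smul_comm, h2, geom_series_mul_neg u hun]

/-- **Pole pushing.**  `K ⊆ ℂ` compact with (pre)connected complement, `ζ ∉ K`.  Then `s ↦ (s - ζ)⁻¹` is a uniform
limit on `K` of polynomials.
Route (Banach algebra `C(K, ℂ)`; if `K = ∅` trivial): `A := (polynomialFunctions K).topologicalClosure`, a closed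
subalgebra.  For `ζ ∉ K` let `r ζ : C(K, ℂ) := ⟨fun s => (s - ζ)⁻¹, _⟩` and `S := {ζ ∈ Kᶜ | r ζ ∈ A}`.
(1) PUSH: if `ζ' ∈ S`, `ζ ∉ K` and `‖ζ - ζ'‖ * ‖r ζ'‖ < 1` then `ζ ∈ S`:  `s - ζ = (s - ζ') (1 - (ζ - ζ') (s - ζ')⁻¹)`, so
`r ζ = r ζ' * ∑' n, ((ζ - ζ') • r ζ') ^ n` (`NormedRing.summable_geometric_of_norm_lt_one`, `geom_series_mul_neg` /
`mul_neg_geom_series`; evaluate pointwise, or use uniqueness of inverses in the ring), partial sums are in `A`, `A` closed.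
`‖r ζ'‖ ≤ (infDist ζ' K)⁻¹`.  Hence `S` and `Kᶜ \ S` are both open in `ℂ` (for the second: if `ζ ∉ S` and `ζ'` is so close
to `ζ` that `‖ζ - ζ'‖ < infDist ζ' K` (e.g. `‖ζ - ζ'‖ < infDist ζ K / 2`), then `ζ' ∈ S` would give `ζ ∈ S`).
(2) `S ≠ ∅`: for `‖ζ‖ > sup_K ‖s‖`:  `(s - ζ)⁻¹ = - ζ⁻¹ ∑ (s/ζ)^n` (same geometric series with the coordinate function,
which is in `polynomialFunctions K`).
(3) `IsPreconnected Kᶜ` (`isPreconnected_iff_subset_of_disjoint` or `IsPreconnected.subset_left_of_subset_union`)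
gives `S = Kᶜ`.  Finally unfold membership in the closure (`Metric.mem_closure_iff`, `ContinuousMap.dist_lt_iff`,
`polynomialFunctions` = range of `Polynomial.toContinuousMapOnAlgHom`). -/
theorem rg_pole {K : Set ℂ} (hK : IsCompact K) (hKc : IsPreconnected Kᶜ) {ζ : ℂ} (hζ : ζ ∉ K)
    {η : ℝ} (hη : 0 < η) : ∃ p : Polynomial ℂ, ∀ s ∈ K, ‖p.eval s - (s - ζ)⁻¹‖ < η := by
  have : CompactSpace K := isCompact_iff_compactSpace.mp hK
  have hsub : Kᶜ ⊆ rgp_S K := by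
    rcases (isPreconnected_iff_subset_of_disjoint.mp hKc) (rgp_S K) (Kᶜ \ rgp_S K) rgp_S_open
      (rgp_S_compl_open hK.isClosed) (by intro x hx; by_cases h : x ∈ rgp_S K
                                         · exact Or.inl h
                                         · exact Or.inr ⟨hx, h⟩)
      (by ext x; simp) with h | h
    · exact h
    · obtain ⟨z, hz⟩ := rgp_S_nonempty (K := K)
      exact absurd hz (h (rgp_S_sub hz)).2
  obtain ⟨g, hgA, hg⟩ := hsub hζ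
  have hcl : g ∈ closure ((polynomialFunctions K : Subalgebra ℂ C(K, ℂ)) : Set C(K, ℂ)) := hgA
  obtain ⟨q, ⟨p, -, hp⟩, hq⟩ := Metric.mem_closure_iff.mp hcl η hη
  refine ⟨p, fun s hs => ?_⟩
  rw [ContinuousMap.dist_lt_iff hη] at hq
  have := hq ⟨s, hs⟩
  rw [rgp_val hg, ← hp, dist_comm, dist_eq_norm] at this
  simpa using this

end Claimed.Agent.R245
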