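/-
Row 245 / S0484.  Tool RUNGE, architect: helper187.   Package RG-POMP: Cauchy-Pompeiu representation with a cutoff.
ONE FILE = ONE PACKAGE = ONE OWNER.  Do not change the statement; helper lemmas: prefix `rgq_`, keep them in this file.
Black box: `l2cg_pompeiu` (R245/L2CG.lean, package L2-CG of helper98): `retCauchy (retDbar ψ) w = ψ w` for `ψ ∈ C¹_c`.
-/
import Mathlib
import Claimed.Agent.R280.RET.Cauchy
import Claimed.Agent.R245.L2CG

set_option autoImplicit false

namespace Claimed.Agent.R245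

open Set Metric Topology MeasureTheory
open Claimed.Agent.R280 (retDbar retCauchy)

/-- **Representation formula.**  `u` holomorphic on the open set `N`, `χ` a `C²` cutoff with compact support in `N`,
`χ = 1` on the open set `O₁`.  Then for `w ∈ O₁`
`u w = π⁻¹ ∫_{ζ ∈ tsupport χ \ O₁} (w - ζ)⁻¹ (∂̄χ(ζ) u(ζ))`.
Route: `ψ ζ := χ ζ * u ζ` is `C¹` on `ℂ` (on `N`: product of `C¹` functions, `u` is `ContDiffOn` by
`DifferentiableOn.contDiffOn`/analyticity, restrict scalars; on `(tsupport χ)ᶜ`: locally `0`; the two open sets cover `ℂ`: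
`contDiff_iff_contDiffAt`) with compact support; `l2cg_pompeiu`; `retDbar ψ ζ = retDbar χ ζ * u ζ` on `N`
(`R280.retDbar_smul`, `R280.retDbar_eq_zero_of_differentiableAt`), `= 0` off `tsupport χ` and on `O₁`
(`R280.retDbar_congr`); so the integrand vanishes off `tsupport χ \ O₁` (`setIntegral_eq_integral_of_forall_compl_eq_zero`). -/
theorem rg_repr {N O₁ : Set ℂ} (hN : IsOpen N) (hO₁ : IsOpen O₁) {χ : ℂ → ℝ} (hχ : ContDiff ℝ 2 χ)
    (hχs : HasCompactSupport χ) (hχN : tsupport χ ⊆ N) (h1 : ∀ z ∈ O₁, χ z = 1) {u : ℂ → ℂ}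
    (hu : DifferentiableOn ℂ u N) {w : ℂ} (hw : w ∈ O₁) :
    u w = (Real.pi : ℂ)⁻¹ * ∫ ζ in tsupport χ \ O₁,
      (w - ζ)⁻¹ * (retDbar (fun z => (χ z : ℂ)) ζ * u ζ) := by
  classical
  set χc : ℂ → ℂ := fun z => (χ z : ℂ) with hχc
  set ψ : ℂ → ℂ := fun z => χc z • u z with hψ
  have hχc2 : ContDiff ℝ 2 χc := Complex.ofRealCLM.contDiff.comp hχ
  have hχc1 : ContDiff ℝ 1 χc := hχc2.of_le (by norm_num)
  -- `ψ` vanishes near the points off the support
  have hoff : ∀ ζ, ζ ∉ tsupport χ → ψ =ᶠ[𝓝 ζ] fun _ => (0 : ℂ) := by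
    intro ζ hζ
    have hopen : IsOpen (tsupport χ)ᶜ := (isClosed_tsupport χ).isOpen_compl
    filter_upwards [hopen.mem_nhds hζ] with z hz
    have : χ z = 0 := image_eq_zero_of_notMem_tsupport hz
    simp [hψ, hχc, this]
  have huan : ∀ ζ ∈ N, AnalyticAt ℂ u ζ := fun ζ hζ => hu.analyticAt (hN.mem_nhds hζ)
  have hc : ContDiff ℝ 1 ψ := by
    rw [contDiff_iff_contDiffAt]
    intro ζ
    by_cases hζ : ζ ∈ N
    · have h2 : ContDiffAt ℝ 1 u ζ := ((huan ζ hζ).contDiffAt (n := 1)).restrict_scalars ℝ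
      exact hχc1.contDiffAt.smul h2
    · exact contDiffAt_const.congr_of_eventuallyEq (hoff ζ fun h => hζ (hχN h))
  have hs : HasCompactSupport ψ := by
    have h2 : HasCompactSupport χc := hχs.comp_left (g := fun x : ℝ => (x : ℂ)) Complex.ofReal_zero
    exact h2.smul_right
  have hP := l2cg_pompeiu hc hs w
  have hψw : ψ w = u w := by simp [hψ, hχc, h1 w hw]
  rw [hψw] at hP
  rw [← hP]
  unfold retCauchy
  rw [smul_eq_mul]
  congr 1
  have hmeas : MeasurableSet (tsupport χ \ O₁) := (isClosed_tsupport χ).measurableSet.diff hO₁.measurableSet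
  have hvan : ∀ ζ, ζ ∉ tsupport χ \ O₁ → (w - ζ)⁻¹ • retDbar ψ ζ = 0 := by
    intro ζ hζ
    have h0 : retDbar ψ ζ = 0 := by
      by_cases hζs : ζ ∈ tsupport χ
      · have hζO : ζ ∈ O₁ := by
          by_contra hcon
          exact hζ ⟨hζs, hcon⟩
        have heq : ψ =ᶠ[𝓝 ζ] u := by
          filter_upwards [hO₁.mem_nhds hζO] with z hz
          simp [hψ, hχc, h1 z hz]
        rw [Claimed.Agent.R280.retDbar_congr heq]
        exact Claimed.Agent.R280.retDbar_eq_zero_of_differentiableAt (huan ζ (hχN hζs)).differentiableAt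
      · rw [Claimed.Agent.R280.retDbar_congr (hoff ζ hζs)]
        exact Claimed.Agent.R280.retDbar_eq_zero_of_differentiableAt (differentiableAt_const _)
    rw [h0, smul_zero]
  rw [← setIntegral_eq_integral_of_forall_compl_eq_zero hvan]
  refine (setIntegral_congr_fun hmeas fun ζ hζ => ?_).symm
  have hζN : ζ ∈ N := hχN hζ.1
  have hdu : DifferentiableAt ℂ u ζ := (huan ζ hζN).differentiableAt
  have h3 : retDbar ψ ζ = retDbar χc ζ • u ζ + χc ζ • retDbar u ζ :=
    Claimed.Agent.R280.retDbar_smul (hχc1.differentiable (by norm_num)).differentiableAt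
      (hdu.restrictScalars ℝ)
  rw [h3, Claimed.Agent.R280.retDbar_eq_zero_of_differentiableAt hdu, smul_zero, add_zero, smul_eq_mul,
    smul_eq_mul]

end Claimed.Agent.R245
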