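/-
Row 245 / S0484.  Tool RUNGE (parametric Runge theorem in one planar variable), architect: helper187.
Top file: `rg_runge` from the packages RG-POLE, RG-INT, RG-POMP.
-/
import Mathlib
import Claimed.Agent.R245.RungeDefs
import Claimed.Agent.R245.RungePole
import Claimed.Agent.R245.RungeInt
import Claimed.Agent.R245.RungePomp

set_option autoImplicit false

namespace Claimed.Agent.R245

open Set Metric Topology MeasureTheory
open Claimed.Agent.R280 (retDbar retCauchy)
open scoped Manifold ContDiff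

theorem RgAppr.congr {T : Type*} [NormedAddCommGroup T] [NormedSpace ℂ T] {K : Set ℂ} {Pc Wp : Set T}
    {φ φ' : ℂ × T → ℂ} (h : RgAppr K Pc Wp φ) (he : ∀ x ∈ K ×ˢ Pc, φ' x = φ x) :
    RgAppr K Pc Wp φ' := by
  intro η hη
  obtain ⟨f, hf, hfa⟩ := h η hη
  exact ⟨f, hf, fun x hx => by rw [he x hx]; exact hfa x hx⟩

/-- a smooth cutoff: `χ = 1` on an open neighbourhood `O₁` of the compact `K`, compact support in the open `N`. -/
theorem rg_cutoff {K N : Set ℂ} (hK : IsCompact K) (hN : IsOpen N) (hKN : K ⊆ N) :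
    ∃ (χ : ℂ → ℝ) (O₁ : Set ℂ), ContDiff ℝ 2 χ ∧ HasCompactSupport χ ∧ tsupport χ ⊆ N ∧ IsOpen O₁ ∧
      K ⊆ O₁ ∧ ∀ z ∈ O₁, χ z = 1 := by
  obtain ⟨K', hK', hKK', hK'N⟩ := exists_compact_between hK hN hKN
  obtain ⟨f, hf1, hf0, -⟩ := exists_contMDiffMap_one_nhds_of_subset_interior (n := 2) 𝓘(ℝ, ℂ)
    hK.isClosed hKK'
  obtain ⟨O₁, hO₁, hKO₁, hO₁1⟩ := mem_nhdsSet_iff_exists.1 hf1
  have hsup : tsupport (f : ℂ → ℝ) ⊆ K' := by
    apply closure_minimal _ hK'.isClosed
    intro x hx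
    by_contra hxK
    exact hx (hf0 x hxK)
  refine ⟨f, O₁, f.contMDiff.contDiff, ?_, hsup.trans hK'N, hO₁, hKO₁, fun z hz => hO₁1 hz⟩
  exact HasCompactSupport.intro hK' hf0

/-- **Runge's theorem with holomorphic parameters.**  `K ⊆ ℂ` compact with preconnected complement, `g` holomorphic on
`N ×ˢ Wp` (`N` an open neighbourhood of `K`, `Wp` an open set of parameters), `Pc ⊆ Wp` compact.  Then `g` is a uniform limit
on `K ×ˢ Pc` of functions holomorphic on `univ ×ˢ Wp`. -/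
theorem rg_runge {T : Type*} [NormedAddCommGroup T] [NormedSpace ℂ T] {K N : Set ℂ} (hK : IsCompact K)
    (hKc : IsPreconnected Kᶜ) (hN : IsOpen N) (hKN : K ⊆ N) {Pc Wp : Set T} (hPc : IsCompact Pc)
    (hPW : Pc ⊆ Wp) {g : ℂ × T → ℂ} (hg : DifferentiableOn ℂ g (N ×ˢ Wp)) :
    RgAppr K Pc Wp g := by
  obtain ⟨χ, O₁, hχ, hχs, hχN, hO₁, hKO₁, h1⟩ := rg_cutoff hK hN hKN
  set S : Set ℂ := tsupport χ \ O₁ with hSdef
  have hS : IsCompact S := hχs.isCompact.diff hO₁
  have hSN : S ⊆ N := fun z hz => hχN hz.1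
  set d : ℂ → ℂ := retDbar (fun z => (χ z : ℂ)) with hd
  have hdc : Continuous d := by
    have hc : ContDiff ℝ 2 (fun z => (χ z : ℂ)) := Complex.ofRealCLM.contDiff.comp hχ
    have hf : Continuous (fderiv ℝ (fun z => (χ z : ℂ))) := hc.continuous_fderiv (by norm_num)
    rw [hd]
    unfold retDbar
    have h1 : Continuous (fun z => fderiv ℝ (fun z => (χ z : ℂ)) z 1) := hf.clm_apply continuous_const
    have h2 : Continuous (fun z => fderiv ℝ (fun z => (χ z : ℂ)) z Complex.I) :=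
      hf.clm_apply continuous_const
    exact (h1.add (h2.const_smul Complex.I)).const_smul (1 / 2 : ℂ)
  set k : ℂ → ℂ × T → ℂ := fun ζ x =>
    (Real.pi : ℂ)⁻¹ * ((x.1 - ζ)⁻¹ * (d ζ * g (ζ, x.2))) with hk
  have hne : ∀ ζ ∈ S, ∀ s ∈ K, s - ζ ≠ 0 := by
    intro ζ hζ s hs h0
    have : s = ζ := sub_eq_zero.1 h0
    exact hζ.2 (this ▸ hKO₁ hs)
  -- the representation
  have hrep : ∀ x ∈ K ×ˢ Pc, g x = ∫ ζ in S, k ζ x := by
    rintro ⟨s, t⟩ ⟨hs, ht⟩
    have hu : DifferentiableOn ℂ (fun ζ => g (ζ, t)) N := by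
      refine hg.comp (f := fun ζ : ℂ => (ζ, t)) ?_ ?_
      · exact (differentiable_id.prodMk (differentiable_const t)).differentiableOn
      · exact fun ζ hζ => ⟨hζ, hPW ht⟩
    have := rg_repr hN hO₁ hχ hχs hχN h1 hu (hKO₁ hs)
    simp only [hk]
    rw [integral_const_mul]
    exact this
  refine RgAppr.congr (rg_integral hK hPc hS ?_ ?_) hrep
  · -- continuity
    have h1' : ContinuousOn (fun p : ℂ × (ℂ × T) => (p.2.1 - p.1)⁻¹) (S ×ˢ (K ×ˢ Pc)) := by
      apply ContinuousOn.inv₀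
      · exact (continuous_snd.fst.sub continuous_fst).continuousOn
      · rintro ⟨ζ, s, t⟩ ⟨hζ, hs, -⟩
        exact hne ζ hζ s hs
    have h2' : ContinuousOn (fun p : ℂ × (ℂ × T) => g (p.1, p.2.2)) (S ×ˢ (K ×ˢ Pc)) := by
      refine hg.continuousOn.comp (f := fun p : ℂ × (ℂ × T) => (p.1, p.2.2)) ?_ ?_
      · exact (continuous_fst.prodMk continuous_snd.snd).continuousOn
      · rintro ⟨ζ, s, t⟩ ⟨hζ, -, ht⟩
        exact ⟨hSN hζ, hPW ht⟩
    have h3' : ContinuousOn (fun p : ℂ × (ℂ × T) => d p.1) (S ×ˢ (K ×ˢ Pc)) :=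
      (hdc.comp continuous_fst).continuousOn
    exact continuousOn_const.mul (h1'.mul (h3'.mul h2'))
  · -- each kernel is approximable
    intro ζ hζ η hη
    set c : T → ℂ := fun t => (Real.pi : ℂ)⁻¹ * (d ζ * g (ζ, t)) with hc
    have hcd : DifferentiableOn ℂ c Wp := by
      have : DifferentiableOn ℂ (fun t => g (ζ, t)) Wp := by
        refine hg.comp (f := fun t : T => (ζ, t)) ?_ ?_
        · exact ((differentiable_const ζ).prodMk differentiable_id).differentiableOn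
        · exact fun t ht => ⟨hSN hζ, ht⟩
      exact (this.const_mul _).const_mul _
    obtain ⟨Mc, hMc⟩ := hPc.exists_bound_of_continuousOn (hcd.continuousOn.mono hPW)
    have hMc0 : 0 ≤ |Mc| := abs_nonneg _
    have hζK : ζ ∉ K := fun h => hζ.2 (hKO₁ h)
    obtain ⟨p, hp⟩ := rg_pole hK hKc hζK (η := η / (|Mc| + 1)) (by positivity)
    refine ⟨fun x => p.eval x.1 * c x.2, ?_, ?_⟩
    · apply DifferentiableOn.mul
      · exact (p.differentiable.comp differentiable_fst).differentiableOn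
      · exact hcd.comp differentiable_snd.differentiableOn (fun x hx => hx.2)
    · rintro ⟨s, t⟩ ⟨hs, ht⟩
      have e : p.eval s * c t - k ζ (s, t) = (p.eval s - (s - ζ)⁻¹) * c t := by
        simp only [hk, hc]; ring
      simp only
      rw [e, norm_mul]
      have h1 := hp s hs
      have h2 : ‖c t‖ ≤ |Mc| := (hMc t ht).trans (le_abs_self _)
      calc ‖p.eval s - (s - ζ)⁻¹‖ * ‖c t‖ ≤ (η / (|Mc| + 1)) * |Mc| :=
            mul_le_mul h1.le h2 (norm_nonneg _) (by positivity)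
        _ < η := by
            rw [div_mul_eq_mul_div, div_lt_iff₀ (by positivity)]
            nlinarith

end Claimed.Agent.R245
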