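/-
Row 245 / S0484, sec 2.1 (criterion), architect: helper187.
Auxiliary statements for the top proof: witness chart, Runge on a `U`-pair, the splitting for the two planar pieces, calculus of `Sig`.
-/
import Mathlib
import Claimed.Agent.R245.CritDefs
import Claimed.Agent.R245.CritChart
import Claimed.Agent.R245.CritGeo
import Claimed.Agent.R245.Runge
import Claimed.Agent.R245.L2Cut
import Claimed.Agent.R245.L2Split
import Claimed.Agent.R245.L2Poly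

set_option autoImplicit false

namespace Claimed.Agent.R245

open MvPolynomial Metric Set Filter Topology Claims.C0412

/-! ### calculus of `Sig` -/

theorem cr_vec3_apply0 (a b c : ℂ) : vec3 a b c 0 = a := rfl
theorem cr_vec3_apply1 (a b c : ℂ) : vec3 a b c 1 = b := rfl
theorem cr_vec3_apply2 (a b c : ℂ) : vec3 a b c 2 = c := rfl

theorem cr_Sig_zero (s : ℂ × ℂ → V4) : Sig s 0 = s (0, 0) := by
  simp [Sig]

/-- adding `c` to the third coordinate multiplies by `exp c` -/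
theorem cr_Sig_add_third (s : ℂ × ℂ → V4) (z : V3) (c : ℂ) :
    Sig s (z + vec3 0 0 c) = Complex.exp c • Sig s z := by
  simp only [Sig, Pi.add_apply, cr_vec3_apply0, cr_vec3_apply1, cr_vec3_apply2, add_zero]
  rw [Complex.exp_add, smul_smul, mul_comm]

theorem cr_Sig_mem_cone {F : MvPolynomial (Fin 4) ℂ} (hF : F.IsHomogeneous 4) {s : ℂ × ℂ → V4} {z : V3}
    (h : s (z 0, z 1) ∈ Cone F) : Sig s z ∈ Cone F :=
  l2_smul_mem_cone hF (Complex.exp_ne_zero _) h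

theorem cr_Sig_differentiableOn {X : Type*} [NormedAddCommGroup X] [NormedSpace ℂ X] {s : ℂ × ℂ → V4}
    {D : Set (ℂ × ℂ)} (hs : DifferentiableOn ℂ s D) {Z : X → V3} {U : Set X}
    (hZ : DifferentiableOn ℂ Z U) (hmap : ∀ x ∈ U, (Z x 0, Z x 1) ∈ D) :
    DifferentiableOn ℂ (fun x => Sig s (Z x)) U := by
  have hc : ∀ i : Fin 3, DifferentiableOn ℂ (fun x => Z x i) U := fun i =>
    differentiableOn_pi.1 hZ i
  unfold Sig
  exact (hc 2).cexp.smul (hs.comp ((hc 0).prodMk (hc 1)) hmap)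

theorem cr_Sig_continuousOn {s : ℂ × ℂ → V4} {D : Set (ℂ × ℂ)} (hs : ContinuousOn s D) {U : Set V3}
    (hmap : ∀ z ∈ U, (z 0, z 1) ∈ D) : ContinuousOn (Sig s) U := by
  unfold Sig
  have h2 : ContinuousOn (fun z : V3 => Complex.exp (z 2)) U :=
    (Complex.continuous_exp.comp (continuous_apply 2)).continuousOn
  have h01 : ContinuousOn (fun z : V3 => (z 0, z 1)) U :=
    ((continuous_apply 0).prodMk (continuous_apply 1)).continuousOn
  exact h2.smul (hs.comp h01 hmap)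

theorem cr_norm_apply_le (z : V3) (i : Fin 3) : ‖z i‖ ≤ ‖z‖ := norm_le_pi_norm z i

/-! ### the witness chart -/

theorem cr_wchart (F : MvPolynomial (Fin 4) ℂ) (hF : IsSmoothQuarticForm F) {b : ℝ} (hb : 0 < b)
    {s : ℂ × ℂ → V4} (hs : HolOn F s (ball (0 : ℂ) b ×ˢ ball (0 : ℂ) b)) (hreg : StripReg s) {ρ : ℝ}
    (hρ : 0 < ρ) :
    ∃ (rV : ℝ) (Ψ : V4 → V3), 0 < rV ∧ DifferentiableOn ℂ Ψ (ball (s (0, 0)) rV) ∧
      (∀ y ∈ ball (s (0, 0)) rV, ‖Ψ y‖ < ρ) ∧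
      ∀ y ∈ ball (s (0, 0)) rV, y ∈ Cone F → Sig s (Ψ y) = y := by
  obtain ⟨r₀, r₂, Ψ, hr₀, hr₂, -, hΨd, -, hΨl, hΨr⟩ := cr_chart F hF hb hs hreg
  have h0 : Ψ (s (0, 0)) = 0 := by
    have := (hΨl 0 (by simpa using hr₂)).2
    rwa [cr_Sig_zero] at this
  have hc : ContinuousAt Ψ (s (0, 0)) :=
    (hΨd.differentiableAt (isOpen_ball.mem_nhds (mem_ball_self hr₀))).continuousAt
  obtain ⟨r', hr', hr'b⟩ := Metric.continuousAt_iff.1 hc ρ hρ
  refine ⟨min r₀ r', Ψ, lt_min hr₀ hr', hΨd.mono (ball_subset_ball (min_le_left _ _)), ?_, ?_⟩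
  · intro y hy
    have := hr'b (lt_of_lt_of_le (mem_ball.1 hy) (min_le_right _ _))
    rwa [h0, dist_zero_right] at this
  · intro y hy hyc
    exact hΨr y (ball_subset_ball (min_le_left _ _) hy) hyc

/-! ### Runge on a `U`-pair -/

/-- **Runge for a `U`-pair**: `g` holomorphic on (band of depth `< γ`) × parameters is approximated on the band of depth `≤ α`, simultaneously
with `0` on the core of depth `≥ β`, by functions holomorphic on `univ ×ˢ Wp`. -/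
theorem cr_rungeU {x₀ x₁ y₀ y₁ h e' e α γ β : ℝ} (hαγ : α < γ) (hγβ : γ < β) (he : e' < e)
    (hβ : y₀ + h + β < y₁ - h - β) {T : Type*} [NormedAddCommGroup T] [NormedSpace ℂ T]
    {Pc Wp : Set T} (hPc : IsCompact Pc) (hWp : IsOpen Wp) (hPW : Pc ⊆ Wp) {g : ℂ × T → ℂ}
    (hg : DifferentiableOn ℂ g
      ((ORect x₀ x₁ y₀ y₁ e ∩ {z | uDepth x₀ y₀ y₁ h z < γ}) ×ˢ Wp)) {η : ℝ} (hη : 0 < η) :
    ∃ hh : ℂ × T → ℂ, DifferentiableOn ℂ hh (univ ×ˢ Wp) ∧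
      (∀ z ∈ CRect x₀ x₁ y₀ y₁ e', uDepth x₀ y₀ y₁ h z ≤ α → ∀ t ∈ Pc, ‖hh (z, t) - g (z, t)‖ < η) ∧
      (∀ z ∈ CRect x₀ x₁ y₀ y₁ e', β ≤ uDepth x₀ y₀ y₁ h z → ∀ t ∈ Pc, ‖hh (z, t)‖ < η) := by
  classical
  have hdc := cr_continuous_uDepth x₀ y₀ y₁ h
  set K : Set ℂ := CRect x₀ x₁ y₀ y₁ e' ∩
    ({z | uDepth x₀ y₀ y₁ h z ≤ α} ∪ {z | β ≤ uDepth x₀ y₀ y₁ h z}) with hK
  have hKc : IsCompact K := by
    apply (cr_isCompact_CRect x₀ x₁ y₀ y₁ e').inter_right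
    exact (isClosed_le hdc continuous_const).union (isClosed_le continuous_const hdc)
  set A : Set ℂ := ORect x₀ x₁ y₀ y₁ e ∩ {z | uDepth x₀ y₀ y₁ h z < γ} with hA
  set B : Set ℂ := {z | γ < uDepth x₀ y₀ y₁ h z} with hB
  have hAo : IsOpen A := (cr_isOpen_ORect x₀ x₁ y₀ y₁ e).inter (isOpen_lt hdc continuous_const)
  have hBo : IsOpen B := isOpen_lt continuous_const hdc
  have hCO : CRect x₀ x₁ y₀ y₁ e' ⊆ ORect x₀ x₁ y₀ y₁ e := by
    rintro z ⟨h1, h2, h3, h4⟩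
    exact ⟨by linarith, by linarith, by linarith, by linarith⟩
  have hKN : K ⊆ A ∪ B := by
    rintro z ⟨hz, hz' | hz'⟩
    · exact Or.inl ⟨hCO hz, lt_of_le_of_lt hz' hαγ⟩
    · exact Or.inr (lt_of_lt_of_le hγβ hz')
  set g' : ℂ × T → ℂ := fun x => if uDepth x₀ y₀ y₁ h x.1 < γ then g x else 0 with hg'
  have hg'd : DifferentiableOn ℂ g' ((A ∪ B) ×ˢ Wp) := by
    rintro ⟨z, t⟩ ⟨hz, ht⟩
    apply DifferentiableAt.differentiableWithinAt
    rcases hz with hz | hz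
    · have h1 : DifferentiableAt ℂ g (z, t) :=
        hg.differentiableAt ((hAo.prod hWp).mem_nhds ⟨hz, ht⟩)
      refine h1.congr_of_eventuallyEq ?_
      filter_upwards [(hAo.prod hWp).mem_nhds (show (z, t) ∈ A ×ˢ Wp from ⟨hz, ht⟩)] with x hx
      have hx2 : uDepth x₀ y₀ y₁ h x.1 < γ := hx.1.2
      simp only [hg']
      rw [if_pos hx2]
    · have h1 : DifferentiableAt ℂ (fun _ : ℂ × T => (0 : ℂ)) (z, t) := differentiableAt_const _
      refine h1.congr_of_eventuallyEq ?_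
      filter_upwards [(hBo.prod hWp).mem_nhds (show (z, t) ∈ B ×ˢ Wp from ⟨hz, ht⟩)] with x hx
      have hx2 : γ < uDepth x₀ y₀ y₁ h x.1 := hx.1
      simp only [hg']
      rw [if_neg (not_lt.2 hx2.le)]
  obtain ⟨hh, hhd, hha⟩ := rg_runge hKc (cr_compl_preconnected (hαγ.trans hγβ) hβ) (hAo.union hBo) hKN
    hPc hPW hg'd η hη
  refine ⟨hh, hhd, ?_, ?_⟩
  · intro z hz hzα t ht
    have := hha (z, t) ⟨⟨hz, Or.inl hzα⟩, ht⟩
    simp only [hg'] at this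
    rwa [if_pos (lt_of_le_of_lt hzα hαγ)] at this
  · intro z hz hzβ t ht
    have := hha (z, t) ⟨⟨hz, Or.inr hzβ⟩, ht⟩
    simp only [hg'] at this
    rwa [if_neg (not_lt.2 (hγβ.le.trans hzβ)), sub_zero] at this

/-! ### the splitting for the two planar pieces -/

theorem cr_splits {x₀ x₁ y₀ y₁ h e c₂ c₃ : ℝ} (hc : c₂ < c₃) {q : ℕ} (ρm : ℝ) :
    ∃ κ : ℝ, 0 ≤ κ ∧ SplitsG V3
      ((ORect x₀ x₁ y₀ y₁ e ∩ {z | c₂ < uDepth x₀ y₀ y₁ h z}) ×ˢ ball (0 : Fin q → ℂ) ρm)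
      ((ORect x₀ x₁ y₀ y₁ e ∩ {z | uDepth x₀ y₀ y₁ h z < c₃}) ×ˢ ball (0 : Fin q → ℂ) ρm) κ := by
  have hdc := cr_continuous_uDepth x₀ y₀ y₁ h
  set UA : Set ℂ := ORect x₀ x₁ y₀ y₁ e ∩ {z | c₂ < uDepth x₀ y₀ y₁ h z} with hUA
  set UB : Set ℂ := ORect x₀ x₁ y₀ y₁ e ∩ {z | uDepth x₀ y₀ y₁ h z < c₃} with hUB
  have hAo : IsOpen UA := (cr_isOpen_ORect x₀ x₁ y₀ y₁ e).inter (isOpen_lt continuous_const hdc)
  have hBo : IsOpen UB := (cr_isOpen_ORect x₀ x₁ y₀ y₁ e).inter (isOpen_lt hdc continuous_const)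
  have hOC : ORect x₀ x₁ y₀ y₁ e ⊆ CRect x₀ x₁ y₀ y₁ e := by
    rintro z ⟨h1, h2, h3, h4⟩
    exact ⟨h1.le, h2.le, h3.le, h4.le⟩
  have hbd : Bornology.IsBounded (ORect x₀ x₁ y₀ y₁ e) :=
    (cr_isCompact_CRect x₀ x₁ y₀ y₁ e).isBounded.subset hOC
  have hsep : Disjoint (closure (UA \ UB)) (closure (UB \ UA)) := by
    have h1 : closure (UA \ UB) ⊆ {z | c₃ ≤ uDepth x₀ y₀ y₁ h z} := by
      apply closure_minimal _ (isClosed_le continuous_const hdc)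
      rintro z ⟨hzA, hzB⟩
      by_contra hlt
      have hlt' : uDepth x₀ y₀ y₁ h z < c₃ := not_le.1 hlt
      exact hzB ⟨hzA.1, hlt'⟩
    have h2 : closure (UB \ UA) ⊆ {z | uDepth x₀ y₀ y₁ h z ≤ c₂} := by
      apply closure_minimal _ (isClosed_le hdc continuous_const)
      rintro z ⟨hzB, hzA⟩
      by_contra hlt
      have hlt' : c₂ < uDepth x₀ y₀ y₁ h z := not_le.1 hlt
      exact hzA ⟨hzB.1, hlt'⟩
    refine Set.disjoint_left.2 fun z hz1 hz2 => ?_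
    have e1 : c₃ ≤ uDepth x₀ y₀ y₁ h z := h1 hz1
    have e2 : uDepth x₀ y₀ y₁ h z ≤ c₂ := h2 hz2
    linarith
  obtain ⟨χ, d, M, hcut⟩ := l2_cut_exists hAo hBo (hbd.subset inter_subset_left)
    (hbd.subset inter_subset_left) hsep
  refine ⟨1 + 2 * d * M, by have := hcut.d_nonneg; have := hcut.M_nonneg; positivity, ?_⟩
  intro u B hB hu hub
  rw [prod_inter_prod, inter_self] at hu hub
  obtain ⟨a, b, ha, hb, hab, hbb, hsub⟩ := l2_split hcut (isOpen_ball (x := (0 : Fin q → ℂ)) (ε := ρm))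
    hu hB hub
  refine ⟨a, b, ha, hb, hab, hbb, ?_⟩
  rw [prod_inter_prod, inter_self]
  exact hsub

end Claimed.Agent.R245
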