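/-
Row 245 / S0484, sec 2.1 (criterion), architect: helper187.   Package CR-GLUE0: abstract nonlinear gluing by residual iteration.
ONE FILE = ONE PACKAGE = ONE OWNER.  Do not change the statement; helper lemmas: prefix `crg_`, keep them in this file.
Black box: `scv_tendsto` (R245/SCVLim.lean): locally uniform limits of holomorphic maps are holomorphic.
-/
import Mathlib
import Claimed.Agent.R245.SCV
import Claimed.Agent.R245.CritDefs

set_option autoImplicit false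

namespace Claimed.Agent.R245

open Metric Set Filter Topology

/-- the invariants of the residual iteration at step `k` -/
def CrgInv {X G : Type*} [NormedAddCommGroup X] [NormedSpace ℂ X] [NormedAddCommGroup G]
    [NormedSpace ℂ G] (UA UB : Set X) (κ e : ℝ) (P Q : X × G → G) (k : ℕ) (p : (X → G) × (X → G)) : Prop :=
  DifferentiableOn ℂ p.1 UA ∧ DifferentiableOn ℂ p.2 UB ∧
    (∀ x ∈ UA, ‖p.1 x‖ ≤ 4 * κ * e * (1 - (1 / 2 : ℝ) ^ k)) ∧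
    (∀ x ∈ UB, ‖p.2 x‖ ≤ 4 * κ * e * (1 - (1 / 2 : ℝ) ^ k)) ∧
    ∀ x ∈ UA ∩ UB, ‖Q (x, p.2 x) - P (x, p.1 x)‖ ≤ 2 * e * (1 / 2 : ℝ) ^ k

/-- one step of the residual iteration -/
theorem crg_step {X G : Type*} [NormedAddCommGroup X] [NormedSpace ℂ X] [NormedAddCommGroup G]
    [NormedSpace ℂ G] {UA UB : Set X} {κ : ℝ}
    (hκ : 0 ≤ κ) (hsplit : SplitsG G UA UB κ) {P Q : X × G → G} {r lam e : ℝ}
    (hlam0 : 0 ≤ lam) (he0 : 0 ≤ e)
    (hP : DifferentiableOn ℂ P ((UA ∩ UB) ×ˢ ball (0 : G) r))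
    (hQ : DifferentiableOn ℂ Q ((UA ∩ UB) ×ˢ ball (0 : G) r))
    (hPl : ∀ x ∈ UA ∩ UB, ∀ v ∈ ball (0 : G) r, ∀ v' ∈ ball (0 : G) r,
      ‖(P (x, v) - v) - (P (x, v') - v')‖ ≤ lam * ‖v - v'‖)
    (hQl : ∀ x ∈ UA ∩ UB, ∀ v ∈ ball (0 : G) r, ∀ v' ∈ ball (0 : G) r,
      ‖(Q (x, v) - v) - (Q (x, v') - v')‖ ≤ lam * ‖v - v'‖)
    (hlam : 4 * lam * κ ≤ 1) (he : 4 * κ * e < r)
    (k : ℕ) (p : (X → G) × (X → G)) (hp : CrgInv UA UB κ e P Q k p) :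
    ∃ q : (X → G) × (X → G), CrgInv UA UB κ e P Q (k + 1) q ∧
      (∀ x ∈ UA, ‖q.1 x - p.1 x‖ ≤ 2 * κ * e * (1 / 2 : ℝ) ^ k) ∧
      (∀ x ∈ UB, ‖q.2 x - p.2 x‖ ≤ 2 * κ * e * (1 / 2 : ℝ) ^ k) := by
  obtain ⟨a, b⟩ := p
  obtain ⟨ha, hb, hab, hbb, hρ⟩ := hp
  simp only at ha hb hab hbb hρ
  have hpow : (0 : ℝ) ≤ (1 / 2 : ℝ) ^ k := by positivity
  have hpow1 : (0 : ℝ) ≤ (1 / 2 : ℝ) ^ (k + 1) := by positivity
  have hκe : 0 ≤ κ * e := mul_nonneg hκ he0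
  have hlt : ∀ j : ℕ, 4 * κ * e * (1 - (1 / 2 : ℝ) ^ j) < r := by
    intro j
    have hj : (0 : ℝ) ≤ (1 / 2 : ℝ) ^ j := by positivity
    nlinarith
  have hma : ∀ x ∈ UA ∩ UB, (x, a x) ∈ (UA ∩ UB) ×ˢ ball (0 : G) r := fun x hx =>
    ⟨hx, mem_ball_zero_iff.2 ((hab x hx.1).trans_lt (hlt k))⟩
  have hmb : ∀ x ∈ UA ∩ UB, (x, b x) ∈ (UA ∩ UB) ×ˢ ball (0 : G) r := fun x hx =>
    ⟨hx, mem_ball_zero_iff.2 ((hbb x hx.2).trans_lt (hlt k))⟩
  have hρd : DifferentiableOn ℂ (fun x => Q (x, b x) - P (x, a x)) (UA ∩ UB) := by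
    refine DifferentiableOn.sub ?_ ?_
    · exact hQ.comp (differentiableOn_id.prodMk (hb.mono inter_subset_right)) hmb
    · exact hP.comp (differentiableOn_id.prodMk (ha.mono inter_subset_left)) hma
  obtain ⟨a', b', ha', hb', hab', hbb', hsp⟩ := hsplit (fun x => Q (x, b x) - P (x, a x))
    (2 * e * (1 / 2 : ℝ) ^ k) (by positivity) hρd hρ
  have hna : ∀ x ∈ UA, ‖a x + a' x‖ ≤ 4 * κ * e * (1 - (1 / 2 : ℝ) ^ (k + 1)) := by
    intro x hx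
    calc ‖a x + a' x‖ ≤ ‖a x‖ + ‖a' x‖ := norm_add_le _ _
      _ ≤ 4 * κ * e * (1 - (1 / 2 : ℝ) ^ k) + κ * (2 * e * (1 / 2 : ℝ) ^ k) := add_le_add (hab x hx) (hab' x hx)
      _ = 4 * κ * e * (1 - (1 / 2 : ℝ) ^ (k + 1)) := by rw [pow_succ]; ring
  have hnb : ∀ x ∈ UB, ‖b x + b' x‖ ≤ 4 * κ * e * (1 - (1 / 2 : ℝ) ^ (k + 1)) := by
    intro x hx
    calc ‖b x + b' x‖ ≤ ‖b x‖ + ‖b' x‖ := norm_add_le _ _
      _ ≤ 4 * κ * e * (1 - (1 / 2 : ℝ) ^ k) + κ * (2 * e * (1 / 2 : ℝ) ^ k) := add_le_add (hbb x hx) (hbb' x hx)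
      _ = 4 * κ * e * (1 - (1 / 2 : ℝ) ^ (k + 1)) := by rw [pow_succ]; ring
  refine ⟨(fun x => a x + a' x, fun x => b x + b' x), ⟨ha.add ha', hb.add hb', hna, hnb, ?_⟩, ?_, ?_⟩
  · intro x hx
    simp only
    have h1 := hQl x hx (b x + b' x) (mem_ball_zero_iff.2 ((hnb x hx.2).trans_lt (hlt (k + 1)))) (b x) (hmb x hx).2
    have h2 := hPl x hx (a x + a' x) (mem_ball_zero_iff.2 ((hna x hx.1).trans_lt (hlt (k + 1)))) (a x) (hma x hx).2
    rw [add_sub_cancel_left] at h1 h2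
    have h3 : Q (x, b x + b' x) - P (x, a x + a' x)
        = ((Q (x, b x + b' x) - (b x + b' x)) - (Q (x, b x) - b x))
          - ((P (x, a x + a' x) - (a x + a' x)) - (P (x, a x) - a x)) := by
      have h4 := hsp x hx
      have h5 : Q (x, b x) = a' x - b' x + P (x, a x) := by rw [h4]; abel
      rw [h5]
      abel
    rw [h3]
    have h6 : lam * ‖b' x‖ ≤ lam * (κ * (2 * e * (1 / 2 : ℝ) ^ k)) :=
      mul_le_mul_of_nonneg_left (hbb' x hx.2) hlam0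
    have h7 : lam * ‖a' x‖ ≤ lam * (κ * (2 * e * (1 / 2 : ℝ) ^ k)) :=
      mul_le_mul_of_nonneg_left (hab' x hx.1) hlam0
    have h8 : 0 ≤ e * (1 / 2 : ℝ) ^ k := mul_nonneg he0 hpow
    calc _ ≤ ‖(Q (x, b x + b' x) - (b x + b' x)) - (Q (x, b x) - b x)‖
          + ‖(P (x, a x + a' x) - (a x + a' x)) - (P (x, a x) - a x)‖ := norm_sub_le _ _
      _ ≤ lam * (κ * (2 * e * (1 / 2 : ℝ) ^ k)) + lam * (κ * (2 * e * (1 / 2 : ℝ) ^ k)) :=
          add_le_add (h1.trans h6) (h2.trans h7)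
      _ = (4 * lam * κ) * (e * (1 / 2 : ℝ) ^ k) := by ring
      _ ≤ 1 * (e * (1 / 2 : ℝ) ^ k) := mul_le_mul_of_nonneg_right hlam h8
      _ = 2 * e * (1 / 2 : ℝ) ^ (k + 1) := by rw [pow_succ]; ring
  · intro x hx
    simp only [add_sub_cancel_left]
    exact (hab' x hx).trans_eq (by ring)
  · intro x hx
    simp only [add_sub_cancel_left]
    exact (hbb' x hx).trans_eq (by ring)

/-- a sequence of holomorphic maps with geometrically small increments on an open set converges to a holomorphic map -/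
theorem crg_limit {X G : Type*} [NormedAddCommGroup X] [NormedSpace ℂ X] [NormedAddCommGroup G]
    [NormedSpace ℂ G] [CompleteSpace G] {U : Set X} (hU : IsOpen U) {f : ℕ → X → G} {C D : ℝ}
    (hf : ∀ k, DifferentiableOn ℂ (f k) U) (hb : ∀ k, ∀ x ∈ U, ‖f k x‖ ≤ D)
    (hinc : ∀ k, ∀ x ∈ U, ‖f (k + 1) x - f k x‖ ≤ C * (1 / 2 : ℝ) ^ k) :
    ∃ g : X → G, DifferentiableOn ℂ g U ∧ (∀ x ∈ U, ‖g x‖ ≤ D) ∧
      ∀ x ∈ U, Tendsto (fun k => f k x) atTop (𝓝 (g x)) := by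
  have hr : (1 / 2 : ℝ) < 1 := by norm_num
  have hd : ∀ x ∈ U, ∀ k, dist (f k x) (f (k + 1) x) ≤ C * (1 / 2 : ℝ) ^ k := by
    intro x hx k
    rw [dist_comm, dist_eq_norm]
    exact hinc k x hx
  have hc : ∀ x ∈ U, CauchySeq (fun k => f k x) := fun x hx =>
    cauchySeq_of_le_geometric _ C hr (hd x hx)
  have hlim : ∀ x ∈ U, Tendsto (fun k => f k x) atTop (𝓝 (limUnder atTop (fun k => f k x))) :=
    fun x hx => (hc x hx).tendsto_limUnder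
  refine ⟨fun x => limUnder atTop (fun k => f k x), ?_, ?_, hlim⟩
  · refine scv_tendsto (l := atTop) (F := f) hU (Eventually.of_forall hf) ?_
    refine TendstoUniformlyOn.tendstoLocallyUniformlyOn ?_
    rw [Metric.tendstoUniformlyOn_iff]
    intro η hη
    have ht : Tendsto (fun k : ℕ => C * (1 / 2 : ℝ) ^ k / (1 - 1 / 2)) atTop (𝓝 0) := by
      have := (tendsto_pow_atTop_nhds_zero_of_lt_one (by norm_num : (0 : ℝ) ≤ 1 / 2) hr).const_mul C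
      simpa using this.div_const (1 - 1 / 2)
    filter_upwards [ht.eventually (gt_mem_nhds hη)] with k hk x hx
    rw [dist_comm]
    exact (dist_le_of_le_geometric_of_tendsto _ C hr (hd x hx) (hlim x hx) k).trans_lt hk
  · intro x hx
    exact le_of_tendsto (hlim x hx).norm (Eventually.of_forall fun k => hb k x hx)

/-- **Abstract gluing.**  `P, Q` are fibre maps over the overlap `UA ∩ UB`, close to the identity of the fibre `G`:
`v ↦ P (x, v) - v` and `v ↦ Q (x, v) - v` are `lam`-Lipschitz on `ball 0 r` and bounded by `e` at `v = 0`.  If the additive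
splitting constant `κ` satisfies `4 lam κ ≤ 1` and `4 κ e < r`, there are holomorphic `a` on `UA`, `b` on `UB`, bounded by
`4 κ e`, with `P (x, a x) = Q (x, b x)` on the overlap.
Route (residual iteration; only solvability with bounds is used): `a₀ = b₀ = 0`; `ρ_k x := Q (x, b_k x) - P (x, a_k x)` is
holomorphic on `UA ∩ UB` and `‖ρ_k‖ ≤ B_k := 2 e / 2^k`; split `ρ_k = a' - b'` (`‖a'‖, ‖b'‖ ≤ κ B_k`);
`a_{k+1} = a_k + a'`, `b_{k+1} = b_k + b'`.  Then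
`ρ_{k+1} = [(Q (x, b_k + b') - (b_k + b')) - (Q (x, b_k) - b_k)] - [(P (x, a_k + a') - (a_k + a')) - (P (x, a_k) - a_k)]`,
so `‖ρ_{k+1}‖ ≤ lam (‖a'‖ + ‖b'‖) ≤ 2 lam κ B_k ≤ B_k / 2`.  Invariants: `‖a_k‖, ‖b_k‖ ≤ 4 κ e (1 - 2^{-k}) < r`.
Build the sequence with `Nat.rec` on a subtype (or `exists_seq`-style choice) carrying the invariants.  `a_k → a` uniformly on
`UA` (`‖a_{k+1} - a_k‖ ≤ κ B_k`, summable; define `a x := lim`/`∑'`), `a` is holomorphic by `scv_tendsto`, `‖a‖ ≤ 4 κ e < r`;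
`P (x, ·)` is `(1 + lam)`-Lipschitz on `ball 0 r`, so `P (x, a_k x) → P (x, a x)`; `ρ_k → 0`. -/
theorem cr_glue0 {X G : Type*} [NormedAddCommGroup X] [NormedSpace ℂ X] [NormedAddCommGroup G]
    [NormedSpace ℂ G] [CompleteSpace G] {UA UB : Set X} (hUA : IsOpen UA) (hUB : IsOpen UB) {κ : ℝ}
    (hκ : 0 ≤ κ) (hsplit : SplitsG G UA UB κ) {P Q : X × G → G} {r lam e : ℝ}
    (hlam0 : 0 ≤ lam) (he0 : 0 ≤ e)
    (hP : DifferentiableOn ℂ P ((UA ∩ UB) ×ˢ ball (0 : G) r))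
    (hQ : DifferentiableOn ℂ Q ((UA ∩ UB) ×ˢ ball (0 : G) r))
    (hP0 : ∀ x ∈ UA ∩ UB, ‖P (x, 0)‖ ≤ e) (hQ0 : ∀ x ∈ UA ∩ UB, ‖Q (x, 0)‖ ≤ e)
    (hPl : ∀ x ∈ UA ∩ UB, ∀ v ∈ ball (0 : G) r, ∀ v' ∈ ball (0 : G) r,
      ‖(P (x, v) - v) - (P (x, v') - v')‖ ≤ lam * ‖v - v'‖)
    (hQl : ∀ x ∈ UA ∩ UB, ∀ v ∈ ball (0 : G) r, ∀ v' ∈ ball (0 : G) r,
      ‖(Q (x, v) - v) - (Q (x, v') - v')‖ ≤ lam * ‖v - v'‖)
    (hlam : 4 * lam * κ ≤ 1) (he : 4 * κ * e < r) :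
    ∃ a b : X → G, DifferentiableOn ℂ a UA ∧ DifferentiableOn ℂ b UB ∧
      (∀ x ∈ UA, ‖a x‖ ≤ 4 * κ * e) ∧ (∀ x ∈ UB, ‖b x‖ ≤ 4 * κ * e) ∧
      ∀ x ∈ UA ∩ UB, P (x, a x) = Q (x, b x) := by
  have hκe : 0 ≤ κ * e := mul_nonneg hκ he0
  have h0 : CrgInv UA UB κ e P Q 0 ((fun _ => 0, fun _ => 0) : (X → G) × (X → G)) := by
    refine ⟨differentiableOn_const _, differentiableOn_const _, ?_, ?_, ?_⟩
    · intro x _
      simp
    · intro x _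
      simp
    · intro x hx
      simp only [pow_zero, mul_one]
      calc ‖Q (x, 0) - P (x, 0)‖ ≤ ‖Q (x, 0)‖ + ‖P (x, 0)‖ := norm_sub_le _ _
        _ ≤ e + e := add_le_add (hQ0 x hx) (hP0 x hx)
        _ = 2 * e := by ring
  choose! nxt hnxt using crg_step hκ hsplit hlam0 he0 hP hQ hPl hQl hlam he
  let s : ℕ → (X → G) × (X → G) := fun k => Nat.rec (fun _ => 0, fun _ => 0) (fun k p => nxt k p) k
  have hs1 : ∀ k, s (k + 1) = nxt k (s k) := fun k => rfl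
  have hs : ∀ k, CrgInv UA UB κ e P Q k (s k) := by
    intro k
    induction k with
    | zero => exact h0
    | succ k ih => rw [hs1]; exact (hnxt k _ ih).1
  have hcb : ∀ k : ℕ, 4 * κ * e * (1 - (1 / 2 : ℝ) ^ k) ≤ 4 * κ * e := by
    intro k
    have hj : (0 : ℝ) ≤ (1 / 2 : ℝ) ^ k := by positivity
    nlinarith
  obtain ⟨a, had, hab, hat⟩ := crg_limit (f := fun k => (s k).1) (C := 2 * κ * e) (D := 4 * κ * e) hUA
    (fun k => (hs k).1) (fun k x hx => ((hs k).2.2.1 x hx).trans (hcb k))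
    (fun k x hx => by rw [hs1]; exact (hnxt k _ (hs k)).2.1 x hx)
  obtain ⟨b, hbd, hbb, hbt⟩ := crg_limit (f := fun k => (s k).2) (C := 2 * κ * e) (D := 4 * κ * e) hUB
    (fun k => (hs k).2.1) (fun k x hx => ((hs k).2.2.2.1 x hx).trans (hcb k))
    (fun k x hx => by rw [hs1]; exact (hnxt k _ (hs k)).2.2 x hx)
  refine ⟨a, b, had, hbd, hab, hbb, fun x hx => ?_⟩
  have hax : (x, a x) ∈ (UA ∩ UB) ×ˢ ball (0 : G) r :=
    ⟨hx, mem_ball_zero_iff.2 ((hab x hx.1).trans_lt he)⟩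
  have hbx : (x, b x) ∈ (UA ∩ UB) ×ˢ ball (0 : G) r :=
    ⟨hx, mem_ball_zero_iff.2 ((hbb x hx.2).trans_lt he)⟩
  have hPc : ContinuousAt P (x, a x) :=
    ((hP _ hax).differentiableAt (((hUA.inter hUB).prod isOpen_ball).mem_nhds hax)).continuousAt
  have hQc : ContinuousAt Q (x, b x) :=
    ((hQ _ hbx).differentiableAt (((hUA.inter hUB).prod isOpen_ball).mem_nhds hbx)).continuousAt
  have ht1 : Tendsto (fun k => P (x, (s k).1 x)) atTop (𝓝 (P (x, a x))) :=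
    hPc.tendsto.comp (tendsto_const_nhds.prodMk_nhds (hat x hx.1))
  have ht2 : Tendsto (fun k => Q (x, (s k).2 x)) atTop (𝓝 (Q (x, b x))) :=
    hQc.tendsto.comp (tendsto_const_nhds.prodMk_nhds (hbt x hx.2))
  have ht3 : Tendsto (fun k => Q (x, (s k).2 x) - P (x, (s k).1 x)) atTop (𝓝 0) := by
    refine squeeze_zero_norm (fun k => (hs k).2.2.2.2 x hx) ?_
    have := (tendsto_pow_atTop_nhds_zero_of_lt_one (by norm_num : (0 : ℝ) ≤ 1 / 2)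
      (by norm_num : (1 / 2 : ℝ) < 1)).const_mul (2 * e)
    simpa using this
  have h4 := tendsto_nhds_unique (ht2.sub ht1) ht3
  exact (sub_eq_zero.1 h4).symm

end Claimed.Agent.R245
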