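/-
Row 245 / S0484, sec 2.1 (criterion), architect: helper187.   Package CR-NF: normal form of the transition map along the axis.
ONE FILE = ONE PACKAGE = ONE OWNER.  Do not change the statements; helper lemmas: prefix `crn_`, keep them in this file.
Black boxes: `scv_analyticOnNhd`, `scv_lipschitz` (R245/SCV.lean).
-/
import Mathlib
import Claimed.Agent.R245.SCV
import Claimed.Agent.R245.CritDefs

set_option autoImplicit false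

namespace Claimed.Agent.R245

open Metric Set Filter Topology

/-- the conclusion of `cr_nf` for a pair of perturbed transition maps `T₁ ≈ τ`, `T₂ ≈ id` -/
structure NFConcl (ρ η r lam e r₃ : ℝ) (Tm Ti : ℂ → V3 →L[ℂ] V3) (T₁ T₂ : V3 → V3) : Prop where
  dom1 : ∀ z₁ ∈ ball (0 : ℂ) ρ, ∀ z₂ ∈ ball (0 : ℂ) η, ∀ v ∈ ball (0 : V3) r,
    vec3 z₁ z₂ 0 + v ∈ ball (0 : V3) r₃
  dom2 : ∀ z₁ ∈ ball (0 : ℂ) ρ, ∀ z₂ ∈ ball (0 : ℂ) η, ∀ v ∈ ball (0 : V3) r,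
    vec3 z₁ z₂ 0 + Tm z₁ v ∈ ball (0 : V3) r₃
  init1 : ∀ z₁ ∈ ball (0 : ℂ) ρ, ∀ z₂ ∈ ball (0 : ℂ) η,
    ‖Ti z₁ (T₁ (vec3 z₁ z₂ 0) - vec3 z₁ z₂ 0)‖ ≤ e
  init2 : ∀ z₁ ∈ ball (0 : ℂ) ρ, ∀ z₂ ∈ ball (0 : ℂ) η,
    ‖Ti z₁ (T₂ (vec3 z₁ z₂ 0) - vec3 z₁ z₂ 0)‖ ≤ e
  lip1 : ∀ z₁ ∈ ball (0 : ℂ) ρ, ∀ z₂ ∈ ball (0 : ℂ) η, ∀ v ∈ ball (0 : V3) r, ∀ v' ∈ ball (0 : V3) r,
    ‖(Ti z₁ (T₁ (vec3 z₁ z₂ 0 + v) - vec3 z₁ z₂ 0) - v)
      - (Ti z₁ (T₁ (vec3 z₁ z₂ 0 + v') - vec3 z₁ z₂ 0) - v')‖ ≤ lam * ‖v - v'‖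
  lip2 : ∀ z₁ ∈ ball (0 : ℂ) ρ, ∀ z₂ ∈ ball (0 : ℂ) η, ∀ v ∈ ball (0 : V3) r, ∀ v' ∈ ball (0 : V3) r,
    ‖(Ti z₁ (T₂ (vec3 z₁ z₂ 0 + Tm z₁ v) - vec3 z₁ z₂ 0) - v)
      - (Ti z₁ (T₂ (vec3 z₁ z₂ 0 + Tm z₁ v') - vec3 z₁ z₂ 0) - v')‖ ≤ lam * ‖v - v'‖

theorem crn_norm_vec3 (a b c : ℂ) : ‖vec3 a b c‖ = max ‖a‖ (max ‖b‖ ‖c‖) := by
  apply le_antisymm
  · rw [pi_norm_le_iff_of_nonneg (by positivity)]
    intro i
    fin_cases i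
    · exact le_max_left _ _
    · exact (le_max_left _ _).trans (le_max_right _ _)
    · exact (le_max_right _ _).trans (le_max_right _ _)
  · refine max_le ?_ (max_le ?_ ?_)
    · exact norm_le_pi_norm (vec3 a b c) 0
    · exact norm_le_pi_norm (vec3 a b c) 1
    · exact norm_le_pi_norm (vec3 a b c) 2

theorem crn_norm_axis (z : ℂ) : ‖vec3 z 0 0‖ = ‖z‖ := by
  rw [crn_norm_vec3]
  simp

theorem crn_norm_axis2 (z : ℂ) : ‖vec3 0 z 0‖ = ‖z‖ := by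
  rw [crn_norm_vec3]
  simp

theorem crn_vec3_split (z₁ z₂ : ℂ) : vec3 z₁ z₂ 0 = vec3 z₁ 0 0 + vec3 0 z₂ 0 := by
  funext i
  fin_cases i <;> simp [vec3]

theorem crn_vec3_zero : vec3 0 0 0 = 0 := by
  funext i
  fin_cases i <;> simp [vec3]

/-- the first axis as a continuous linear map -/
noncomputable def crnAxis : ℂ →L[ℂ] V3 :=
  ContinuousLinearMap.pi fun i => if i = 0 then ContinuousLinearMap.id ℂ ℂ else 0

theorem crnAxis_apply (z : ℂ) : crnAxis z = vec3 z 0 0 := by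
  funext i
  fin_cases i <;> simp [vec3, crnAxis]

/-- part (A) of `cr_nf` -/
theorem crn_partA {τ : V3 → V3} {r₃ : ℝ} (hr₃ : 0 < r₃) (hτ : DifferentiableOn ℂ τ (ball (0 : V3) r₃))
    (hinj : Function.Injective (fderiv ℂ τ 0)) :
    ∃ (ρ M : ℝ) (Ti : ℂ → V3 →L[ℂ] V3), 0 < ρ ∧ ρ ≤ r₃ / 4 ∧ 1 ≤ M ∧
      DifferentiableOn ℂ (fun z : ℂ => fderiv ℂ τ (vec3 z 0 0)) (ball (0 : ℂ) ρ) ∧
      DifferentiableOn ℂ Ti (ball (0 : ℂ) ρ) ∧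
      (∀ z ∈ ball (0 : ℂ) ρ, ‖fderiv ℂ τ (vec3 z 0 0)‖ ≤ M ∧ ‖Ti z‖ ≤ M ∧
        (∀ v, Ti z (fderiv ℂ τ (vec3 z 0 0) v) = v) ∧
        (∀ v, fderiv ℂ τ (vec3 z 0 0) (Ti z v) = v)) := by
  have hD : AnalyticOnNhd ℂ (fderiv ℂ τ) (ball (0 : V3) r₃) :=
    (scv_analyticOnNhd isOpen_ball hτ).fderiv
  set Tm : ℂ → V3 →L[ℂ] V3 := fun z => fderiv ℂ τ (vec3 z 0 0) with hTm
  have hTmd : ∀ z : ℂ, ‖z‖ < r₃ → DifferentiableAt ℂ Tm z := by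
    intro z hz
    have h1 : DifferentiableAt ℂ (fderiv ℂ τ) (crnAxis z) := by
      apply (hD _ _).differentiableAt
      rw [crnAxis_apply, mem_ball_zero_iff, crn_norm_axis]
      exact hz
    have h2 := h1.comp z crnAxis.differentiableAt
    have e : Tm = fderiv ℂ τ ∘ crnAxis := by
      funext w
      simp [hTm, crnAxis_apply]
    rw [e]
    exact h2
  have hT0 : Tm 0 = fderiv ℂ τ 0 := by
    simp only [hTm, crn_vec3_zero]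
  have hu0 : IsUnit (Tm 0) := by
    rw [ContinuousLinearMap.isUnit_iff_bijective, hT0]
    exact ⟨hinj, (LinearMap.injective_iff_surjective (f := (fderiv ℂ τ 0).toLinearMap)).1 hinj⟩
  have hc0 : ContinuousAt Tm 0 := (hTmd 0 (by simpa using hr₃)).continuousAt
  have hi0 : ContinuousAt (fun z => Ring.inverse (Tm z)) 0 := by
    obtain ⟨u, hu⟩ := hu0
    have := NormedRing.inverse_continuousAt u
    rw [hu] at this
    exact ContinuousAt.comp (f := Tm) (g := Ring.inverse) this hc0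
  have e1 : ∀ᶠ z in 𝓝 (0 : ℂ), IsUnit (Tm z) := hc0.eventually (Units.isOpen.mem_nhds hu0)
  have e2 : ∀ᶠ z in 𝓝 (0 : ℂ), ‖Tm z‖ < ‖Tm 0‖ + 1 :=
    hc0.norm.eventually (Iio_mem_nhds (by linarith))
  have e3 : ∀ᶠ z in 𝓝 (0 : ℂ), ‖Ring.inverse (Tm z)‖ < ‖Ring.inverse (Tm 0)‖ + 1 :=
    hi0.norm.eventually (Iio_mem_nhds (by linarith))
  obtain ⟨ρ₀, hρ₀, hball⟩ := Metric.eventually_nhds_iff_ball.1 (e1.and (e2.and e3))
  set M : ℝ := max 1 (max (‖Tm 0‖ + 1) (‖Ring.inverse (Tm 0)‖ + 1)) with hM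
  have hρle : min ρ₀ (r₃ / 4) ≤ r₃ / 4 := min_le_right _ _
  have hsub : ∀ z ∈ ball (0 : ℂ) (min ρ₀ (r₃ / 4)), z ∈ ball (0 : ℂ) ρ₀ ∧ ‖z‖ < r₃ := by
    intro z hz
    rw [mem_ball_zero_iff] at hz
    refine ⟨?_, ?_⟩
    · rw [mem_ball_zero_iff]
      exact hz.trans_le (min_le_left _ _)
    · have := hz.trans_le hρle
      linarith
  refine ⟨min ρ₀ (r₃ / 4), M, fun z => Ring.inverse (Tm z), lt_min hρ₀ (by positivity), hρle,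
    le_max_left _ _, ?_, ?_, ?_⟩
  · intro z hz
    exact (hTmd z (hsub z hz).2).differentiableWithinAt
  · intro z hz
    exact ((differentiableAt_inverse (hball z (hsub z hz).1).1).comp z
      (hTmd z (hsub z hz).2)).differentiableWithinAt
  · intro z hz
    obtain ⟨h1, h2, h3⟩ := hball z (hsub z hz).1
    refine ⟨?_, ?_, ?_, ?_⟩
    · exact h2.le.trans ((le_max_left _ _).trans (le_max_right _ _))
    · exact h3.le.trans ((le_max_right _ _).trans (le_max_right _ _))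
    · intro v
      have := Ring.inverse_mul_cancel (Tm z) h1
      exact congrArg (fun L : V3 →L[ℂ] V3 => L v) this
    · intro v
      have := Ring.mul_inverse_cancel (Tm z) h1
      exact congrArg (fun L : V3 →L[ℂ] V3 => L v) this

/-- mean value inequality for `w ↦ τ (c + w) - T w` -/
theorem crn_mv {τ : V3 → V3} {r₃ r' κ : ℝ} (hτ : DifferentiableOn ℂ τ (ball (0 : V3) r₃)) {c : V3}
    {T : V3 →L[ℂ] V3} (hdom : ∀ w ∈ ball (0 : V3) r', c + w ∈ ball (0 : V3) r₃)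
    (hb : ∀ w ∈ ball (0 : V3) r', ‖fderiv ℂ τ (c + w) - T‖ ≤ κ) {w w' : V3}
    (hw : w ∈ ball (0 : V3) r') (hw' : w' ∈ ball (0 : V3) r') :
    ‖τ (c + w) - τ (c + w') - T (w - w')‖ ≤ κ * ‖w - w'‖ := by
  have h := Convex.norm_image_sub_le_of_norm_hasFDerivWithin_le (𝕜 := ℂ)
    (f := fun w => τ (c + w) - T w) (f' := fun w => fderiv ℂ τ (c + w) - T) (s := ball (0 : V3) r')
    (C := κ) (fun x hx => ?_) hb (convex_ball 0 r') hw' hw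
  · have e : τ (c + w) - τ (c + w') - T (w - w') = (τ (c + w) - T w) - (τ (c + w') - T w') := by
      rw [map_sub]
      abel
    rw [e]
    exact h
  · have h1 : HasFDerivAt τ (fderiv ℂ τ (c + x)) (c + x) :=
      (hτ.differentiableAt (isOpen_ball.mem_nhds (hdom x hx))).hasFDerivAt
    have h2 : HasFDerivAt (fun w => τ (c + w)) (fderiv ℂ τ (c + x)) x := by
      have := h1.comp x ((hasFDerivAt_id x).const_add c)
      simpa using this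
    exact (h2.sub T.hasFDerivAt).hasFDerivWithinAt

theorem crn_lip1 {A B : V3 →L[ℂ] V3} {M κ μ : ℝ} (hB : ‖B‖ ≤ M) (hBA : ∀ v, B (A v) = v)
    {T τ : V3 → V3} {Z v v' : V3}
    (h1 : ‖(T (Z + v) - τ (Z + v)) - (T (Z + v') - τ (Z + v'))‖ ≤ μ * ‖v - v'‖)
    (h2 : ‖τ (Z + v) - τ (Z + v') - A (v - v')‖ ≤ κ * ‖v - v'‖) :
    ‖(B (T (Z + v) - Z) - v) - (B (T (Z + v') - Z) - v')‖ ≤ M * (μ + κ) * ‖v - v'‖ := by
  have e : (B (T (Z + v) - Z) - v) - (B (T (Z + v') - Z) - v')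
      = B (((T (Z + v) - τ (Z + v)) - (T (Z + v') - τ (Z + v')))
        + (τ (Z + v) - τ (Z + v') - A (v - v'))) := by
    simp only [map_add, map_sub, hBA]
    abel
  rw [e]
  have hM : 0 ≤ M := (norm_nonneg _).trans hB
  calc ‖B (((T (Z + v) - τ (Z + v)) - (T (Z + v') - τ (Z + v')))
        + (τ (Z + v) - τ (Z + v') - A (v - v')))‖
      ≤ ‖B‖ * ‖((T (Z + v) - τ (Z + v)) - (T (Z + v') - τ (Z + v')))
        + (τ (Z + v) - τ (Z + v') - A (v - v'))‖ := B.le_opNorm _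
    _ ≤ M * (μ * ‖v - v'‖ + κ * ‖v - v'‖) :=
        mul_le_mul hB ((norm_add_le _ _).trans (add_le_add h1 h2)) (norm_nonneg _) hM
    _ = M * (μ + κ) * ‖v - v'‖ := by ring

theorem crn_lip2 {A B : V3 →L[ℂ] V3} {M μ : ℝ} (hA : ‖A‖ ≤ M) (hB : ‖B‖ ≤ M)
    (hBA : ∀ v, B (A v) = v) (hμ : 0 ≤ μ) {T : V3 → V3} {Z v v' : V3}
    (h1 : ‖(T (Z + A v) - (Z + A v)) - (T (Z + A v') - (Z + A v'))‖
      ≤ μ * ‖(Z + A v) - (Z + A v')‖) :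
    ‖(B (T (Z + A v) - Z) - v) - (B (T (Z + A v') - Z) - v')‖ ≤ M * μ * M * ‖v - v'‖ := by
  have e : (B (T (Z + A v) - Z) - v) - (B (T (Z + A v') - Z) - v')
      = B ((T (Z + A v) - (Z + A v)) - (T (Z + A v') - (Z + A v'))) := by
    simp only [map_add, map_sub, hBA]
    abel
  rw [e]
  have hM : 0 ≤ M := (norm_nonneg _).trans hB
  have e2 : (Z + A v) - (Z + A v') = A (v - v') := by
    rw [map_sub]
    abel
  rw [e2] at h1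
  have h3 : ‖A (v - v')‖ ≤ M * ‖v - v'‖ :=
    (A.le_opNorm _).trans (mul_le_mul_of_nonneg_right hA (norm_nonneg _))
  calc ‖B ((T (Z + A v) - (Z + A v)) - (T (Z + A v') - (Z + A v')))‖
      ≤ ‖B‖ * ‖(T (Z + A v) - (Z + A v)) - (T (Z + A v') - (Z + A v'))‖ := B.le_opNorm _
    _ ≤ M * (μ * (M * ‖v - v'‖)) :=
        mul_le_mul hB (h1.trans (mul_le_mul_of_nonneg_left h3 hμ)) (norm_nonneg _) hM
    _ = M * μ * M * ‖v - v'‖ := by ring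

theorem crn_init1 {A B : V3 →L[ℂ] V3} {M κ δ : ℝ} (hA : ‖A‖ ≤ M) (hB : ‖B‖ ≤ M)
    {T τ : V3 → V3} {c w : V3} (hc : τ c = c) (h1 : ‖T (c + w) - τ (c + w)‖ ≤ δ)
    (h2 : ‖τ (c + w) - τ c - A w‖ ≤ κ * ‖w‖) :
    ‖B (T (c + w) - (c + w))‖ ≤ M * (δ + (κ + M + 1) * ‖w‖) := by
  have hM : 0 ≤ M := (norm_nonneg _).trans hB
  have e : T (c + w) - (c + w) = (T (c + w) - τ (c + w)) + (τ (c + w) - τ c - A w) + A w - w := by
    rw [hc]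
    abel
  have h3 : ‖A w‖ ≤ M * ‖w‖ :=
    (A.le_opNorm _).trans (mul_le_mul_of_nonneg_right hA (norm_nonneg _))
  have h4 : ‖T (c + w) - (c + w)‖ ≤ δ + (κ + M + 1) * ‖w‖ := by
    rw [e]
    calc ‖(T (c + w) - τ (c + w)) + (τ (c + w) - τ c - A w) + A w - w‖
        ≤ ‖(T (c + w) - τ (c + w)) + (τ (c + w) - τ c - A w) + A w‖ + ‖w‖ := norm_sub_le _ _
      _ ≤ ‖(T (c + w) - τ (c + w)) + (τ (c + w) - τ c - A w)‖ + ‖A w‖ + ‖w‖ := by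
          gcongr
          exact norm_add_le _ _
      _ ≤ ‖T (c + w) - τ (c + w)‖ + ‖τ (c + w) - τ c - A w‖ + ‖A w‖ + ‖w‖ := by
          gcongr
          exact norm_add_le _ _
      _ ≤ δ + κ * ‖w‖ + M * ‖w‖ + ‖w‖ := by gcongr
      _ = δ + (κ + M + 1) * ‖w‖ := by ring
  exact (B.le_opNorm _).trans (mul_le_mul hB h4 (norm_nonneg _) hM)

/-- **Normal form along the axis.**  `τ` holomorphic on `ball 0 r₃ ⊆ V3`, identity on the first axis, `Dτ(0)` injective.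
`Tm z = Dτ (z,0,0)`, `Ti z = (Tm z)⁻¹`.
Route.  (A) `τ` is analytic (`scv_analyticOnNhd`), so `Dτ = fderiv ℂ τ` is analytic, in particular differentiable and continuous, on
`ball 0 r₃` (`AnalyticOnNhd.fderiv`).  `Tm z := fderiv ℂ τ (vec3 z 0 0)`, `Ti z := Ring.inverse (Tm z)` (or `ContinuousLinearMap.inverse`).
`Tm 0` is injective, hence a unit of `V3 →L[ℂ] V3` (finite dimension: `LinearEquiv.ofInjectiveEndo`, `toContinuousLinearEquiv`); units are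
open and `Ring.inverse` is differentiable at units (`differentiableAt_inverse`), so for `ρ` small `Tm z` is a unit, `Ti` is differentiable,
`‖Tm z‖ ≤ ‖Tm 0‖ + 1`, `‖Ti z‖ ≤ ‖Ti 0‖ + 1` on `ball 0 ρ`; take `ρ ≤ r₃ / 4`, `M := max 1 (…)`.
(B) `Dτ` is uniformly continuous on the compact `closedBall 0 (r₃ / 2)`: given `lam` there is `r' ≤ r₃/4` with
`‖Dτ (vec3 z₁ 0 0 + w) - Tm z₁‖ ≤ lam / (4 M)` for `‖z₁‖ < ρ`, `‖w‖ < r'`.  Take `r := r' / (2 M)` (so `‖Tm z₁ v‖ < r'/2`), `η ≤ r'/2`.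
Write `Z = vec3 z₁ z₂ 0 = Z₁ + w₂`, `Z₁ = vec3 z₁ 0 0`, `w₂ = vec3 0 z₂ 0`, `‖w₂‖ = ‖z₂‖ < η`.  `T₁ = τ + e₁`, `T₂ = id + e₂`, `‖e_i‖ ≤ δ` on `ball 0 r₃`,
hence `e_i` is `(2 δ / r₃)`-Lipschitz on `ball 0 (r₃/2)` (`scv_lipschitz`).
`v ↦ τ (Z + v) - Tm z₁ v` has derivative `Dτ (Z + v) - Tm z₁` of norm `≤ lam/(4M)` on the convex set `ball 0 r`
(`Convex.norm_image_sub_le_of_norm_fderiv_le` or the `HasFDerivWithinAt` version).  So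
`lip1 ≤ M (lam/(4M) + 2δ/r₃) ≤ lam` if `δ ≤ lam r₃ / (8 M)`;   `lip2 ≤ M (2δ/r₃) M ≤ lam` if `δ ≤ lam r₃ / (2 M²)`;
`init1`: `τ Z - Z = [τ (Z₁ + w₂) - τ Z₁ - Tm z₁ w₂] + Tm z₁ w₂ - w₂` (use `τ Z₁ = Z₁`), norm `≤ (lam/(4M) + M + 1) η`, so
`init1 ≤ M ((lam/(4M) + M + 1) η + δ) ≤ e` for `η, δ` small;   `init2 ≤ M δ`. -/
theorem cr_nf {τ : V3 → V3} {r₃ : ℝ} (hr₃ : 0 < r₃) (hτ : DifferentiableOn ℂ τ (ball (0 : V3) r₃))
    (haxis : ∀ z : ℂ, ‖z‖ < r₃ → τ (vec3 z 0 0) = vec3 z 0 0)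
    (hinj : Function.Injective (fderiv ℂ τ 0)) :
    ∃ (ρ M : ℝ) (Tm Ti : ℂ → V3 →L[ℂ] V3), 0 < ρ ∧ ρ ≤ r₃ ∧ 1 ≤ M ∧
      DifferentiableOn ℂ Tm (ball (0 : ℂ) ρ) ∧ DifferentiableOn ℂ Ti (ball (0 : ℂ) ρ) ∧
      (∀ z ∈ ball (0 : ℂ) ρ, ‖Tm z‖ ≤ M ∧ ‖Ti z‖ ≤ M ∧ (∀ v, Ti z (Tm z v) = v) ∧
        (∀ v, Tm z (Ti z v) = v)) ∧
      ∀ lam : ℝ, 0 < lam → ∃ r : ℝ, 0 < r ∧ ∀ e : ℝ, 0 < e → ∃ η δ : ℝ, 0 < η ∧ 0 < δ ∧
        ∀ T₁ T₂ : V3 → V3, DifferentiableOn ℂ T₁ (ball (0 : V3) r₃) →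
          DifferentiableOn ℂ T₂ (ball (0 : V3) r₃) →
          (∀ z ∈ ball (0 : V3) r₃, ‖T₁ z - τ z‖ ≤ δ) → (∀ z ∈ ball (0 : V3) r₃, ‖T₂ z - z‖ ≤ δ) →
          NFConcl ρ η r lam e r₃ Tm Ti T₁ T₂ := by
  obtain ⟨ρ, M, Ti, hρ, hρ4, hM1, hTmd, hTid, hprop⟩ := crn_partA hr₃ hτ hinj
  set Tm : ℂ → V3 →L[ℂ] V3 := fun z => fderiv ℂ τ (vec3 z 0 0) with hTm
  refine ⟨ρ, M, Tm, Ti, hρ, by linarith, hM1, hTmd, hTid, hprop, ?_⟩
  intro lam hlam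
  have hM0 : 0 < M := by linarith
  -- uniform continuity of the derivative
  have hDc : ContinuousOn (fderiv ℂ τ) (closedBall (0 : V3) (r₃ / 2)) :=
    ((scv_analyticOnNhd isOpen_ball hτ).fderiv.continuousOn).mono
      (closedBall_subset_ball (by linarith))
  have huc := (isCompact_closedBall (0 : V3) (r₃ / 2)).uniformContinuousOn_of_continuous hDc
  rw [Metric.uniformContinuousOn_iff] at huc
  set κ : ℝ := lam / (4 * M) with hκ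
  have hκ0 : 0 < κ := by positivity
  obtain ⟨δ', hδ', huc'⟩ := huc κ hκ0
  set r' : ℝ := min δ' (r₃ / 4) with hr'def
  have hr' : 0 < r' := lt_min hδ' (by positivity)
  have hr'1 : r' ≤ δ' := min_le_left _ _
  have hr'2 : r' ≤ r₃ / 4 := min_le_right _ _
  have key : ∀ z₁ ∈ ball (0 : ℂ) ρ, ∀ w ∈ ball (0 : V3) r',
      vec3 z₁ 0 0 + w ∈ ball (0 : V3) (r₃ / 2) ∧ ‖fderiv ℂ τ (vec3 z₁ 0 0 + w) - Tm z₁‖ ≤ κ := by
    intro z₁ hz₁ w hw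
    rw [mem_ball_zero_iff] at hz₁ hw
    have h1 : ‖vec3 z₁ 0 0 + w‖ < r₃ / 2 := by
      have := norm_add_le (vec3 z₁ 0 0) w
      rw [crn_norm_axis] at this
      linarith
    refine ⟨by rwa [mem_ball_zero_iff], ?_⟩
    have h2 := huc' (vec3 z₁ 0 0 + w) (by rw [mem_closedBall_zero_iff]; exact h1.le) (vec3 z₁ 0 0)
      (by rw [mem_closedBall_zero_iff, crn_norm_axis]; linarith)
      (by rw [dist_eq_norm, add_sub_cancel_left]; linarith)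
    rw [dist_eq_norm] at h2
    exact h2.le
  have hhalf : ball (0 : V3) (r₃ / 2) ⊆ ball (0 : V3) r₃ := ball_subset_ball (by linarith)
  have mv : ∀ z₁ ∈ ball (0 : ℂ) ρ, ∀ w ∈ ball (0 : V3) r', ∀ w' ∈ ball (0 : V3) r',
      ‖τ (vec3 z₁ 0 0 + w) - τ (vec3 z₁ 0 0 + w') - Tm z₁ (w - w')‖ ≤ κ * ‖w - w'‖ :=
    fun z₁ hz₁ w hw w' hw' => crn_mv hτ (fun x hx => hhalf (key z₁ hz₁ x hx).1)
      (fun x hx => (key z₁ hz₁ x hx).2) hw hw'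
  refine ⟨r' / (2 * M), by positivity, ?_⟩
  intro e he
  set c₁ : ℝ := κ + M + 1 with hc₁def
  have hc₁0 : 0 < c₁ := by positivity
  set η : ℝ := min (r' / 2) (e / (2 * M * c₁)) with hηdef
  set δ : ℝ := min (lam * r₃ / (8 * M)) (min (lam * r₃ / (2 * M ^ 2)) (e / (2 * M))) with hδdef
  have hη0 : 0 < η := lt_min (by positivity) (by positivity)
  have hδ0 : 0 < δ := lt_min (by positivity) (lt_min (by positivity) (by positivity))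
  have hη1 : η ≤ r' / 2 := min_le_left _ _
  have hη2 : η ≤ e / (2 * M * c₁) := min_le_right _ _
  have hδ1 : δ ≤ lam * r₃ / (8 * M) := min_le_left _ _
  have hδ2 : δ ≤ lam * r₃ / (2 * M ^ 2) := (min_le_right _ _).trans (min_le_left _ _)
  have hδ3 : δ ≤ e / (2 * M) := (min_le_right _ _).trans (min_le_right _ _)
  refine ⟨η, δ, hη0, hδ0, ?_⟩
  intro T₁ T₂ hT₁ hT₂ hc₁ hc₂
  have L1 : ∀ a ∈ ball (0 : V3) (r₃ / 2), ∀ a' ∈ ball (0 : V3) (r₃ / 2),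
      ‖(T₁ a - τ a) - (T₁ a' - τ a')‖ ≤ 2 * δ / r₃ * ‖a - a'‖ := fun a ha a' ha' =>
    scv_lipschitz (g := fun z => T₁ z - τ z) (hT₁.sub hτ) hc₁ ha ha'
  have L2 : ∀ a ∈ ball (0 : V3) (r₃ / 2), ∀ a' ∈ ball (0 : V3) (r₃ / 2),
      ‖(T₂ a - a) - (T₂ a' - a')‖ ≤ 2 * δ / r₃ * ‖a - a'‖ := fun a ha a' ha' =>
    scv_lipschitz (g := fun z => T₂ z - z) (hT₂.sub differentiableOn_id) hc₂ ha ha'
  have hμ0 : 0 ≤ 2 * δ / r₃ := by positivity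
  -- sizes
  have hw₂ : ∀ z₂ ∈ ball (0 : ℂ) η, ‖vec3 0 z₂ 0‖ < η := fun z₂ hz₂ => by
    rw [crn_norm_axis2]
    exact mem_ball_zero_iff.1 hz₂
  have hv : ∀ v ∈ ball (0 : V3) (r' / (2 * M)), M * ‖v‖ < r' / 2 := fun v hv => by
    rw [mem_ball_zero_iff, lt_div_iff₀ (by positivity)] at hv
    linarith
  have hv1 : ∀ v ∈ ball (0 : V3) (r' / (2 * M)), ‖v‖ < r' / 2 := fun v hv' => by
    have := hv v hv'
    have h0 := norm_nonneg v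
    nlinarith
  have hsum : ∀ z₂ ∈ ball (0 : ℂ) η, ∀ v : V3, ‖v‖ < r' / 2 → vec3 0 z₂ 0 + v ∈ ball (0 : V3) r' :=
    fun z₂ hz₂ v hv' => by
      rw [mem_ball_zero_iff]
      have := norm_add_le (vec3 0 z₂ 0) v
      have := hw₂ z₂ hz₂
      linarith
  have hAv : ∀ z₁ ∈ ball (0 : ℂ) ρ, ∀ v ∈ ball (0 : V3) (r' / (2 * M)), ‖Tm z₁ v‖ < r' / 2 :=
    fun z₁ hz₁ v hv' =>
      lt_of_le_of_lt (((Tm z₁).le_opNorm v).trans
        (mul_le_mul_of_nonneg_right (hprop z₁ hz₁).1 (norm_nonneg _))) (hv v hv')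
  have hmem1 : ∀ z₁ ∈ ball (0 : ℂ) ρ, ∀ z₂ ∈ ball (0 : ℂ) η, ∀ v : V3, ‖v‖ < r' / 2 →
      vec3 z₁ z₂ 0 + v ∈ ball (0 : V3) (r₃ / 2) := fun z₁ hz₁ z₂ hz₂ v hv' => by
    rw [crn_vec3_split, add_assoc]
    exact (key z₁ hz₁ _ (hsum z₂ hz₂ v hv')).1
  refine ⟨?_, ?_, ?_, ?_, ?_, ?_⟩
  · intro z₁ hz₁ z₂ hz₂ v hv'
    exact hhalf (hmem1 z₁ hz₁ z₂ hz₂ v (hv1 v hv'))
  · intro z₁ hz₁ z₂ hz₂ v hv'
    exact hhalf (hmem1 z₁ hz₁ z₂ hz₂ _ (hAv z₁ hz₁ v hv'))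
  · -- init1
    intro z₁ hz₁ z₂ hz₂
    obtain ⟨hA, hB, -, -⟩ := hprop z₁ hz₁
    have hw2' : vec3 0 z₂ 0 ∈ ball (0 : V3) r' := by
      rw [mem_ball_zero_iff]
      have := hw₂ z₂ hz₂
      linarith
    have h0 : (0 : V3) ∈ ball (0 : V3) r' := mem_ball_self hr'
    have hmv := mv z₁ hz₁ _ hw2' _ h0
    rw [add_zero, sub_zero] at hmv
    have hcc : τ (vec3 z₁ 0 0) = vec3 z₁ 0 0 := haxis z₁ (by
      have := mem_ball_zero_iff.1 hz₁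
      linarith)
    have h1 := crn_init1 (T := T₁) hA hB hcc
      (hc₁ _ (hhalf (key z₁ hz₁ _ hw2').1)) hmv
    rw [crn_vec3_split]
    refine h1.trans ?_
    have h2 : c₁ * ‖vec3 0 z₂ 0‖ ≤ c₁ * (e / (2 * M * c₁)) :=
      mul_le_mul_of_nonneg_left ((hw₂ z₂ hz₂).le.trans hη2) hc₁0.le
    have h3 : c₁ * (e / (2 * M * c₁)) = e / (2 * M) := by
      field_simp
    have h4 : M * (e / (2 * M) + e / (2 * M)) = e := by
      field_simp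
      ring
    calc M * (δ + c₁ * ‖vec3 0 z₂ 0‖) ≤ M * (e / (2 * M) + e / (2 * M)) := by
          apply mul_le_mul_of_nonneg_left _ hM0.le
          rw [h3] at h2
          exact add_le_add hδ3 h2
      _ = e := h4
  · -- init2
    intro z₁ hz₁ z₂ hz₂
    obtain ⟨-, hB, -, -⟩ := hprop z₁ hz₁
    have hZ : vec3 z₁ z₂ 0 ∈ ball (0 : V3) r₃ := by
      have := hhalf (hmem1 z₁ hz₁ z₂ hz₂ 0 (by simpa using half_pos hr'))
      rwa [add_zero] at this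
    have h4 : M * (e / (2 * M)) = e / 2 := by
      field_simp
    calc ‖Ti z₁ (T₂ (vec3 z₁ z₂ 0) - vec3 z₁ z₂ 0)‖
        ≤ ‖Ti z₁‖ * ‖T₂ (vec3 z₁ z₂ 0) - vec3 z₁ z₂ 0‖ := (Ti z₁).le_opNorm _
      _ ≤ M * (e / (2 * M)) := mul_le_mul hB ((hc₂ _ hZ).trans hδ3) (norm_nonneg _) hM0.le
      _ = e / 2 := h4
      _ ≤ e := by linarith
  · -- lip1
    intro z₁ hz₁ z₂ hz₂ v hv' w hw'
    obtain ⟨-, hB, hBA, -⟩ := hprop z₁ hz₁
    have ha := hmem1 z₁ hz₁ z₂ hz₂ v (hv1 v hv')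
    have ha' := hmem1 z₁ hz₁ z₂ hz₂ w (hv1 w hw')
    have h1 := L1 _ ha _ ha'
    rw [add_sub_add_left_eq_sub] at h1
    have h2 := mv z₁ hz₁ _ (hsum z₂ hz₂ v (hv1 v hv')) _ (hsum z₂ hz₂ w (hv1 w hw'))
    rw [add_sub_add_left_eq_sub, ← add_assoc, ← add_assoc, ← crn_vec3_split] at h2
    refine (crn_lip1 hB hBA h1 h2).trans ?_
    apply mul_le_mul_of_nonneg_right _ (norm_nonneg _)
    have h3 : 2 * δ / r₃ ≤ κ := by
      rw [div_le_iff₀ hr₃, hκ]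
      have : lam * r₃ / (8 * M) = lam / (4 * M) * r₃ / 2 := by
        field_simp
        ring
      rw [this] at hδ1
      linarith
    have h4 : M * (κ + κ) = lam / 2 := by
      rw [hκ]
      field_simp
      ring
    calc M * (2 * δ / r₃ + κ) ≤ M * (κ + κ) := by
          apply mul_le_mul_of_nonneg_left _ hM0.le
          linarith
      _ = lam / 2 := h4
      _ ≤ lam := by linarith
  · -- lip2
    intro z₁ hz₁ z₂ hz₂ v hv' w hw'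
    obtain ⟨hA, hB, hBA, -⟩ := hprop z₁ hz₁
    have ha := hmem1 z₁ hz₁ z₂ hz₂ _ (hAv z₁ hz₁ v hv')
    have ha' := hmem1 z₁ hz₁ z₂ hz₂ _ (hAv z₁ hz₁ w hw')
    have h1 := L2 _ ha _ ha'
    refine (crn_lip2 hA hB hBA hμ0 h1).trans ?_
    apply mul_le_mul_of_nonneg_right _ (norm_nonneg _)
    have h3 : 2 * δ / r₃ ≤ lam / M ^ 2 := by
      rw [div_le_iff₀ hr₃]
      have : lam * r₃ / (2 * M ^ 2) = lam / M ^ 2 * r₃ / 2 := by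
        field_simp
      rw [this] at hδ2
      linarith
    have h4 : M * (lam / M ^ 2) * M = lam := by
      field_simp
    calc M * (2 * δ / r₃) * M ≤ M * (lam / M ^ 2) * M := by
          apply mul_le_mul_of_nonneg_right _ hM0.le
          exact mul_le_mul_of_nonneg_left h3 hM0.le
      _ = lam := h4

end Claimed.Agent.R245
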