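/-
Row 245 / S0484, sec 2.1 (criterion), architect: helper187.   Package CR-TRANS: the transition between two long strips, in normal form.
ONE FILE = ONE PACKAGE = ONE OWNER.  Do not change the statement; helper lemmas: prefix `crt_`, keep them in this file.
Black boxes: `cr_chart` (CritChart.lean), `cr_nf` (CritNF.lean), `scv_lipschitz` (SCV.lean).
-/
import Mathlib
import Claimed.Agent.R245.SCV
import Claimed.Agent.R245.CritDefs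
import Claimed.Agent.R245.CritChart
import Claimed.Agent.R245.CritNF

set_option autoImplicit false

namespace Claimed.Agent.R245

open MvPolynomial Metric Set Filter Topology Claims.C0412

/-- the conclusion of `cr_trans` for one pair of strips `S1, S2` -/
structure TransConcl (ρ η r lam e : ℝ) (Tm : ℂ → V3 →L[ℂ] V3) (S1 S2 : ℂ × ℂ → V4)
    (P Q : ℂ × ℂ × V3 → V3) : Prop where
  holP : DifferentiableOn ℂ P (ball (0 : ℂ) ρ ×ˢ ball (0 : ℂ) η ×ˢ ball (0 : V3) r)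
  holQ : DifferentiableOn ℂ Q (ball (0 : ℂ) ρ ×ˢ ball (0 : ℂ) η ×ˢ ball (0 : V3) r)
  initP : ∀ z₁ ∈ ball (0 : ℂ) ρ, ∀ z₂ ∈ ball (0 : ℂ) η, ‖P (z₁, z₂, 0)‖ ≤ e
  initQ : ∀ z₁ ∈ ball (0 : ℂ) ρ, ∀ z₂ ∈ ball (0 : ℂ) η, ‖Q (z₁, z₂, 0)‖ ≤ e
  lipP : ∀ z₁ ∈ ball (0 : ℂ) ρ, ∀ z₂ ∈ ball (0 : ℂ) η, ∀ v ∈ ball (0 : V3) r, ∀ v' ∈ ball (0 : V3) r,
    ‖(P (z₁, z₂, v) - v) - (P (z₁, z₂, v') - v')‖ ≤ lam * ‖v - v'‖
  lipQ : ∀ z₁ ∈ ball (0 : ℂ) ρ, ∀ z₂ ∈ ball (0 : ℂ) η, ∀ v ∈ ball (0 : V3) r, ∀ v' ∈ ball (0 : V3) r,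
    ‖(Q (z₁, z₂, v) - v) - (Q (z₁, z₂, v') - v')‖ ≤ lam * ‖v - v'‖
  glue : ∀ z₁ ∈ ball (0 : ℂ) ρ, ∀ z₂ ∈ ball (0 : ℂ) η, ∀ v ∈ ball (0 : V3) r, ∀ v' ∈ ball (0 : V3) r,
    P (z₁, z₂, v) = Q (z₁, z₂, v') → Sig S1 (vec3 z₁ z₂ 0 + v) = Sig S2 (vec3 z₁ z₂ 0 + Tm z₁ v')

/-! ### helper lemmas on `Sig` -/

theorem crt_mem_bidisc {b : ℝ} {z : V3} (hz : ‖z‖ < b) :
    (z 0, z 1) ∈ ball (0 : ℂ) b ×ˢ ball (0 : ℂ) b := by
  refine ⟨?_, ?_⟩ <;> rw [mem_ball_zero_iff]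
  · exact (norm_le_pi_norm z 0).trans_lt hz
  · exact (norm_le_pi_norm z 1).trans_lt hz

theorem crt_differentiableOn_Sig {s : ℂ × ℂ → V4} {b : ℝ}
    (hs : DifferentiableOn ℂ s (ball (0 : ℂ) b ×ˢ ball (0 : ℂ) b)) :
    DifferentiableOn ℂ (Sig s) (ball (0 : V3) b) := by
  have h1 : DifferentiableOn ℂ (fun z : V3 => s (crc_A z)) (ball (0 : V3) b) :=
    hs.comp crc_A.differentiableOn (fun z hz => crt_mem_bidisc (mem_ball_zero_iff.1 hz))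
  have h2 : Differentiable ℂ (fun z : V3 => Complex.exp (z 2)) :=
    ((ContinuousLinearMap.proj 2 : V3 →L[ℂ] ℂ).differentiable).cexp
  exact h2.differentiableOn.smul h1

theorem crt_Sig_mem_cone {F : MvPolynomial (Fin 4) ℂ} (hF : IsSmoothQuarticForm F) {b : ℝ}
    {s : ℂ × ℂ → V4} (hs : HolOn F s (ball (0 : ℂ) b ×ˢ ball (0 : ℂ) b)) {z : V3} (hz : ‖z‖ < b) :
    Sig s z ∈ Cone F :=
  l2_smul_mem_cone hF.1 (Complex.exp_ne_zero _) (hs.2 (crt_mem_bidisc hz))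

theorem crt_norm_Sig_sub_le (S s : ℂ × ℂ → V4) {z : V3} (hz : ‖z‖ ≤ 1) :
    ‖Sig S z - Sig s z‖ ≤ Real.exp 1 * ‖S (z 0, z 1) - s (z 0, z 1)‖ := by
  unfold Sig
  rw [← smul_sub, norm_smul]
  refine mul_le_mul_of_nonneg_right ?_ (norm_nonneg _)
  rw [Complex.norm_exp]
  refine Real.exp_le_exp.2 ?_
  exact ((Complex.re_le_norm _).trans (norm_le_pi_norm z 2)).trans hz

theorem crt_Sig_deriv_injective {s : ℂ × ℂ → V4} (hreg : StripReg s) :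
    Function.Injective ((fderiv ℂ s (0, 0)).comp crc_A +
      (ContinuousLinearMap.proj 2 : V3 →L[ℂ] ℂ).smulRight (s (0, 0))) := by
  rw [injective_iff_map_eq_zero]
  intro z hz
  have h1 : ((z 0, z 1) : ℂ × ℂ) = z 0 • ((1, 0) : ℂ × ℂ) + z 1 • ((0, 1) : ℂ × ℂ) := by
    ext <;> simp
  have h2 : z 2 • s (0, 0) + z 0 • fderiv ℂ s (0, 0) (1, 0) + z 1 • fderiv ℂ s (0, 0) (0, 1) = 0 := by
    have h3 : fderiv ℂ s (0, 0) (z 0, z 1) + z 2 • s (0, 0) = 0 := by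
      simpa [crc_A_apply] using hz
    rw [h1, map_add, map_smul, map_smul] at h3
    rw [← h3]
    abel
  have h4 := Fintype.linearIndependent_iff.1 hreg ![z 2, z 0, z 1] (by
    simpa [Fin.sum_univ_three] using h2)
  funext i
  fin_cases i
  · exact h4 1
  · exact h4 2
  · exact h4 0

theorem crt_differentiable_vec3 :
    Differentiable ℂ (fun p : ℂ × ℂ × V3 => vec3 p.1 p.2.1 0) := by
  rw [differentiable_pi]
  intro i
  fin_cases i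
  · exact differentiable_fst
  · have h : Differentiable ℂ (fun p : ℂ × ℂ × V3 => p.2.1) :=
      differentiable_fst.comp differentiable_snd
    exact h
  · exact differentiable_const 0

/-- **Transition in normal form.**
Route.  `x₀ := s2 (0,0) = s1 (0,0)`.  `cr_chart` for `s2` gives `r₀, r₂, Ψ`.  Choose `r₃ ≤ min r₂ 1` (so `r₃ ≤ b`) with
`Sig s1 z, Sig s2 z ∈ ball x₀ (r₀/4)` for `‖z‖ < r₃` (continuity of `Sig s_i` at `0`).  `τ := Ψ ∘ Sig s1` is holomorphic on `ball 0 r₃`;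
`τ (vec3 z 0 0) = Ψ (s1 (z,0)) = Ψ (s2 (z,0)) = Ψ (Sig s2 (vec3 z 0 0)) = vec3 z 0 0`.
`Dτ(0)` IS INJECTIVE: `Sig s2 (τ z) = Sig s1 z` near `0` (chart property on the cone; `Sig s1 z ∈ Cone F`); differentiate at `0`
(`τ 0 = 0`): `D(Sig s2)(0) ∘ Dτ(0) = D(Sig s1)(0)`, and `D(Sig s1)(0) z = z 0 • ∂₁s1 + z 1 • ∂₂s1 + z 2 • s1 (0,0)` is injective by `StripReg s1`.
`cr_nf` gives `ρ, M, Tm, Ti`, and for `lam`: `r`; for `e`: `η, δ₁`.  PERTURBATION: `Ψ` is bounded by `b` on `ball x₀ r₀`, hence `(2 b / r₀)`-Lipschitz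
on `ball x₀ (r₀/2)` (`scv_lipschitz`); `‖Sig S_i z - Sig s_i z‖ = ‖exp (z 2)‖ ‖S_i - s_i‖ ≤ exp 1 * δ`; choose `δ` with `exp 1 * δ < r₀/4` and
`(2 b / r₀) * exp 1 * δ ≤ δ₁`.  `T_i := Ψ ∘ Sig S_i` is holomorphic on `ball 0 r₃`, `‖T₁ - τ‖ ≤ δ₁`, `‖T₂ z - z‖ = ‖Ψ (Sig S2 z) - Ψ (Sig s2 z)‖ ≤ δ₁`.
`P (z₁,z₂,v) := Ti z₁ (T₁ (vec3 z₁ z₂ 0 + v) - vec3 z₁ z₂ 0)`, `Q (z₁,z₂,v) := Ti z₁ (T₂ (vec3 z₁ z₂ 0 + Tm z₁ v) - vec3 z₁ z₂ 0)`:
holomorphic by composition (`DifferentiableOn.clm_apply`, `NFConcl.dom1/dom2`), estimates = `NFConcl`.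
`glue`: `Ti z₁` is injective (`Tm z₁ (Ti z₁ v) = v`), so `Ψ y₁ = Ψ y₂` with `y₁ = Sig S1 (…)`, `y₂ = Sig S2 (…)` in `Cone F ∩ ball x₀ r₀`, hence
`y₁ = Sig s2 (Ψ y₁) = Sig s2 (Ψ y₂) = y₂`.  (The cone is stable under multiplication by `exp _ ≠ 0`: homogeneity of `F`.) -/
theorem cr_trans (F : MvPolynomial (Fin 4) ℂ) (hF : IsSmoothQuarticForm F) {b : ℝ}
    {s1 s2 : ℂ × ℂ → V4} (hP : StripGerm F b s1 s2) :
    ∃ (ρ M : ℝ) (Tm : ℂ → V3 →L[ℂ] V3), 0 < ρ ∧ ρ ≤ b ∧ 1 ≤ M ∧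
      DifferentiableOn ℂ Tm (ball (0 : ℂ) ρ) ∧ (∀ z ∈ ball (0 : ℂ) ρ, ‖Tm z‖ ≤ M) ∧
      ∀ lam : ℝ, 0 < lam → ∃ r : ℝ, 0 < r ∧ ∀ e : ℝ, 0 < e → ∃ η δ : ℝ, 0 < η ∧ 0 < δ ∧
        ∀ S1 S2 : ℂ × ℂ → V4, HolOn F S1 (ball (0 : ℂ) b ×ˢ ball (0 : ℂ) b) →
          HolOn F S2 (ball (0 : ℂ) b ×ˢ ball (0 : ℂ) b) →
          (∀ p ∈ ball (0 : ℂ) b ×ˢ ball (0 : ℂ) b, ‖S1 p - s1 p‖ < δ ∧ ‖S2 p - s2 p‖ < δ) →
          ∃ P Q : ℂ × ℂ × V3 → V3, TransConcl ρ η r lam e Tm S1 S2 P Q := by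
  have hb := hP.b_pos
  have hx : s1 (0, 0) = s2 (0, 0) := hP.axis 0 (by simpa using hb)
  obtain ⟨r₀, r₂, Ψ, hr₀, hr₂, hr₂b, hΨd, hΨb, hΨl, hΨr⟩ := cr_chart F hF hb hP.hol2 hP.reg2
  set x₀ : V4 := s2 (0, 0) with hx₀
  have hS1d := crt_differentiableOn_Sig hP.hol1.1
  have hS2d := crt_differentiableOn_Sig hP.hol2.1
  have hd1 : DifferentiableAt ℂ (Sig s1) 0 := hS1d.differentiableAt (ball_mem_nhds 0 hb)
  have hd2 : DifferentiableAt ℂ (Sig s2) 0 := hS2d.differentiableAt (ball_mem_nhds 0 hb)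
  have he1 : ∀ᶠ z in 𝓝 (0 : V3), Sig s1 z ∈ ball x₀ (r₀ / 4) := by
    have h : ball x₀ (r₀ / 4) ∈ 𝓝 (Sig s1 0) := by
      rw [crc_Sig_zero, hx]
      exact ball_mem_nhds _ (by positivity)
    exact hd1.continuousAt h
  have he2 : ∀ᶠ z in 𝓝 (0 : V3), Sig s2 z ∈ ball x₀ (r₀ / 4) := by
    have h : ball x₀ (r₀ / 4) ∈ 𝓝 (Sig s2 0) := by
      rw [crc_Sig_zero]
      exact ball_mem_nhds _ (by positivity)
    exact hd2.continuousAt h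
  obtain ⟨r', hr', hr'b⟩ := Metric.eventually_nhds_iff_ball.1 (he1.and he2)
  set r₃ : ℝ := min r' (min r₂ 1) with hr₃def
  have hr₃ : 0 < r₃ := lt_min hr' (lt_min hr₂ one_pos)
  have hr₃r' : r₃ ≤ r' := min_le_left _ _
  have hr₃r₂ : r₃ ≤ r₂ := (min_le_right _ _).trans (min_le_left _ _)
  have hr₃1 : r₃ ≤ 1 := (min_le_right _ _).trans (min_le_right _ _)
  have hr₃b : r₃ ≤ b := hr₃r₂.trans hr₂b
  have hnear : ∀ z : V3, ‖z‖ < r₃ → Sig s1 z ∈ ball x₀ (r₀ / 4) ∧ Sig s2 z ∈ ball x₀ (r₀ / 4) :=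
    fun z hz => hr'b z (by rw [mem_ball_zero_iff]; linarith)
  set τ : V3 → V3 := fun z => Ψ (Sig s1 z) with hτdef
  have hτ : DifferentiableOn ℂ τ (ball (0 : V3) r₃) :=
    hΨd.comp (hS1d.mono (ball_subset_ball hr₃b)) (fun z hz =>
      ball_subset_ball (by linarith) (hnear z (mem_ball_zero_iff.1 hz)).1)
  have haxis : ∀ z : ℂ, ‖z‖ < r₃ → τ (vec3 z 0 0) = vec3 z 0 0 := by
    intro z hz
    have h1 : Sig s1 (vec3 z 0 0) = Sig s2 (vec3 z 0 0) := by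
      have := hP.axis z (by linarith)
      simp [Sig, vec3, this]
    simp only [hτdef]
    rw [h1]
    exact (hΨl _ (by rw [crn_norm_axis]; linarith)).2
  have hτ0 : τ 0 = 0 := by
    have h := haxis 0 (by simpa using hr₃)
    have h0 : vec3 0 0 0 = (0 : V3) := by
      funext i
      fin_cases i <;> simp [vec3]
    rwa [h0] at h
  have hinj : Function.Injective (fderiv ℂ τ 0) := by
    have hτd : HasFDerivAt τ (fderiv ℂ τ 0) 0 :=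
      (hτ.differentiableAt (ball_mem_nhds 0 hr₃)).hasFDerivAt
    have hU : IsOpen (ball (0 : ℂ) b ×ˢ ball (0 : ℂ) b) := isOpen_ball.prod isOpen_ball
    have h00 : ((0 : ℂ), (0 : ℂ)) ∈ ball (0 : ℂ) b ×ˢ ball (0 : ℂ) b :=
      ⟨mem_ball_self hb, mem_ball_self hb⟩
    have hA1 := crc_hasFDerivAt_Sig (hP.hol1.1.differentiableAt (hU.mem_nhds h00))
    have hA2 := crc_hasFDerivAt_Sig (hP.hol2.1.differentiableAt (hU.mem_nhds h00))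
    have hA2' : HasFDerivAt (Sig s2) ((fderiv ℂ s2 (0, 0)).comp crc_A +
        (ContinuousLinearMap.proj 2 : V3 →L[ℂ] ℂ).smulRight (s2 (0, 0))) (τ 0) := by
      rw [hτ0]
      exact hA2
    have hcomp := hA2'.comp 0 hτd
    have heq : (Sig s2 ∘ τ) =ᶠ[𝓝 0] Sig s1 := by
      filter_upwards [ball_mem_nhds (0 : V3) hr₃] with z hz
      have hz' : ‖z‖ < r₃ := mem_ball_zero_iff.1 hz
      exact hΨr _ (ball_subset_ball (by linarith) (hnear z hz').1)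
        (crt_Sig_mem_cone hF hP.hol1 (by linarith))
    have huniq := (hcomp.congr_of_eventuallyEq heq.symm).unique hA1
    intro v w hvw
    apply crt_Sig_deriv_injective hP.reg1
    rw [← huniq]
    simp only [ContinuousLinearMap.comp_apply, hvw]
  obtain ⟨ρ, M, Tm, Ti, hρ, hρr₃, hM, hTmd, hTid, hT, hnf⟩ := cr_nf hr₃ hτ haxis hinj
  refine ⟨ρ, M, Tm, hρ, hρr₃.trans hr₃b, hM, hTmd, fun z hz => (hT z hz).1, ?_⟩
  intro lam hlam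
  obtain ⟨r, hr, hnf⟩ := hnf lam hlam
  refine ⟨r, hr, ?_⟩
  intro e he
  obtain ⟨η, δ₁, hη, hδ₁, hnf⟩ := hnf e he
  set E : ℝ := Real.exp 1 with hE
  have hE0 : 0 < E := Real.exp_pos 1
  set δ : ℝ := min (r₀ / (8 * E)) (δ₁ * r₀ / (2 * b * E)) with hδdef
  have hδ : 0 < δ := lt_min (by positivity) (by positivity)
  have hδ1 : E * δ ≤ r₀ / 8 := by
    have h1 : δ ≤ r₀ / (8 * E) := min_le_left _ _
    calc E * δ ≤ E * (r₀ / (8 * E)) := mul_le_mul_of_nonneg_left h1 hE0.le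
      _ = r₀ / 8 := by field_simp
  have hδ2 : 2 * b / r₀ * (E * δ) ≤ δ₁ := by
    have h1 : δ ≤ δ₁ * r₀ / (2 * b * E) := min_le_right _ _
    calc 2 * b / r₀ * (E * δ) ≤ 2 * b / r₀ * (E * (δ₁ * r₀ / (2 * b * E))) := by gcongr
      _ = δ₁ := by field_simp
  refine ⟨η, δ, hη, hδ, ?_⟩
  intro S1 S2 hS1 hS2 hclose
  -- the perturbed strips stay close
  have hpert : ∀ z : V3, ‖z‖ < r₃ → ‖Sig S1 z - Sig s1 z‖ ≤ E * δ ∧ ‖Sig S2 z - Sig s2 z‖ ≤ E * δ := by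
    intro z hz
    have hmem := crt_mem_bidisc (z := z) (b := b) (by linarith)
    have h1 := hclose _ hmem
    refine ⟨(crt_norm_Sig_sub_le S1 s1 (by linarith)).trans ?_,
      (crt_norm_Sig_sub_le S2 s2 (by linarith)).trans ?_⟩
    · exact mul_le_mul_of_nonneg_left h1.1.le hE0.le
    · exact mul_le_mul_of_nonneg_left h1.2.le hE0.le
  have hhalf : ∀ z : V3, ‖z‖ < r₃ → Sig S1 z ∈ ball x₀ (r₀ / 2) ∧ Sig S2 z ∈ ball x₀ (r₀ / 2) := by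
    intro z hz
    have h1 := hpert z hz
    have h2 := hnear z hz
    rw [mem_ball, dist_eq_norm] at h2
    rw [mem_ball, dist_eq_norm] at h2
    refine ⟨?_, ?_⟩ <;> rw [mem_ball, dist_eq_norm]
    · have h3 := norm_add_le (Sig S1 z - Sig s1 z) (Sig s1 z - x₀)
      rw [sub_add_sub_cancel] at h3
      linarith [h1.1, h2.1]
    · have h3 := norm_add_le (Sig S2 z - Sig s2 z) (Sig s2 z - x₀)
      rw [sub_add_sub_cancel] at h3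
      linarith [h1.2, h2.2]
  have hsub2 : ball x₀ (r₀ / 2) ⊆ ball x₀ r₀ := ball_subset_ball (by linarith)
  have hsub4 : ball x₀ (r₀ / 4) ⊆ ball x₀ (r₀ / 2) := ball_subset_ball (by linarith)
  set T₁ : V3 → V3 := fun z => Ψ (Sig S1 z) with hT₁
  set T₂ : V3 → V3 := fun z => Ψ (Sig S2 z) with hT₂
  have hT₁d : DifferentiableOn ℂ T₁ (ball (0 : V3) r₃) :=
    hΨd.comp ((crt_differentiableOn_Sig hS1.1).mono (ball_subset_ball hr₃b)) (fun z hz =>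
      hsub2 (hhalf z (mem_ball_zero_iff.1 hz)).1)
  have hT₂d : DifferentiableOn ℂ T₂ (ball (0 : V3) r₃) :=
    hΨd.comp ((crt_differentiableOn_Sig hS2.1).mono (ball_subset_ball hr₃b)) (fun z hz =>
      hsub2 (hhalf z (mem_ball_zero_iff.1 hz)).2)
  have hΨlip : ∀ y₁ ∈ ball x₀ (r₀ / 2), ∀ y₂ ∈ ball x₀ (r₀ / 2),
      ‖Ψ y₁ - Ψ y₂‖ ≤ 2 * b / r₀ * ‖y₁ - y₂‖ := fun y₁ h₁ y₂ h₂ =>
    scv_lipschitz hΨd (fun v hv => (hΨb v hv).le) h₁ h₂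
  have hc1 : ∀ z ∈ ball (0 : V3) r₃, ‖T₁ z - τ z‖ ≤ δ₁ := by
    intro z hz
    have hz' := mem_ball_zero_iff.1 hz
    refine (hΨlip _ (hhalf z hz').1 _ (hsub4 (hnear z hz').1)).trans ?_
    refine le_trans ?_ hδ2
    exact mul_le_mul_of_nonneg_left (hpert z hz').1 (by positivity)
  have hc2 : ∀ z ∈ ball (0 : V3) r₃, ‖T₂ z - z‖ ≤ δ₁ := by
    intro z hz
    have hz' := mem_ball_zero_iff.1 hz
    have h1 : Ψ (Sig s2 z) = z := (hΨl z (by linarith)).2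
    have h2 := hΨlip _ (hhalf z hz').2 _ (hsub4 (hnear z hz').2)
    rw [h1] at h2
    refine h2.trans (le_trans ?_ hδ2)
    exact mul_le_mul_of_nonneg_left (hpert z hz').2 (by positivity)
  have N := hnf T₁ T₂ hT₁d hT₂d hc1 hc2
  refine ⟨fun p => Ti p.1 (T₁ (vec3 p.1 p.2.1 0 + p.2.2) - vec3 p.1 p.2.1 0),
    fun p => Ti p.1 (T₂ (vec3 p.1 p.2.1 0 + Tm p.1 p.2.2) - vec3 p.1 p.2.1 0), ?_⟩
  have hTi' : DifferentiableOn ℂ (fun p : ℂ × ℂ × V3 => Ti p.1)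
      (ball (0 : ℂ) ρ ×ˢ ball (0 : ℂ) η ×ˢ ball (0 : V3) r) :=
    hTid.comp differentiable_fst.differentiableOn (fun p hp => hp.1)
  have hTm' : DifferentiableOn ℂ (fun p : ℂ × ℂ × V3 => Tm p.1)
      (ball (0 : ℂ) ρ ×ˢ ball (0 : ℂ) η ×ˢ ball (0 : V3) r) :=
    hTmd.comp differentiable_fst.differentiableOn (fun p hp => hp.1)
  have hv' : Differentiable ℂ (fun p : ℂ × ℂ × V3 => p.2.2) :=
    differentiable_snd.comp differentiable_snd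
  constructor
  · refine hTi'.clm_apply (DifferentiableOn.sub ?_ crt_differentiable_vec3.differentiableOn)
    exact hT₁d.comp (crt_differentiable_vec3.add hv').differentiableOn
      (fun p hp => N.dom1 p.1 hp.1 p.2.1 hp.2.1 p.2.2 hp.2.2)
  · refine hTi'.clm_apply (DifferentiableOn.sub ?_ crt_differentiable_vec3.differentiableOn)
    exact hT₂d.comp (crt_differentiable_vec3.differentiableOn.add
      (hTm'.clm_apply hv'.differentiableOn))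
      (fun p hp => N.dom2 p.1 hp.1 p.2.1 hp.2.1 p.2.2 hp.2.2)
  · intro z₁ h₁ z₂ h₂
    simpa using N.init1 z₁ h₁ z₂ h₂
  · intro z₁ h₁ z₂ h₂
    simpa using N.init2 z₁ h₁ z₂ h₂
  · exact N.lip1
  · exact N.lip2
  · intro z₁ h₁ z₂ h₂ v hv v' hv' hPQ
    simp only at hPQ
    have h3 := congrArg (Tm z₁) hPQ
    rw [(hT z₁ h₁).2.2.2, (hT z₁ h₁).2.2.2] at h3
    have h4 : Ψ (Sig S1 (vec3 z₁ z₂ 0 + v)) = Ψ (Sig S2 (vec3 z₁ z₂ 0 + Tm z₁ v')) :=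
      sub_left_injective h3
    have hd1 := mem_ball_zero_iff.1 (N.dom1 z₁ h₁ z₂ h₂ v hv)
    have hd2 := mem_ball_zero_iff.1 (N.dom2 z₁ h₁ z₂ h₂ v' hv')
    have h5 := hΨr _ (hsub2 (hhalf _ hd1).1) (crt_Sig_mem_cone hF hS1 (by linarith))
    have h6 := hΨr _ (hsub2 (hhalf _ hd2).2) (crt_Sig_mem_cone hF hS2 (by linarith))
    rw [← h5, h4, h6]

end Claimed.Agent.R245
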