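/-
Row 245 / S0484, sec 2.1 (criterion), architect: helper187.
The core gluing statement `cr_core`, proved from `cr_trans` (CritTrans.lean) and `cr_glue0` (CritGlue0.lean).
-/
import Mathlib
import Claimed.Agent.R245.CritDefs
import Claimed.Agent.R245.CritTrans
import Claimed.Agent.R245.CritGlue0

set_option autoImplicit false

namespace Claimed.Agent.R245

open MvPolynomial Metric Set Filter Topology Claims.C0412

/-- **Core gluing.**  Over an abstract source `X` with two open sets `UA, UB` which admit an additive splitting with constant `κ`: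
if `h₁` is small (`< ρ`) on `UB`, `h₂` is very small (`< η`) on `UA`, and `S1, S2` are `δ`-close to the germs on the bidisc, then there are small
corrections `a` on `UA`, `bb` on `UB` such that `Sig S1 ((h₁,h₂,0) + a) = Sig S2 ((h₁,h₂,0) + bb)` on the overlap. -/
theorem cr_core (F : MvPolynomial (Fin 4) ℂ) (hF : IsSmoothQuarticForm F) {b : ℝ}
    {s1 s2 : ℂ × ℂ → V4} (hP : StripGerm F b s1 s2) :
    ∃ ρ : ℝ, 0 < ρ ∧ ρ ≤ b ∧
      ∀ (X : Type) [NormedAddCommGroup X] [NormedSpace ℂ X] (UA UB : Set X) (κ : ℝ),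
        IsOpen UA → IsOpen UB → 0 ≤ κ → SplitsG V3 UA UB κ →
        ∀ ε' : ℝ, 0 < ε' → ∃ η δ : ℝ, 0 < η ∧ η ≤ ε' ∧ 0 < δ ∧
          ∀ (h₁ h₂ : X → ℂ) (S1 S2 : ℂ × ℂ → V4), DifferentiableOn ℂ h₁ (UA ∪ UB) →
            DifferentiableOn ℂ h₂ (UA ∪ UB) →
            (∀ x ∈ UB, ‖h₁ x‖ < ρ) → (∀ x ∈ UA, ‖h₂ x‖ < η) →
            HolOn F S1 (ball (0 : ℂ) b ×ˢ ball (0 : ℂ) b) →
            HolOn F S2 (ball (0 : ℂ) b ×ˢ ball (0 : ℂ) b) →
            (∀ p ∈ ball (0 : ℂ) b ×ˢ ball (0 : ℂ) b, ‖S1 p - s1 p‖ < δ ∧ ‖S2 p - s2 p‖ < δ) →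
            ∃ (a bb : X → V3),
              DifferentiableOn ℂ a UA ∧ DifferentiableOn ℂ bb UB ∧
              (∀ x ∈ UA, ‖a x‖ < ε') ∧ (∀ x ∈ UB, ‖bb x‖ < ε') ∧
              ∀ x ∈ UA ∩ UB,
                Sig S1 (vec3 (h₁ x) (h₂ x) 0 + a x) = Sig S2 (vec3 (h₁ x) (h₂ x) 0 + bb x) := by
  obtain ⟨ρ, M, Tm, hρ, hρb, hM, hTm, hTmM, H⟩ := cr_trans F hF hP
  refine ⟨ρ, hρ, hρb, ?_⟩
  intro X _ _ UA UB κ hUA hUB hκ hsplit ε' hε'
  have hκ1 : 0 < κ + 1 := by linarith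
  have hM0 : 0 < M := by linarith
  obtain ⟨r, hr, H⟩ := H (1 / (4 * (κ + 1))) (by positivity)
  set m : ℝ := min r (ε' / M) with hm
  have hm0 : 0 < m := lt_min hr (by positivity)
  set e : ℝ := m / (8 * (κ + 1)) with he
  have he0 : 0 < e := by positivity
  have hke : 4 * κ * e < m := by
    rw [he, mul_div_assoc', div_lt_iff₀ (by positivity)]
    nlinarith
  obtain ⟨η₀, δ, hη₀, hδ, H⟩ := H e he0
  refine ⟨min η₀ ε', δ, lt_min hη₀ hε', min_le_right _ _, hδ, ?_⟩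
  intro h₁ h₂ S1 S2 hh₁ hh₂ hh₁ρ hh₂η hS1 hS2 hclose
  obtain ⟨P, Q, TC⟩ := H S1 S2 hS1 hS2 hclose
  -- the lifted fibre maps
  have hmap : MapsTo (fun y : X × V3 => (h₁ y.1, h₂ y.1, y.2)) ((UA ∩ UB) ×ˢ ball (0 : V3) r)
      (ball (0 : ℂ) ρ ×ˢ ball (0 : ℂ) η₀ ×ˢ ball (0 : V3) r) := by
    rintro ⟨x, v⟩ ⟨hx, hv⟩
    refine ⟨?_, ?_, hv⟩
    · simpa using hh₁ρ x hx.2
    · simpa using (hh₂η x hx.1).trans_le (min_le_left _ _)
  have hdiff : DifferentiableOn ℂ (fun y : X × V3 => (h₁ y.1, h₂ y.1, y.2))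
      ((UA ∩ UB) ×ˢ ball (0 : V3) r) := by
    have hfst : MapsTo (fun y : X × V3 => y.1) ((UA ∩ UB) ×ˢ ball (0 : V3) r) (UA ∪ UB) :=
      fun y hy => Or.inl hy.1.1
    exact (hh₁.comp differentiable_fst.differentiableOn hfst).prodMk
      ((hh₂.comp differentiable_fst.differentiableOn hfst).prodMk differentiable_snd.differentiableOn)
  have hz1 : ∀ x ∈ UA ∩ UB, h₁ x ∈ ball (0 : ℂ) ρ := fun x hx => by simpa using hh₁ρ x hx.2
  have hz2 : ∀ x ∈ UA ∩ UB, h₂ x ∈ ball (0 : ℂ) η₀ := fun x hx => by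
    simpa using (hh₂η x hx.1).trans_le (min_le_left _ _)
  have hlam : 4 * (1 / (4 * (κ + 1))) * κ ≤ 1 := by
    rw [mul_one_div, div_mul_eq_mul_div, div_le_one (by positivity)]
    linarith
  obtain ⟨a, b', ha, hb', hab, hbb, hglue⟩ := cr_glue0 (G := V3) hUA hUB hκ hsplit
    (P := fun y => P (h₁ y.1, h₂ y.1, y.2)) (Q := fun y => Q (h₁ y.1, h₂ y.1, y.2))
    (r := r) (lam := 1 / (4 * (κ + 1))) (e := e) (by positivity) he0.le
    (TC.holP.comp hdiff hmap) (TC.holQ.comp hdiff hmap)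
    (fun x hx => TC.initP _ (hz1 x hx) _ (hz2 x hx)) (fun x hx => TC.initQ _ (hz1 x hx) _ (hz2 x hx))
    (fun x hx v hv v' hv' => TC.lipP _ (hz1 x hx) _ (hz2 x hx) v hv v' hv')
    (fun x hx v hv v' hv' => TC.lipQ _ (hz1 x hx) _ (hz2 x hx) v hv v' hv')
    hlam (hke.trans_le (min_le_left _ _))
  have hTmh : DifferentiableOn ℂ (fun x => Tm (h₁ x)) UB :=
    hTm.comp (hh₁.mono subset_union_right) (fun x hx => by simpa using hh₁ρ x hx)
  refine ⟨a, fun x => Tm (h₁ x) (b' x), ha, hTmh.clm_apply hb', ?_, ?_, ?_⟩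
  · intro x hx
    have h1 : m ≤ ε' := by
      calc m ≤ ε' / M := min_le_right _ _
        _ ≤ ε' := div_le_self hε'.le hM
    exact ((hab x hx).trans_lt hke).trans_le h1
  · intro x hx
    have h1 : ‖Tm (h₁ x)‖ ≤ M := hTmM _ (by simpa using hh₁ρ x hx)
    have h2 : ‖b' x‖ < ε' / M := ((hbb x hx).trans_lt hke).trans_le (min_le_right _ _)
    calc ‖Tm (h₁ x) (b' x)‖ ≤ ‖Tm (h₁ x)‖ * ‖b' x‖ := ContinuousLinearMap.le_opNorm _ _
      _ ≤ M * ‖b' x‖ := by gcongr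
      _ < M * (ε' / M) := by gcongr
      _ = ε' := by field_simp
  · intro x hx
    have hr' : 4 * κ * e < r := hke.trans_le (min_le_left _ _)
    exact TC.glue _ (hz1 x hx) _ (hz2 x hx) (a x)
      (by simpa using (hab x hx.1).trans_lt hr') (b' x) (by simpa using (hbb x hx.2).trans_lt hr')
      (hglue x hx)

end Claimed.Agent.R245
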