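/-
Row 245 / S0484, sec 2.1: **Prop loc:criterion in cone form**: two complete directions give property `L`.
Architect: helper187.   Top proof from `cr_core`, `cr_wchart`, `cr_rungeU`, `cr_splits`, `cr_thick`.
-/
import Mathlib
import Claimed.Agent.R245.CritDefs
import Claimed.Agent.R245.CritCore
import Claimed.Agent.R245.CritAux

set_option autoImplicit false

namespace Claimed.Agent.R245

open MvPolynomial Metric Set Filter Topology Claims.C0412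

theorem cr_vec3_differentiableOn {X : Type*} [NormedAddCommGroup X] [NormedSpace ℂ X] {a b c : X → ℂ}
    {U : Set X} (ha : DifferentiableOn ℂ a U) (hb : DifferentiableOn ℂ b U)
    (hc : DifferentiableOn ℂ c U) : DifferentiableOn ℂ (fun x => vec3 (a x) (b x) (c x)) U := by
  rw [differentiableOn_pi]
  intro i
  fin_cases i
  · exact ha
  · exact hb
  · exact hc

theorem cr_norm_vec3_sub_lt {a b c : ℂ} {g : V3} {δ : ℝ} (hδ : 0 < δ) (h0 : ‖a - g 0‖ < δ)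
    (h1 : ‖b - g 1‖ < δ) (h2 : ‖c - g 2‖ < δ) : ‖vec3 a b c - g‖ < δ := by
  rw [pi_norm_lt_iff hδ]
  intro i
  fin_cases i
  · exact h0
  · exact h1
  · exact h2

theorem cr_uDepth_le_zero_of_mem_UBand {x₀ x₁ y₀ y₁ h : ℝ} {z : ℂ} (hz : z ∈ UBand x₀ x₁ y₀ y₁ h) :
    uDepth x₀ y₀ y₁ h z ≤ 0 := by
  unfold uDepth
  rcases hz.2 with h1 | h1 | h1
  · exact (min_le_left _ _).trans (by linarith)
  · exact (min_le_right _ _).trans ((min_le_left _ _).trans (by linarith))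
  · exact (min_le_right _ _).trans ((min_le_right _ _).trans (by linarith))

theorem cr_URect_subset_ORect {x₀ x₁ y₀ y₁ e : ℝ} (he : 0 < e) :
    URect x₀ x₁ y₀ y₁ ⊆ ORect x₀ x₁ y₀ y₁ e := by
  rintro z ⟨h1, h2, h3, h4⟩
  exact ⟨by linarith, by linarith, by linarith, by linarith⟩

theorem cr_ORect_subset_CRect (x₀ x₁ y₀ y₁ e : ℝ) :
    ORect x₀ x₁ y₀ y₁ e ⊆ CRect x₀ x₁ y₀ y₁ e := by
  rintro z ⟨h1, h2, h3, h4⟩
  exact ⟨h1.le, h2.le, h3.le, h4.le⟩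

theorem cr_ORect_mono {x₀ x₁ y₀ y₁ e e' : ℝ} (he : e ≤ e') :
    ORect x₀ x₁ y₀ y₁ e ⊆ ORect x₀ x₁ y₀ y₁ e' := by
  rintro z ⟨h1, h2, h3, h4⟩
  exact ⟨by linarith, by linarith, by linarith, by linarith⟩

/-- **The criterion** (Prop. loc:criterion, cone form, finite-length version, displaced point `c`, thin first strip). -/
theorem cr_crit (F : MvPolynomial (Fin 4) ℂ) (hF : IsSmoothQuarticForm F) {b : ℝ} {c : ℂ}
    {s1 s2 : ℂ × ℂ → V4} (hP : StripPair F b c s1 s2) : HasL F (s2 (0, c)) := by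
  classical
  have hb := hP.b_pos
  obtain ⟨ρ, hρ, hρb, Hcore⟩ := cr_core F hF hP.toStripGerm
  -- the translated second strip and its chart
  set s2c : ℂ × ℂ → V4 := fun p => s2 (p.1, p.2 + c) with hs2c
  have hs2cm : MapsTo (fun p : ℂ × ℂ => (p.1, p.2 + c)) (ball (0 : ℂ) b ×ˢ ball (0 : ℂ) b)
      (ball (0 : ℂ) b ×ˢ ball c b) := by
    rintro ⟨p1, p2⟩ ⟨h1, h2⟩
    refine ⟨h1, ?_⟩
    simpa [dist_eq_norm] using h2
  have hs2chol : HolOn F s2c (ball (0 : ℂ) b ×ˢ ball (0 : ℂ) b) := by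
    refine ⟨hP.hol2c.1.comp ?_ hs2cm, fun p hp => hP.hol2c.2 (hs2cm hp)⟩
    exact (differentiable_fst.prodMk (differentiable_snd.add_const c)).differentiableOn
  obtain ⟨rV, Ψ, hrV, hΨd, hΨb, hΨc⟩ :=
    cr_wchart F hF hb hs2chol hP.reg2c (ρ := ρ / 2) (by positivity)
  have hbase : s2c (0, 0) = s2 (0, c) := by simp [hs2c]
  rw [hbase] at hΨd hΨb hΨc
  refine ⟨ball (s2 (0, c)) rV, ⟨isOpen_ball, ?_⟩, mem_ball_self hrV⟩
  intro x₀ x₁ y₀ y₁ h hh hx hy q ρ₀ ρ' hρ₀ hρ₀ρ' f hf ε hε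
  obtain ⟨W, hW, hsub, hfW, hfV⟩ := hf
  -- geometry
  obtain ⟨e₁, he₁, hthick⟩ := cr_thick hh hx hy hW hsub
  obtain ⟨e, he0, hee₁, he2⟩ : ∃ e : ℝ, 0 < e ∧ e ≤ e₁ ∧ 4 * e ≤ y₁ - y₀ - 2 * h := by
    refine ⟨min e₁ ((y₁ - y₀ - 2 * h) / 4), lt_min he₁ (by linarith), min_le_left _ _, ?_⟩
    have := min_le_right e₁ ((y₁ - y₀ - 2 * h) / 4)
    linarith
  obtain ⟨ρm, hρm0, hρm1⟩ : ∃ ρm : ℝ, ρ₀ < ρm ∧ ρm < ρ' :=
    ⟨(ρ₀ + ρ') / 2, by linarith, by linarith⟩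
  have hdc := cr_continuous_uDepth x₀ y₀ y₁ h
  set UA : Set ℂ := ORect x₀ x₁ y₀ y₁ (e / 2) ∩ {z | 2 * e / 5 < uDepth x₀ y₀ y₁ h z} with hUA
  set UB : Set ℂ := ORect x₀ x₁ y₀ y₁ (e / 2) ∩ {z | uDepth x₀ y₀ y₁ h z < 3 * e / 5} with hUB
  have hUAo : IsOpen UA := (cr_isOpen_ORect _ _ _ _ _).inter (isOpen_lt continuous_const hdc)
  have hUBo : IsOpen UB := (cr_isOpen_ORect _ _ _ _ _).inter (isOpen_lt hdc continuous_const)
  set Ps : Set (Fin q → ℂ) := ball 0 ρm with hPs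
  set Pc : Set (Fin q → ℂ) := closedBall 0 ρm with hPc
  set Wp : Set (Fin q → ℂ) := ball 0 ρ' with hWp
  have hPsPc : Ps ⊆ Pc := ball_subset_closedBall
  have hPcWp : Pc ⊆ Wp := closedBall_subset_ball hρm1
  have hNW : ∀ γ : ℝ, γ ≤ e →
      (ORect x₀ x₁ y₀ y₁ e ∩ {z | uDepth x₀ y₀ y₁ h z < γ}) ×ˢ Wp ⊆ W := by
    rintro γ hγ ⟨z, t⟩ ⟨⟨hz1, hz2⟩, ht⟩
    have hz2' : uDepth x₀ y₀ y₁ h z < γ := hz2
    exact hthick ⟨⟨cr_ORect_mono hee₁ hz1, show uDepth x₀ y₀ y₁ h z < e₁ by linarith⟩,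
      ball_subset_closedBall ht⟩
  -- the map in the chart
  set g : ℂ × (Fin q → ℂ) → V3 := fun x => Ψ (f x) with hg
  have hgd : DifferentiableOn ℂ g W := hΨd.comp hfW.1 hfV
  have hgb : ∀ x ∈ W, ‖g x‖ < ρ / 2 := fun x hx => hΨb _ (hfV hx)
  have hgc : ∀ x ∈ W, Sig s2c (g x) = f x := fun x hx => hΨc _ (hfV hx) (hfW.2 hx)
  have hgi : ∀ i : Fin 3, DifferentiableOn ℂ (fun x => g x i) W := fun i => differentiableOn_pi.1 hgd i
  -- uniform continuity of the limit chart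
  have hKc : ∀ z ∈ closedBall (0 : V3) (3 * ρ / 4), (z 0, z 1) ∈ ball (0 : ℂ) b ×ˢ ball (0 : ℂ) b := by
    intro z hz
    have hz' : ‖z‖ ≤ 3 * ρ / 4 := by simpa using hz
    constructor
    · have := cr_norm_apply_le z 0
      simp only [mem_ball, dist_zero_right]; linarith
    · have := cr_norm_apply_le z 1
      simp only [mem_ball, dist_zero_right]; linarith
  have hSc : ContinuousOn (Sig s2c) (closedBall (0 : V3) (3 * ρ / 4)) :=
    cr_Sig_continuousOn hs2chol.1.continuousOn hKc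
  obtain ⟨δu, hδu, hunif⟩ := Metric.uniformContinuousOn_iff.1
    ((isCompact_closedBall (0 : V3) (3 * ρ / 4)).uniformContinuousOn_of_continuous hSc) (ε / 2)
    (by positivity)
  obtain ⟨κ, hκ, hsplit⟩ := cr_splits (x₀ := x₀) (x₁ := x₁) (y₀ := y₀) (y₁ := y₁) (h := h)
    (e := e / 2) (c₂ := 2 * e / 5) (c₃ := 3 * e / 5) (by linarith) (q := q) ρm
  -- Runge for `h₁`, `h₃`
  obtain ⟨η₁, hη₁, hη₁2, hη₁3⟩ : ∃ η₁ : ℝ, 0 < η₁ ∧ η₁ ≤ δu / 2 ∧ η₁ ≤ ρ / 8 :=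
    ⟨min (δu / 2) (ρ / 8), by positivity, min_le_left _ _, min_le_right _ _⟩
  obtain ⟨h₁, hh₁d, hh₁a, -⟩ := cr_rungeU (x₀ := x₀) (x₁ := x₁) (y₀ := y₀) (y₁ := y₁) (h := h)
    (e' := e / 2) (e := e) (α := 3 * e / 5) (γ := 4 * e / 5) (β := e) (by linarith) (by linarith)
    (by linarith) (by linarith) (isCompact_closedBall (0 : Fin q → ℂ) ρm) isOpen_ball hPcWp
    ((hgi 0).mono (hNW _ (by linarith))) hη₁
  obtain ⟨h₃, hh₃d, hh₃a, -⟩ := cr_rungeU (x₀ := x₀) (x₁ := x₁) (y₀ := y₀) (y₁ := y₁) (h := h)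
    (e' := e / 2) (e := e) (α := 3 * e / 5) (γ := 4 * e / 5) (β := e) (by linarith) (by linarith)
    (by linarith) (by linarith) (isCompact_closedBall (0 : Fin q → ℂ) ρm) isOpen_ball hPcWp
    ((hgi 2).mono (hNW _ (by linarith))) hη₁
  have hKbig : IsCompact (CRect x₀ x₁ y₀ y₁ (e / 2) ×ˢ Pc) :=
    (cr_isCompact_CRect _ _ _ _ _).prod (isCompact_closedBall _ _)
  have hKbigsub : CRect x₀ x₁ y₀ y₁ (e / 2) ×ˢ Pc ⊆ univ ×ˢ Wp := prod_mono (subset_univ _) hPcWp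
  -- the length and the width of the first strip
  obtain ⟨C₁, hC₁⟩ := hKbig.exists_bound_of_continuousOn (hh₁d.continuousOn.mono hKbigsub)
  obtain ⟨R₁, hR₁b, hR₁1⟩ : ∃ R₁ : ℝ, b ≤ R₁ ∧ C₁ + 1 ≤ R₁ :=
    ⟨max b (C₁ + 1), le_max_left _ _, le_max_right _ _⟩
  obtain ⟨b', hb', hb'b, Hlong1⟩ := hP.long1 R₁ hR₁b
  -- the constants
  obtain ⟨ε', hε', hε'1, hε'2, hε'3, hε'4, hε'5⟩ : ∃ ε' : ℝ, 0 < ε' ∧ ε' ≤ δu / 2 ∧ ε' ≤ ρ / 8 ∧
      Real.exp b * ε' < ε / 2 ∧ ε' ≤ 1 / 2 ∧ ε' ≤ b' / 4 := by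
    have hexp : 0 < Real.exp b := Real.exp_pos b
    refine ⟨min (min (δu / 2) (ρ / 8)) (min (ε / (4 * Real.exp b)) (min (1 / 2) (b' / 4))),
      by positivity, (min_le_left _ _).trans (min_le_left _ _),
      (min_le_left _ _).trans (min_le_right _ _), ?_,
      (min_le_right _ _).trans ((min_le_right _ _).trans (min_le_left _ _)),
      (min_le_right _ _).trans ((min_le_right _ _).trans (min_le_right _ _))⟩
    have h1 : min (min (δu / 2) (ρ / 8)) (min (ε / (4 * Real.exp b)) (min (1 / 2) (b' / 4)))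
        ≤ ε / (4 * Real.exp b) := (min_le_right _ _).trans (min_le_left _ _)
    calc Real.exp b * _ ≤ Real.exp b * (ε / (4 * Real.exp b)) := by gcongr
      _ = ε / 4 := by field_simp
      _ < ε / 2 := by linarith
  obtain ⟨η, δ, hη, hηε', hδ, Hcore⟩ := Hcore (ℂ × (Fin q → ℂ)) (UA ×ˢ Ps) (UB ×ˢ Ps) κ
    (hUAo.prod isOpen_ball) (hUBo.prod isOpen_ball) hκ hsplit ε' hε'
  obtain ⟨ηR, hηR, hηR1, hηR2⟩ : ∃ ηR : ℝ, 0 < ηR ∧ ηR ≤ η ∧ ηR ≤ η₁ :=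
    ⟨min η η₁, by positivity, min_le_left _ _, min_le_right _ _⟩
  -- Runge for `h₂`
  obtain ⟨h₂, hh₂d, hh₂a, hh₂s⟩ := cr_rungeU (x₀ := x₀) (x₁ := x₁) (y₀ := y₀) (y₁ := y₁) (h := h)
    (e' := e / 2) (e := e) (α := 0) (γ := e / 5) (β := 2 * e / 5) (by linarith) (by linarith)
    (by linarith) (by linarith) (isCompact_closedBall (0 : Fin q → ℂ) ρm) isOpen_ball hPcWp
    (g := fun x => g x 1 + c) (((hgi 1).add_const c).mono (hNW _ (by linarith))) hηR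
  obtain ⟨C₂, hC₂⟩ := hKbig.exists_bound_of_continuousOn (hh₂d.continuousOn.mono hKbigsub)
  obtain ⟨R₂, hR₂b, hR₂1⟩ : ∃ R₂ : ℝ, b + ‖c‖ ≤ R₂ ∧ C₂ + 1 ≤ R₂ :=
    ⟨max (b + ‖c‖) (C₂ + 1), le_max_left _ _, le_max_right _ _⟩
  have hbR₂ : b ≤ R₂ := by have := norm_nonneg c; linarith
  obtain ⟨S1, hS1, hS1c⟩ := Hlong1 δ hδ
  obtain ⟨S2, hS2, hS2c0, hS2c⟩ := hP.long2 R₂ (min δ ε') hR₂b (lt_min hδ hε')
  -- membership facts
  have hAX : ∀ x ∈ UA ×ˢ Ps, x ∈ CRect x₀ x₁ y₀ y₁ (e / 2) ×ˢ Pc := fun x hx =>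
    ⟨cr_ORect_subset_CRect _ _ _ _ _ hx.1.1, hPsPc hx.2⟩
  have hBX : ∀ x ∈ UB ×ˢ Ps, x ∈ CRect x₀ x₁ y₀ y₁ (e / 2) ×ˢ Pc := fun x hx =>
    ⟨cr_ORect_subset_CRect _ _ _ _ _ hx.1.1, hPsPc hx.2⟩
  have hBW : ∀ x ∈ UB ×ˢ Ps, x ∈ W := fun x hx => by
    have h2 : uDepth x₀ y₀ y₁ h x.1 < 3 * e / 5 := hx.1.2
    exact hNW e le_rfl ⟨⟨cr_ORect_mono (by linarith) hx.1.1,
      show uDepth x₀ y₀ y₁ h x.1 < e by linarith⟩, hPcWp (hPsPc hx.2)⟩
  have hUsub : (UA ×ˢ Ps) ∪ (UB ×ˢ Ps) ⊆ univ ×ˢ Wp := by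
    rintro x (hx | hx)
    · exact ⟨mem_univ _, hPcWp (hPsPc hx.2)⟩
    · exact ⟨mem_univ _, hPcWp (hPsPc hx.2)⟩
  have hB1 : ∀ x ∈ UB ×ˢ Ps, ‖h₁ x - g x 0‖ < η₁ := fun x hx => by
    have h2 : uDepth x₀ y₀ y₁ h x.1 < 3 * e / 5 := hx.1.2
    exact hh₁a x.1 (hBX x hx).1 h2.le x.2 (hBX x hx).2
  have hB3 : ∀ x ∈ UB ×ˢ Ps, ‖h₃ x - g x 2‖ < η₁ := fun x hx => by
    have h2 : uDepth x₀ y₀ y₁ h x.1 < 3 * e / 5 := hx.1.2
    exact hh₃a x.1 (hBX x hx).1 h2.le x.2 (hBX x hx).2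
  have hh₁ρ : ∀ x ∈ UB ×ˢ Ps, ‖h₁ x‖ < ρ := fun x hx => by
    have e1 := hB1 x hx
    have e2 := (cr_norm_apply_le (g x) 0).trans_lt (hgb x (hBW x hx))
    have e3 : ‖h₁ x‖ ≤ ‖h₁ x - g x 0‖ + ‖g x 0‖ := by
      simpa using norm_add_le (h₁ x - g x 0) (g x 0)
    linarith
  have hh₂η : ∀ x ∈ UA ×ˢ Ps, ‖h₂ x‖ < η := fun x hx => by
    have h2 : 2 * e / 5 < uDepth x₀ y₀ y₁ h x.1 := hx.1.2
    exact (hh₂s x.1 (hAX x hx).1 h2.le x.2 (hAX x hx).2).trans_le hηR1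
  -- the core gluing
  have hsubS1 : ball (0 : ℂ) b ×ˢ ball (0 : ℂ) b ⊆
      ball (0 : ℂ) R₁ ×ˢ ball (0 : ℂ) b' ∪ ball (0 : ℂ) b ×ˢ ball (0 : ℂ) b := subset_union_right
  have hsubS2 : ball (0 : ℂ) b ×ˢ ball (0 : ℂ) b ⊆ ball (0 : ℂ) b ×ˢ ball (0 : ℂ) R₂ :=
    prod_mono subset_rfl (ball_subset_ball hbR₂)
  obtain ⟨a, bb, had, hbd, hab, hbb, hglue⟩ := Hcore h₁ h₂ S1 S2
    (hh₁d.mono hUsub) (hh₂d.mono hUsub) hh₁ρ hh₂η
    ⟨hS1.1.mono hsubS1, hS1.2.mono hsubS1 subset_rfl⟩ ⟨hS2.1.mono hsubS2, hS2.2.mono hsubS2 subset_rfl⟩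
    (fun p hp => ⟨hS1c p hp, (hS2c0 p hp).trans_le (min_le_left _ _)⟩)
  set ZA : ℂ × (Fin q → ℂ) → V3 := fun x => vec3 (h₁ x) (h₂ x) 0 + a x with hZA
  set ZB : ℂ × (Fin q → ℂ) → V3 := fun x => vec3 (h₁ x) (h₂ x) 0 + bb x with hZB
  have hZAd : DifferentiableOn ℂ ZA (UA ×ˢ Ps) :=
    (cr_vec3_differentiableOn (hh₁d.mono (subset_union_left.trans hUsub))
      (hh₂d.mono (subset_union_left.trans hUsub)) (differentiableOn_const 0)).add had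
  have hZBd : DifferentiableOn ℂ ZB (UB ×ˢ Ps) :=
    (cr_vec3_differentiableOn (hh₁d.mono (subset_union_right.trans hUsub))
      (hh₂d.mono (subset_union_right.trans hUsub)) (differentiableOn_const 0)).add hbd
  have hZAm : ∀ x ∈ UA ×ˢ Ps, (ZA x 0, ZA x 1) ∈
      ball (0 : ℂ) R₁ ×ˢ ball (0 : ℂ) b' ∪ ball (0 : ℂ) b ×ˢ ball (0 : ℂ) b := by
    intro x hx
    have e0 := (cr_norm_apply_le (a x) 0).trans_lt (hab x hx)
    have e1 := (cr_norm_apply_le (a x) 1).trans_lt (hab x hx)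
    have e2 := hC₁ x (hAX x hx)
    have e3 := hh₂η x hx
    left
    constructor
    · have : ‖h₁ x + a x 0‖ ≤ ‖h₁ x‖ + ‖a x 0‖ := norm_add_le _ _
      simp only [hZA, Pi.add_apply, cr_vec3_apply0, mem_ball, dist_zero_right]
      linarith
    · have : ‖h₂ x + a x 1‖ ≤ ‖h₂ x‖ + ‖a x 1‖ := norm_add_le _ _
      simp only [hZA, Pi.add_apply, cr_vec3_apply1, mem_ball, dist_zero_right]
      linarith
  have hZBm : ∀ x ∈ UB ×ˢ Ps, (ZB x 0, ZB x 1) ∈ ball (0 : ℂ) b ×ˢ ball (0 : ℂ) R₂ := by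
    intro x hx
    have e0 := (cr_norm_apply_le (bb x) 0).trans_lt (hbb x hx)
    have e1 := (cr_norm_apply_le (bb x) 1).trans_lt (hbb x hx)
    have e2 := hC₂ x (hBX x hx)
    have e3 := hB1 x hx
    have e4 := (cr_norm_apply_le (g x) 0).trans_lt (hgb x (hBW x hx))
    have e5 : ‖h₁ x‖ ≤ ‖h₁ x - g x 0‖ + ‖g x 0‖ := by
      simpa using norm_add_le (h₁ x - g x 0) (g x 0)
    constructor
    · have : ‖h₁ x + bb x 0‖ ≤ ‖h₁ x‖ + ‖bb x 0‖ := norm_add_le _ _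
      simp only [hZB, Pi.add_apply, cr_vec3_apply0, mem_ball, dist_zero_right]
      linarith
    · have : ‖h₂ x + bb x 1‖ ≤ ‖h₂ x‖ + ‖bb x 1‖ := norm_add_le _ _
      simp only [hZB, Pi.add_apply, cr_vec3_apply1, mem_ball, dist_zero_right]
      linarith
  set GA : ℂ × (Fin q → ℂ) → V4 := fun x => Complex.exp (h₃ x) • Sig S1 (ZA x) with hGA
  set GB : ℂ × (Fin q → ℂ) → V4 := fun x => Complex.exp (h₃ x) • Sig S2 (ZB x) with hGB
  have hGAd : DifferentiableOn ℂ GA (UA ×ˢ Ps) :=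
    (hh₃d.mono (subset_union_left.trans hUsub)).cexp.smul (cr_Sig_differentiableOn hS1.1 hZAd hZAm)
  have hGBd : DifferentiableOn ℂ GB (UB ×ˢ Ps) :=
    (hh₃d.mono (subset_union_right.trans hUsub)).cexp.smul (cr_Sig_differentiableOn hS2.1 hZBd hZBm)
  have hGAc : ∀ x ∈ UA ×ˢ Ps, GA x ∈ Cone F := fun x hx =>
    l2_smul_mem_cone hF.1 (Complex.exp_ne_zero _) (cr_Sig_mem_cone hF.1 (hS1.2 (hZAm x hx)))
  have hGBc : ∀ x ∈ UB ×ˢ Ps, GB x ∈ Cone F := fun x hx =>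
    l2_smul_mem_cone hF.1 (Complex.exp_ne_zero _) (cr_Sig_mem_cone hF.1 (hS2.2 (hZBm x hx)))
  have hGAB : ∀ x ∈ (UA ×ˢ Ps) ∩ (UB ×ˢ Ps), GA x = GB x := fun x hx => by
    simp only [hGA, hGB, hZA, hZB]
    rw [hglue x hx]
  set G : ℂ × (Fin q → ℂ) → V4 := fun x => if x.1 ∈ UA then GA x else GB x with hG
  have hGonA : ∀ x ∈ UA ×ˢ Ps, G x = GA x := fun x hx => by
    simp only [hG]; rw [if_pos hx.1]
  have hGonB : ∀ x ∈ UB ×ˢ Ps, G x = GB x := fun x hx => by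
    by_cases hxA : x.1 ∈ UA
    · rw [hGonA x ⟨hxA, hx.2⟩]
      exact hGAB x ⟨⟨hxA, hx.2⟩, hx⟩
    · simp only [hG]; rw [if_neg hxA]
  refine ⟨G, ⟨(UA ×ˢ Ps) ∪ (UB ×ˢ Ps), (hUAo.prod isOpen_ball).union (hUBo.prod isOpen_ball), ?_, ?_, ?_⟩,
    ?_⟩
  · -- the rectangle is covered
    rintro ⟨z, t⟩ ⟨hz, ht⟩
    have hzO : z ∈ ORect x₀ x₁ y₀ y₁ (e / 2) := cr_URect_subset_ORect (by positivity) hz
    have htP : t ∈ Ps := closedBall_subset_ball hρm0 ht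
    by_cases hd : 2 * e / 5 < uDepth x₀ y₀ y₁ h z
    · exact Or.inl ⟨⟨hzO, hd⟩, htP⟩
    · exact Or.inr ⟨⟨hzO, show uDepth x₀ y₀ y₁ h z < 3 * e / 5 by linarith [not_lt.1 hd]⟩, htP⟩
  · -- holomorphy
    rintro x (hx | hx)
    · apply DifferentiableAt.differentiableWithinAt
      have hn := (hUAo.prod (isOpen_ball (x := (0 : Fin q → ℂ)) (ε := ρm))).mem_nhds hx
      refine (hGAd.differentiableAt hn).congr_of_eventuallyEq ?_
      filter_upwards [hn] with y hy using hGonA y hy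
    · apply DifferentiableAt.differentiableWithinAt
      have hn := (hUBo.prod (isOpen_ball (x := (0 : Fin q → ℂ)) (ε := ρm))).mem_nhds hx
      refine (hGBd.differentiableAt hn).congr_of_eventuallyEq ?_
      filter_upwards [hn] with y hy using hGonB y hy
  · -- values in the cone
    rintro x (hx | hx)
    · rw [hGonA x hx]; exact hGAc x hx
    · rw [hGonB x hx]; exact hGBc x hx
  · -- approximation on the band
    rintro ⟨z, t⟩ ⟨hz, ht⟩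
    have hzd : uDepth x₀ y₀ y₁ h z ≤ 0 := cr_uDepth_le_zero_of_mem_UBand hz
    have hzO : z ∈ ORect x₀ x₁ y₀ y₁ (e / 2) := cr_URect_subset_ORect (by positivity) hz.1
    have htP : t ∈ Ps := closedBall_subset_ball hρm0 ht
    have hx : (z, t) ∈ UB ×ˢ Ps :=
      ⟨⟨hzO, show uDepth x₀ y₀ y₁ h z < 3 * e / 5 by linarith⟩, htP⟩
    set x : ℂ × (Fin q → ℂ) := (z, t) with hxdef
    have hxW := hBW x hx
    rw [hGonB x hx, ← hgc x hxW]
    -- `z'` = strip coordinates of the new map, `zc` = the same in the translated chart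
    set z' : V3 := vec3 (h₁ x) (h₂ x) (h₃ x) + bb x with hz'
    set zc : V3 := vec3 (h₁ x) (h₂ x - c) (h₃ x) + bb x with hzc
    have hGBz : GB x = Sig S2 z' := by
      have : z' = ZB x + vec3 0 0 (h₃ x) := by
        simp only [hz', hZB]
        funext i
        fin_cases i
        · show h₁ x + bb x 0 = h₁ x + bb x 0 + 0
          ring
        · show h₂ x + bb x 1 = h₂ x + bb x 1 + 0
          ring
        · show h₃ x + bb x 2 = 0 + bb x 2 + h₃ x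
          ring
      rw [this, cr_Sig_add_third]
    have hz0 : z' 0 = zc 0 := rfl
    have hz1 : z' 1 = zc 1 + c := by
      show h₂ x + bb x 1 = h₂ x - c + bb x 1 + c
      ring
    have hz2 : z' 2 = zc 2 := rfl
    have hSz : Sig s2 z' = Sig s2c zc := by
      simp only [Sig, hs2c]
      rw [hz0, hz1, hz2]
    have h2a : ‖(h₂ x - c) - g x 1‖ < η₁ := by
      have := (hh₂a z (hBX x hx).1 hzd t (hBX x hx).2).trans_le hηR2
      have e1 : h₂ x - c - g x 1 = h₂ (z, t) - (g (z, t) 1 + c) := by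
        simp only [hxdef]; ring
      rw [e1]; exact this
    have hd1 : ‖vec3 (h₁ x) (h₂ x - c) (h₃ x) - g x‖ < η₁ :=
      cr_norm_vec3_sub_lt hη₁ (hB1 x hx) h2a (hB3 x hx)
    have hd2 : ‖zc - g x‖ < δu := by
      have : zc - g x = (vec3 (h₁ x) (h₂ x - c) (h₃ x) - g x) + bb x := by
        simp only [hzc]; abel
      rw [this]
      have := norm_add_le (vec3 (h₁ x) (h₂ x - c) (h₃ x) - g x) (bb x)
      have := hbb x hx
      linarith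
    have hgn := hgb x hxW
    have hzcn : ‖zc‖ ≤ 3 * ρ / 4 := by
      have e1 : zc = (vec3 (h₁ x) (h₂ x - c) (h₃ x) - g x) + bb x + g x := by
        simp only [hzc]; abel
      have e2 := norm_add₃_le (a := vec3 (h₁ x) (h₂ x - c) (h₃ x) - g x) (b := bb x) (c := g x)
      rw [← e1] at e2
      have := hbb x hx
      linarith
    have hzcK : zc ∈ closedBall (0 : V3) (3 * ρ / 4) := by simpa using hzcn
    have hgK : g x ∈ closedBall (0 : V3) (3 * ρ / 4) := by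
      simp only [mem_closedBall, dist_zero_right]; linarith
    have hA1 : ‖Sig s2c zc - Sig s2c (g x)‖ < ε / 2 := by
      rw [← dist_eq_norm]
      exact hunif zc hzcK (g x) hgK (by rw [dist_eq_norm]; exact hd2)
    have hA2 : ‖Sig S2 z' - Sig s2 z'‖ < ε / 2 := by
      have e1 : Sig S2 z' - Sig s2 z' = Complex.exp (z' 2) • (S2 (z' 0, z' 1) - s2 (z' 0, z' 1)) := by
        simp only [Sig, smul_sub]
      have e2 : ‖Complex.exp (z' 2)‖ ≤ Real.exp b := by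
        rw [Complex.norm_exp]
        apply Real.exp_le_exp.2
        rw [hz2]
        have := (Complex.re_le_norm (zc 2)).trans (cr_norm_apply_le zc 2)
        linarith
      have hmem : (z' 0, z' 1) ∈ ball (0 : ℂ) b ×ˢ ball c b := by
        have := hs2cm (hKc zc hzcK)
        rw [hz0, hz1]
        exact this
      have e3 := (hS2c _ hmem).trans_le (min_le_right _ _)
      rw [e1, norm_smul]
      calc ‖Complex.exp (z' 2)‖ * ‖S2 (z' 0, z' 1) - s2 (z' 0, z' 1)‖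
          ≤ Real.exp b * ε' := mul_le_mul e2 e3.le (norm_nonneg _) (Real.exp_pos b).le
        _ < ε / 2 := hε'3
    rw [hGBz]
    calc ‖Sig S2 z' - Sig s2c (g x)‖
        = ‖(Sig S2 z' - Sig s2 z') + (Sig s2c zc - Sig s2c (g x))‖ := by
          rw [hSz]; congr 1; abel
      _ ≤ ‖Sig S2 z' - Sig s2 z'‖ + ‖Sig s2c zc - Sig s2c (g x)‖ := norm_add_le _ _
      _ < ε := by linarith

end Claimed.Agent.R245
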