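/-
Row 245 / S0484.  Package DB (`∂̄` on bounded convex polytopes).   Architect: helper246.

DBDefs: definitions.  The heavy analysis (Hörmander's `L²` theorem, Weyl's lemma, mean value inequality) is IMPORTED from
row 242 (`R242/SCV`): `hormander_rd`, `weyl_Cn`, `sq_mul_volume_le_lintegral`, Wirtinger calculus `WirtA/WirtB`.

Base space `Cn n = Fin n → ℂ` with the sup norm (balls are polydiscs), `dzb j = ∂/∂z̄_j`, `levi` = Levi form (R242/SCV/Defs.lean).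
-/
import Claimed.Agent.R242.SCV.Main
import Claimed.Agent.R242.SCV.WeylRd
import Claimed.Agent.R242.SCV.WirtB
import Claimed.Agent.R242.SCV.OtFun
import Claimed.Agent.R242.SCV.RdIbp

set_option autoImplicit false

namespace Claimed.Agent.R245

open Claimed.Agent.R242 (Cn dz dzb levi PshOn)
open scoped ContDiff

variable {n : ℕ}

/-- `Ω` carries a smooth exhaustion function whose Levi form is `≥ ∑ |a_j|²`. -/
def DbExh (Ω : Set (Cn n)) : Prop :=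
  ∃ ρ : Cn n → ℝ, ContDiffOn ℝ ∞ ρ Ω ∧ (∀ t, IsCompact {z | z ∈ Ω ∧ ρ z ≤ t}) ∧
    ∀ z ∈ Ω, ∀ a : Cn n, ∑ j, ‖a j‖ ^ 2 ≤ levi ρ z a

/-- `e` is a `C²` solution of `∂̄ e = η` on the open set `V`. -/
def DbSol (η : Fin n → Cn n → ℂ) (e : Cn n → ℂ) (V : Set (Cn n)) : Prop :=
  IsOpen V ∧ ContDiffOn ℝ 2 e V ∧ ∀ z ∈ V, ∀ j, dzb j e z = η j z

/-- test functions with support in `Ω`. -/
def DbTest (Ω : Set (Cn n)) (v : Cn n → ℂ) : Prop :=
  ContDiff ℝ ∞ v ∧ HasCompactSupport v ∧ tsupport v ⊆ Ω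

/-- `u` is a weak solution of `∂̄ u = f` on `Ω`. -/
def DbWeak (Ω : Set (Cn n)) (u : Cn n → ℂ) (f : Fin n → Cn n → ℂ) : Prop :=
  MeasureTheory.LocallyIntegrableOn u Ω ∧
    ∀ v, DbTest Ω v → ∀ j, ∫ z, u z * dzb j v z = - ∫ z, f j z * v z

/-- every point of `Ω` has a neighbourhood on which `η` is `∂̄` of a `C²` function. -/
def DbLoc (Ω : Set (Cn n)) (η : Fin n → Cn n → ℂ) : Prop :=
  ∀ z ∈ Ω, ∃ (V : Set (Cn n)) (e : Cn n → ℂ), z ∈ V ∧ V ⊆ Ω ∧ DbSol η e V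

theorem db_defs_eqns_cite : True ∧ (@DbExh.eq_1 = @DbExh.eq_1) ∧ (@DbSol.eq_1 = @DbSol.eq_1) ∧
    (@DbTest.eq_1 = @DbTest.eq_1) ∧ (@DbWeak.eq_1 = @DbWeak.eq_1) ∧ (@DbLoc.eq_1 = @DbLoc.eq_1) :=
  ⟨trivial, rfl, rfl, rfl, rfl, rfl⟩

end Claimed.Agent.R245
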