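/-
Row 245 / S0484.  Package DB.   Architect: helper246.
DBExh (leaf DB-EXH): every open polytope `{z | ∀ k, Re (lam k z) < c k}` of `Cn n` has a smooth exhaustion with Levi form `≥ ∑ |a_j|²`:
      `ρ z = ∑_j ‖z j‖² + ∑_k (c k - Re (lam k z))⁻¹`.

PLAN (Wirtinger calculus of R242/SCV/WirtA.lean (proved), WirtB.lean, OtFun.lean (use the statements even while sorried)).
 * `db_levi_re_clm`: `((lam y).re : ℂ) = (lam y + conj (lam y)) / 2`; `dzb k` of it is the CONSTANT `conj (lam (Pi.single k 1)) / 2`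
   (`dzb_add`, `dzb_of_holo`, `dzb_conj`, `dz_of_holo`, `ContinuousLinearMap.fderiv`), so `leviC = dz j (const) = 0` (`dz_congr`/funext + `dz_const`).
 * `db_levi_inv`: `levi_comp` with `χ s = (c - s)⁻¹`, `u y = (lam y).re`; `deriv (deriv χ) s = 2 / (c - s)^3 > 0` for `s < c`
   (compute `deriv χ =ᶠ fun s => 1 / (c - s)^2` near `s`), first term vanishes by `db_levi_re_clm`.
 * smoothness: `ContDiffOn.inv`, `ContDiff.contDiffOn`, `Complex.reCLM.contDiff.comp (lam k).contDiff` (restrict scalars), `sum_normSq_contDiff`.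
 * Levi form of `ρ`: `levi_add`, `levi_sum`, `levi_sum_normSq`.
 * compact sublevels: bounded (`‖z j‖² ≤ ρ z ≤ t`, all other terms are `> 0` on `Ω`, `pi_norm_le_iff_of_nonneg`), closed: on the sublevel set every
   `(c k - Re (lam k z))⁻¹ ≤ t`, i.e. `1 ≤ t * (c k - Re (lam k z))`; `T := {z | ∀ k, 1 ≤ t * (c k - Re (lam k z)) ∧ 0 ≤ c k - Re ..}` is closed, contained in `Ω`,
   `ρ` is continuous on `Ω`, sublevel `= T ∩ {ρ ≤ t}` (`ContinuousOn.preimage_isClosed_of_isClosed`); `Metric.isCompact_of_isClosed_isBounded`.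
-/
import Claimed.Agent.R245.DBDefs

set_option autoImplicit false

namespace Claimed.Agent.R245

open Claimed.Agent.R242 (Cn dz dzb levi PshOn)
open MeasureTheory Complex
open scoped ContDiff ComplexConjugate ENNReal

variable {n : ℕ}

/-- the real part of a complex linear form is pluriharmonic. -/
theorem db_levi_re_clm (lam : Cn n →L[ℂ] ℂ) (z a : Cn n) :
    levi (fun y => (lam y).re) z a = 0 := by
  obtain ⟨L, hL⟩ : ∃ L : Cn n →L[ℝ] ℂ, L =
      Complex.ofRealCLM.comp (Complex.reCLM.comp (lam.restrictScalars ℝ)) := ⟨_, rfl⟩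
  have e : (fun y => (((lam y).re : ℝ) : ℂ)) = L := by
    rw [hL]
    rfl
  have h1 : ∀ j k, Claimed.Agent.R242.leviC (fun y => (lam y).re) j k z = 0 := by
    intro j k
    unfold Claimed.Agent.R242.leviC
    rw [e]
    have h2 : dzb k (L : Cn n → ℂ) = fun _ => (L (Pi.single k 1) + I * L (Pi.single k I)) / 2 := by
      funext y
      unfold Claimed.Agent.R242.dzb
      rw [L.fderiv]
    rw [h2, Claimed.Agent.R242.dz_const]
  unfold Claimed.Agent.R242.levi
  simp [h1]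

theorem dbexh_re_contDiff (lam : Cn n →L[ℂ] ℂ) : ContDiff ℝ ∞ (fun y : Cn n => (lam y).re) :=
  (Complex.reCLM.comp (lam.restrictScalars ℝ)).contDiff

theorem dbexh_inv_contDiffAt (lam : Cn n →L[ℂ] ℂ) (c : ℝ) (z : Cn n) (hz : (lam z).re < c) :
    ContDiffAt ℝ ∞ (fun y : Cn n => (c - (lam y).re)⁻¹) z :=
  (contDiffAt_const.sub (dbexh_re_contDiff lam).contDiffAt).inv (sub_pos.2 hz).ne'

theorem dbexh_deriv2 (c s : ℝ) (hs : s < c) :
    0 ≤ deriv (deriv fun x : ℝ => (c - x)⁻¹) s := by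
  have h1 : ∀ x : ℝ, x < c → HasDerivAt (fun x : ℝ => (c - x)⁻¹) (((c - x) ^ 2)⁻¹) x := by
    intro x hx
    have h2 : HasDerivAt (fun x : ℝ => c - x) (-1) x := by
      simpa using (hasDerivAt_id x).const_sub c
    have h3 := h2.fun_inv (sub_pos.2 hx).ne'
    rw [neg_neg, one_div] at h3
    exact h3
  have h4 : deriv (fun x : ℝ => (c - x)⁻¹) =ᶠ[nhds s] fun x => ((c - x) ^ 2)⁻¹ := by
    filter_upwards [Iio_mem_nhds hs] with x hx
    exact (h1 x hx).deriv
  rw [h4.deriv_eq]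
  have hpos : 0 < c - s := sub_pos.2 hs
  have h5 : HasDerivAt (fun x : ℝ => (c - x) ^ 2) (2 * (c - s) ^ 1 * (-1)) s := by
    have h2 : HasDerivAt (fun x : ℝ => c - x) (-1) s := by
      simpa using (hasDerivAt_id s).const_sub c
    exact h2.fun_pow 2
  have h6 := h5.fun_inv (pow_pos hpos 2).ne'
  have h7 : deriv (fun x : ℝ => ((c - x) ^ 2)⁻¹) s = -(2 * (c - s) ^ 1 * (-1)) / ((c - s) ^ 2) ^ 2 :=
    h6.deriv
  rw [h7]
  have : -(2 * (c - s) ^ 1 * (-1)) = 2 * (c - s) := by ring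
  rw [this]
  positivity

/-- `1 / (c - Re lam)` is plurisubharmonic on `{Re lam < c}`. -/
theorem db_levi_inv (lam : Cn n →L[ℂ] ℂ) (c : ℝ) (z a : Cn n) (hz : (lam z).re < c) :
    0 ≤ levi (fun y => (c - (lam y).re)⁻¹) z a := by
  have hu : ContDiffAt ℝ 2 (fun y : Cn n => (lam y).re) z :=
    ((dbexh_re_contDiff lam).of_le Claimed.Agent.R242.otfb_two_le).contDiffAt
  have hχ : ContDiffAt ℝ 2 (fun x : ℝ => (c - x)⁻¹) ((lam z).re) :=
    (contDiffAt_const.sub contDiffAt_id).inv (sub_pos.2 hz).ne'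
  have h := Claimed.Agent.R242.levi_comp (u := fun y : Cn n => (lam y).re) (z := z) (a := a)
    (fun x : ℝ => (c - x)⁻¹) hu hχ
  rw [h, db_levi_re_clm, mul_zero, zero_add]
  exact mul_nonneg (dbexh_deriv2 c _ hz) (by positivity)

/-- **open polytopes have a good exhaustion.** -/
theorem db_exh_poly {m : ℕ} (lam : Fin m → (Cn n →L[ℂ] ℂ)) (c : Fin m → ℝ) :
    DbExh {z : Cn n | ∀ k, (lam k z).re < c k} := by
  have hcd : ∀ z ∈ {z : Cn n | ∀ k, (lam k z).re < c k},
      ContDiffAt ℝ ∞ (fun y : Cn n => ∑ k, (c k - (lam k y).re)⁻¹) z := by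
    intro z hz
    exact ContDiffAt.sum fun k _ => dbexh_inv_contDiffAt (lam k) (c k) z (hz k)
  have hsm : ContDiffOn ℝ ∞ (fun z : Cn n => ∑ j, ‖z j‖ ^ 2 + ∑ k, (c k - (lam k z).re)⁻¹)
      {z : Cn n | ∀ k, (lam k z).re < c k} := fun z hz =>
    ((Claimed.Agent.R242.sum_normSq_contDiff n).contDiffAt.add (hcd z hz)).contDiffWithinAt
  refine ⟨fun z => ∑ j, ‖z j‖ ^ 2 + ∑ k, (c k - (lam k z).re)⁻¹, hsm, fun t => ?_, fun z hz a => ?_⟩
  · -- compact sublevel sets
    have hinv : ∀ z ∈ {z : Cn n | ∀ k, (lam k z).re < c k}, ∀ k, 0 < (c k - (lam k z).re)⁻¹ :=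
      fun z hz k => inv_pos.2 (sub_pos.2 (hz k))
    have hT : IsClosed {z : Cn n | ∀ k, 1 ≤ t * (c k - (lam k z).re) ∧ 0 ≤ c k - (lam k z).re} := by
      have hre : ∀ k, Continuous fun z : Cn n => (lam k z).re :=
        fun k => (dbexh_re_contDiff (lam k)).continuous
      simp only [Set.ofPred_forall]
      refine isClosed_iInter fun k => ?_
      exact (isClosed_le continuous_const (continuous_const.mul (continuous_const.sub (hre k)))).inter
        (isClosed_le continuous_const (continuous_const.sub (hre k)))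
    have hTΩ : {z : Cn n | ∀ k, 1 ≤ t * (c k - (lam k z).re) ∧ 0 ≤ c k - (lam k z).re} ⊆
        {z : Cn n | ∀ k, (lam k z).re < c k} := by
      intro z hz k
      obtain ⟨h1, h2⟩ := hz k
      rcases h2.lt_or_eq with h3 | h3
      · exact sub_pos.1 h3
      · rw [← h3, mul_zero] at h1
        exact absurd h1 (by norm_num)
    have heq : {z : Cn n | z ∈ {z : Cn n | ∀ k, (lam k z).re < c k} ∧
        ∑ j, ‖z j‖ ^ 2 + ∑ k, (c k - (lam k z).re)⁻¹ ≤ t} =
        {z : Cn n | ∀ k, 1 ≤ t * (c k - (lam k z).re) ∧ 0 ≤ c k - (lam k z).re} ∩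
          (fun z : Cn n => ∑ j, ‖z j‖ ^ 2 + ∑ k, (c k - (lam k z).re)⁻¹) ⁻¹' Set.Iic t := by
      ext z
      constructor
      · rintro ⟨hz, hle⟩
        refine ⟨fun k => ⟨?_, (sub_pos.2 (hz k)).le⟩, hle⟩
        have h1 : (c k - (lam k z).re)⁻¹ ≤ ∑ k, (c k - (lam k z).re)⁻¹ :=
          Finset.single_le_sum (f := fun k => (c k - (lam k z).re)⁻¹)
            (fun i _ => (hinv z hz i).le) (Finset.mem_univ k)
        have h2 : 0 ≤ ∑ j, ‖z j‖ ^ 2 := Finset.sum_nonneg fun j _ => by positivity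
        have h3 : (c k - (lam k z).re)⁻¹ ≤ t := by linarith
        have hpos : 0 < c k - (lam k z).re := sub_pos.2 (hz k)
        calc (1 : ℝ) = (c k - (lam k z).re)⁻¹ * (c k - (lam k z).re) := (inv_mul_cancel₀ hpos.ne').symm
          _ ≤ t * (c k - (lam k z).re) := mul_le_mul_of_nonneg_right h3 hpos.le
      · rintro ⟨hz, hle⟩
        exact ⟨hTΩ hz, hle⟩
    rw [heq]
    refine Metric.isCompact_of_isClosed_isBounded
      ((hsm.continuousOn.mono hTΩ).preimage_isClosed_of_isClosed hT isClosed_Iic) ?_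
    rw [isBounded_iff_forall_norm_le]
    refine ⟨t + 1, ?_⟩
    rintro z ⟨hz, hle⟩
    have hzΩ := hTΩ hz
    have hle' : ∑ j, ‖z j‖ ^ 2 + ∑ k, (c k - (lam k z).re)⁻¹ ≤ t := hle
    have h1 : 0 ≤ ∑ k, (c k - (lam k z).re)⁻¹ := Finset.sum_nonneg fun k _ => (hinv z hzΩ k).le
    have h2 : 0 ≤ ∑ j, ‖z j‖ ^ 2 := Finset.sum_nonneg fun j _ => by positivity
    rw [pi_norm_le_iff_of_nonneg (by linarith)]
    intro j
    have h3 : ‖z j‖ ^ 2 ≤ ∑ j, ‖z j‖ ^ 2 :=
      Finset.single_le_sum (f := fun j => ‖z j‖ ^ 2) (fun i _ => by positivity) (Finset.mem_univ j)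
    nlinarith [sq_nonneg (‖z j‖ - 1)]
  · -- Levi form
    have h2le := Claimed.Agent.R242.otfb_two_le
    have h1 : ContDiffAt ℝ 2 (fun y : Cn n => ∑ j, ‖y j‖ ^ 2) z :=
      ((Claimed.Agent.R242.sum_normSq_contDiff n).of_le h2le).contDiffAt
    have h3 : ∀ k ∈ (Finset.univ : Finset (Fin m)),
        ContDiffAt ℝ 2 ((fun (k : Fin m) (y : Cn n) => (c k - (lam k y).re)⁻¹) k) z :=
      fun k _ => (dbexh_inv_contDiffAt (lam k) (c k) z (hz k)).of_le h2le
    rw [Claimed.Agent.R242.levi_add h1 ((hcd z hz).of_le h2le),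
      Claimed.Agent.R242.levi_sum_normSq,
      Claimed.Agent.R242.levi_sum Finset.univ (fun (k : Fin m) (y : Cn n) => (c k - (lam k y).re)⁻¹) h3]
    have h4 : 0 ≤ ∑ k, levi (fun y : Cn n => (c k - (lam k y).re)⁻¹) z a :=
      Finset.sum_nonneg fun k _ => db_levi_inv (lam k) (c k) z a (hz k)
    linarith

end Claimed.Agent.R245
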