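/-
Row 245 / S0484.  Package DB.   Architect: helper246.
DBOpen (leaf DB-OPEN): Hörmander's theorem in WEAK form on an open subset `Ω` of `Cn n` = adapter of `R242.hormander_rd`
(R242/SCV/Main.lean, use it as a black box) to `W = ↥Ω`, `p = Subtype.val`.

PLAN.  `hp := isLocalHomeomorph_subtype_val hΩ` (RdMeas.lean), `rdVol_subtype_val hΩ` (RdMeas.lean).  The whole of `W` is ONE sheet:
`e : OpenPartialHomeomorph ↥Ω (Cn n) := hΩ.isOpenEmbedding_subtypeVal.toOpenPartialHomeomorph _` (source `univ`, target `Ω`),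
`IsSheet Subtype.val e` by `rfl`/`IsOpenEmbedding.toOpenPartialHomeomorph_apply`.  Translate with the RD kit (all PROVED):
 * functions `g ∘ val`: `rdLoc_comp`, `rdDb_comp`, `rdLevi_comp` (RdGerm.lean); `RdContDiff hp ∞ (g ∘ val)` from `ContDiffOn ℝ ∞ g Ω`: unfold
   `RdContDiff`, `RdContDiffAt`; `(hg.contDiffAt (hΩ.mem_nhds x.2)).congr_of_eventuallyEq (rdLoc_comp ..)`.
 * compact sublevels: `{x : ↥Ω | ρ x ≤ t} = val ⁻¹' {z | z ∈ Ω ∧ ρ z ≤ t}`, `Topology.IsInducing.subtypeVal.isCompact_preimage..` /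
   `Subtype.isCompact_iff` (image of the set under `val` is the compact set).
 * a test function `v` on `W` (`RdTest hp ∞ v`) gives `rdPush e v` with `DbTest Ω (rdPush e v)`: `contDiff_rdPush`, `hasCompactSupport_rdPush`,
   `tsupport_rdPush_subset` with `K := tsupport v`; `dzb_rdPush`; integrals: `integral_rdPush` (RdSheet.lean), `rdPush_mul`, `rdPush_mul_comp`.
 * conversely a test function `v` with `DbTest Ω v` gives `rdPull val e v` (`= v ∘ val`): `rdContDiff_rdPull`, `hasCompactSupport_rdPull`,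
   `rdDb_rdPull`, `integral_rdPull` with `L := tsupport v`.
 * `RdL2Loc` of `f j ∘ val`: `rdL2Loc_of_continuous` (RdIbp.lean), `continuousOn_iff_continuous_restrict`.
 * answer: `u := rdPush e u_W`;  `LocallyIntegrableOn u Ω` from `RdL2Loc.locallyIntegrable` + `integrableOn_sheet_iff`/`r242_locallyIntegrableOn_sheet`
   (WeylRd.lean: exactly this statement);  weighted integrals: `lintegral_rdVolW_ofReal`, `lintegral_sheet`/`lintegral_rdPush`.
 * the a.e. hypothesis `hfB` of `hormander_rd` holds everywhere.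
-/
import Claimed.Agent.R245.DBDefs

set_option autoImplicit false

namespace Claimed.Agent.R245

open Claimed.Agent.R242 (Cn dz dzb levi PshOn)
open MeasureTheory Complex
open scoped ContDiff ComplexConjugate ENNReal

variable {n : ℕ}

/-- **Hörmander's theorem on an open subset of `ℂⁿ`, weak form.** -/
theorem db_hormander_open (Ω : Set (Cn n)) (hΩ : IsOpen Ω)
    (ρ : Cn n → ℝ) (hρ : ContDiffOn ℝ ∞ ρ Ω) (hρc : ∀ t, IsCompact {z | z ∈ Ω ∧ ρ z ≤ t})
    (hρl : ∀ z ∈ Ω, ∀ a : Cn n, ∑ j, ‖a j‖ ^ 2 ≤ levi ρ z a)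
    (φ : Cn n → ℝ) (hφ : PshOn φ Ω)
    (f : Fin n → Cn n → ℂ) (hfc : ∀ j, ContinuousOn (f j) Ω)
    (hcl : ∀ v, DbTest Ω v → ∀ j k, ∫ z, f j z * dzb k v z = ∫ z, f k z * dzb j v z)
    (B : Cn n → ℝ) (hB : Measurable B) (hB0 : ∀ z, 0 ≤ B z)
    (hfB : ∀ z ∈ Ω, ∀ a : Cn n, ‖∑ j, f j z * conj (a j)‖ ^ 2 ≤ B z * levi φ z a)
    (hBi : ∫⁻ z in Ω, ENNReal.ofReal (B z * Real.exp (-φ z)) < ⊤) :
    ∃ u : Cn n → ℂ, DbWeak Ω u f ∧
      ∫⁻ z in Ω, ENNReal.ofReal (‖u z‖ ^ 2 * Real.exp (-φ z))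
        ≤ ∫⁻ z in Ω, ENNReal.ofReal (B z * Real.exp (-φ z)) := by
  classical
  rcases Ω.eq_empty_or_nonempty with rfl | hne
  · refine ⟨0, ⟨fun z hz => absurd hz (Set.notMem_empty z), fun v hv j => ?_⟩, by simp⟩
    have hv0 : v = 0 := tsupport_eq_empty_iff.1 (Set.subset_empty_iff.1 hv.2.2)
    simp [hv0]
  have : Nonempty Ω := hne.to_subtype
  set hp := R242.isLocalHomeomorph_subtype_val hΩ with hhp
  set e : OpenPartialHomeomorph Ω (Cn n) :=
    hΩ.isOpenEmbedding_subtypeVal.toOpenPartialHomeomorph Subtype.val with he_def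
  have he : R242.IsSheet (Subtype.val : Ω → Cn n) e := rfl
  have hes : e.source = Set.univ := rfl
  have het : e.target = Ω := by
    rw [he_def, Topology.IsOpenEmbedding.toOpenPartialHomeomorph_target, Subtype.range_coe]
  have hφc : ContinuousOn φ Ω := hφ.1.continuousOn
  -- integrals
  have key : ∀ (g : Cn n → ℂ) (w : Ω → ℂ),
      ∫ x : Ω, w x * g x ∂(R242.rdVol (Subtype.val : Ω → Cn n)) = ∫ z, R242.rdPush e w z * g z := by
    intro g w
    rw [← R242.integral_rdPush hp he (g := fun x : Ω => w x * g x)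
      (fun x hx => absurd (hes ▸ Set.mem_univ x) hx), R242.rdPush_mul_comp he w g]
  -- closedness
  have hclW : R242.RdWeakClosed hp (fun j (x : Ω) => f j x) := by
    intro v hv j k
    have hK : IsCompact (tsupport v) := hv.2
    have hKe : tsupport v ⊆ e.source := hes ▸ Set.subset_univ _
    have hw : ∀ x ∉ tsupport v, v x = 0 := fun x hx => image_eq_zero_of_notMem_tsupport hx
    have hT : DbTest Ω (R242.rdPush e v) :=
      ⟨R242.contDiff_rdPush hp he hK hKe hw hv.1, R242.hasCompactSupport_rdPush he hK hKe hw,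
        (R242.tsupport_rdPush_subset he hK hKe hw).trans (by rintro _ ⟨x, -, rfl⟩; exact x.2)⟩
    have h1 := hcl _ hT j k
    rw [R242.dzb_rdPush hp he hK hKe hw k, R242.dzb_rdPush hp he hK hKe hw j] at h1
    simp only [mul_comm (f _ _)] at h1 ⊢
    rw [key (f j), key (f k)]
    exact h1
  obtain ⟨uW, huL, huW, hub⟩ := R242.hormander_rd hp (fun x : Ω => ρ x)
    ((R242.rdContDiff_subtype_iff hΩ).2 hρ)
    (fun t => R242.isCompact_subtype_sublevel (hρc t))
    (fun x a => by rw [R242.rdLevi_comp hp ρ x a]; exact hρl x x.2 a)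
    (fun x => φ x) ((R242.rdContDiff_subtype_iff hΩ).2 hφ.1)
    (fun x a => by rw [R242.rdLevi_comp hp φ x a]; exact hφ.2 x x.2 a)
    (fun j (x : Ω) => f j x)
    (fun j => R242.rdL2Loc_of_continuous hp (continuousOn_iff_continuous_domRestrict.1 (hfc j)))
    hclW (fun x => B x) (hB.comp measurable_subtype_coe) (fun x => hB0 x)
    (Filter.Eventually.of_forall fun x a => by
      rw [R242.rdLevi_comp hp φ x a]
      exact hfB x x.2 a)
    (by rw [R242.lintegral_rdVolW_subtype hΩ hφc hB0]; exact hBi)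
  have hu_coe : ∀ x : Ω, R242.rdPush e uW x = uW x := fun x =>
    R242.rdPush_proj he uW (hes ▸ Set.mem_univ x)
  refine ⟨R242.rdPush e uW, ⟨?_, ?_⟩, ?_⟩
  · have h1 := R242.r242_locallyIntegrableOn_sheet hp (huL.locallyIntegrable hp) he
    rw [het] at h1
    intro z hz
    obtain ⟨N, hN, hNi⟩ := h1 z hz
    exact ⟨N, hN, hNi.indicator e.open_target.measurableSet⟩
  · intro v hv j
    have hL : IsCompact (tsupport v) := hv.2.1
    have hLe : tsupport v ⊆ e.target := by rw [het]; exact hv.2.2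
    have hg : ∀ z ∉ tsupport v, v z = 0 := fun z hz => image_eq_zero_of_notMem_tsupport hz
    have hT : R242.RdTest hp ∞ (R242.rdPull (Subtype.val : Ω → Cn n) e v) :=
      ⟨R242.rdContDiff_rdPull hp he hL hLe hg hv.1, R242.hasCompactSupport_rdPull he hL hLe hg⟩
    have h1 := huW _ hT j
    rw [R242.rdDb_rdPull hp he hL hLe hg j] at h1
    have hpull : ∀ (g : Cn n → ℂ) (x : Ω), R242.rdPull (Subtype.val : Ω → Cn n) e g x = g x :=
      fun g x => R242.rdPull_of_mem g (hes ▸ Set.mem_univ x)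
    simp only [hpull] at h1
    rw [key (dzb j v) uW] at h1
    rw [h1]
    congr 1
    have h2 := R242.integral_rdPull hp he (g := fun z => f j z * v z) (fun z hz => by
      have : z ∉ tsupport v := fun h => hz (hLe h)
      simp only [hg z this, mul_zero])
    simp only [hpull] at h2
    exact h2
  · rw [← R242.lintegral_rdVolW_subtype hΩ hφc hB0,
      ← R242.lintegral_rdVolW_subtype hΩ hφc (G := fun z => ‖R242.rdPush e uW z‖ ^ 2)
        (fun z => by positivity)]
    simp only [hu_coe]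
    exact hub

end Claimed.Agent.R245
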