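/-
Row 245 / S0484.  Package DB.   Architect: helper246.
DBWeak: from local `C²` solutions to a global weak `L²` solution.
Leaves:  DB-WEAK-A = `db_ibp`, `db_eta_contDiffOn`, `db_eta_closed`, `db_weak_closed`;     DB-WEAK-B = `db_weak_exists`.

PLANS.
 * `db_ibp`: `G z := g z * v z` is `ContDiff ℝ 1` on the whole space: at `z ∈ Ω` product of `C¹` functions (`hg.contDiffAt (hΩ.mem_nhds hz)`), at `z ∉ Ω`
   we have `z ∉ tsupport v`, so `v`, hence `G`, vanishes near `z` (`notMem_tsupport_iff_eventuallyEq`, `contDiffAt_const.congr_of_eventuallyEq`); compact support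
   (`HasCompactSupport.mul_left`).  `R242.integral_dzb_eq_zero` (RdIbp.lean) gives `∫ dzb j G = 0`; pointwise `dzb j G z = dzb j g z * v z + g z * dzb j v z`
   (`R242.dzb_mul` on `Ω`; off `Ω` both sides are `0`: `R242.r242_dzb_of_notMem_tsupport`, `image_eq_zero_of_notMem_tsupport`, `dzb_congr`); both terms are integrable
   (continuous on `Ω` with compact support in `Ω`: e.g. each term is continuous on the whole space by the same local argument; `Continuous.integrable_of_hasCompactSupport`).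
 * `db_eta_contDiffOn`: near `z`, `η j = dzb j e` on the open `V` and `R242.contDiffOn_dzb` (`1 + 1 ≤ 2`); `ContDiffOn` is local (`contDiffOn_of_locally_contDiffOn` or via `ContDiffAt`).
 * `db_eta_closed`: `dzb k (η j) z = dzb k (dzb j e) z` (`R242.dzb_congr`, eventual equality on `V`), `R242.dzb_dzb_comm`.
 * `db_weak_closed`: `db_ibp` twice and `db_eta_closed` (the integrands agree on `Ω`, and vanish off `tsupport v`).
 * `db_weak_exists`: `db_hormander_open` with `φ z = ∑ ‖z j‖²` (`R242.sum_normSq_contDiff`, `R242.levi_sum_normSq`), `B z = n * M²` (Cauchy–Schwarz: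
   `‖∑ η_j conj a_j‖² ≤ (∑ ‖η_j‖²)(∑ ‖a_j‖²)`, `Finset.sum_mul_sq_le_sq_mul_sq` after `norm_sum_le`), `exp (-φ) ≤ 1`, `volume Ω ≤ volume (ball 0 R) < ⊤`;
   on `Ω`: `φ z ≤ n R²`, so `‖w‖² ≤ exp (n R²) * (‖w‖² exp (-φ z))`.   `C₀ := exp (n R²) * n * (volume (ball 0 R)).toReal + 1`.
-/
import Claimed.Agent.R245.DBOpen

set_option autoImplicit false

namespace Claimed.Agent.R245

open Claimed.Agent.R242 (Cn dz dzb levi PshOn)
open MeasureTheory Complex
open scoped ContDiff ComplexConjugate ENNReal Topology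

variable {n : ℕ} {Ω : Set (Cn n)} {η : Fin n → Cn n → ℂ}

/-- a function which is `C^k` on `Ω` times a `C^k` function with support in `Ω` is `C^k`. -/
theorem dbwa_contDiff_mul {k : WithTop ℕ∞} (hΩ : IsOpen Ω) {g v : Cn n → ℂ} (hg : ContDiffOn ℝ k g Ω)
    (hv : ContDiff ℝ k v) (hs : tsupport v ⊆ Ω) : ContDiff ℝ k (fun z => g z * v z) := by
  rw [contDiff_iff_contDiffAt]
  intro z
  by_cases hz : z ∈ Ω
  · exact (hg.contDiffAt (hΩ.mem_nhds hz)).mul hv.contDiffAt
  · have hz' : z ∉ tsupport v := fun h => hz (hs h)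
    have h0 : (fun z => g z * v z) =ᶠ[𝓝 z] fun _ => 0 := by
      filter_upwards [(isClosed_tsupport v).isOpen_compl.mem_nhds hz'] with y hy
      rw [image_eq_zero_of_notMem_tsupport hy, mul_zero]
    exact contDiffAt_const.congr_of_eventuallyEq h0

theorem dbwa_tsupport_dzb (v : Cn n → ℂ) (j : Fin n) : tsupport (dzb j v) ⊆ tsupport v := by
  refine closure_minimal (fun z hz => ?_) (isClosed_tsupport v)
  by_contra h
  exact hz (Claimed.Agent.R242.r242_dzb_of_notMem_tsupport h j)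

theorem dbwa_contDiff_dzb {v : Cn n → ℂ} (hv : ContDiff ℝ ∞ v) (j : Fin n) :
    ContDiff ℝ ∞ (dzb j v) := by
  rw [contDiff_iff_contDiffAt]
  intro z
  exact Claimed.Agent.R242.contDiffAt_dzb (m := ∞) hv.contDiffAt (by simp) j

/-- integration by parts against a test function. -/
theorem db_ibp (hΩ : IsOpen Ω) {g v : Cn n → ℂ} (hg : ContDiffOn ℝ 1 g Ω) (hv : DbTest Ω v) (j : Fin n) :
    ∫ z, g z * dzb j v z = - ∫ z, dzb j g z * v z := by
  obtain ⟨hv1, hv2, hv3⟩ := hv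
  have hG : ContDiff ℝ 1 (fun z => g z * v z) :=
    dbwa_contDiff_mul hΩ hg (hv1.of_le (by exact_mod_cast le_top)) hv3
  have hGc : HasCompactSupport (fun z => g z * v z) := hv2.mul_left
  have h0 := Claimed.Agent.R242.integral_dzb_eq_zero hG hGc j
  have h1 : dzb j (fun x => g x * v x) = fun z => dzb j g z * v z + g z * dzb j v z := by
    funext z
    by_cases hz : z ∈ Ω
    · exact Claimed.Agent.R242.dzb_mul
        ((hg.contDiffAt (hΩ.mem_nhds hz)).differentiableAt (by norm_num))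
        (hv1.differentiable (by simp) z)
    · have hz' : z ∉ tsupport v := fun h => hz (hv3 h)
      have h0 : (fun z => g z * v z) =ᶠ[𝓝 z] fun _ => 0 := by
        filter_upwards [(isClosed_tsupport v).isOpen_compl.mem_nhds hz'] with y hy
        rw [image_eq_zero_of_notMem_tsupport hy, mul_zero]
      rw [Claimed.Agent.R242.dzb_congr h0 j, Claimed.Agent.R242.dzb_const,
        image_eq_zero_of_notMem_tsupport hz', Claimed.Agent.R242.r242_dzb_of_notMem_tsupport hz' j]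
      simp
  have i1 : Integrable fun z => dzb j g z * v z := by
    have hc : ContDiff ℝ 0 (fun z => dzb j g z * v z) :=
      dbwa_contDiff_mul hΩ (Claimed.Agent.R242.contDiffOn_dzb hΩ hg (by norm_num) j)
        (hv1.of_le (by simp)) hv3
    exact hc.continuous.integrable_of_hasCompactSupport hv2.mul_left
  have i2 : Integrable fun z => g z * dzb j v z := by
    have hc : ContDiff ℝ 0 (fun z => g z * dzb j v z) :=
      dbwa_contDiff_mul hΩ (hg.of_le (by simp)) ((dbwa_contDiff_dzb hv1 j).of_le (by simp))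
        ((dbwa_tsupport_dzb v j).trans hv3)
    have hcd : HasCompactSupport (dzb j v) :=
      hv2.of_isClosed_subset (isClosed_tsupport _) (dbwa_tsupport_dzb v j)
    exact hc.continuous.integrable_of_hasCompactSupport hcd.mul_left
  rw [h1, integral_add i1 i2] at h0
  exact eq_neg_of_add_eq_zero_right h0

theorem db_eta_contDiffOn (hloc : DbLoc Ω η) (j : Fin n) : ContDiffOn ℝ 1 (η j) Ω := by
  intro z hz
  obtain ⟨V, e, hzV, hVΩ, hVo, he, heq⟩ := hloc z hz
  have h1 : ContDiffAt ℝ 1 (dzb j e) z :=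
    Claimed.Agent.R242.contDiffAt_dzb (he.contDiffAt (hVo.mem_nhds hzV)) (by norm_num) j
  have h2 : η j =ᶠ[𝓝 z] dzb j e := by
    filter_upwards [hVo.mem_nhds hzV] with y hy
    exact (heq y hy j).symm
  exact (h1.congr_of_eventuallyEq h2).contDiffWithinAt

theorem db_eta_closed (hloc : DbLoc Ω η) : ∀ z ∈ Ω, ∀ j k, dzb k (η j) z = dzb j (η k) z := by
  intro z hz j k
  obtain ⟨V, e, hzV, hVΩ, hVo, he, heq⟩ := hloc z hz
  have h2 : ∀ j, η j =ᶠ[𝓝 z] dzb j e := by
    intro j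
    filter_upwards [hVo.mem_nhds hzV] with y hy
    exact (heq y hy j).symm
  rw [Claimed.Agent.R242.dzb_congr (h2 j) k, Claimed.Agent.R242.dzb_congr (h2 k) j]
  exact Claimed.Agent.R242.dzb_dzb_comm (he.contDiffAt (hVo.mem_nhds hzV)) k j

theorem db_weak_closed (hΩ : IsOpen Ω) (hloc : DbLoc Ω η) :
    ∀ v, DbTest Ω v → ∀ j k, ∫ z, η j z * dzb k v z = ∫ z, η k z * dzb j v z := by
  intro v hv j k
  rw [db_ibp hΩ (db_eta_contDiffOn hloc j) hv k, db_ibp hΩ (db_eta_contDiffOn hloc k) hv j]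
  congr 1
  refine integral_congr_ae (Filter.Eventually.of_forall fun z => ?_)
  by_cases hz : z ∈ Ω
  · simp only [db_eta_closed hloc z hz j k]
  · have hz' : z ∉ tsupport v := fun h => hz (hv.2.2 h)
    simp only [image_eq_zero_of_notMem_tsupport hz', mul_zero]

theorem dbwb_cs {n : ℕ} (x a : Cn n) {M : ℝ} (hx : ∀ j, ‖x j‖ ≤ M) :
    ‖∑ j, x j * conj (a j)‖ ^ 2 ≤ (n * M ^ 2) * ∑ j, ‖a j‖ ^ 2 := by
  have h1 : ‖∑ j, x j * conj (a j)‖ ≤ M * ∑ j, ‖a j‖ := by
    refine (norm_sum_le _ _).trans ?_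
    rw [Finset.mul_sum]
    refine Finset.sum_le_sum fun j _ => ?_
    rw [norm_mul, RCLike.norm_conj]
    exact mul_le_mul_of_nonneg_right (hx j) (norm_nonneg _)
  have h2 : (∑ j, ‖a j‖) ^ 2 ≤ n * ∑ j, ‖a j‖ ^ 2 := by
    have := sq_sum_le_card_mul_sum_sq (s := (Finset.univ : Finset (Fin n))) (f := fun j => ‖a j‖)
    simpa using this
  have h3 : 0 ≤ ∑ j, ‖a j‖ := Finset.sum_nonneg fun j _ => norm_nonneg _
  calc ‖∑ j, x j * conj (a j)‖ ^ 2 ≤ (M * ∑ j, ‖a j‖) ^ 2 :=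
        pow_le_pow_left₀ (norm_nonneg _) h1 2
    _ = M ^ 2 * (∑ j, ‖a j‖) ^ 2 := by ring
    _ ≤ M ^ 2 * (n * ∑ j, ‖a j‖ ^ 2) := mul_le_mul_of_nonneg_left h2 (sq_nonneg M)
    _ = (n * M ^ 2) * ∑ j, ‖a j‖ ^ 2 := by ring

/-- a global weak solution with an `L²` bound. -/
theorem db_weak_exists (n : ℕ) (R : ℝ) : ∃ C₀ : ℝ, 0 < C₀ ∧ ∀ (Ω : Set (Cn n)), IsOpen Ω →
    Ω ⊆ Metric.ball 0 R → DbExh Ω → ∀ (η : Fin n → Cn n → ℂ) (M : ℝ), 0 ≤ M →
    (∀ z ∈ Ω, ∀ j, ‖η j z‖ ≤ M) → DbLoc Ω η →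
    ∃ w₀ : Cn n → ℂ, DbWeak Ω w₀ η ∧
      ∫⁻ z in Ω, ENNReal.ofReal (‖w₀ z‖ ^ 2) ≤ ENNReal.ofReal (C₀ * M ^ 2) := by
  set vol : ℝ := (volume (Metric.ball (0 : Cn n) R)).toReal with hvol
  have hvol0 : 0 ≤ vol := ENNReal.toReal_nonneg
  have hvfin : volume (Metric.ball (0 : Cn n) R) ≠ ⊤ := measure_ball_lt_top.ne
  refine ⟨Real.exp (n * R ^ 2) * n * vol + 1, by positivity, ?_⟩
  intro Ω hΩ hR ⟨ρ, hρ, hρc, hρl⟩ η M hM hη hloc
  set φ : Cn n → ℝ := fun y => ∑ j, ‖y j‖ ^ 2 with hφ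
  have hφpsh : PshOn φ Ω := by
    refine ⟨(Claimed.Agent.R242.sum_normSq_contDiff n).contDiffOn, fun z _ a => ?_⟩
    rw [hφ, Claimed.Agent.R242.levi_sum_normSq]
    exact Finset.sum_nonneg fun j _ => sq_nonneg _
  have hBle : ∫⁻ z in Ω, ENNReal.ofReal ((n * M ^ 2) * Real.exp (-φ z))
      ≤ ENNReal.ofReal (n * M ^ 2) * volume (Metric.ball (0 : Cn n) R) := by
    calc ∫⁻ z in Ω, ENNReal.ofReal ((n * M ^ 2) * Real.exp (-φ z))
        ≤ ∫⁻ _ in Ω, ENNReal.ofReal (n * M ^ 2) := by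
          refine lintegral_mono fun z => ENNReal.ofReal_le_ofReal ?_
          have h1 : Real.exp (-φ z) ≤ 1 := by
            rw [Real.exp_le_one_iff, neg_nonpos]
            exact Finset.sum_nonneg fun j _ => sq_nonneg _
          have h2 : (0 : ℝ) ≤ n * M ^ 2 := by positivity
          nlinarith
      _ = ENNReal.ofReal (n * M ^ 2) * volume Ω := by
          rw [lintegral_const, Measure.restrict_apply MeasurableSet.univ, Set.univ_inter]
      _ ≤ _ := by gcongr
  obtain ⟨u, hu, hL⟩ := db_hormander_open Ω hΩ ρ hρ hρc hρl φ hφpsh η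
    (fun j => (db_eta_contDiffOn hloc j).continuousOn) (db_weak_closed hΩ hloc)
    (fun _ => n * M ^ 2) measurable_const (fun _ => by positivity)
    (fun z hz a => by
      rw [hφ, Claimed.Agent.R242.levi_sum_normSq]
      exact dbwb_cs _ a (hη z hz))
    (lt_of_le_of_lt hBle (ENNReal.mul_lt_top ENNReal.ofReal_lt_top hvfin.lt_top))
  refine ⟨u, hu, ?_⟩
  have hpt : ∀ z ∈ Ω, ENNReal.ofReal (‖u z‖ ^ 2)
      ≤ ENNReal.ofReal (Real.exp (n * R ^ 2)) * ENNReal.ofReal (‖u z‖ ^ 2 * Real.exp (-φ z)) := by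
    intro z hz
    rw [← ENNReal.ofReal_mul (Real.exp_pos _).le]
    refine ENNReal.ofReal_le_ofReal ?_
    have hzR : ‖z‖ < R := by simpa using hR hz
    have h1 : φ z ≤ n * R ^ 2 := by
      have : ∀ j ∈ (Finset.univ : Finset (Fin n)), ‖z j‖ ^ 2 ≤ R ^ 2 := fun j _ =>
        pow_le_pow_left₀ (norm_nonneg _) ((norm_le_pi_norm z j).trans hzR.le) 2
      have := Finset.sum_le_sum this
      simpa [hφ] using this
    have h2 : 1 ≤ Real.exp (n * R ^ 2) * Real.exp (-φ z) := by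
      rw [← Real.exp_add]
      exact Real.one_le_exp (by linarith)
    have h3 : 0 ≤ ‖u z‖ ^ 2 := sq_nonneg _
    nlinarith
  calc ∫⁻ z in Ω, ENNReal.ofReal (‖u z‖ ^ 2)
      ≤ ∫⁻ z in Ω, ENNReal.ofReal (Real.exp (n * R ^ 2)) *
          ENNReal.ofReal (‖u z‖ ^ 2 * Real.exp (-φ z)) :=
        setLIntegral_mono' hΩ.measurableSet hpt
    _ = ENNReal.ofReal (Real.exp (n * R ^ 2)) *
          ∫⁻ z in Ω, ENNReal.ofReal (‖u z‖ ^ 2 * Real.exp (-φ z)) :=
        lintegral_const_mul' _ _ ENNReal.ofReal_ne_top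
    _ ≤ ENNReal.ofReal (Real.exp (n * R ^ 2)) *
          (ENNReal.ofReal (n * M ^ 2) * volume (Metric.ball (0 : Cn n) R)) := by
        gcongr
        exact hL.trans hBle
    _ = ENNReal.ofReal (Real.exp (n * R ^ 2) * (n * M ^ 2 * vol)) := by
        rw [← ENNReal.ofReal_toReal hvfin, ← ENNReal.ofReal_mul (by positivity),
          ← ENNReal.ofReal_mul (Real.exp_pos _).le]
    _ ≤ ENNReal.ofReal ((Real.exp (n * R ^ 2) * n * vol + 1) * M ^ 2) := by
        refine ENNReal.ofReal_le_ofReal ?_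
        nlinarith [sq_nonneg M]

end Claimed.Agent.R245
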