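/-
Row 245 / S0484.  Package DB.   Architect: helper246.
DBGlue: regularity of the weak solution (Weyl's lemma of R242, PROVED there) and the sup bound.
Leaves:  DB-GLUE-A = `db_local_holo`, `db_glue`;     DB-GLUE-B = `db_volume_ball`, `db_bound`.

PLANS.
 * `db_local_holo`: `R242.weyl_Cn he.1` for `u := fun z => w₀ z - e z`.  Locally integrable on `V`: `hw.1.mono_set hV` and `e` continuous on the open `V`
   (`ContinuousOn.locallyIntegrableOn`).  A test function `φ` in `V` is a test function in `Ω`; `∫ w₀ dzb j φ = - ∫ η_j φ` (`hw.2`), `∫ e dzb j φ = - ∫ dzb j e φ = - ∫ η_j φ`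
   (`db_ibp he.1`, `he.2.1.of_le`; the integrands agree: on `V` by `he.2.2`, off `V` `φ = 0`); `integral_sub` needs the integrability of `w₀ * dzb j φ` and `e * dzb j φ`
   (locally integrable on `V` times continuous with compact support in `V`: `LocallyIntegrableOn.integrable_smul_..`/`R242.integrable_mul_test`-like; or
   `IntegrableOn` on the compact `tsupport φ` + bounded factor (`Integrable.bdd_mul`), then `integrable_of_..support`).
 * `db_glue`: copy the gluing in the proof of `R242.r242_weyl` (R242/SCV/Weyl.lean, l. 498-570).  `choose` for every `z : Ω` a triple `(V z, e z, H z)` (`hloc` + `db_local_holo`),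
   `w z := if hz : z ∈ Ω then e ⟨z,hz⟩ z + H ⟨z,hz⟩ z else 0`.  KEY: if `(V,e,H)` and `(V',e',H')` are two such triples then `e + H = e' + H'` on `V ∩ V'`: both are continuous there and
   a.e. equal to `w₀` (`MeasureTheory.Measure.eqOn_open_of_ae_eq`).  Hence `w - e = H` on `V` for EVERY triple: holomorphic (`DifferentiableOn.congr`).
   `w = w₀` a.e. on `Ω`: countable subcover of `Ω` by the `V z` (`TopologicalSpace.isOpen_iUnion_countable` / `IsLindelof`), `ae_all_iff` over the countable set.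
 * `db_volume_ball`: `ball_pi`, `volume_pi_pi`, `Complex.volume_ball`.
 * `db_bound`: `R242.sq_mul_volume_le_lintegral` for `H = w - e` on `ball p d`; `‖H z‖² ≤ 2 ‖w z‖² + 2 M'²` on the ball; `lintegral_add_right _ measurable_const`; `lintegral_mono_set`;
   so `‖H p‖² (π d²)ⁿ ≤ 2 C₀ M² + 2 M'² (π d²)ⁿ`, `πⁿ ≥ 1`, `√(a + b) ≤ √a + √b`.
-/
import Claimed.Agent.R245.DBWeak

set_option autoImplicit false

namespace Claimed.Agent.R245

open Claimed.Agent.R242 (Cn dz dzb levi PshOn)
open MeasureTheory Complex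
open scoped ContDiff ComplexConjugate ENNReal

variable {n : ℕ} {Ω : Set (Cn n)} {η : Fin n → Cn n → ℂ} {w₀ : Cn n → ℂ}

/-- weak solution minus a classical local solution is holomorphic (a.e.). -/
theorem db_local_holo (hw : DbWeak Ω w₀ η) {V : Set (Cn n)} {e : Cn n → ℂ} (hV : V ⊆ Ω)
    (he : DbSol η e V) :
    ∃ H : Cn n → ℂ, DifferentiableOn ℂ H V ∧ ∀ᵐ z, z ∈ V → w₀ z - e z = H z := by
  obtain ⟨hVo, heC, heq⟩ := he
  have hw0 : LocallyIntegrableOn w₀ V volume := hw.1.mono_set hV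
  have hel : LocallyIntegrableOn e V volume :=
    heC.continuousOn.locallyIntegrableOn hVo.measurableSet
  refine Claimed.Agent.R242.weyl_Cn hVo (u := fun z => w₀ z - e z) (hw0.sub hel) ?_
  intro φ hφ hc hs j
  have hT : DbTest V φ := ⟨hφ, hc, hs⟩
  have hTΩ : DbTest Ω φ := ⟨hφ, hc, hs.trans hV⟩
  have h1 := hw.2 φ hTΩ j
  have h2 := db_ibp hVo (heC.of_le (by norm_num)) hT j
  have h3 : ∫ z, dzb j e z * φ z = ∫ z, η j z * φ z := by
    refine integral_congr_ae (Filter.Eventually.of_forall fun z => ?_)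
    by_cases hz : z ∈ V
    · simp only [heq z hz j]
    · have h0 : φ z = 0 := image_eq_zero_of_notMem_tsupport (fun h => hz (hs h))
      simp [h0]
  have hint : ∀ u : Cn n → ℂ, LocallyIntegrableOn u V volume →
      Integrable (fun z => u z * dzb j φ z) := by
    intro u hl
    have h4 : IntegrableOn u (tsupport φ) volume := hl.integrableOn_compact_subset hs hc
    have h5 : IntegrableOn (fun w => u w * dzb j φ w) (tsupport φ) volume :=
      h4.mul_continuousOn (Claimed.Agent.R242.r242_continuous_dzb hφ j).continuousOn hc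
    refine h5.integrable_of_forall_notMem_eq_zero fun w hw => ?_
    rw [Claimed.Agent.R242.r242_dzb_of_notMem_tsupport hw, mul_zero]
  simp only [sub_mul]
  rw [integral_sub (hint _ hw0) (hint _ hel), h1, h2, h3, sub_self]

/-- the good representative of the weak solution. -/
theorem db_glue (hΩ : IsOpen Ω) (hw : DbWeak Ω w₀ η) (hloc : DbLoc Ω η) :
    ∃ w : Cn n → ℂ, (∀ᵐ z, z ∈ Ω → w z = w₀ z) ∧
      ∀ (V : Set (Cn n)) (e : Cn n → ℂ), V ⊆ Ω → DbSol η e V →
        DifferentiableOn ℂ (fun z => w z - e z) V := by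
  classical
  choose V e hzV hVΩ hsol using fun z : Ω => hloc z.1 z.2
  choose H hHd hHae using fun z : Ω => db_local_holo hw (hVΩ z) (hsol z)
  set w : Cn n → ℂ := fun z => if hz : z ∈ Ω then e ⟨z, hz⟩ z + H ⟨z, hz⟩ z else 0 with hwdef
  have key : ∀ (V' : Set (Cn n)) (e' H' : Cn n → ℂ), V' ⊆ Ω → DbSol η e' V' →
      DifferentiableOn ℂ H' V' → (∀ᵐ z, z ∈ V' → w₀ z - e' z = H' z) →
      ∀ z ∈ V', w z = e' z + H' z := by
    intro V' e' H' hV' hs' hd' hae' z hz
    have hzΩ : z ∈ Ω := hV' hz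
    have h1 : w z = e ⟨z, hzΩ⟩ z + H ⟨z, hzΩ⟩ z := by simp only [hwdef, dif_pos hzΩ]
    rw [h1]
    set W : Set (Cn n) := V ⟨z, hzΩ⟩ ∩ V' with hW
    have hWo : IsOpen W := (hsol _).1.inter hs'.1
    have hzW : z ∈ W := ⟨hzV _, hz⟩
    have haeW : (fun x => e ⟨z, hzΩ⟩ x + H ⟨z, hzΩ⟩ x) =ᵐ[volume.restrict W]
        (fun x => e' x + H' x) := by
      rw [Filter.EventuallyEq, ae_restrict_iff' hWo.measurableSet]
      filter_upwards [hHae ⟨z, hzΩ⟩, hae'] with x h2 h3 hx
      rw [← h2 hx.1, ← h3 hx.2]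
      ring
    exact Measure.eqOn_open_of_ae_eq haeW hWo
      (((hsol _).2.1.continuousOn.add (hHd _).continuousOn).mono Set.inter_subset_left)
      ((hs'.2.1.continuousOn.add hd'.continuousOn).mono Set.inter_subset_right) hzW
  refine ⟨w, ?_, ?_⟩
  · set s : Set (Cn n) := {z | z ∈ Ω ∧ w z ≠ w₀ z} with hs
    have hnull : volume s = 0 := by
      refine measure_null_of_locally_null s fun x hx => ?_
      refine ⟨V ⟨x, hx.1⟩ ∩ s, ?_, ?_⟩
      · rw [Set.inter_comm]
        exact inter_mem_nhdsWithin s ((hsol _).1.mem_nhds (hzV _))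
      · refine measure_mono_null ?_ (hHae ⟨x, hx.1⟩)
        intro y hy hcon
        apply hy.2.2
        rw [key _ _ _ (hVΩ _) (hsol _) (hHd _) (hHae _) y hy.1, ← hcon hy.1]
        ring
    rw [ae_iff]
    refine measure_mono_null ?_ hnull
    intro z hz
    exact Classical.not_imp.1 hz
  · intro V' e' hV' hs'
    obtain ⟨H', hd', hae'⟩ := db_local_holo hw hV' hs'
    refine hd'.congr fun z hz => ?_
    rw [key V' e' H' hV' hs' hd' hae' z hz]
    ring

theorem db_volume_ball (p : Cn n) {d : ℝ} (hd : 0 < d) :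
    volume (Metric.ball p d) = ENNReal.ofReal ((Real.pi * d ^ 2) ^ n) := by
  rw [ball_pi p hd, volume_pi_pi]
  simp only [Complex.volume_ball, Finset.prod_const, Finset.card_univ, Fintype.card_fin]
  rw [ENNReal.ofReal_pow (by positivity), ENNReal.ofReal_mul Real.pi_pos.le,
    ENNReal.ofReal_pow hd.le, mul_comm]
  congr 2
  rw [ENNReal.ofReal, Real.toNNReal_of_nonneg Real.pi_pos.le]
  rfl

/-- from `L²` to a pointwise bound. -/
theorem db_bound {w e : Cn n → ℂ} {C₀ M M' d : ℝ} {p : Cn n} (hC₀ : 0 ≤ C₀) (hM : 0 ≤ M) (hd : 0 < d)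
    (hball : Metric.ball p d ⊆ Ω)
    (hL2 : ∫⁻ z in Ω, ENNReal.ofReal (‖w z‖ ^ 2) ≤ ENNReal.ofReal (C₀ * M ^ 2))
    (hH : DifferentiableOn ℂ (fun z => w z - e z) (Metric.ball p d))
    (he : ∀ z ∈ Metric.ball p d, ‖e z‖ ≤ M') :
    ‖w p - e p‖ ≤ Real.sqrt (2 * C₀) * M / d ^ n + 2 * M' := by
  have hM' : 0 ≤ M' := (norm_nonneg _).trans (he p (Metric.mem_ball_self hd))
  set V : ℝ := (Real.pi * d ^ 2) ^ n with hV
  have hVpos : 0 < V := by positivity
  have hvol : volume (Metric.ball p d) = ENNReal.ofReal V := db_volume_ball p hd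
  have h1 := Claimed.Agent.R242.sq_mul_volume_le_lintegral hH
  have h2 : ∫⁻ z in Metric.ball p d, ENNReal.ofReal (‖w z - e z‖ ^ 2)
      ≤ ENNReal.ofReal (2 * (C₀ * M ^ 2) + 2 * M' ^ 2 * V) := by
    calc ∫⁻ z in Metric.ball p d, ENNReal.ofReal (‖w z - e z‖ ^ 2)
        ≤ ∫⁻ z in Metric.ball p d, (2 * ENNReal.ofReal (‖w z‖ ^ 2)
            + ENNReal.ofReal (2 * M' ^ 2)) := by
          refine setLIntegral_mono' Metric.isOpen_ball.measurableSet fun z hz => ?_
          have h3 : ‖w z - e z‖ ≤ ‖w z‖ + M' := (norm_sub_le _ _).trans (by linarith [he z hz])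
          have h4 : ‖w z - e z‖ ^ 2 ≤ 2 * ‖w z‖ ^ 2 + 2 * M' ^ 2 := by
            have h5 : ‖w z - e z‖ ^ 2 ≤ (‖w z‖ + M') ^ 2 :=
              pow_le_pow_left₀ (norm_nonneg _) h3 2
            nlinarith [sq_nonneg (‖w z‖ - M')]
          calc ENNReal.ofReal (‖w z - e z‖ ^ 2) ≤ ENNReal.ofReal (2 * ‖w z‖ ^ 2 + 2 * M' ^ 2) :=
                ENNReal.ofReal_le_ofReal h4
            _ = 2 * ENNReal.ofReal (‖w z‖ ^ 2) + ENNReal.ofReal (2 * M' ^ 2) := by
                rw [ENNReal.ofReal_add (by positivity) (by positivity),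
                  ENNReal.ofReal_mul (by norm_num)]
                simp
      _ = (∫⁻ z in Metric.ball p d, 2 * ENNReal.ofReal (‖w z‖ ^ 2))
            + ∫⁻ _z in Metric.ball p d, ENNReal.ofReal (2 * M' ^ 2) :=
          lintegral_add_right _ measurable_const
      _ = 2 * (∫⁻ z in Metric.ball p d, ENNReal.ofReal (‖w z‖ ^ 2))
            + ENNReal.ofReal (2 * M' ^ 2) * ENNReal.ofReal V := by
          rw [lintegral_const_mul' _ _ (by simp), setLIntegral_const, hvol]
      _ ≤ 2 * ENNReal.ofReal (C₀ * M ^ 2) + ENNReal.ofReal (2 * M' ^ 2) * ENNReal.ofReal V := by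
          gcongr
          exact (lintegral_mono_set hball).trans hL2
      _ = ENNReal.ofReal (2 * (C₀ * M ^ 2) + 2 * M' ^ 2 * V) := by
          rw [ENNReal.ofReal_add (by positivity) (by positivity),
            ENNReal.ofReal_mul (p := (2 : ℝ)) (by norm_num),
            ENNReal.ofReal_mul (p := 2 * M' ^ 2) (by positivity)]
          simp
  have h3 : ‖w p - e p‖ ^ 2 * V ≤ 2 * (C₀ * M ^ 2) + 2 * M' ^ 2 * V := by
    have h4 := h1.trans h2
    rw [hvol, ← ENNReal.ofReal_mul (by positivity)] at h4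
    exact (ENNReal.ofReal_le_ofReal_iff (by positivity)).1 h4
  have hdn : 0 < d ^ n := by positivity
  have hVd : (d ^ n) ^ 2 ≤ V := by
    rw [hV, mul_pow, ← pow_mul, ← pow_mul, mul_comm n 2]
    have : (1 : ℝ) ≤ Real.pi ^ n := one_le_pow₀ (by linarith [Real.pi_gt_three])
    have h5 : 0 < d ^ (2 * n) := by positivity
    nlinarith
  set a : ℝ := Real.sqrt (2 * C₀) * M / d ^ n with ha
  have ha0 : 0 ≤ a := by positivity
  have ha2 : a ^ 2 * (d ^ n) ^ 2 = 2 * (C₀ * M ^ 2) := by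
    rw [ha, div_pow, mul_pow, Real.sq_sqrt (by positivity)]
    field_simp
  have h6 : ‖w p - e p‖ ^ 2 ≤ (a + 2 * M') ^ 2 := by
    have h7 : ‖w p - e p‖ ^ 2 * V ≤ (a + 2 * M') ^ 2 * V := by
      have h8 : a ^ 2 * (d ^ n) ^ 2 ≤ a ^ 2 * V := by gcongr
      have h9 : 0 ≤ a * M' * V := by positivity
      have h10 : 0 ≤ M' ^ 2 * V := by positivity
      nlinarith
    exact le_of_mul_le_mul_right h7 hVpos
  exact (pow_le_pow_iff_left₀ (norm_nonneg _) (by positivity) (by norm_num)).1 h6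

end Claimed.Agent.R245
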