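/-
Row 245 / S0484.  Package DB: THE PUBLIC INTERFACE.   Architect: helper246.   (glue only; all proofs here are complete)

 * `db_exh_poly` (DBExh.lean): every open polytope `{z | ∀ k, Re (lam k z) < c k}` satisfies `DbExh`.
 * `db_main`   : `Ω ⊆ ball 0 R` open with `DbExh Ω`, `η` bounded by `M` and locally `∂̄` of `C²` functions.  Then there is `w` with
       (1) `w - e` holomorphic on `V` for EVERY local solution `(V, e)`,      (2) `‖w p - e p‖ ≤ C M / dⁿ + 2 M'` if `ball p d ⊆ V`, `‖e‖ ≤ M'` on it.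
 * `db_cousin` : the same without `η`: a family of `C²` functions `e i` on open sets `V i` covering `Ω`, `e i - e i'` holomorphic on `V i ∩ V i'`,
       `‖dzb j (e i)‖ ≤ M`.  Then there is `w` with `w - e i` holomorphic on `V i ∩ Ω` + the bound.
-/
import Claimed.Agent.R245.DBGlue
import Claimed.Agent.R245.DBExh

set_option autoImplicit false

namespace Claimed.Agent.R245

open Claimed.Agent.R242 (Cn dz dzb levi PshOn)
open MeasureTheory Complex
open scoped ContDiff ComplexConjugate ENNReal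

/-- **`∂̄` with bounds, classical formulation.** -/
theorem db_main (n : ℕ) (R : ℝ) : ∃ C : ℝ, 0 < C ∧ ∀ (Ω : Set (Cn n)), IsOpen Ω →
    Ω ⊆ Metric.ball 0 R → DbExh Ω → ∀ (η : Fin n → Cn n → ℂ) (M : ℝ), 0 ≤ M →
    (∀ z ∈ Ω, ∀ j, ‖η j z‖ ≤ M) → DbLoc Ω η →
    ∃ w : Cn n → ℂ,
      (∀ (V : Set (Cn n)) (e : Cn n → ℂ), V ⊆ Ω → DbSol η e V →
        DifferentiableOn ℂ (fun z => w z - e z) V) ∧
      ∀ (V : Set (Cn n)) (e : Cn n → ℂ), V ⊆ Ω → DbSol η e V → ∀ (p : Cn n) (d M' : ℝ), 0 < d →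
        Metric.ball p d ⊆ V → (∀ z ∈ Metric.ball p d, ‖e z‖ ≤ M') →
        ‖w p - e p‖ ≤ C * M / d ^ n + 2 * M' := by
  obtain ⟨C₀, hC₀, h⟩ := db_weak_exists n R
  refine ⟨Real.sqrt (2 * C₀), Real.sqrt_pos.2 (by positivity), ?_⟩
  intro Ω hΩ hR hexh η M hM hη hloc
  obtain ⟨w₀, hw₀, hL2⟩ := h Ω hΩ hR hexh η M hM hη hloc
  obtain ⟨w, hae, hw⟩ := db_glue hΩ hw₀ hloc
  refine ⟨w, hw, ?_⟩
  intro V e hV he p d M' hd hball hM'
  have hL2' : ∫⁻ z in Ω, ENNReal.ofReal (‖w z‖ ^ 2) ≤ ENNReal.ofReal (C₀ * M ^ 2) := by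
    refine le_trans (le_of_eq ?_) hL2
    refine lintegral_congr_ae ?_
    rw [Filter.EventuallyEq, ae_restrict_iff' hΩ.measurableSet]
    filter_upwards [hae] with z hz hzΩ
    rw [hz hzΩ]
  exact db_bound hC₀.le hM hd (hball.trans hV) hL2' ((hw V e hV he).mono hball) hM'

/-- **Additive Cousin problem with smooth local data and bounds.** -/
theorem db_cousin (n : ℕ) (R : ℝ) : ∃ C : ℝ, 0 < C ∧ ∀ (Ω : Set (Cn n)), IsOpen Ω →
    Ω ⊆ Metric.ball 0 R → DbExh Ω → ∀ {ι : Type} (V : ι → Set (Cn n)) (e : ι → Cn n → ℂ) (M : ℝ),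
    0 ≤ M → (∀ i, IsOpen (V i)) → (Ω ⊆ ⋃ i, V i) → (∀ i, ContDiffOn ℝ 2 (e i) (V i)) →
    (∀ i i', DifferentiableOn ℂ (fun z => e i z - e i' z) (V i ∩ V i')) →
    (∀ i, ∀ z ∈ V i, ∀ j, ‖dzb j (e i) z‖ ≤ M) →
    ∃ w : Cn n → ℂ,
      (∀ i, DifferentiableOn ℂ (fun z => w z - e i z) (V i ∩ Ω)) ∧
      ∀ (i : ι) (p : Cn n) (d M' : ℝ), 0 < d → Metric.ball p d ⊆ V i ∩ Ω →
        (∀ z ∈ Metric.ball p d, ‖e i z‖ ≤ M') → ‖w p - e i p‖ ≤ C * M / d ^ n + 2 * M' := by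
  classical
  obtain ⟨C, hC, h⟩ := db_main n R
  refine ⟨C, hC, ?_⟩
  intro Ω hΩ hR hexh ι V e M hM hVo hcov he hcomp hbd
  -- the form `η`
  set η : Fin n → Cn n → ℂ := fun j z =>
    if h : ∃ i, z ∈ V i then dzb j (e h.choose) z else 0 with hη
  have hηeq : ∀ i, ∀ z ∈ V i, ∀ j, dzb j (e i) z = η j z := by
    intro i z hz j
    have hex : ∃ i, z ∈ V i := ⟨i, hz⟩
    simp only [hη, dif_pos hex]
    set i' := hex.choose with hi'
    have hz' : z ∈ V i' := hex.choose_spec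
    have hopen : V i ∩ V i' ∈ nhds z := ((hVo i).inter (hVo i')).mem_nhds ⟨hz, hz'⟩
    have hd : DifferentiableAt ℂ (fun y => e i y - e i' y) z := (hcomp i i').differentiableAt hopen
    have h1 : DifferentiableAt ℝ (e i) z :=
      ((he i).contDiffAt ((hVo i).mem_nhds hz)).differentiableAt (by norm_num)
    have h2 : DifferentiableAt ℝ (e i') z :=
      ((he i').contDiffAt ((hVo i').mem_nhds hz')).differentiableAt (by norm_num)
    have h3 := Claimed.Agent.R242.dzb_of_holo (j := j) hd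
    rw [Claimed.Agent.R242.dzb_sub h1 h2] at h3
    exact sub_eq_zero.1 h3
  have hsol : ∀ i, DbSol η (e i) (V i ∩ Ω) := fun i =>
    ⟨(hVo i).inter hΩ, (he i).mono Set.inter_subset_left, fun z hz j => hηeq i z hz.1 j⟩
  have hloc : DbLoc Ω η := by
    intro z hz
    obtain ⟨i, hi⟩ := Set.mem_iUnion.1 (hcov hz)
    exact ⟨V i ∩ Ω, e i, ⟨hi, hz⟩, Set.inter_subset_right, hsol i⟩
  have hηM : ∀ z ∈ Ω, ∀ j, ‖η j z‖ ≤ M := by
    intro z hz j
    obtain ⟨i, hi⟩ := Set.mem_iUnion.1 (hcov hz)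
    rw [← hηeq i z hi j]
    exact hbd i z hi j
  obtain ⟨w, hw1, hw2⟩ := h Ω hΩ hR hexh η M hM hηM hloc
  exact ⟨w, fun i => hw1 _ _ Set.inter_subset_right (hsol i),
    fun i p d M' hd hball hM' => hw2 _ _ Set.inter_subset_right (hsol i) p d M' hd hball hM'⟩

end Claimed.Agent.R245
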