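/-
Row 245 / S0484.  Package DB.   Architect: helper246.
DBCousin (leaf DB-COUSIN-HOL): the additive Cousin problem for a HOLOMORPHIC cocycle on a finite cover, with bounds, from `db_cousin` (DB.lean) and a given smooth partition of unity.

PLAN.  `C` := the constant of `db_cousin n R`.   `V a := W a ∩ Ω`,   `e a z := ∑ b, (Θ b z : ℂ) * hh a b z`.
 (1) LOCAL FORM of one term `T a b z := (Θ b z : ℂ) * hh a b z` at `z ∈ V a`:  if `z ∈ W b`, then near `z` (on the open set `W a ∩ W b ∩ Ω`) it is (smooth) * (holomorphic): `ContDiffAt ℝ 2`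
     (`R242.contDiffOn_of_differentiableOn_Cn`, `Complex.ofRealCLM.contDiff.comp`), and `dzb j (T a b) z = dzb j (Θ b) z * hh a b z` (`R242.dzb_mul`, `R242.dzb_of_holo`);
     if `z ∉ W b`, then `z ∉ tsupport (Θ b)` (hypothesis `hsupp`), so `T a b = 0` near `z` (`notMem_tsupport_iff_eventuallyEq`): `ContDiffAt`, `dzb j (T a b) z = 0` (`R242.dzb_congr`, `dzb_const`), `Θ b z = 0`.
 (2) `ContDiffOn ℝ 2 (e a) (V a)` (`ContDiffAt.sum`), `‖dzb j (e a) z‖ ≤ card ι * L * B` (`R242.dzb_sum`, `norm_sum_le`, `Finset.sum_le_card_nsmul`).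
 (3) on `V a ∩ V a'`: `e a z - e a' z = ∑ b, Θ b z * (hh a b z - hh a' b z) = ∑ b, Θ b z * hh a a' z = hh a a' z` (cocycle `hh a a' + hh a' b = hh a b` if `z ∈ W b`, `Θ b z = 0` otherwise; `∑ Θ = 1`);
     so it is holomorphic there (`DifferentiableOn.congr`).
 (4) cover: `z ∈ Ω`, `∑ Θ b z = 1` ⇒ some `Θ b z ≠ 0` ⇒ `z ∈ tsupport (Θ b) ∩ Ω ⊆ W b`.
 (5) `‖e a z‖ ≤ ∑ b, Θ b z * B = B` on `V a`.
 (6) `w` from `db_cousin`; `H a z := e a z - w z`.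
-/
import Claimed.Agent.R245.DB

set_option autoImplicit false

namespace Claimed.Agent.R245

open Claimed.Agent.R242 (Cn dz dzb levi PshOn)
open MeasureTheory Complex
open scoped ContDiff ComplexConjugate ENNReal

/-- **Cousin I with bounds.** -/
theorem db_cousin_hol (n : ℕ) (R : ℝ) : ∃ C : ℝ, 0 < C ∧ ∀ (Ω : Set (Cn n)), IsOpen Ω →
    Ω ⊆ Metric.ball 0 R → DbExh Ω → ∀ {ι : Type} [Fintype ι] (W : ι → Set (Cn n))
    (Θ : ι → Cn n → ℝ) (hh : ι → ι → Cn n → ℂ) (L B : ℝ), 0 ≤ L → 0 ≤ B →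
    (∀ a, IsOpen (W a)) → (∀ a, ContDiff ℝ ∞ (Θ a)) → (∀ a, tsupport (Θ a) ∩ Ω ⊆ W a) →
    (∀ a z, 0 ≤ Θ a z) → (∀ z ∈ Ω, ∑ a, Θ a z = 1) →
    (∀ a z j, ‖dzb j (fun y => (Θ a y : ℂ)) z‖ ≤ L) →
    (∀ a b, DifferentiableOn ℂ (hh a b) (W a ∩ W b ∩ Ω)) →
    (∀ a b, ∀ z ∈ W a ∩ W b ∩ Ω, ‖hh a b z‖ ≤ B) →
    (∀ a b c, ∀ z ∈ W a ∩ W b ∩ W c ∩ Ω, hh a b z + hh b c z = hh a c z) →
    ∃ H : ι → Cn n → ℂ, (∀ a, DifferentiableOn ℂ (H a) (W a ∩ Ω)) ∧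
      (∀ a b, ∀ z ∈ W a ∩ W b ∩ Ω, H a z - H b z = hh a b z) ∧
      ∀ (a : ι) (p : Cn n) (d : ℝ), 0 < d → Metric.ball p d ⊆ W a ∩ Ω →
        ‖H a p‖ ≤ C * (Fintype.card ι * L * B) / d ^ n + 2 * B := by
  classical
  obtain ⟨C, hC, h⟩ := db_cousin n R
  refine ⟨C, hC, ?_⟩
  intro Ω hΩ hR hexh ι _ W Θ hh L B hL hB hWo hΘc hsupp hΘ0 hΘ1 hΘL hhol hhB hcoc
  have hΘcc : ∀ b, ContDiff ℝ ∞ (fun y => (Θ b y : ℂ)) := fun b =>
    Complex.ofRealCLM.contDiff.comp (hΘc b)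
  -- outside `W b` the function `Θ b` vanishes near the point
  have hzero : ∀ b, ∀ z ∈ Ω, z ∉ W b → Θ b =ᶠ[nhds z] 0 := by
    intro b z hz hzb
    exact notMem_tsupport_iff_eventuallyEq.1 fun hzs => hzb (hsupp b ⟨hzs, hz⟩)
  have hzero' : ∀ b, ∀ z ∈ Ω, z ∉ W b → Θ b z = 0 := fun b z hz hzb =>
    (hzero b z hz hzb).eq_of_nhds
  -- (1) the local form of one term
  have hterm : ∀ a b, ∀ z ∈ W a ∩ Ω, ContDiffAt ℝ 2 (fun y => (Θ b y : ℂ) * hh a b y) z ∧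
      ∀ j, ‖dzb j (fun y => (Θ b y : ℂ) * hh a b y) z‖ ≤ L * B := by
    intro a b z hz
    by_cases hzb : z ∈ W b
    · have hU : IsOpen (W a ∩ W b ∩ Ω) := ((hWo a).inter (hWo b)).inter hΩ
      have hzU : z ∈ W a ∩ W b ∩ Ω := ⟨⟨hz.1, hzb⟩, hz.2⟩
      have h1 : ContDiffAt ℝ ∞ (hh a b) z :=
        (Claimed.Agent.R242.contDiffOn_of_differentiableOn_Cn hU (hhol a b)).contDiffAt
          (hU.mem_nhds hzU)
      have h2 : ContDiffAt ℝ ∞ (fun y => (Θ b y : ℂ)) z := (hΘcc b).contDiffAt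
      refine ⟨(h2.mul h1).of_le ENat.LEInfty.out, fun j => ?_⟩
      rw [Claimed.Agent.R242.dzb_mul (h2.differentiableAt (by simp))
        (h1.differentiableAt (by simp)),
        Claimed.Agent.R242.dzb_of_holo ((hhol a b).differentiableAt (hU.mem_nhds hzU)), mul_zero,
        add_zero, norm_mul]
      exact mul_le_mul (hΘL b z j) (hhB a b z hzU) (norm_nonneg _) hL
    · have hev : (fun y => (Θ b y : ℂ) * hh a b y) =ᶠ[nhds z] fun _ => (0 : ℂ) := by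
        filter_upwards [hzero b z hz.2 hzb] with y hy
        rw [hy]
        simp
      refine ⟨contDiffAt_const.congr_of_eventuallyEq hev, fun j => ?_⟩
      rw [Claimed.Agent.R242.dzb_congr hev j, Claimed.Agent.R242.dzb_const, norm_zero]
      positivity
  obtain ⟨e, he⟩ : ∃ e : ι → Cn n → ℂ, e = fun a z => ∑ b, (Θ b z : ℂ) * hh a b z := ⟨_, rfl⟩
  -- (2)
  have he2 : ∀ a, ContDiffOn ℝ 2 (e a) (W a ∩ Ω) := by
    intro a z hz
    rw [he]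
    exact (ContDiffAt.sum fun b _ => (hterm a b z hz).1).contDiffWithinAt
  have hebd : ∀ a, ∀ z ∈ W a ∩ Ω, ∀ j, ‖dzb j (e a) z‖ ≤ Fintype.card ι * L * B := by
    intro a z hz j
    rw [he]
    show ‖dzb j (fun y => ∑ b, (Θ b y : ℂ) * hh a b y) z‖ ≤ _
    rw [Claimed.Agent.R242.dzb_sum Finset.univ (fun b y => (Θ b y : ℂ) * hh a b y)
      (fun b _ => (hterm a b z hz).1.differentiableAt (by norm_num))]
    refine (norm_sum_le _ _).trans ?_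
    refine (Finset.sum_le_card_nsmul _ _ (L * B) fun b _ => (hterm a b z hz).2 j).trans
      (le_of_eq ?_)
    rw [nsmul_eq_mul, Finset.card_univ, mul_assoc]
  -- (3)
  have hdiff : ∀ a a', ∀ z ∈ W a ∩ W a' ∩ Ω, e a z - e a' z = hh a a' z := by
    intro a a' z hz
    rw [he]
    show ∑ b, (Θ b z : ℂ) * hh a b z - ∑ b, (Θ b z : ℂ) * hh a' b z = _
    rw [← Finset.sum_sub_distrib]
    have h1 : ∀ b ∈ Finset.univ, (Θ b z : ℂ) * hh a b z - (Θ b z : ℂ) * hh a' b z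
        = (Θ b z : ℂ) * hh a a' z := by
      intro b _
      by_cases hzb : z ∈ W b
      · rw [← hcoc a a' b z ⟨⟨hz.1, hzb⟩, hz.2⟩]
        ring
      · rw [hzero' b z hz.2 hzb]
        simp
    rw [Finset.sum_congr rfl h1, ← Finset.sum_mul]
    have h2 : ∑ b, (Θ b z : ℂ) = 1 := by
      rw [← Complex.ofReal_sum, hΘ1 z hz.2, Complex.ofReal_one]
    rw [h2, one_mul]
  have hcomp : ∀ a a', DifferentiableOn ℂ (fun z => e a z - e a' z) ((W a ∩ Ω) ∩ (W a' ∩ Ω)) := by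
    intro a a'
    have hsub : (W a ∩ Ω) ∩ (W a' ∩ Ω) ⊆ W a ∩ W a' ∩ Ω := fun z hz => ⟨⟨hz.1.1, hz.2.1⟩, hz.1.2⟩
    exact ((hhol a a').mono hsub).congr fun z hz => hdiff a a' z (hsub hz)
  -- (4)
  have hcov : Ω ⊆ ⋃ a, (W a ∩ Ω) := by
    intro z hz
    by_contra hcon
    have h0 : ∀ b, Θ b z = 0 := by
      intro b
      refine hzero' b z hz fun hzb => hcon ?_
      exact Set.mem_iUnion.2 ⟨b, hzb, hz⟩
    have h1 := hΘ1 z hz
    simp [h0] at h1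
  -- (5)
  have heB : ∀ a, ∀ z ∈ W a ∩ Ω, ‖e a z‖ ≤ B := by
    intro a z hz
    rw [he]
    refine (norm_sum_le _ _).trans ?_
    have h1 : ∀ b ∈ Finset.univ, ‖(Θ b z : ℂ) * hh a b z‖ ≤ Θ b z * B := by
      intro b _
      by_cases hzb : z ∈ W b
      · rw [norm_mul, Complex.norm_real, Real.norm_of_nonneg (hΘ0 b z)]
        exact mul_le_mul_of_nonneg_left (hhB a b z ⟨⟨hz.1, hzb⟩, hz.2⟩) (hΘ0 b z)
      · rw [hzero' b z hz.2 hzb]
        simp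
    refine (Finset.sum_le_sum h1).trans (le_of_eq ?_)
    rw [← Finset.sum_mul, hΘ1 z hz.2, one_mul]
  -- (6)
  obtain ⟨w, hw1, hw2⟩ := h Ω hΩ hR hexh (fun a => W a ∩ Ω) e (Fintype.card ι * L * B)
    (by positivity) (fun a => (hWo a).inter hΩ) hcov he2 hcomp hebd
  refine ⟨fun a z => e a z - w z, fun a => ?_, fun a b z hz => ?_, fun a p d hd hball => ?_⟩
  · have h1 := (hw1 a).neg
    refine (h1.mono fun z hz => ⟨hz, hz.2⟩).congr fun z _ => ?_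
    simp
  · show e a z - w z - (e b z - w z) = _
    rw [← hdiff a b z hz]
    ring
  · have h1 := hw2 a p d B hd (fun z hz => ⟨hball hz, (hball hz).2⟩) (fun z hz => heB a z (hball hz))
    show ‖e a p - w p‖ ≤ _
    rw [norm_sub_rev]
    exact h1

end Claimed.Agent.R245
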