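/-
Row 245 / S0484.  GEO = interface (I1a): property `L` at every point of the cone over a smooth quartic surface,
from the tools CRIT (helper187), DISC (helper98).  Architect: helper18.     DEFINITIONS.

Geometry (replaces Section 5 of the paper, no Chen-Gounelas):  for `p` in the cone `Y` and `v` in `T_p = ker dF_p`
  `F (s p + l v) = l² (a₂ s² + a₃ s l + a₄ l²)`,   `a_k = lc F k p v`,
so the plane section `X ∩ T_p X` is the double cover `μ² = f₆ = a₃² - 4 a₂ a₄` of the pencil of lines through `p`: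
  `x = (μ - a₃) p + 2 a₂ v  ∥  2 a₄ p - (a₃ + μ) v`.
If `f₆ = q² · (squarefree quartic)` along a disc `p (w)`, the leaves are elliptic curves and give a complete strip.
-/
import Mathlib
import Claimed.Agent.R245.Defs
import Claimed.Agent.R245.CritDefs

set_option autoImplicit false

namespace Claimed.Agent.R245

open MvPolynomial Metric Set

/-- the coefficient of `l ^ k` in `F (p + l v)` -/
noncomputable def lc (F : MvPolynomial (Fin 4) ℂ) (k : ℕ) (p v : V4) : ℂ :=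
  (aeval (fun i => Polynomial.C (p i) + Polynomial.C (v i) * Polynomial.X) F : Polynomial ℂ).coeff k

/-- the discriminant of the residual quadratic -/
noncomputable def f6 (F : MvPolynomial (Fin 4) ℂ) (p v : V4) : ℂ :=
  lc F 3 p v ^ 2 - 4 * lc F 2 p v * lc F 4 p v

/-- the determinant of four vectors of `ℂ⁴` (rows) -/
noncomputable def det4 (a b c d : V4) : ℂ := Matrix.det (Matrix.of ![a, b, c, d])

/-- the surface contains a line -/
def HasLine (F : MvPolynomial (Fin 4) ℂ) : Prop :=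
  ∃ y₀ y₁ : V4, LinearIndependent ℂ ![y₀, y₁] ∧ ∀ s t : ℂ, eval (s • y₀ + t • y₁) F = 0

/-- a map of two variables is regular at `x`: `(σ, ∂₁σ, ∂₂σ)` are linearly independent -/
def RegAt (σ : ℂ × ℂ → V4) (x : ℂ × ℂ) : Prop :=
  LinearIndependent ℂ ![σ x, fderiv ℂ σ x (1, 0), fderiv ℂ σ x (0, 1)]

/-- **A complete strip**: first variable `w` in a disc, second variable `z` in all of `ℂ`; regular everywhere. -/
structure IsStrip (F : MvPolynomial (Fin 4) ℂ) (w₀ : ℂ) (b : ℝ) (σ : ℂ × ℂ → V4) : Prop where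
  b_pos : 0 < b
  hol : HolOn F σ (ball w₀ b ×ˢ univ)
  reg : ∀ x ∈ ball w₀ b ×ˢ (univ : Set ℂ), RegAt σ x

/-- **A thin strip** around a long curve: the germ `s1` on the bidisc of radius `b` extends, for every `R`, to
`{|z| < R} × {|w| < b'}` for some `b' = b' (R) > 0`.  (First variable long.) -/
structure ThinStrip (F : MvPolynomial (Fin 4) ℂ) (b : ℝ) (s1 : ℂ × ℂ → V4) : Prop where
  b_pos : 0 < b
  hol : HolOn F s1 (ball (0 : ℂ) b ×ˢ ball (0 : ℂ) b)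
  reg : RegAt s1 (0, 0)
  long : ∀ R : ℝ, b ≤ R → ∃ b' : ℝ, 0 < b' ∧ b' ≤ b ∧ ∃ S1 : ℂ × ℂ → V4,
    HolOn F S1 (ball (0 : ℂ) R ×ˢ ball (0 : ℂ) b' ∪ ball (0 : ℂ) b ×ˢ ball (0 : ℂ) b) ∧
    EqOn S1 s1 (ball (0 : ℂ) b ×ˢ ball (0 : ℂ) b)

/-- an entire curve in the cone which has a thin strip around each of its points -/
def LongCurve (F : MvPolynomial (Fin 4) ℂ) (γ : ℂ → V4) : Prop :=
  Differentiable ℂ γ ∧ ∀ ζ₀ : ℂ, ∃ (b : ℝ) (s1 : ℂ × ℂ → V4), ThinStrip F b s1 ∧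
    ∀ z : ℂ, ‖z‖ < b → s1 (z, 0) = γ (ζ₀ + z)

/-- **Frame data** over an open set `S ⊆ ℂ`: a curve `p (w)` in the cone, a frame `(p, v₁, v₂)` of `T_{p(w)}`, and the residual
quadratic `A s² + B s l + C l²` (functions of `w` and of the direction `(T, U)`, `v = U v₁ + T v₂`), with a possible extra factor `κ`. -/
structure FrameData (F : MvPolynomial (Fin 4) ℂ) (S : Set ℂ) where
  p : ℂ → V4
  v₁ : ℂ → V4
  v₂ : ℂ → V4
  A : ℂ → ℂ → ℂ → ℂ
  B : ℂ → ℂ → ℂ → ℂ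
  C : ℂ → ℂ → ℂ → ℂ
  κ : ℂ → ℂ → ℂ → ℂ
  hp : DifferentiableOn ℂ p S
  hv₁ : DifferentiableOn ℂ v₁ S
  hv₂ : DifferentiableOn ℂ v₂ S
  hA : DifferentiableOn ℂ (fun x : ℂ × ℂ × ℂ => A x.1 x.2.1 x.2.2) (S ×ˢ univ)
  hB : DifferentiableOn ℂ (fun x : ℂ × ℂ × ℂ => B x.1 x.2.1 x.2.2) (S ×ˢ univ)
  hC : DifferentiableOn ℂ (fun x : ℂ × ℂ × ℂ => C x.1 x.2.1 x.2.2) (S ×ˢ univ)
  hκ : DifferentiableOn ℂ (fun x : ℂ × ℂ × ℂ => κ x.1 x.2.1 x.2.2) (S ×ˢ univ)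
  cone : ∀ w ∈ S, p w ∈ Cone F
  indep : ∀ w ∈ S, LinearIndependent ℂ ![p w, v₁ w, v₂ w]
  tang₁ : ∀ w ∈ S, dot (grad F (p w)) (v₁ w) = 0
  tang₂ : ∀ w ∈ S, dot (grad F (p w)) (v₂ w) = 0
  expand : ∀ w ∈ S, ∀ T U s l : ℂ, eval (s • p w + l • (U • v₁ w + T • v₂ w)) F =
    l ^ 2 * κ w T U * (A w T U * s ^ 2 + B w T U * s * l + C w T U * l ^ 2)
  nz : ∀ w ∈ S, ∀ T U : ℂ, (T ≠ 0 ∨ U ≠ 0) → (A w T U ≠ 0 ∨ B w T U ≠ 0 ∨ C w T U ≠ 0)

namespace FrameData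

variable {F : MvPolynomial (Fin 4) ℂ} {S : Set ℂ} (D : FrameData F S)

/-- the direction `U v₁ + T v₂` -/
noncomputable def dir (w T U : ℂ) : V4 := U • D.v₁ w + T • D.v₂ w

/-- the derivative of the Gauss map along the curve, paired with the direction `(T, U)` -/
noncomputable def gaussL (w T U : ℂ) : ℂ := dot (deriv (fun w => grad F (D.p w)) w) (D.dir w T U)

/-- the discriminant of the residual quadratic -/
noncomputable def disc (w T U : ℂ) : ℂ := D.B w T U ^ 2 - 4 * D.A w T U * D.C w T U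

/-- first formula for the residual point with `μ² = disc` -/
noncomputable def X₁ (w T U μ : ℂ) : V4 := (μ - D.B w T U) • D.p w + (2 * D.A w T U) • D.dir w T U

/-- second formula for the residual point -/
noncomputable def X₂ (w T U μ : ℂ) : V4 := (2 * D.C w T U) • D.p w - (D.B w T U + μ) • D.dir w T U

/-- `x` lies on the leaf over `w` -/
def OnLeaf (w : ℂ) (x : V4) : Prop :=
  ∃ s l T U : ℂ, (T ≠ 0 ∨ U ≠ 0) ∧ (s ≠ 0 ∨ l ≠ 0) ∧ x = s • D.p w + l • D.dir w T U ∧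
    D.A w T U * s ^ 2 + D.B w T U * s * l + D.C w T U * l ^ 2 = 0

end FrameData

/-- **Leaf data** over the disc `ball w₀ b`: frame data in Legendre normal form,
`B² - 4 A C = q² · T U (T - U) (T - λ U)`, with non stationary tangent plane: `ġ · v = J κ q`, `J ≠ 0`.
`d = 2`, `κ = 1`: tangent plane sections with one more double point (`A, B, C = a₂, a₃, a₄`, `q` linear).
`d = 1`, `κ` linear: planes through a line of the surface, leaves = residual cubics (`q` constant). -/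
structure LeafData (F : MvPolynomial (Fin 4) ℂ) (w₀ : ℂ) (b : ℝ) extends FrameData F (ball w₀ b) where
  q : ℂ → ℂ → ℂ → ℂ
  lam : ℂ → ℂ
  J : ℂ → ℂ
  d : ℕ
  b_pos : 0 < b
  d_pos : 1 ≤ d
  d_le : d ≤ 2
  hq : DifferentiableOn ℂ (fun x : ℂ × ℂ × ℂ => q x.1 x.2.1 x.2.2) (ball w₀ b ×ˢ univ)
  hlam : DifferentiableOn ℂ lam (ball w₀ b)
  lam_ne0 : ∀ w ∈ ball w₀ b, lam w ≠ 0
  lam_ne1 : ∀ w ∈ ball w₀ b, lam w ≠ 1
  homA : ∀ w ∈ ball w₀ b, ∀ c T U : ℂ, A w (c * T) (c * U) = c ^ d * A w T U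
  homB : ∀ w ∈ ball w₀ b, ∀ c T U : ℂ, B w (c * T) (c * U) = c ^ (d + 1) * B w T U
  homC : ∀ w ∈ ball w₀ b, ∀ c T U : ℂ, C w (c * T) (c * U) = c ^ (d + 2) * C w T U
  homκ : ∀ w ∈ ball w₀ b, ∀ c T U : ℂ, κ w (c * T) (c * U) = c ^ (2 - d) * κ w T U
  homq : ∀ w ∈ ball w₀ b, ∀ c T U : ℂ, q w (c * T) (c * U) = c ^ (d - 1) * q w T U
  legendre : ∀ w ∈ ball w₀ b, ∀ T U : ℂ,
    B w T U ^ 2 - 4 * A w T U * C w T U = q w T U ^ 2 * (T * U * (T - U) * (T - lam w * U))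
  gauss : ∀ w ∈ ball w₀ b, ∀ T U : ℂ,
    dot (deriv (fun w => grad F (p w)) w) (U • v₁ w + T • v₂ w) = J w * κ w T U * q w T U
  J_ne : ∀ w ∈ ball w₀ b, J w ≠ 0
  gen : ∀ w ∈ ball w₀ b, ∃ T U : ℂ, A w T U * κ w T U * q w T U ≠ 0

end Claimed.Agent.R245
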