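/-
Row 245 / S0484, sec 2.2-2.3 (architect: helper98).  Definitions: annuli, splitting property, sprays over a map into the cone.
-/
import Mathlib
import Claimed.Agent.R245.Defs

set_option autoImplicit false

namespace Claimed.Agent.R245

open MvPolynomial Metric Set

/-- the closed annulus `a ≤ |s| ≤ r` (the closed disc of radius `r` if `a ≤ 0`) -/
def Ann (a r : ℝ) : Set ℂ := {s | a ≤ ‖s‖ ∧ ‖s‖ ≤ r}

section

variable {X : Type*} [NormedAddCommGroup X] [NormedSpace ℂ X]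

/-- additive splitting with bound `κ` (for `ℂ⁴`-valued bounded holomorphic maps), as a property of a pair of sets:
no operators, no linearity. -/
def L2Splits (UA UB : Set X) (κ : ℝ) : Prop :=
  ∀ (u : X → V4) (B : ℝ), 0 ≤ B → DifferentiableOn ℂ u (UA ∩ UB) → (∀ x ∈ UA ∩ UB, ‖u x‖ ≤ B) →
    ∃ a b : X → V4, DifferentiableOn ℂ a UA ∧ DifferentiableOn ℂ b UB ∧
      (∀ x ∈ UA, ‖a x‖ ≤ κ * B) ∧ (∀ x ∈ UB, ‖b x‖ ≤ κ * B) ∧ ∀ x ∈ UA ∩ UB, a x - b x = u x

/-- `Φ` is a (degenerate, four-parameter) spray over `f : X → Cone F` on the set `W`: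
think of `Φ (x, v) = f x + v + μ (x, v) • ν x`, `μ` the small root of `F (f x + v + μ ν x) = 0`.
`trans` is the transition property which replaces the inverse charts of the paper: if the translate
`Φ (x, v) + (a - v)` lies on the cone, it is the value of the spray at `a`. -/
structure L2Spray (F : MvPolynomial (Fin 4) ℂ) (f : X → V4) (Φ : X × V4 → V4) (W : Set X)
    (β C : ℝ) : Prop where
  pos : 0 < β
  C_nonneg : 0 ≤ C
  hol : HolOn F Φ (W ×ˢ ball (0 : V4) β)
  zero : ∀ x ∈ W, Φ (x, 0) = f x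
  lip : ∀ x ∈ W, ∀ v ∈ ball (0 : V4) β, ‖Φ (x, v) - f x‖ ≤ C * ‖v‖
  trans : ∀ x ∈ W, ∀ v ∈ ball (0 : V4) β, ∀ a ∈ ball (0 : V4) β,
    Φ (x, v) + (a - v) ∈ Cone F → Φ (x, a) = Φ (x, v) + (a - v)

/-- a spray can be restricted to a smaller set and a smaller ball -/
theorem L2Spray.mono {F : MvPolynomial (Fin 4) ℂ} {f : X → V4} {Φ : X × V4 → V4} {W W' : Set X}
    {β β' C : ℝ} (h : L2Spray F f Φ W β C) (hW : W' ⊆ W) (hβ' : 0 < β') (hβ : β' ≤ β) :
    L2Spray F f Φ W' β' C where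
  pos := hβ'
  C_nonneg := h.C_nonneg
  hol := ⟨h.hol.1.mono (prod_mono hW (ball_subset_ball hβ)),
    h.hol.2.mono_left (prod_mono hW (ball_subset_ball hβ))⟩
  zero := fun x hx => h.zero x (hW hx)
  lip := fun x hx v hv => h.lip x (hW hx) v (ball_subset_ball hβ hv)
  trans := fun x hx v hv a ha =>
    h.trans x (hW hx) v (ball_subset_ball hβ hv) a (ball_subset_ball hβ ha)

/-- pull-back of a spray by a holomorphic map of the base -/
theorem L2Spray.comp {Y : Type*} [NormedAddCommGroup Y] [NormedSpace ℂ Y]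
    {F : MvPolynomial (Fin 4) ℂ} {f : X → V4} {Φ : X × V4 → V4} {W : Set X} {β C : ℝ}
    (h : L2Spray F f Φ W β C) {π : Y → X} {W' : Set Y} (hπ : DifferentiableOn ℂ π W')
    (hm : MapsTo π W' W) :
    L2Spray F (fun y => f (π y)) (fun p : Y × V4 => Φ (π p.1, p.2)) W' β C where
  pos := h.pos
  C_nonneg := h.C_nonneg
  hol := by
    have hmaps : MapsTo (fun p : Y × V4 => (π p.1, p.2)) (W' ×ˢ ball (0 : V4) β)
        (W ×ˢ ball (0 : V4) β) := fun p hp => ⟨hm hp.1, hp.2⟩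
    refine ⟨?_, fun p hp => h.hol.2 (hmaps hp)⟩
    have h1 : DifferentiableOn ℂ (fun p : Y × V4 => (π p.1, p.2)) (W' ×ˢ ball (0 : V4) β) :=
      (hπ.comp differentiableOn_fst (fun p hp => hp.1)).prodMk differentiableOn_snd
    exact h.hol.1.comp h1 hmaps
  zero := fun y hy => h.zero _ (hm hy)
  lip := fun y hy v hv => h.lip _ (hm hy) v hv
  trans := fun y hy v hv a ha => h.trans _ (hm hy) v hv a ha

end

end Claimed.Agent.R245
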