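/-
Row 245 / S0484.  SHARED TOOL `Spray` (architect helper292): the retraction onto the cone along a transversal field `ν`, and the spray
`f♯(x, v) = f x + v + μ(x, v) ν x`.  It replaces `loc:spray` of the paper (Siu, Cartan B, Oka-Grauert).

Only tools: uniform continuity of `grad F` on compact sets, the contraction `s ↦ s - F(y + s ν)`, and Weierstrass' theorem
(`scv_tendsto`) for the holomorphy of the limit of the iterates.  No implicit function theorem.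
ONE FILE = ONE PACKAGE = ONE OWNER.  Statements FROZEN; helper lemmas: prefix `spr_`, in this file.
-/
import Claimed.Agent.R245.L2Defs
import Claimed.Agent.R245.SCV

set_option autoImplicit false

namespace Claimed.Agent.R245

open MvPolynomial Metric Set

/-! ### the polynomial `F` as a function -/

theorem spr_sum_proj_apply (g v : V4) :
    (∑ i, (g i) • (ContinuousLinearMap.proj i : V4 →L[ℂ] ℂ)) v = dot g v := by
  simp [dot]

theorem spr_hasFDerivAt_eval (F : MvPolynomial (Fin 4) ℂ) (y : V4) :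
    HasFDerivAt (fun y : V4 => eval y F) (∑ i, (grad F y i) • (ContinuousLinearMap.proj i : V4 →L[ℂ] ℂ)) y := by
  induction F using MvPolynomial.induction_on with
  | C a =>
    have h : (∑ i, (grad (C a) y i) • (ContinuousLinearMap.proj i : V4 →L[ℂ] ℂ)) = 0 := by
      refine ContinuousLinearMap.ext fun v => ?_
      rw [spr_sum_proj_apply]
      simp [dot, grad]
    have e : (fun y : V4 => eval y (C a : MvPolynomial (Fin 4) ℂ)) = fun _ => a := by
      funext y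
      simp
    rw [h, e]
    exact hasFDerivAt_const a y
  | add p q hp hq =>
    have h : (∑ i, (grad (p + q) y i) • (ContinuousLinearMap.proj i : V4 →L[ℂ] ℂ))
        = (∑ i, (grad p y i) • (ContinuousLinearMap.proj i : V4 →L[ℂ] ℂ))
          + ∑ i, (grad q y i) • (ContinuousLinearMap.proj i : V4 →L[ℂ] ℂ) := by
      refine ContinuousLinearMap.ext fun v => ?_
      show _ = (∑ i, (grad p y i) • (ContinuousLinearMap.proj i : V4 →L[ℂ] ℂ)) v
          + (∑ i, (grad q y i) • (ContinuousLinearMap.proj i : V4 →L[ℂ] ℂ)) v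
      rw [spr_sum_proj_apply, spr_sum_proj_apply, spr_sum_proj_apply]
      simp [dot, grad, add_mul, Finset.sum_add_distrib]
    have e : (fun y : V4 => eval y (p + q)) = fun y => eval y p + eval y q := by
      funext y
      simp
    rw [h, e]
    exact hp.add hq
  | mul_X p j hp =>
    have hj : HasFDerivAt (fun y : V4 => y j) (ContinuousLinearMap.proj j : V4 →L[ℂ] ℂ) y :=
      (ContinuousLinearMap.proj j : V4 →L[ℂ] ℂ).hasFDerivAt
    have h : (∑ i, (grad (p * X j) y i) • (ContinuousLinearMap.proj i : V4 →L[ℂ] ℂ))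
        = eval y p • (ContinuousLinearMap.proj j : V4 →L[ℂ] ℂ)
          + y j • ∑ i, (grad p y i) • (ContinuousLinearMap.proj i : V4 →L[ℂ] ℂ) := by
      refine ContinuousLinearMap.ext fun v => ?_
      show _ = eval y p * v j
          + y j * (∑ i, (grad p y i) • (ContinuousLinearMap.proj i : V4 →L[ℂ] ℂ)) v
      rw [spr_sum_proj_apply, spr_sum_proj_apply]
      simp only [dot, grad, pderiv_mul, pderiv_X, map_add, map_mul, eval_X, Finset.mul_sum, add_mul,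
        Finset.sum_add_distrib]
      rw [add_comm]
      congr 1
      · rw [Finset.sum_eq_single j]
        · simp
        · intro b _ hb
          simp [hb.symm]
        · simp
      · refine Finset.sum_congr rfl fun i _ => ?_
        ring
    have e : (fun y : V4 => eval y (p * X j)) = fun y => eval y p * y j := by
      funext y
      simp
    rw [h, e]
    exact hp.mul hj

theorem spr_differentiable_eval (F : MvPolynomial (Fin 4) ℂ) : Differentiable ℂ (fun y : V4 => eval y F) :=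
  fun y => (spr_hasFDerivAt_eval F y).differentiableAt

theorem spr_continuous_grad (F : MvPolynomial (Fin 4) ℂ) : Continuous (grad F) :=
  continuous_pi fun i => (spr_differentiable_eval (pderiv i F)).continuous

theorem spr_differentiable_grad (F : MvPolynomial (Fin 4) ℂ) : Differentiable ℂ (grad F) :=
  differentiable_pi.2 fun i => spr_differentiable_eval (pderiv i F)

/-- derivative along a line. -/
theorem spr_hasDerivAt_line (F : MvPolynomial (Fin 4) ℂ) (y n : V4) (s : ℂ) :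
    HasDerivAt (fun s : ℂ => eval (y + s • n) F) (dot (grad F (y + s • n)) n) s := by
  have h1 : HasDerivAt (fun s : ℂ => y + s • n) n s := by
    simpa using ((hasDerivAt_id s).smul_const n).const_add y
  have h2 := (spr_hasFDerivAt_eval F (y + s • n)).comp_hasDerivAt s h1
  rw [spr_sum_proj_apply] at h2
  exact h2

theorem spr_norm_dot_le (a b : V4) : ‖dot a b‖ ≤ 4 * ‖a‖ * ‖b‖ := by
  unfold dot
  calc ‖∑ i, a i * b i‖ ≤ ∑ i, ‖a i * b i‖ := norm_sum_le _ _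
    _ ≤ ∑ _i : Fin 4, ‖a‖ * ‖b‖ := Finset.sum_le_sum fun i _ => by
        rw [norm_mul]
        exact mul_le_mul (norm_le_pi_norm a i) (norm_le_pi_norm b i) (norm_nonneg _) (norm_nonneg _)
    _ = 4 * ‖a‖ * ‖b‖ := by
        rw [Finset.sum_const, Finset.card_univ, Fintype.card_fin, nsmul_eq_mul]
        push_cast
        ring

theorem spr_dot_sub (a b c : V4) : dot (a - b) c = dot a c - dot b c := by
  simp [dot, sub_mul, Finset.sum_sub_distrib]

/-- `F` is Lipschitz on bounded sets. -/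
theorem spr_lipschitz_eval (F : MvPolynomial (Fin 4) ℂ) (R : ℝ) :
    ∃ Λ : ℝ, 0 ≤ Λ ∧ ∀ y y' : V4, ‖y‖ ≤ R → ‖y'‖ ≤ R → ‖eval y F - eval y' F‖ ≤ Λ * ‖y - y'‖ := by
  obtain ⟨C, hC⟩ := (isCompact_closedBall (0 : V4) R).exists_bound_of_continuousOn
    (spr_continuous_grad F).continuousOn
  refine ⟨4 * max C 0, by positivity, fun y y' hy hy' => ?_⟩
  refine Convex.norm_image_sub_le_of_norm_hasFDerivWithin_le (𝕜 := ℂ) (s := closedBall (0 : V4) R)
    (f := fun y : V4 => eval y F)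
    (fun x _ => (spr_hasFDerivAt_eval F x).hasFDerivWithinAt) (fun x hx => ?_)
    (convex_closedBall _ _) (mem_closedBall_zero_iff.2 hy') (mem_closedBall_zero_iff.2 hy)
  refine ContinuousLinearMap.opNorm_le_bound _ (by positivity) fun v => ?_
  rw [spr_sum_proj_apply]
  refine (spr_norm_dot_le _ _).trans ?_
  have h2 : ‖grad F x‖ ≤ max C 0 := (hC x hx).trans (le_max_left _ _)
  have := mul_le_mul_of_nonneg_right h2 (norm_nonneg v)
  nlinarith

/-! ### the contraction at one point -/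

/-- one step of the iteration -/
noncomputable def sprT (F : MvPolynomial (Fin 4) ℂ) (y n : V4) (s : ℂ) : ℂ := s - eval (y + s • n) F

theorem spr_T_lip (F : MvPolynomial (Fin 4) ℂ) (y n : V4) {s₀ : ℝ}
    (H1 : ∀ s : ℂ, ‖s‖ ≤ s₀ → ‖1 - dot (grad F (y + s • n)) n‖ ≤ 1 / 2) {s s' : ℂ} (hs : ‖s‖ ≤ s₀)
    (hs' : ‖s'‖ ≤ s₀) : ‖sprT F y n s - sprT F y n s'‖ ≤ 1 / 2 * ‖s - s'‖ :=
  Convex.norm_image_sub_le_of_norm_hasDerivWithin_le (s := closedBall (0 : ℂ) s₀) (f := sprT F y n)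
    (f' := fun s => 1 - dot (grad F (y + s • n)) n)
    (fun x _ => ((hasDerivAt_id x).sub (spr_hasDerivAt_line F y n x)).hasDerivWithinAt)
    (fun x hx => H1 x (mem_closedBall_zero_iff.1 hx)) (convex_closedBall _ _)
    (mem_closedBall_zero_iff.2 hs') (mem_closedBall_zero_iff.2 hs)

theorem spr_T_continuous (F : MvPolynomial (Fin 4) ℂ) (y n : V4) : Continuous (sprT F y n) :=
  continuous_iff_continuousAt.2 fun x =>
    ((hasDerivAt_id x).sub (spr_hasDerivAt_line F y n x)).continuousAt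

theorem spr_iter_bounds (F : MvPolynomial (Fin 4) ℂ) (y n : V4) {s₀ : ℝ}
    (H1 : ∀ s : ℂ, ‖s‖ ≤ s₀ → ‖1 - dot (grad F (y + s • n)) n‖ ≤ 1 / 2)
    (H2 : ‖eval y F‖ ≤ s₀ / 4) (a : ℕ → ℂ) (a0 : a 0 = 0) (as : ∀ k, a (k + 1) = sprT F y n (a k)) :
    ∀ k, ‖a (k + 1) - a k‖ ≤ ‖eval y F‖ / 2 ^ k ∧ ‖a k‖ ≤ 2 * ‖eval y F‖ * (1 - 1 / 2 ^ k) := by
  have hc : 0 ≤ ‖eval y F‖ := norm_nonneg _
  intro k
  induction k with
  | zero =>
    constructor
    · rw [as 0, a0, sprT]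
      simp
    · rw [a0]
      simp
  | succ k ih =>
    obtain ⟨ih1, ih2⟩ := ih
    have hp : (0 : ℝ) < 2 ^ k := by positivity
    have e1 : ‖eval y F‖ / 2 ^ (k + 1) = 1 / 2 * (‖eval y F‖ / 2 ^ k) := by
      rw [pow_succ]
      field_simp
    have e2 : 2 * ‖eval y F‖ * (1 - 1 / 2 ^ (k + 1))
        = 2 * ‖eval y F‖ * (1 - 1 / 2 ^ k) + ‖eval y F‖ / 2 ^ k := by
      rw [pow_succ]
      field_simp
      ring
    have hk1 : ‖a (k + 1)‖ ≤ 2 * ‖eval y F‖ * (1 - 1 / 2 ^ (k + 1)) := by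
      rw [e2]
      calc ‖a (k + 1)‖ = ‖a k + (a (k + 1) - a k)‖ := by rw [add_sub_cancel]
        _ ≤ ‖a k‖ + ‖a (k + 1) - a k‖ := norm_add_le _ _
        _ ≤ _ := add_le_add ih2 ih1
    have hle : ∀ j : ℕ, 2 * ‖eval y F‖ * (1 - 1 / 2 ^ j) ≤ s₀ := by
      intro j
      have h1 : (0 : ℝ) < 1 / 2 ^ j := by positivity
      have h2 : 2 * ‖eval y F‖ * (1 - 1 / 2 ^ j) ≤ 2 * ‖eval y F‖ * 1 :=
        mul_le_mul_of_nonneg_left (by linarith) (by linarith)
      linarith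
    refine ⟨?_, hk1⟩
    have hstep : a (k + 1 + 1) - a (k + 1) = sprT F y n (a (k + 1)) - sprT F y n (a k) := by
      rw [as (k + 1), ← as k]
    rw [hstep, e1]
    exact (spr_T_lip F y n H1 (hk1.trans (hle _)) (ih2.trans (hle _))).trans
      (mul_le_mul_of_nonneg_left ih1 (by norm_num))

theorem spr_iter_limit (F : MvPolynomial (Fin 4) ℂ) (y n : V4) {s₀ : ℝ}
    (H1 : ∀ s : ℂ, ‖s‖ ≤ s₀ → ‖1 - dot (grad F (y + s • n)) n‖ ≤ 1 / 2)
    (H2 : ‖eval y F‖ ≤ s₀ / 4) (a : ℕ → ℂ) (a0 : a 0 = 0) (as : ∀ k, a (k + 1) = sprT F y n (a k)) :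
    ∃ m : ℂ, Filter.Tendsto a Filter.atTop (nhds m) ∧ ‖m‖ ≤ 2 * ‖eval y F‖ ∧
      (∀ k, ‖a k - m‖ ≤ 2 * ‖eval y F‖ / 2 ^ k) ∧ eval (y + m • n) F = 0 ∧
      ∀ s : ℂ, ‖s‖ ≤ s₀ → eval (y + s • n) F = 0 → s = m := by
  have hb := spr_iter_bounds F y n H1 H2 a a0 as
  have hu : ∀ k, dist (a k) (a (k + 1)) ≤ 2 * ‖eval y F‖ / 2 / 2 ^ k := by
    intro k
    rw [dist_comm, dist_eq_norm, mul_div_cancel_left₀ _ (two_ne_zero)]
    exact (hb k).1
  obtain ⟨m, hm⟩ := cauchySeq_tendsto_of_complete (cauchySeq_of_le_geometric_two hu)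
  have hm0 : ‖m‖ ≤ 2 * ‖eval y F‖ := by
    have := dist_le_of_le_geometric_two_of_tendsto₀ hu hm
    rwa [a0, dist_zero_left] at this
  have hms : ‖m‖ ≤ s₀ := by linarith [norm_nonneg (eval y F)]
  have hfix : sprT F y n m = m := by
    have h1 : Filter.Tendsto (fun k => a (k + 1)) Filter.atTop (nhds m) :=
      (Filter.tendsto_add_atTop_iff_nat 1).2 hm
    have h2 : Filter.Tendsto (fun k => a (k + 1)) Filter.atTop (nhds (sprT F y n m)) := by
      simp_rw [as]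
      exact ((spr_T_continuous F y n).tendsto m).comp hm
    exact tendsto_nhds_unique h2 h1
  refine ⟨m, hm, hm0, fun k => ?_, ?_, fun s hs h0 => ?_⟩
  · rw [← dist_eq_norm]
    exact dist_le_of_le_geometric_two_of_tendsto hu hm k
  · have : m - eval (y + m • n) F = m := hfix
    linear_combination -this
  · have hs' : sprT F y n s = s := by rw [sprT, h0, sub_zero]
    have h1 := spr_T_lip F y n H1 hs hms
    rw [hs', hfix] at h1
    have h2 : ‖s - m‖ ≤ 0 := by linarith [norm_nonneg (s - m)]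
    exact sub_eq_zero.1 (norm_le_zero_iff.1 h2)

theorem spr_num1 {M δ : ℝ} (hM : 0 ≤ M) (hδ : 0 < δ) : δ / (2 * (M + 1)) * M ≤ δ / 2 := by
  rw [div_mul_eq_mul_div, div_le_div_iff₀ (by positivity) (by norm_num)]
  nlinarith

theorem spr_num2 {Λ s₀ : ℝ} (hΛ : 0 ≤ Λ) (hs : 0 < s₀) : Λ * (s₀ / (4 * (Λ + 1))) ≤ s₀ / 4 := by
  rw [mul_div_assoc', div_le_div_iff₀ (by positivity) (by norm_num)]
  nlinarith

theorem spr_num3 {M : ℝ} (hM : 0 ≤ M) : 4 * (1 / (8 * (M + 1))) * M ≤ 1 / 2 := by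
  have : 4 * (1 / (8 * (M + 1))) * M = M / (2 * (M + 1)) := by
    field_simp
    ring
  rw [this, div_le_div_iff₀ (by positivity) (by norm_num)]
  nlinarith

section

variable {X : Type*} [NormedAddCommGroup X] [NormedSpace ℂ X]

/-- the iterates `T^k 0` as functions of `(x, y)` -/
noncomputable def sprIt (F : MvPolynomial (Fin 4) ℂ) (ν : X → V4) : ℕ → X × V4 → ℂ
  | 0 => fun _ => 0
  | k + 1 => fun p => sprT F p.2 (ν p.1) (sprIt F ν k p)

theorem spr_it_differentiableOn (F : MvPolynomial (Fin 4) ℂ) {ν : X → V4} {U : Set X}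
    (hν : DifferentiableOn ℂ ν U) {Ω : Set (X × V4)} (hΩ : ∀ p ∈ Ω, p.1 ∈ U) (k : ℕ) :
    DifferentiableOn ℂ (sprIt F ν k) Ω := by
  induction k with
  | zero => exact differentiableOn_const 0
  | succ k ih =>
    have h1 : DifferentiableOn ℂ (fun p : X × V4 => ν p.1) Ω := hν.comp differentiableOn_fst hΩ
    have h2 : DifferentiableOn ℂ (fun p : X × V4 => p.2 + sprIt F ν k p • ν p.1) Ω :=
      differentiableOn_snd.add (ih.smul h1)
    exact ih.sub ((spr_differentiable_eval F).comp_differentiableOn h2)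

/-- **The retraction onto the cone along `ν`** (package PROJ).  `R(x, y) = y + m(x, y) ν(x)`.

Choose `δ > 0` with `‖grad F y' - grad F y‖ ≤ 1 / (8 (Mν + 1))` for `‖y‖, ‖y'‖ ≤ Mf + 1`, `‖y' - y‖ ≤ δ` (Heine-Cantor), `δ ≤ min 1 (mf / 2)`; then
`s₀` with `s₀ Mν ≤ δ / 2`, and `r₀ ≤ δ / 2` with `Λ r₀ ≤ s₀ / 4`.  For `‖y - f x‖ < r₀` the map `T s = s - F(y + s ν x)` has `|T'| ≤ 1/2` on `|s| ≤ s₀`,
`|T 0| = |F y| ≤ s₀ / 4`.  `m = lim T^k 0`; `|T^(k+1) 0 - T^k 0| ≤ 2^(-k) |F y|`. -/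
theorem spr_retract (F : MvPolynomial (Fin 4) ℂ) {U : Set X} (hU : IsOpen U) {f ν : X → V4} (hf : HolOn F f U)
    (hν : DifferentiableOn ℂ ν U) (hdot : ∀ x ∈ U, dot (grad F (f x)) (ν x) = 1) {Mf Mν mf : ℝ} (hmf : 0 < mf)
    (hMf : ∀ x ∈ U, ‖f x‖ ≤ Mf) (hmf' : ∀ x ∈ U, mf ≤ ‖f x‖) (hMν : ∀ x ∈ U, ‖ν x‖ ≤ Mν) :
    ∃ (r₀ s₀ : ℝ) (m : X × V4 → ℂ), 0 < r₀ ∧ 0 < s₀ ∧
      DifferentiableOn ℂ m {p | p.1 ∈ U ∧ ‖p.2 - f p.1‖ < r₀} ∧
      ∀ x ∈ U, ∀ y : V4, ‖y - f x‖ < r₀ →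
        y + m (x, y) • ν x ∈ Cone F ∧ ‖m (x, y)‖ ≤ 2 * ‖eval y F‖ ∧ ‖m (x, y)‖ < s₀ ∧
        ∀ s : ℂ, ‖s‖ < s₀ → eval (y + s • ν x) F = 0 → s = m (x, y) := by
  -- the constants
  obtain ⟨Mν₁, hMν₁def⟩ : ∃ M, M = max Mν 0 := ⟨_, rfl⟩
  obtain ⟨Mf₁, hMf₁def⟩ : ∃ M, M = max Mf 0 := ⟨_, rfl⟩
  have hMν₁ : 0 ≤ Mν₁ := hMν₁def ▸ le_max_right _ _
  have hMf₁ : 0 ≤ Mf₁ := hMf₁def ▸ le_max_right _ _
  have hν₁ : ∀ x ∈ U, ‖ν x‖ ≤ Mν₁ := fun x hx => (hMν x hx).trans (hMν₁def ▸ le_max_left _ _)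
  have hf₁ : ∀ x ∈ U, ‖f x‖ ≤ Mf₁ := fun x hx => (hMf x hx).trans (hMf₁def ▸ le_max_left _ _)
  have hη : 0 < 1 / (8 * (Mν₁ + 1)) := by positivity
  obtain ⟨δ₀, hδ₀, hunif⟩ := Metric.uniformContinuousOn_iff.1
    ((isCompact_closedBall (0 : V4) (Mf₁ + 1)).uniformContinuousOn_of_continuous
      (spr_continuous_grad F).continuousOn) _ hη
  obtain ⟨δ, hδdef⟩ : ∃ δ, δ = min (δ₀ / 2) (min 1 (mf / 2)) := ⟨_, rfl⟩
  have hδ : 0 < δ := by
    rw [hδdef]
    exact lt_min (by positivity) (lt_min one_pos (by positivity))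
  have hδ1 : δ < δ₀ := by
    have : δ ≤ δ₀ / 2 := hδdef ▸ min_le_left _ _
    linarith
  have hδ2 : δ ≤ 1 := hδdef ▸ (min_le_right _ _).trans (min_le_left _ _)
  have hδ3 : δ ≤ mf / 2 := hδdef ▸ (min_le_right _ _).trans (min_le_right _ _)
  obtain ⟨s₀, hs₀def⟩ : ∃ s, s = δ / (2 * (Mν₁ + 1)) := ⟨_, rfl⟩
  have hs₀ : 0 < s₀ := by rw [hs₀def]; positivity
  have hs₀M : s₀ * Mν₁ ≤ δ / 2 := hs₀def ▸ spr_num1 hMν₁ hδ
  obtain ⟨Λ, hΛ0, hΛ⟩ := spr_lipschitz_eval F (Mf₁ + 1)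
  obtain ⟨r₀, hr₀def⟩ : ∃ r, r = min (δ / 2) (s₀ / (4 * (Λ + 1))) := ⟨_, rfl⟩
  have hr₀ : 0 < r₀ := by
    rw [hr₀def]
    exact lt_min (by positivity) (by positivity)
  have hr₀1 : r₀ ≤ δ / 2 := hr₀def ▸ min_le_left _ _
  have hr₀2 : Λ * r₀ ≤ s₀ / 4 :=
    (mul_le_mul_of_nonneg_left (hr₀def ▸ min_le_right _ _) hΛ0).trans (spr_num2 hΛ0 hs₀)
  -- pointwise facts
  have P1 : ∀ x ∈ U, ∀ y : V4, ‖y - f x‖ < r₀ → ∀ s : ℂ, ‖s‖ ≤ s₀ → ‖y + s • ν x - f x‖ < δ := by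
    intro x hx y hy s hs
    have h1 : ‖s • ν x‖ ≤ s₀ * Mν₁ := by
      rw [norm_smul]
      exact mul_le_mul hs (hν₁ x hx) (norm_nonneg _) hs₀.le
    calc ‖y + s • ν x - f x‖ = ‖(y - f x) + s • ν x‖ := by congr 1; abel
      _ ≤ ‖y - f x‖ + ‖s • ν x‖ := norm_add_le _ _
      _ < δ := by linarith
  have P1' : ∀ x ∈ U, ∀ w : V4, ‖w - f x‖ < δ → ‖w‖ ≤ Mf₁ + 1 := by
    intro x hx w hw
    calc ‖w‖ = ‖(w - f x) + f x‖ := by rw [sub_add_cancel]
      _ ≤ ‖w - f x‖ + ‖f x‖ := norm_add_le _ _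
      _ ≤ Mf₁ + 1 := by linarith [hf₁ x hx]
  have H1 : ∀ x ∈ U, ∀ y : V4, ‖y - f x‖ < r₀ → ∀ s : ℂ, ‖s‖ ≤ s₀ →
      ‖1 - dot (grad F (y + s • ν x)) (ν x)‖ ≤ 1 / 2 := by
    intro x hx y hy s hs
    have h1 := P1 x hx y hy s hs
    have h2 : dist (grad F (f x)) (grad F (y + s • ν x)) < 1 / (8 * (Mν₁ + 1)) :=
      hunif _ (mem_closedBall_zero_iff.2 ((hf₁ x hx).trans (by linarith))) _
        (mem_closedBall_zero_iff.2 (P1' x hx _ h1)) (by
          rw [dist_comm, dist_eq_norm]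
          linarith)
    rw [dist_eq_norm] at h2
    rw [← hdot x hx, ← spr_dot_sub]
    calc ‖dot (grad F (f x) - grad F (y + s • ν x)) (ν x)‖
        ≤ 4 * ‖grad F (f x) - grad F (y + s • ν x)‖ * ‖ν x‖ := spr_norm_dot_le _ _
      _ ≤ 4 * (1 / (8 * (Mν₁ + 1))) * Mν₁ :=
          mul_le_mul (mul_le_mul_of_nonneg_left h2.le (by norm_num)) (hν₁ x hx) (norm_nonneg _)
            (by positivity)
      _ ≤ 1 / 2 := spr_num3 hMν₁
  have H2 : ∀ x ∈ U, ∀ y : V4, ‖y - f x‖ < r₀ → ‖eval y F‖ ≤ s₀ / 4 := by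
    intro x hx y hy
    have h0 : eval (f x) F = 0 := (hf.2 hx).2
    have h1 : ‖y‖ ≤ Mf₁ + 1 := P1' x hx y (by linarith)
    have h2 := hΛ y (f x) h1 ((hf₁ x hx).trans (by linarith))
    rw [h0, sub_zero] at h2
    exact h2.trans ((mul_le_mul_of_nonneg_left hy.le hΛ0).trans hr₀2)
  have L : ∀ x ∈ U, ∀ y : V4, ‖y - f x‖ < r₀ → ∃ m : ℂ,
      Filter.Tendsto (fun k => sprIt F ν k (x, y)) Filter.atTop (nhds m) ∧ ‖m‖ ≤ 2 * ‖eval y F‖ ∧
      (∀ k, ‖sprIt F ν k (x, y) - m‖ ≤ 2 * ‖eval y F‖ / 2 ^ k) ∧ eval (y + m • ν x) F = 0 ∧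
      ∀ s : ℂ, ‖s‖ ≤ s₀ → eval (y + s • ν x) F = 0 → s = m := fun x hx y hy =>
    spr_iter_limit F y (ν x) (H1 x hx y hy) (H2 x hx y hy) (fun k => sprIt F ν k (x, y)) rfl
      fun _ => rfl
  have hlim : ∀ x ∈ U, ∀ y : V4, ‖y - f x‖ < r₀ → ∀ m : ℂ,
      Filter.Tendsto (fun k => sprIt F ν k (x, y)) Filter.atTop (nhds m) →
      Filter.limUnder Filter.atTop (fun k => sprIt F ν k (x, y)) = m := fun x _ y _ m hm => hm.limUnder_eq
  refine ⟨r₀, s₀, fun p => Filter.limUnder Filter.atTop (fun k => sprIt F ν k p), hr₀, hs₀, ?_, ?_⟩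
  · -- holomorphy
    have hΩ : IsOpen {p : X × V4 | p.1 ∈ U ∧ ‖p.2 - f p.1‖ < r₀} := by
      have hc : ContinuousOn (fun p : X × V4 => ‖p.2 - f p.1‖) (U ×ˢ (univ : Set V4)) :=
        (continuousOn_snd.sub (hf.1.continuousOn.comp continuousOn_fst fun p hp => hp.1)).norm
      have := hc.isOpen_inter_preimage (hU.prod isOpen_univ) (isOpen_Iio (a := r₀))
      convert this using 1
      ext p
      simp
    refine scv_tendsto (l := Filter.atTop) (F := fun k => sprIt F ν k) hΩ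
      (Filter.Eventually.of_forall fun k => spr_it_differentiableOn F hν (fun p hp => hp.1) k) ?_
    refine TendstoUniformlyOn.tendstoLocallyUniformlyOn ?_
    rw [Metric.tendstoUniformlyOn_iff]
    intro ε hε
    have hto : Filter.Tendsto (fun k : ℕ => s₀ / 2 ^ k) Filter.atTop (nhds 0) :=
      tendsto_const_nhds.div_atTop (tendsto_pow_atTop_atTop_of_one_lt one_lt_two)
    filter_upwards [hto.eventually (gt_mem_nhds hε)] with k hk
    rintro ⟨x, y⟩ ⟨hx, hy⟩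
    obtain ⟨m, hm, -, hmk, -, -⟩ := L x hx y hy
    show dist (Filter.limUnder Filter.atTop (fun k => sprIt F ν k (x, y))) (sprIt F ν k (x, y)) < ε
    rw [hlim x hx y hy m hm, dist_comm, dist_eq_norm]
    refine lt_of_le_of_lt ((hmk k).trans ?_) hk
    have := H2 x hx y hy
    exact div_le_div_of_nonneg_right (by linarith) (by positivity)
  · intro x hx y hy
    obtain ⟨m, hm, hm0, -, hmF, hmu⟩ := L x hx y hy
    show y + Filter.limUnder Filter.atTop (fun k => sprIt F ν k (x, y)) • ν x ∈ Cone F ∧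
      ‖Filter.limUnder Filter.atTop (fun k => sprIt F ν k (x, y))‖ ≤ 2 * ‖eval y F‖ ∧
      ‖Filter.limUnder Filter.atTop (fun k => sprIt F ν k (x, y))‖ < s₀ ∧
      ∀ s : ℂ, ‖s‖ < s₀ → eval (y + s • ν x) F = 0 →
        s = Filter.limUnder Filter.atTop (fun k => sprIt F ν k (x, y))
    rw [hlim x hx y hy m hm]
    have hms : ‖m‖ < s₀ := by linarith [H2 x hx y hy]
    refine ⟨⟨?_, hmF⟩, hm0, hms, fun s hs h0 => hmu s hs.le h0⟩
    intro h0
    have h1 := P1 x hx y hy m hms.le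
    rw [h0, zero_sub, norm_neg] at h1
    linarith [hmf' x hx]

end

end Claimed.Agent.R245
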