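/-
Row 245 / S0484, GEO (architect helper18).   Package GEO-GAUSS: the Gauss map of a smooth quartic is finite (no plane is tangent along a curve).
ONE FILE = ONE PACKAGE = ONE OWNER (helper188: DONE, no gap left).  Statements FROZEN; helper lemmas: prefix `gg_`, in this file.     Tools: Mathlib (Nullstellensatz), R245/Spray.lean (`spr_differentiable_grad`).
-/
import Claimed.Agent.R245.GeoDefs
import Claimed.Agent.R245.Spray

set_option autoImplicit false

namespace Claimed.Agent.R245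

open MvPolynomial Metric Set Filter Topology Claims.C0412

/-- homogeneity of the values of a form of degree `d` -/
theorem gg_eval_smul {G : MvPolynomial (Fin 4) ℂ} {d : ℕ} (hG : G.IsHomogeneous d) (c : ℂ) (y : V4) :
    eval (c • y) G = c ^ d * eval y G := by
  rw [eval_eq', eval_eq', Finset.mul_sum]
  refine Finset.sum_congr rfl fun e he => ?_
  have hdeg : ∑ i, e i = d := by
    have := hG (mem_support_iff.1 he)
    rw [Finsupp.weight_apply, Finsupp.sum_fintype _ _ (fun _ => by simp)] at this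
    simpa using this
  simp only [Pi.smul_apply, smul_eq_mul, mul_pow, Finset.prod_mul_distrib, Finset.prod_pow_eq_pow_sum,
    hdeg]
  ring

/-- homogeneity of the gradient -/
theorem gg_grad_smul (F : MvPolynomial (Fin 4) ℂ) (hF : IsSmoothQuarticForm F) (t : ℂ) (y : V4) :
    grad F (t • y) = t ^ 3 • grad F y := by
  funext i
  have h : (pderiv i F).IsHomogeneous 3 := hF.1.pderiv
  simp only [grad, Pi.smul_apply, smul_eq_mul]
  exact gg_eval_smul h t y

/-- the homogeneous component of a product with a form -/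
theorem gg_component_mul {G : MvPolynomial (Fin 4) ℂ} {d : ℕ} (hG : G.IsHomogeneous d)
    (h : MvPolynomial (Fin 4) ℂ) (N : ℕ) :
    homogeneousComponent (N + d) (h * G) = homogeneousComponent N h * G := by
  conv_lhs => rw [← sum_homogeneousComponent h, Finset.sum_mul, map_sum]
  have h1 : ∀ k ∈ Finset.range (h.totalDegree + 1),
      homogeneousComponent (N + d) (homogeneousComponent k h * G)
        = if k = N then homogeneousComponent k h * G else 0 := by
    intro k _
    have h2 : (homogeneousComponent k h * G) ∈ homogeneousSubmodule (Fin 4) ℂ (k + d) :=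
      (homogeneousComponent_isHomogeneous k h).mul hG
    rw [homogeneousComponent_of_mem h2]
    by_cases hk : k = N
    · simp [hk]
    · have h3 : ¬ (N = k) := fun h => hk h.symm
      simp [hk, h3]
  rw [Finset.sum_congr rfl h1, Finset.sum_ite_eq']
  split_ifs with hN
  · rfl
  · rw [homogeneousComponent_eq_zero, zero_mul]
    simpa using hN

/-- powers of the coordinates are combinations of the partial derivatives, with homogeneous coefficients -/
theorem gg_pow_mem (F : MvPolynomial (Fin 4) ℂ) (hF : IsSmoothQuarticForm F) (j : Fin 4) :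
    ∃ (N : ℕ) (h : Fin 4 → MvPolynomial (Fin 4) ℂ), (∀ i, (h i).totalDegree ≤ N) ∧
      (X j : MvPolynomial (Fin 4) ℂ) ^ (N + 3) = ∑ i, h i * pderiv i F := by
  set I : Ideal (MvPolynomial (Fin 4) ℂ) := Ideal.span (Set.range fun i => pderiv i F) with hI
  have h1 : (X j : MvPolynomial (Fin 4) ℂ) ∈ vanishingIdeal ℂ (zeroLocus ℂ I) := by
    rw [mem_vanishingIdeal_iff]
    intro x hx
    have h2 : x = 0 := by
      refine hF.2 x fun i => ?_
      have := hx (pderiv i F) (Ideal.subset_span ⟨i, rfl⟩)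
      simpa [aeval_eq_eval] using this
    simp [h2]
  rw [vanishingIdeal_zeroLocus_eq_radical] at h1
  obtain ⟨N, hN⟩ := h1
  have h3 : (X j : MvPolynomial (Fin 4) ℂ) ^ (N + 3) ∈ I := by
    rw [pow_add]
    exact I.mul_mem_right _ hN
  obtain ⟨h, hh⟩ := (Ideal.mem_span_range_iff_exists_fun).1 h3
  refine ⟨N, fun i => homogeneousComponent N (h i), fun i =>
    (homogeneousComponent_isHomogeneous N (h i)).totalDegree_le, ?_⟩
  have h4 : homogeneousComponent (N + 3) ((X j : MvPolynomial (Fin 4) ℂ) ^ (N + 3))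
      = (X j : MvPolynomial (Fin 4) ℂ) ^ (N + 3) :=
    homogeneousComponent_eq_self (isHomogeneous_X_pow j (N + 3))
  rw [← h4, ← hh, map_sum]
  refine Finset.sum_congr rfl fun i _ => ?_
  exact gg_component_mul (hF.1.pderiv : (pderiv i F).IsHomogeneous 3) (h i) N

/-- restriction of polynomial functions to a set -/
noncomputable def ggRes (Z : Set V4) : MvPolynomial (Fin 4) ℂ →ₗ[ℂ] (Z → ℂ) :=
  LinearMap.pi fun x => (aeval (x : V4) : MvPolynomial (Fin 4) ℂ →ₐ[ℂ] ℂ).toLinearMap

theorem ggRes_apply (Z : Set V4) (q : MvPolynomial (Fin 4) ℂ) (x : Z) : ggRes Z q x = eval (x : V4) q := by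
  simp [ggRes, aeval_eq_eval]

/-- the polynomial functions on a fibre of the gradient form a finite dimensional space -/
theorem gg_res_mem (F : MvPolynomial (Fin 4) ℂ) (g₁ : V4) (N : Fin 4 → ℕ)
    (h : Fin 4 → Fin 4 → MvPolynomial (Fin 4) ℂ) (hdeg : ∀ j i, (h j i).totalDegree ≤ N j)
    (hpow : ∀ j, (X j : MvPolynomial (Fin 4) ℂ) ^ (N j + 3) = ∑ i, h j i * pderiv i F) :
    ∀ (d : ℕ) (q : MvPolynomial (Fin 4) ℂ), q.totalDegree ≤ d →
      ggRes {x | grad F x = g₁} q ∈ Submodule.span ℂ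
        ((fun β : Fin 4 →₀ ℕ => ggRes {x | grad F x = g₁} (monomial β 1)) '' {β | ∀ j, β j < N j + 3}) := by
  set Z : Set V4 := {x | grad F x = g₁} with hZ
  set W := Submodule.span ℂ
    ((fun β : Fin 4 →₀ ℕ => ggRes Z (monomial β 1)) '' {β | ∀ j, β j < N j + 3}) with hW
  intro d
  induction d using Nat.strong_induction_on with
  | _ d ih =>
    intro q hq
    rw [q.as_sum, map_sum]
    refine Submodule.sum_mem _ fun β hβ => ?_
    have hβd : β.degree ≤ d := by
      have h1 := le_totalDegree hβ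
      rw [Finsupp.degree_eq_sum, ← Finsupp.sum_fintype β (fun _ e => e) (fun _ => rfl)]
      exact h1.trans hq
    have hmon : (monomial β (coeff β q) : MvPolynomial (Fin 4) ℂ) = coeff β q • monomial β 1 := by
      rw [smul_monomial, smul_eq_mul, mul_one]
    rw [hmon, map_smul]
    refine Submodule.smul_mem _ _ ?_
    by_cases hbox : ∀ j, β j < N j + 3
    · exact Submodule.subset_span ⟨β, hbox, rfl⟩
    · push Not at hbox
      obtain ⟨j, hj⟩ := hbox
      set γ : Fin 4 →₀ ℕ := β - Finsupp.single j (N j + 3) with hγ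
      have hβγ : β = γ + Finsupp.single j (N j + 3) := by
        rw [hγ]
        refine (tsub_add_cancel_of_le ?_).symm
        rw [Finsupp.single_le_iff]
        exact hj
      have hγdeg : γ.degree + (N j + 3) = β.degree := by
        conv_rhs => rw [hβγ]
        rw [map_add, Finsupp.degree_single]
      set q' : MvPolynomial (Fin 4) ℂ := monomial γ 1 * ∑ i, C (g₁ i) * h j i with hq'
      have hres : ggRes Z (monomial β 1) = ggRes Z q' := by
        funext x
        have hx : grad F (x : V4) = g₁ := x.2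
        rw [ggRes_apply, ggRes_apply, hq']
        have h1 : (monomial β 1 : MvPolynomial (Fin 4) ℂ) = monomial γ 1 * X j ^ (N j + 3) := by
          rw [X_pow_eq_monomial, monomial_mul, one_mul, ← hβγ]
        rw [h1, hpow j]
        simp only [map_mul, map_sum, eval_C]
        congr 1
        refine Finset.sum_congr rfl fun i _ => ?_
        have : eval (x : V4) (pderiv i F) = g₁ i := congrFun hx i
        rw [this, mul_comm]
      have hq'deg : q'.totalDegree ≤ γ.degree + N j := by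
        refine (totalDegree_mul _ _).trans (add_le_add ?_ ?_)
        · refine (totalDegree_monomial_le _ _).trans (le_of_eq ?_)
          rw [Finsupp.degree_eq_sum, ← Finsupp.sum_fintype γ (fun _ e => e) (fun _ => rfl)]
          rfl
        · refine totalDegree_finsetSum_le fun i _ => ?_
          refine (totalDegree_mul _ _).trans ?_
          rw [totalDegree_C, zero_add]
          exact hdeg j i
      rw [hres]
      exact ih (γ.degree + N j) (by omega) q' hq'deg

/-- **The fibres of `grad F` are finite in each coordinate.** -/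
theorem gg_fibre_finite (F : MvPolynomial (Fin 4) ℂ) (hF : IsSmoothQuarticForm F) (g₁ : V4) (j : Fin 4) :
    ∃ P : Polynomial ℂ, P ≠ 0 ∧ ∀ x : V4, grad F x = g₁ → P.eval (x j) = 0 := by
  choose N h hdeg hpow using gg_pow_mem F hF
  set Z : Set V4 := {x | grad F x = g₁} with hZ
  set W := Submodule.span ℂ
    ((fun β : Fin 4 →₀ ℕ => ggRes Z (monomial β 1)) '' {β | ∀ j, β j < N j + 3}) with hW
  have hfinset : {β : Fin 4 →₀ ℕ | ∀ j, β j < N j + 3}.Finite := by
    have h1 : {β : Fin 4 →₀ ℕ | ∀ j, β j < N j + 3} ⊆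
        Set.Iic (Finsupp.equivFunOnFinite.symm fun j => N j + 3) := by
      intro β hβ j
      exact (hβ j).le
    exact (Set.finite_Iic _).subset h1
  have : FiniteDimensional ℂ W := FiniteDimensional.span_of_finite ℂ (hfinset.image _)
  have hmem : ∀ q, ggRes Z q ∈ W := fun q => gg_res_mem F g₁ N h hdeg hpow _ q le_rfl
  set L : Polynomial ℂ →ₗ[ℂ] W :=
    LinearMap.codRestrict W ((ggRes Z).comp (Polynomial.aeval (X j : MvPolynomial (Fin 4) ℂ)).toLinearMap)
      (fun P => hmem _) with hL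
  have hninj : ¬ Function.Injective L := by
    intro hinj
    exact Polynomial.not_finite (R := ℂ) (Module.Finite.of_injective L hinj)
  rw [← LinearMap.ker_eq_bot, Submodule.eq_bot_iff] at hninj
  push Not at hninj
  obtain ⟨P, hP, hP0⟩ := hninj
  refine ⟨P, hP0, fun x hx => ?_⟩
  have h1 : (L P : Z → ℂ) ⟨x, hx⟩ = 0 := by
    rw [LinearMap.mem_ker.1 hP]
    rfl
  have h2 : (L P : Z → ℂ) ⟨x, hx⟩ = eval x (Polynomial.aeval (X j : MvPolynomial (Fin 4) ℂ) P) := by
    simp only [hL, LinearMap.codRestrict_apply, LinearMap.comp_apply, AlgHom.toLinearMap_apply, ggRes_apply]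
  rw [h2] at h1
  have h3 : eval x (Polynomial.aeval (X j : MvPolynomial (Fin 4) ℂ) P) = P.eval (x j) := by
    have := Polynomial.aeval_algHom_apply (aeval x : MvPolynomial (Fin 4) ℂ →ₐ[ℂ] ℂ) (X j) P
    rw [aeval_X] at this
    rw [← aeval_eq_eval, ← this]
    simp [Polynomial.aeval_def]
  rw [← h3]
  exact h1

/-- **(GF)**  A holomorphic arc in the cone along which the tangent plane is constant is radial. -/
theorem gg_gauss (F : MvPolynomial (Fin 4) ℂ) (hF : IsSmoothQuarticForm F) {S : Set ℂ} (hS : IsOpen S)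
    (hSc : IsPreconnected S) {p : ℂ → V4} (hp : DifferentiableOn ℂ p S) (hpc : ∀ w ∈ S, p w ∈ Cone F) {g₀ : V4}
    (hg : ∀ w ∈ S, ∃ c : ℂ, grad F (p w) = c • g₀) :
    ∀ w ∈ S, ∀ w' ∈ S, ∃ c : ℂ, p w' = c • p w := by
  intro w₁ hw₁ w₂ hw₂
  have hgr : ∀ w ∈ S, grad F (p w) ≠ 0 := fun w hw h0 =>
    (hpc w hw).1 (hF.2 _ fun i => congrFun h0 i)
  obtain ⟨c₁, hc₁⟩ := hg w₁ hw₁
  have hg0 : g₀ ≠ 0 := by
    intro h
    apply hgr w₁ hw₁
    rw [hc₁, h, smul_zero]
  obtain ⟨i₀, hi₀⟩ : ∃ i, g₀ i ≠ 0 := by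
    by_contra hno
    push Not at hno
    exact hg0 (funext hno)
  choose P hP0 hP using fun j => gg_fibre_finite F hF g₀ j
  have hcne : ∀ w ∈ S, ∀ c : ℂ, grad F (p w) = c • g₀ → c ≠ 0 := by
    rintro w hw c hc rfl
    exact hgr w hw (by rw [hc, zero_smul])
  have hden : ∀ w ∈ S, grad F (p w) i₀ ≠ 0 := by
    intro w hw
    obtain ⟨c, hc⟩ := hg w hw
    rw [hc]
    exact mul_ne_zero (hcne w hw c hc) hi₀
  set φ : Fin 4 → Fin 4 → ℂ → ℂ := fun i j w => p w i * p w j ^ 2 * (g₀ i₀ / grad F (p w) i₀) with hφ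
  have hcont : ∀ i j, ContinuousOn (φ i j) S := by
    intro i j
    have hpi : ∀ i, ContinuousOn (fun w => p w i) S := fun i =>
      (continuous_apply i).comp_continuousOn hp.continuousOn
    have hG : ContinuousOn (fun w => grad F (p w) i₀) S :=
      (continuous_apply i₀).comp_continuousOn ((spr_continuous_grad F).comp_continuousOn hp.continuousOn)
    exact ((hpi i).mul ((hpi j).pow 2)).mul (continuousOn_const.div hG hden)
  set T : Fin 4 → Fin 4 → Set ℂ := fun i j =>
    (fun rs : ℂ × ℂ => rs.1 * rs.2 ^ 2) '' ((P i).rootSet ℂ ×ˢ (P j).rootSet ℂ) with hT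
  have hTfin : ∀ i j, (T i j).Finite := fun i j =>
    ((Polynomial.rootSet_finite _ _).prod (Polynomial.rootSet_finite _ _)).image _
  have hmaps : ∀ i j, MapsTo (φ i j) S (T i j) := by
    intro i j w hw
    obtain ⟨c, hc⟩ := hg w hw
    have hc0 : c ≠ 0 := hcne w hw c hc
    obtain ⟨e, he⟩ := IsAlgClosed.exists_pow_nat_eq c (n := 3) (by norm_num)
    have he0 : e ≠ 0 := by
      rintro rfl
      apply hc0
      rw [← he]
      simp
    set x : V4 := e⁻¹ • p w with hx
    have hxg : grad F x = g₀ := by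
      rw [hx, gg_grad_smul F hF, hc, smul_smul, inv_pow, he, inv_mul_cancel₀ hc0, one_smul]
    refine ⟨(x i, x j), ⟨?_, ?_⟩, ?_⟩
    · rw [Polynomial.mem_rootSet]
      exact ⟨hP0 i, by simpa using hP i x hxg⟩
    · rw [Polynomial.mem_rootSet]
      exact ⟨hP0 j, by simpa using hP j x hxg⟩
    · show x i * x j ^ 2 = p w i * p w j ^ 2 * (g₀ i₀ / grad F (p w) i₀)
      rw [hc]
      simp only [hx, Pi.smul_apply, smul_eq_mul, ← he]
      field_simp
  have hconst : ∀ i j, φ i j w₁ = φ i j w₂ := fun i j =>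
    hSc.constant_of_mapsTo (hTfin i j).isDiscrete (hcont i j) (hmaps i j) hw₁ hw₂
  obtain ⟨j, hj⟩ : ∃ j, p w₁ j ≠ 0 := by
    by_contra hno
    push Not at hno
    exact (hpc w₁ hw₁).1 (funext hno)
  set κ₁ : ℂ := g₀ i₀ / grad F (p w₁) i₀ with hκ₁
  set κ₂ : ℂ := g₀ i₀ / grad F (p w₂) i₀ with hκ₂
  have hκ₁0 : κ₁ ≠ 0 := div_ne_zero hi₀ (hden w₁ hw₁)
  have hκ₂0 : κ₂ ≠ 0 := div_ne_zero hi₀ (hden w₂ hw₂)
  have hB : p w₁ j * p w₁ j ^ 2 * κ₁ = p w₂ j * p w₂ j ^ 2 * κ₂ := hconst j j
  have hj2 : p w₂ j ≠ 0 := by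
    intro h0
    rw [h0] at hB
    have : p w₁ j * p w₁ j ^ 2 * κ₁ ≠ 0 := mul_ne_zero (mul_ne_zero hj (pow_ne_zero 2 hj)) hκ₁0
    apply this
    rw [hB]
    ring
  refine ⟨p w₂ j / p w₁ j, funext fun i => ?_⟩
  have hA : p w₁ i * p w₁ j ^ 2 * κ₁ = p w₂ i * p w₂ j ^ 2 * κ₂ := hconst i j
  have key : p w₂ i * p w₁ j = p w₁ i * p w₂ j := by
    have hne : κ₁ * κ₂ * p w₁ j ^ 2 * p w₂ j ^ 2 ≠ 0 :=
      mul_ne_zero (mul_ne_zero (mul_ne_zero hκ₁0 hκ₂0) (pow_ne_zero 2 hj)) (pow_ne_zero 2 hj2)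
    apply mul_left_cancel₀ hne
    linear_combination (-(p w₁ j * p w₁ j ^ 2 * κ₁)) * hA + (p w₁ i * p w₁ j ^ 2 * κ₁) * hB
  simp only [Pi.smul_apply, smul_eq_mul]
  field_simp
  linear_combination key

/-- infinitesimal version: if the derivative of the Gauss map is proportional to the Gauss map along the arc, the arc is radial. -/
theorem gg_gauss_inf (F : MvPolynomial (Fin 4) ℂ) (hF : IsSmoothQuarticForm F) {S : Set ℂ} (hS : IsOpen S)
    (hSc : IsPreconnected S) {p : ℂ → V4} (hp : DifferentiableOn ℂ p S) (hpc : ∀ w ∈ S, p w ∈ Cone F)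
    (hg : ∀ w ∈ S, ∃ a : ℂ, deriv (fun w => grad F (p w)) w = a • grad F (p w)) :
    ∀ w ∈ S, ∀ w' ∈ S, ∃ c : ℂ, p w' = c • p w := by
  intro w₁ hw₁
  set G : ℂ → V4 := fun w => grad F (p w) with hG
  have hGd : DifferentiableOn ℂ G S := (spr_differentiable_grad F).comp_differentiableOn hp
  have hGi : ∀ i, DifferentiableOn ℂ (fun w => G w i) S := fun i => (differentiableOn_pi.1 hGd) i
  have hgr : ∀ w ∈ S, G w ≠ 0 := fun w hw h0 =>
    (hpc w hw).1 (hF.2 _ fun i => congrFun h0 i)
  obtain ⟨j, hj⟩ : ∃ j, G w₁ j ≠ 0 := by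
    by_contra hno
    push Not at hno
    exact hgr w₁ hw₁ (funext hno)
  have hder : ∀ w ∈ S, ∃ a : ℂ, ∀ i, deriv (fun w => G w i) w = a * G w i := by
    intro w hw
    obtain ⟨a, ha⟩ := hg w hw
    refine ⟨a, fun i => ?_⟩
    have h1 : deriv G w = fun i => deriv (fun w => G w i) w :=
      deriv_pi fun i => (hGi i).differentiableAt (hS.mem_nhds hw)
    have h2 : deriv G w = a • G w := ha
    have h3 := congrFun (h1.symm.trans h2) i
    simpa using h3
  set Nn : Fin 4 → ℂ → ℂ := fun i w => G w i * G w₁ j - G w j * G w₁ i with hNn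
  have hNd : ∀ i, DifferentiableOn ℂ (Nn i) S := fun i =>
    ((hGi i).mul_const _).sub ((hGi j).mul_const _)
  have hnear : ∀ i, Nn i =ᶠ[𝓝 w₁] 0 := by
    intro i
    have hUo : IsOpen (S ∩ (fun w => G w j) ⁻¹' {z | z ≠ 0}) :=
      (hGi j).continuousOn.isOpen_inter_preimage hS isOpen_ne
    obtain ⟨ε, hε, hball⟩ := Metric.isOpen_iff.1 hUo w₁ ⟨hw₁, hj⟩
    have hbS : ball w₁ ε ⊆ S := fun w hw => (hball hw).1
    have hbj : ∀ w ∈ ball w₁ ε, G w j ≠ 0 := fun w hw => (hball hw).2
    have hψd : DifferentiableOn ℂ (fun w => G w i / G w j) (ball w₁ ε) :=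
      ((hGi i).mono hbS).div ((hGi j).mono hbS) hbj
    have hψ0 : (ball w₁ ε).EqOn (deriv fun w => G w i / G w j) 0 := by
      intro w hw
      obtain ⟨a, ha⟩ := hder w (hbS hw)
      have hdi := (hGi i).differentiableAt (hS.mem_nhds (hbS hw))
      have hdj := (hGi j).differentiableAt (hS.mem_nhds (hbS hw))
      rw [deriv_fun_div hdi hdj (hbj w hw), ha i, ha j]
      simp only [Pi.zero_apply]
      rw [div_eq_zero_iff]
      left
      ring
    have hconst : ∀ w ∈ ball w₁ ε, G w i / G w j = G w₁ i / G w₁ j := fun w hw =>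
      isOpen_ball.is_const_of_deriv_eq_zero (convex_ball w₁ ε).isPreconnected hψd hψ0 hw
        (mem_ball_self hε)
    filter_upwards [ball_mem_nhds w₁ hε] with w hw
    have h1 := hconst w hw
    have hjw := hbj w hw
    rw [div_eq_div_iff hjw hj] at h1
    simp only [hNn, Pi.zero_apply]
    linear_combination h1
  have hzero : ∀ i, EqOn (Nn i) 0 S := fun i =>
    ((hNd i).analyticOnNhd hS).eqOn_zero_of_preconnected_of_eventuallyEq_zero hSc hw₁ (hnear i)
  refine gg_gauss F hF hS hSc hp hpc (g₀ := G w₁)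
    (fun w hw => ⟨G w j / G w₁ j, funext fun i => ?_⟩) w₁ hw₁
  have h1 : G w i * G w₁ j - G w j * G w₁ i = 0 := hzero i hw
  show G w i = (G w j / G w₁ j) • G w₁ i
  rw [smul_eq_mul]
  field_simp
  linear_combination h1

end Claimed.Agent.R245
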