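/-
Row 245 / S0484, GEO (architect helper18; block 3 = helper129).   Package GEO-ALG: the calculus of `lc F k p v` (coefficient of `l ^ k` in `F (p + l v)`).
Everything here is PROVED.  Prefix `ga_`.
-/
import Claimed.Agent.R245.GeoDefs
import Claimed.Agent.R245.Spray
import Claimed.Agent.R245.GeoGauss

set_option autoImplicit false

namespace Claimed.Agent.R245

open MvPolynomial Metric Set Filter Topology Claims.C0412

/-- the polynomial `l ↦ F (p + l v)` -/
noncomputable def gaPoly (F : MvPolynomial (Fin 4) ℂ) (p v : V4) : Polynomial ℂ :=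
  aeval (fun i => Polynomial.C (p i) + Polynomial.C (v i) * Polynomial.X) F

theorem ga_lc_def (F : MvPolynomial (Fin 4) ℂ) (k : ℕ) (p v : V4) : lc F k p v = (gaPoly F p v).coeff k := rfl

theorem ga_poly_eval (F : MvPolynomial (Fin 4) ℂ) (p v : V4) (l : ℂ) :
    (gaPoly F p v).eval l = eval (p + l • v) F := by
  unfold gaPoly
  induction F using MvPolynomial.induction_on with
  | C a => simp
  | add f g hf hg => simp [hf, hg]
  | mul_X f i hf =>
    simp only [map_mul, aeval_X, Polynomial.eval_mul, hf, Polynomial.eval_add, Polynomial.eval_C,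
      Polynomial.eval_X, eval_X, Pi.add_apply, Pi.smul_apply, smul_eq_mul]
    ring

theorem ga_natDegree_le (F : MvPolynomial (Fin 4) ℂ) (p v : V4) :
    (gaPoly F p v).natDegree ≤ F.totalDegree := by
  unfold gaPoly
  rw [aeval_def, eval₂_eq']
  refine Polynomial.natDegree_sum_le_of_forall_le _ _ fun m hm => ?_
  have h1 : (∏ i, (Polynomial.C (p i) + Polynomial.C (v i) * Polynomial.X : Polynomial ℂ) ^ m i).natDegree
      ≤ ∑ i, m i := by
    refine (Polynomial.natDegree_prod_le _ _).trans (Finset.sum_le_sum fun i _ => ?_)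
    refine (Polynomial.natDegree_pow_le).trans ?_
    have h2 : (Polynomial.C (p i) + Polynomial.C (v i) * Polynomial.X : Polynomial ℂ).natDegree ≤ 1 := by
      rw [add_comm]
      exact Polynomial.natDegree_linear_le
    calc m i * _ ≤ m i * 1 := Nat.mul_le_mul_left _ h2
      _ = m i := mul_one _
  have h3 : ∑ i, m i ≤ F.totalDegree := by
    have := le_totalDegree hm
    rwa [Finsupp.sum_fintype _ _ (fun _ => rfl)] at this
  refine (Polynomial.natDegree_mul_le).trans ?_
  have h4 : ((algebraMap ℂ (Polynomial ℂ)) (coeff m F)).natDegree = 0 := Polynomial.natDegree_C _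
  omega

/-- expansion along an affine line -/
theorem ga_line {F : MvPolynomial (Fin 4) ℂ} (hF : F.IsHomogeneous 4) (p v : V4) (l : ℂ) :
    eval (p + l • v) F = ∑ k ∈ Finset.range 5, lc F k p v * l ^ k := by
  rw [← ga_poly_eval]
  exact Polynomial.eval_eq_sum_range' (lt_of_le_of_lt ((ga_natDegree_le F p v).trans hF.totalDegree_le) (by norm_num)) l

/-- the coefficients are determined by the values -/
theorem ga_unique (F : MvPolynomial (Fin 4) ℂ) (p v : V4) (c : ℕ → ℂ) (N : ℕ)
    (h : ∀ l : ℂ, eval (p + l • v) F = ∑ k ∈ Finset.range N, c k * l ^ k) (k : ℕ) (hk : k < N) :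
    lc F k p v = c k := by
  have h1 : gaPoly F p v = ∑ k ∈ Finset.range N, Polynomial.C (c k) * Polynomial.X ^ k := by
    apply Polynomial.funext
    intro l
    rw [ga_poly_eval, h l, Polynomial.eval_finsetSum]
    simp
  rw [ga_lc_def, h1, Polynomial.finsetSum_coeff]
  simp only [Polynomial.coeff_C_mul_X_pow]
  rw [Finset.sum_eq_single k]
  · simp
  · intro j _ hj
    rw [if_neg (fun h => hj h.symm)]
  · intro h
    exact absurd (Finset.mem_range.2 hk) h

theorem ga_lc_zero (F : MvPolynomial (Fin 4) ℂ) (p v : V4) : lc F 0 p v = eval p F := by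
  rw [ga_lc_def, Polynomial.coeff_zero_eq_eval_zero, ga_poly_eval]
  simp

theorem ga_lc_one (F : MvPolynomial (Fin 4) ℂ) (p v : V4) : lc F 1 p v = dot (grad F p) v := by
  have h1 : HasDerivAt (fun l : ℂ => (gaPoly F p v).eval l) ((gaPoly F p v).derivative.eval 0) 0 :=
    (gaPoly F p v).hasDerivAt 0
  have h2 : HasDerivAt (fun l : ℂ => (gaPoly F p v).eval l) (dot (grad F (p + (0 : ℂ) • v)) v) 0 := by
    have := spr_hasDerivAt_line F p v 0
    refine this.congr_of_eventuallyEq (Eventually.of_forall fun l => ?_)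
    exact ga_poly_eval F p v l
  have h3 := h1.unique h2
  rw [← Polynomial.coeff_zero_eq_eval_zero, Polynomial.coeff_derivative] at h3
  rw [ga_lc_def]
  simpa using h3

/-- explicit form of `ga_line` -/
theorem ga_line' {F : MvPolynomial (Fin 4) ℂ} (hF : F.IsHomogeneous 4) (p v : V4) (l : ℂ) :
    eval (p + l • v) F = lc F 0 p v + lc F 1 p v * l + lc F 2 p v * l ^ 2 + lc F 3 p v * l ^ 3
      + lc F 4 p v * l ^ 4 := by
  rw [ga_line hF]
  simp [Finset.sum_range_succ]

/-- **Expansion** of `F (s p + l v)` -/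
theorem ga_expand {F : MvPolynomial (Fin 4) ℂ} (hF : F.IsHomogeneous 4) (p v : V4) (s l : ℂ) :
    eval (s • p + l • v) F = lc F 0 p v * s ^ 4 + lc F 1 p v * s ^ 3 * l + lc F 2 p v * s ^ 2 * l ^ 2
      + lc F 3 p v * s * l ^ 3 + lc F 4 p v * l ^ 4 := by
  have hL : Continuous fun s : ℂ => eval (s • p + l • v) F :=
    (spr_differentiable_eval F).continuous.comp (by fun_prop)
  have hR : Continuous fun s : ℂ => lc F 0 p v * s ^ 4 + lc F 1 p v * s ^ 3 * l + lc F 2 p v * s ^ 2 * l ^ 2
      + lc F 3 p v * s * l ^ 3 + lc F 4 p v * l ^ 4 := by fun_prop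
  have hE : EqOn (fun s : ℂ => eval (s • p + l • v) F) (fun s : ℂ => lc F 0 p v * s ^ 4 + lc F 1 p v * s ^ 3 * l
      + lc F 2 p v * s ^ 2 * l ^ 2 + lc F 3 p v * s * l ^ 3 + lc F 4 p v * l ^ 4) ({0}ᶜ : Set ℂ) := by
    intro s hs
    have hs0 : s ≠ 0 := hs
    have e : s • p + l • v = s • (p + (l / s) • v) := by
      rw [smul_add, smul_smul, mul_div_cancel₀ _ hs0]
    show eval (s • p + l • v) F = _
    rw [e, gg_eval_smul hF, ga_line' hF]
    field_simp
  exact congrFun (Continuous.ext_on (dense_compl_singleton (0 : ℂ)) hL hR hE) s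

theorem ga_lc_smul {F : MvPolynomial (Fin 4) ℂ} (hF : F.IsHomogeneous 4) (a b : ℂ) (p v : V4) (k : ℕ) (hk : k ≤ 4) :
    lc F k (a • p) (b • v) = a ^ (4 - k) * b ^ k * lc F k p v := by
  refine ga_unique F (a • p) (b • v) (fun k => a ^ (4 - k) * b ^ k * lc F k p v) 5 (fun l => ?_) k (by omega)
  rw [smul_smul, ga_expand hF]
  simp [Finset.sum_range_succ]
  ring

theorem ga_lc_symm {F : MvPolynomial (Fin 4) ℂ} (hF : F.IsHomogeneous 4) (p v : V4) (k : ℕ) (hk : k ≤ 4) :
    lc F k p v = lc F (4 - k) v p := by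
  refine ga_unique F p v (fun k => lc F (4 - k) v p) 5 (fun l => ?_) k (by omega)
  have e : p + l • v = l • v + (1 : ℂ) • p := by rw [one_smul, add_comm]
  rw [e, ga_expand hF]
  simp [Finset.sum_range_succ]
  ring

theorem ga_lc_four {F : MvPolynomial (Fin 4) ℂ} (hF : F.IsHomogeneous 4) (p v : V4) : lc F 4 p v = eval v F := by
  rw [ga_lc_symm hF p v 4 le_rfl]
  exact ga_lc_zero F v p

/-- expansion at a point of the cone, in a tangent direction -/
theorem ga_expand_tang {F : MvPolynomial (Fin 4) ℂ} (hF : F.IsHomogeneous 4) {p v : V4} (h0 : eval p F = 0)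
    (h1 : dot (grad F p) v = 0) (s l : ℂ) :
    eval (s • p + l • v) F = l ^ 2 * (lc F 2 p v * s ^ 2 + lc F 3 p v * s * l + lc F 4 p v * l ^ 2) := by
  rw [ga_expand hF, ga_lc_zero, ga_lc_one, h0, h1]
  ring

/-- change of the direction by a multiple of `p` -/
theorem ga_shift {F : MvPolynomial (Fin 4) ℂ} (hF : F.IsHomogeneous 4) {p v : V4} (h0 : eval p F = 0)
    (h1 : dot (grad F p) v = 0) (c : ℂ) :
    lc F 2 p (v + c • p) = lc F 2 p v ∧ lc F 3 p (v + c • p) = lc F 3 p v + 2 * c * lc F 2 p v ∧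
      lc F 4 p (v + c • p) = lc F 4 p v + c * lc F 3 p v + c ^ 2 * lc F 2 p v := by
  have key : ∀ l : ℂ, eval (p + l • (v + c • p)) F = ∑ k ∈ Finset.range 5,
      (fun k => if k = 2 then lc F 2 p v else if k = 3 then lc F 3 p v + 2 * c * lc F 2 p v else
        if k = 4 then lc F 4 p v + c * lc F 3 p v + c ^ 2 * lc F 2 p v else 0) k * l ^ k := by
    intro l
    have e : p + l • (v + c • p) = (1 + l * c) • p + l • v := by
      rw [smul_add, smul_smul, add_smul, one_smul]; abel
    rw [e, ga_expand_tang hF h0 h1]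
    simp [Finset.sum_range_succ]
    ring
  exact ⟨ga_unique F _ _ _ 5 key 2 (by norm_num), ga_unique F _ _ _ 5 key 3 (by norm_num),
    ga_unique F _ _ _ 5 key 4 (by norm_num)⟩

theorem ga_f6_shift {F : MvPolynomial (Fin 4) ℂ} (hF : F.IsHomogeneous 4) {p v : V4} (h0 : eval p F = 0)
    (h1 : dot (grad F p) v = 0) (c : ℂ) : f6 F p (v + c • p) = f6 F p v := by
  obtain ⟨e2, e3, e4⟩ := ga_shift hF h0 h1 c
  unfold f6
  rw [e2, e3, e4]
  ring

theorem ga_f6_smul {F : MvPolynomial (Fin 4) ℂ} (hF : F.IsHomogeneous 4) (a b : ℂ) (p v : V4) :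
    f6 F (a • p) (b • v) = a ^ 2 * b ^ 6 * f6 F p v := by
  unfold f6
  rw [ga_lc_smul hF a b p v 2 (by norm_num), ga_lc_smul hF a b p v 3 (by norm_num),
    ga_lc_smul hF a b p v 4 (by norm_num)]
  ring

/-! ### holomorphy in the parameters -/

theorem ga_poly_mul_X (f : MvPolynomial (Fin 4) ℂ) (i : Fin 4) (p v : V4) :
    gaPoly (f * X i) p v = gaPoly f p v * (Polynomial.C (p i) + Polynomial.C (v i) * Polynomial.X) := by
  simp [gaPoly]

theorem ga_coeff_mul_lin {R : Type*} [CommRing R] (q : Polynomial R) (a b : R) (k : ℕ) :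
    (q * (Polynomial.C a + Polynomial.C b * Polynomial.X)).coeff (k + 1) = q.coeff (k + 1) * a + q.coeff k * b := by
  rw [mul_add, ← mul_assoc, Polynomial.coeff_add, Polynomial.coeff_mul_C, Polynomial.coeff_mul_X,
    Polynomial.coeff_mul_C]

theorem ga_coeff_mul_lin_zero {R : Type*} [CommRing R] (q : Polynomial R) (a b : R) :
    (q * (Polynomial.C a + Polynomial.C b * Polynomial.X)).coeff 0 = q.coeff 0 * a := by
  rw [mul_add, ← mul_assoc, Polynomial.coeff_add, Polynomial.coeff_mul_C, Polynomial.coeff_zero_eq_eval_zero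
    (_ * Polynomial.X)]
  simp

/-- `lc F k` is an entire function of `(p, v)` -/
theorem ga_differentiable_lc (F : MvPolynomial (Fin 4) ℂ) (k : ℕ) :
    Differentiable ℂ (fun x : V4 × V4 => lc F k x.1 x.2) := by
  simp only [ga_lc_def]
  induction F using MvPolynomial.induction_on generalizing k with
  | C a =>
    have : ∀ x : V4 × V4, (gaPoly (C a) x.1 x.2).coeff k = (Polynomial.C a : Polynomial ℂ).coeff k := by
      intro x; simp [gaPoly]
    simp only [this]
    exact differentiable_const _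
  | add f g hf hg =>
    have : ∀ x : V4 × V4, (gaPoly (f + g) x.1 x.2).coeff k
        = (gaPoly f x.1 x.2).coeff k + (gaPoly g x.1 x.2).coeff k := by
      intro x; simp [gaPoly]
    simp only [this]
    exact (hf k).add (hg k)
  | mul_X f i hf =>
    have hp : Differentiable ℂ (fun x : V4 × V4 => x.1 i) := by fun_prop
    have hv : Differentiable ℂ (fun x : V4 × V4 => x.2 i) := by fun_prop
    cases k with
    | zero =>
      simp only [ga_poly_mul_X, ga_coeff_mul_lin_zero]
      exact (hf 0).mul hp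
    | succ k =>
      simp only [ga_poly_mul_X, ga_coeff_mul_lin]
      exact ((hf (k + 1)).mul hp).add ((hf k).mul hv)

theorem ga_differentiable_f6 (F : MvPolynomial (Fin 4) ℂ) :
    Differentiable ℂ (fun x : V4 × V4 => f6 F x.1 x.2) := by
  unfold f6
  exact ((ga_differentiable_lc F 3).pow 2).sub
    (((differentiable_const 4).mul (ga_differentiable_lc F 2)).mul (ga_differentiable_lc F 4))

/-- composition form -/
theorem ga_differentiableOn_lc (F : MvPolynomial (Fin 4) ℂ) (k : ℕ) {E : Type*} [NormedAddCommGroup E]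
    [NormedSpace ℂ E] {S : Set E} {p v : E → V4} (hp : DifferentiableOn ℂ p S) (hv : DifferentiableOn ℂ v S) :
    DifferentiableOn ℂ (fun x => lc F k (p x) (v x)) S := by
  have h := (ga_differentiable_lc F k).comp_differentiableOn (hp.prodMk hv)
  exact h

/-! ### the pencil of directions `v₁ + τ v₂`: polynomials in `τ` -/

/-- `F (p + l (v₁ + τ v₂))` as a polynomial in `l` over polynomials in `τ` -/
noncomputable def gaPP (F : MvPolynomial (Fin 4) ℂ) (p v₁ v₂ : V4) : Polynomial (Polynomial ℂ) :=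
  eval₂ ((Polynomial.C : Polynomial ℂ →+* Polynomial (Polynomial ℂ)).comp (Polynomial.C : ℂ →+* Polynomial ℂ))
    (fun i => Polynomial.C (Polynomial.C (p i))
      + Polynomial.C (Polynomial.C (v₁ i) + Polynomial.C (v₂ i) * Polynomial.X) * Polynomial.X) F

theorem ga_PP_C (a : ℂ) (p v₁ v₂ : V4) : gaPP (C a) p v₁ v₂ = Polynomial.C (Polynomial.C a) := by
  simp only [gaPP, eval₂_C, RingHom.comp_apply]

theorem ga_PP_add (f g : MvPolynomial (Fin 4) ℂ) (p v₁ v₂ : V4) :
    gaPP (f + g) p v₁ v₂ = gaPP f p v₁ v₂ + gaPP g p v₁ v₂ := by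
  simp only [gaPP, eval₂_add]

theorem ga_PP_mul_X (f : MvPolynomial (Fin 4) ℂ) (i : Fin 4) (p v₁ v₂ : V4) :
    gaPP (f * X i) p v₁ v₂ = gaPP f p v₁ v₂ * (Polynomial.C (Polynomial.C (p i))
      + Polynomial.C (Polynomial.C (v₁ i) + Polynomial.C (v₂ i) * Polynomial.X) * Polynomial.X) := by
  simp only [gaPP, eval₂_mul, eval₂_X]

/-- the polynomial `τ ↦ lc F k p (v₁ + τ v₂)` -/
noncomputable def gaLc (F : MvPolynomial (Fin 4) ℂ) (k : ℕ) (p v₁ v₂ : V4) : Polynomial ℂ :=
  (gaPP F p v₁ v₂).coeff k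

theorem ga_poly_C (a : ℂ) (p v : V4) : gaPoly (C a) p v = Polynomial.C a := by
  simp [gaPoly]

theorem ga_poly_add (f g : MvPolynomial (Fin 4) ℂ) (p v : V4) :
    gaPoly (f + g) p v = gaPoly f p v + gaPoly g p v := by
  simp [gaPoly]

theorem ga_PP_map (F : MvPolynomial (Fin 4) ℂ) (p v₁ v₂ : V4) (τ : ℂ) :
    Polynomial.map (Polynomial.evalRingHom τ) (gaPP F p v₁ v₂) = gaPoly F p (v₁ + τ • v₂) := by
  induction F using MvPolynomial.induction_on with
  | C a => rw [ga_PP_C, ga_poly_C, Polynomial.map_C]; simp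
  | add f g hf hg => rw [ga_PP_add, ga_poly_add, Polynomial.map_add, hf, hg]
  | mul_X f i hf =>
    rw [ga_PP_mul_X, ga_poly_mul_X, Polynomial.map_mul, hf]
    congr 1
    simp only [Polynomial.map_add, Polynomial.map_mul, Polynomial.map_C, Polynomial.map_X,
      Polynomial.coe_evalRingHom, Polynomial.eval_add, Polynomial.eval_C,
      Polynomial.eval_mul, Polynomial.eval_X, Pi.add_apply, Pi.smul_apply, smul_eq_mul, mul_comm τ]

theorem ga_Lc_eval (F : MvPolynomial (Fin 4) ℂ) (k : ℕ) (p v₁ v₂ : V4) (τ : ℂ) :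
    (gaLc F k p v₁ v₂).eval τ = lc F k p (v₁ + τ • v₂) := by
  rw [ga_lc_def, ← ga_PP_map, Polynomial.coeff_map]
  rfl

theorem ga_Lc_natDegree_le (F : MvPolynomial (Fin 4) ℂ) (k : ℕ) (p v₁ v₂ : V4) :
    (gaLc F k p v₁ v₂).natDegree ≤ k := by
  unfold gaLc
  induction F using MvPolynomial.induction_on generalizing k with
  | C a =>
    rw [ga_PP_C, Polynomial.coeff_C]
    split_ifs <;> simp
  | add f g hf hg =>
    rw [ga_PP_add, Polynomial.coeff_add]
    exact (Polynomial.natDegree_add_le _ _).trans (max_le (hf k) (hg k))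
  | mul_X f i hf =>
    rw [ga_PP_mul_X]
    cases k with
    | zero =>
      rw [ga_coeff_mul_lin_zero]
      refine (Polynomial.natDegree_mul_le).trans ?_
      have := hf 0
      simp only [Polynomial.natDegree_C]
      omega
    | succ k =>
      rw [ga_coeff_mul_lin]
      refine (Polynomial.natDegree_add_le _ _).trans (max_le ?_ ?_)
      · refine (Polynomial.natDegree_mul_le).trans ?_
        have := hf (k + 1)
        simp only [Polynomial.natDegree_C]
        omega
      · refine (Polynomial.natDegree_mul_le).trans ?_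
        have := hf k
        have h2 : (Polynomial.C (v₁ i) + Polynomial.C (v₂ i) * Polynomial.X : Polynomial ℂ).natDegree ≤ 1 := by
          rw [add_comm]
          exact Polynomial.natDegree_linear_le
        omega

/-- the coefficients of `gaLc` are entire functions of `(p, v₁, v₂)` -/
theorem ga_Lc_differentiable (F : MvPolynomial (Fin 4) ℂ) (k j : ℕ) :
    Differentiable ℂ (fun x : V4 × V4 × V4 => (gaLc F k x.1 x.2.1 x.2.2).coeff j) := by
  unfold gaLc
  induction F using MvPolynomial.induction_on generalizing k j with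
  | C a =>
    simp only [ga_PP_C]
    exact differentiable_const _
  | add f g hf hg =>
    simp only [ga_PP_add, Polynomial.coeff_add]
    exact (hf k j).add (hg k j)
  | mul_X f i hf =>
    have hp : Differentiable ℂ (fun x : V4 × V4 × V4 => x.1 i) := by fun_prop
    have hv₁ : Differentiable ℂ (fun x : V4 × V4 × V4 => x.2.1 i) := by fun_prop
    have hv₂ : Differentiable ℂ (fun x : V4 × V4 × V4 => x.2.2 i) := by fun_prop
    simp only [ga_PP_mul_X]
    cases k with
    | zero =>
      simp only [ga_coeff_mul_lin_zero, Polynomial.coeff_mul_C]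
      exact (hf 0 j).mul hp
    | succ k =>
      cases j with
      | zero =>
        simp only [ga_coeff_mul_lin, Polynomial.coeff_add, Polynomial.coeff_mul_C, ga_coeff_mul_lin_zero]
        exact ((hf (k + 1) 0).mul hp).add ((hf k 0).mul hv₁)
      | succ j =>
        simp only [ga_coeff_mul_lin, Polynomial.coeff_add, Polynomial.coeff_mul_C]
        exact ((hf (k + 1) (j + 1)).mul hp).add (((hf k (j + 1)).mul hv₁).add ((hf k j).mul hv₂))

/-- the sextic `τ ↦ f6 F p (v₁ + τ v₂)` as a polynomial -/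
noncomputable def gaF6 (F : MvPolynomial (Fin 4) ℂ) (p v₁ v₂ : V4) : Polynomial ℂ :=
  gaLc F 3 p v₁ v₂ ^ 2 - 4 * gaLc F 2 p v₁ v₂ * gaLc F 4 p v₁ v₂

theorem ga_F6_eval (F : MvPolynomial (Fin 4) ℂ) (p v₁ v₂ : V4) (τ : ℂ) :
    (gaF6 F p v₁ v₂).eval τ = f6 F p (v₁ + τ • v₂) := by
  unfold gaF6 f6
  simp [ga_Lc_eval]

theorem ga_F6_natDegree_le (F : MvPolynomial (Fin 4) ℂ) (p v₁ v₂ : V4) : (gaF6 F p v₁ v₂).natDegree ≤ 6 := by
  unfold gaF6
  refine (Polynomial.natDegree_sub_le _ _).trans (max_le ?_ ?_)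
  · refine (Polynomial.natDegree_pow_le).trans ?_
    have := ga_Lc_natDegree_le F 3 p v₁ v₂
    omega
  · refine (Polynomial.natDegree_mul_le).trans ?_
    have h4 := ga_Lc_natDegree_le F 4 p v₁ v₂
    have h2 := ga_Lc_natDegree_le F 2 p v₁ v₂
    have h3 : (4 * gaLc F 2 p v₁ v₂).natDegree ≤ 2 := by
      have : (4 : Polynomial ℂ) = Polynomial.C 4 := (map_ofNat Polynomial.C 4).symm
      rw [this]
      exact (Polynomial.natDegree_C_mul_le _ _).trans h2
    omega

/-- products of polynomial families with holomorphic coefficients -/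
theorem ga_coeff_mul_differentiableOn {E : Type*} [NormedAddCommGroup E] [NormedSpace ℂ E] {S : Set E}
    {P Q : E → Polynomial ℂ} (hP : ∀ j, DifferentiableOn ℂ (fun x => (P x).coeff j) S)
    (hQ : ∀ j, DifferentiableOn ℂ (fun x => (Q x).coeff j) S) (j : ℕ) :
    DifferentiableOn ℂ (fun x => (P x * Q x).coeff j) S := by
  simp only [Polynomial.coeff_mul]
  exact DifferentiableOn.fun_sum fun i _ => (hP i.1).mul (hQ i.2)

theorem ga_F6_differentiable (F : MvPolynomial (Fin 4) ℂ) (j : ℕ) :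
    Differentiable ℂ (fun x : V4 × V4 × V4 => (gaF6 F x.1 x.2.1 x.2.2).coeff j) := by
  rw [← differentiableOn_univ]
  unfold gaF6
  simp only [Polynomial.coeff_sub, pow_two]
  have h : ∀ k j, DifferentiableOn ℂ (fun x : V4 × V4 × V4 => (gaLc F k x.1 x.2.1 x.2.2).coeff j) univ :=
    fun k j => (ga_Lc_differentiable F k j).differentiableOn
  refine (ga_coeff_mul_differentiableOn (h 3) (h 3) j).sub ?_
  refine ga_coeff_mul_differentiableOn (fun j => ?_) (h 4) j
  have e : (4 : Polynomial ℂ) = Polynomial.C 4 := (map_ofNat Polynomial.C 4).symm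
  simp only [e, Polynomial.coeff_C_mul]
  exact (h 2 j).const_mul 4

/-! ### gradient pairings -/

theorem ga_hasDerivAt_s (F : MvPolynomial (Fin 4) ℂ) (p y : V4) (s : ℂ) :
    HasDerivAt (fun s : ℂ => eval (s • p + y) F) (dot (grad F (s • p + y)) p) s := by
  have h := spr_hasDerivAt_line F y p s
  simp only [add_comm y] at h
  exact h

theorem ga_hasDerivAt_l (F : MvPolynomial (Fin 4) ℂ) (y v : V4) (l : ℂ) :
    HasDerivAt (fun l : ℂ => eval (y + l • v) F) (dot (grad F (y + l • v)) v) l :=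
  spr_hasDerivAt_line F y v l

theorem ga_dot_grad_p {F : MvPolynomial (Fin 4) ℂ} (hF : F.IsHomogeneous 4) (p v : V4) (s l : ℂ) :
    dot (grad F (s • p + l • v)) p = 4 * lc F 0 p v * s ^ 3 + 3 * lc F 1 p v * s ^ 2 * l
      + 2 * lc F 2 p v * s * l ^ 2 + lc F 3 p v * l ^ 3 := by
  have h1 := ga_hasDerivAt_s F p (l • v) s
  have h2 : HasDerivAt (fun s : ℂ => eval (s • p + l • v) F) (4 * lc F 0 p v * s ^ 3 + 3 * lc F 1 p v * s ^ 2 * l
      + 2 * lc F 2 p v * s * l ^ 2 + lc F 3 p v * l ^ 3) s := by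
    simp only [ga_expand hF]
    have h3 : HasDerivAt (fun s : ℂ => lc F 0 p v * s ^ 4 + lc F 1 p v * s ^ 3 * l + lc F 2 p v * s ^ 2 * l ^ 2
        + lc F 3 p v * s * l ^ 3 + lc F 4 p v * l ^ 4)
        (lc F 0 p v * (4 * s ^ 3) + lc F 1 p v * (3 * s ^ 2) * l + lc F 2 p v * (2 * s) * l ^ 2
        + lc F 3 p v * 1 * l ^ 3) s := by
      have e4 : HasDerivAt (fun s : ℂ => s ^ 4) (4 * s ^ 3) s := by simpa using hasDerivAt_pow 4 s
      have e3 : HasDerivAt (fun s : ℂ => s ^ 3) (3 * s ^ 2) s := by simpa using hasDerivAt_pow 3 s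
      have e2 : HasDerivAt (fun s : ℂ => s ^ 2) (2 * s) s := by simpa using hasDerivAt_pow 2 s
      exact ((((e4.const_mul _).add ((e3.const_mul _).mul_const l)).add ((e2.const_mul _).mul_const _)).add
        (((hasDerivAt_id s).const_mul _).mul_const _)).add_const _
    convert h3 using 1
    ring
  exact h1.unique h2

theorem ga_dot_grad_v {F : MvPolynomial (Fin 4) ℂ} (hF : F.IsHomogeneous 4) (p v : V4) (s l : ℂ) :
    dot (grad F (s • p + l • v)) v = lc F 1 p v * s ^ 3 + 2 * lc F 2 p v * s ^ 2 * l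
      + 3 * lc F 3 p v * s * l ^ 2 + 4 * lc F 4 p v * l ^ 3 := by
  have h := ga_dot_grad_p hF v p l s
  rw [add_comm (l • v)] at h
  rw [h, ← ga_lc_symm hF p v 4 le_rfl, ← ga_lc_symm hF p v 3 (by norm_num), ← ga_lc_symm hF p v 2 (by norm_num),
    ← ga_lc_symm hF p v 1 (by norm_num)]
  ring

/-- Euler's identity -/
theorem ga_euler {F : MvPolynomial (Fin 4) ℂ} (hF : F.IsHomogeneous 4) (y : V4) :
    dot (grad F y) y = 4 * eval y F := by
  have h := ga_dot_grad_p hF y 0 1 0
  simp only [one_smul, zero_smul, add_zero] at h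
  rw [h, ga_lc_zero]
  ring

end Claimed.Agent.R245
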