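/-
Row 245 / S0484 (architect: helper98).  Package L2-POLY: calculus of the polynomial `F` and of the cone.
ONE FILE = ONE PACKAGE = ONE OWNER.  Statements FROZEN; helper lemmas: prefix `l2p_`, in this file.
-/
import Mathlib
import Claimed.Agent.R245.Defs

set_option autoImplicit false

namespace Claimed.Agent.R245

open MvPolynomial Metric Set Claims.C0412

/-- `b ↦ dot a b` as a continuous linear map -/
noncomputable def l2dotL (a : V4) : V4 →L[ℂ] ℂ :=
  ∑ i, a i • (ContinuousLinearMap.proj i : V4 →L[ℂ] ℂ)

theorem l2dotL_apply (a b : V4) : l2dotL a b = dot a b := by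
  simp [l2dotL, dot]

/-- the derivative of `y ↦ F y` is `dot (grad F y) ·`.  (`MvPolynomial.induction_on`: constants, sums, products with `X i`;
`pderiv` is a derivation: `MvPolynomial.pderiv_mul`, `pderiv_X`.) -/
theorem l2_hasFDerivAt_eval (F : MvPolynomial (Fin 4) ℂ) (y : V4) :
    HasFDerivAt (fun y : V4 => eval y F) (l2dotL (grad F y)) y := by
  classical
  unfold l2dotL grad
  induction F using MvPolynomial.induction_on with
  | C a =>
    have hfun : (fun w : V4 => eval w (C a)) = fun _ => a := by ext w; simp
    rw [hfun]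
    refine (hasFDerivAt_const (𝕜 := ℂ) a y).congr_fderiv ?_
    ext v
    simp
  | add p q hp hq =>
    have hfun : (fun w : V4 => eval w (p + q)) = fun w => eval w p + eval w q := by
      ext w; simp
    rw [hfun]
    refine (hp.add hq).congr_fderiv ?_
    ext v
    simp [add_mul, Finset.sum_add_distrib]
  | mul_X p i hp =>
    have h1 : HasFDerivAt (fun w : V4 => w i) (ContinuousLinearMap.proj i : V4 →L[ℂ] ℂ) y :=
      hasFDerivAt_apply i y
    have hfun : (fun w : V4 => eval w (p * X i)) = fun w => eval w p * w i := by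
      ext w; simp
    rw [hfun]
    refine (hp.mul h1).congr_fderiv ?_
    ext v
    simp only [Derivation.leibniz, pderiv_X, smul_eq_mul, map_add, map_mul, eval_X,
      _root_.sum_apply, _root_.add_apply, _root_.smul_apply,
      ContinuousLinearMap.proj_apply, add_mul, Finset.sum_add_distrib, Finset.mul_sum]
    congr 1
    · rw [Finset.sum_eq_single i]
      · simp
      · intro b _ hb
        simp [hb.symm]
      · simp
    · refine Finset.sum_congr rfl fun u _ => ?_
      ring

theorem l2_differentiable_eval (F : MvPolynomial (Fin 4) ℂ) :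
    Differentiable ℂ (fun y : V4 => eval y F) :=
  fun y => (l2_hasFDerivAt_eval F y).differentiableAt

/-- (`MvPolynomial.continuous_eval`, `continuous_pi`.) -/
theorem l2_continuous_grad (F : MvPolynomial (Fin 4) ℂ) : Continuous (grad F) := by
  exact continuous_pi fun i => MvPolynomial.continuous_eval (pderiv i F)

/-- (each component is `l2_differentiable_eval` of `pderiv i F`; `differentiable_pi`.) -/
theorem l2_differentiable_grad (F : MvPolynomial (Fin 4) ℂ) : Differentiable ℂ (grad F) := by
  exact differentiable_pi.2 fun i => l2_differentiable_eval (pderiv i F)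

/-- Euler's identity.  (`MvPolynomial.IsHomogeneous.sum_X_mul_pderiv`, evaluate.) -/
theorem l2_euler {F : MvPolynomial (Fin 4) ℂ} (hF : F.IsHomogeneous 4) (y : V4) :
    dot (grad F y) y = 4 * eval y F := by
  have h := congrArg (eval y) hF.sum_X_mul_pderiv
  simp only [map_sum, map_mul, eval_X, nsmul_eq_mul, map_natCast] at h
  unfold dot grad
  rw [← Nat.cast_ofNat (R := ℂ), ← h]
  exact Finset.sum_congr rfl fun i _ => mul_comm _ _

/-- homogeneity of the values.  (`MvPolynomial.IsHomogeneous.eval₂` / `IsHomogeneous.eval_smul`-type lemma.) -/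
theorem l2_eval_smul {F : MvPolynomial (Fin 4) ℂ} (hF : F.IsHomogeneous 4) (c : ℂ) (y : V4) :
    eval (c • y) F = c ^ 4 * eval y F := by
  rw [eval_eq', eval_eq', Finset.mul_sum]
  refine Finset.sum_congr rfl fun d hd => ?_
  have hdeg : ∑ i, d i = 4 := by
    have := hF (mem_support_iff.1 hd)
    rw [Finsupp.weight_apply, Finsupp.sum_fintype _ _ (fun _ => by simp)] at this
    simpa using this
  simp only [Pi.smul_apply, smul_eq_mul, mul_pow, Finset.prod_mul_distrib, Finset.prod_pow_eq_pow_sum,
    hdeg]
  ring

/-- the cone is invariant under `ℂˣ`. -/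
theorem l2_smul_mem_cone {F : MvPolynomial (Fin 4) ℂ} (hF : F.IsHomogeneous 4) {c : ℂ} (hc : c ≠ 0)
    {y : V4} (hy : y ∈ Cone F) : c • y ∈ Cone F :=
  ⟨smul_ne_zero hc hy.1, by rw [l2_eval_smul hF, hy.2, mul_zero]⟩

/-- the gradient does not vanish on the cone of a smooth quartic. -/
theorem l2_grad_ne_zero {F : MvPolynomial (Fin 4) ℂ} (hF : IsSmoothQuarticForm F) {y : V4}
    (hy : y ∈ Cone F) : grad F y ≠ 0 := fun h =>
  hy.1 (hF.2 y fun i => congrFun h i)

end Claimed.Agent.R245
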