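/-
Row 245 / S0484, sec 2 (architect: helper98).  Package L2-SMUL: property `L` is invariant under the scaling action of `ℂˣ` on the cone.
ONE FILE = ONE PACKAGE = ONE OWNER.  Statements FROZEN; helper lemmas: prefix `l2sm_`, in this file.
-/
import Mathlib
import Claimed.Agent.R245.L2Poly

set_option autoImplicit false

namespace Claimed.Agent.R245

open MvPolynomial Metric Set Claims.C0412

/-- scaling a cone-valued holomorphic map. -/
theorem l2sm_holOn_smul {E : Type*} [NormedAddCommGroup E] [NormedSpace ℂ E]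
    {F : MvPolynomial (Fin 4) ℂ} (hF : F.IsHomogeneous 4) {f : E → V4} {W : Set E}
    (hf : HolOn F f W) {c : ℂ} (hc : c ≠ 0) : HolOn F (fun z => c • f z) W :=
  ⟨hf.1.const_smul c, fun _ hz => l2_smul_mem_cone hF hc (hf.2 hz)⟩

/-- Route: `(c • ·) '' V` is open (homeomorphism `Homeomorph.smulOfNeZero`).  Given `f` with values in `c • V` on `W`, apply `hV.2` to `c⁻¹ • f` (holomorphic, values
in the cone by `l2_smul_mem_cone`, values in `V`) with accuracy `ε / ‖c‖`; the answer is `c • g`. -/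
theorem l2_isWitness_smul {F : MvPolynomial (Fin 4) ℂ} (hF : F.IsHomogeneous 4) {V : Set V4}
    (hV : IsWitness F V) {c : ℂ} (hc : c ≠ 0) : IsWitness F ((fun y : V4 => c • y) '' V) := by
  have hcn : 0 < ‖c‖ := norm_pos_iff.mpr hc
  refine ⟨(Homeomorph.smulOfNeZero c hc).isOpenMap V hV.1, ?_⟩
  intro x₀ x₁ y₀ y₁ h hh hx hy q ρ₀ ρ hρ₀ hρ f hf ε hε
  obtain ⟨W, hWo, hsub, hfW, hmaps⟩ := hf
  obtain ⟨g, hg, hclose⟩ := hV.2 x₀ x₁ y₀ y₁ h hh hx hy q ρ₀ ρ hρ₀ hρ (fun z => c⁻¹ • f z)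
    ⟨W, hWo, hsub, l2sm_holOn_smul hF hfW (inv_ne_zero hc), by
      intro z hz
      obtain ⟨v, hv, hvz⟩ := hmaps hz
      have : c⁻¹ • f z = v := by
        rw [← hvz]
        simp [smul_smul, inv_mul_cancel₀ hc]
      simpa [this] using hv⟩ (ε / ‖c‖) (div_pos hε hcn)
  obtain ⟨W', hW'o, hsub', hgW'⟩ := hg
  refine ⟨fun z => c • g z, ⟨W', hW'o, hsub', l2sm_holOn_smul hF hgW' hc⟩, ?_⟩
  intro z hz
  have h1 := hclose z hz
  have h2 : c • g z - f z = c • (g z - c⁻¹ • f z) := by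
    rw [smul_sub, smul_smul, mul_inv_cancel₀ hc, one_smul]
  rw [h2, norm_smul]
  calc ‖c‖ * ‖g z - c⁻¹ • f z‖ < ‖c‖ * (ε / ‖c‖) := by
        exact mul_lt_mul_of_pos_left h1 hcn
    _ = ε := by field_simp

theorem l2_hasL_smul {F : MvPolynomial (Fin 4) ℂ} (hF : F.IsHomogeneous 4) {y : V4} (h : HasL F y)
    {c : ℂ} (hc : c ≠ 0) : HasL F (c • y) := by
  obtain ⟨V, hV, hy⟩ := h
  exact ⟨_, l2_isWitness_smul hF hV hc, y, hy, rfl⟩

end Claimed.Agent.R245
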