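/-
Row 245 / S0484, GEO: CROSSING OF STRIPS (file GeoCrossX.lean; GeoCross.lean = interface of helper18, proved from this file).   Architect: helper138.   Prefix `gx`.   (Definitions `RegAt`, `IsStrip`, `ThinStrip`, `LongCurve`: GeoDefs.lean, helper18.)

  gx_cross   : a long curve `γ` which crosses a leaf of a complete strip `σ` transversally gives `L` at ALL points of that leaf   (alignment, Remark loc:alignment + `cr_crit`).
  gx_leaf    : the leaves of a complete strip are long curves.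
  gx_perturb : two complete strips which meet at a point either cross transversally at a nearby point, or the germ of the first leaf lies in the second leaf.

ALIGNMENT.  `σ (w, z)`: `w` in a disc, `z ∈ ℂ`.  Let `γ ζ₀ = t σ (w₁, z₁)`.  The inverse chart `Ψ` (`cr_chart`) of `(u, v) ↦ σ (w₁ + u, z₁ + v)` gives `A = Ψ ∘ (t⁻¹ γ (ζ₀ + ·)) : ℂ → V3`, `A 0 = 0`,
     `γ (ζ₀ + z) = t exp (A₂ z) σ (w₁ + A₀ z, z₁ + A₁ z)`                                                   (`gx_align`)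
Second strip of the criterion:  `s2 (z, τ) = t exp (A₂ z) σ (w₁ + A₀ z, z₁ + A₁ z + τ)`; first strip: the thin strip `s1` around `γ` at `ζ₀`.   `s1 (z, 0) = γ (ζ₀ + z) = s2 (z, 0)`.
`s2` is regular at `(0, c)` iff `A₀' (0) ≠ 0` (`gx_reg`), and `A₀' (0) ≠ 0` by transversality (`gx_transv`).   `s2 (0, c) = t σ (w₁, z₁ + c)`.

LEAVES (statements FROZEN; helper lemmas directly above the theorem, prefix as indicated):
  GX-MONO  gx_thin_mono                 (~60 lines)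
  GX-ALIGN gx_align, gx_holOn           (~150 lines, `cr_chart` as a black box)
  GX-REG   gx_fderiv, gx_reg, gx_transv, gx_indep  (~250 lines: chain rule + linear algebra)
  GX-LEAF  gx_leaf, gx_deriv_leaf       (~100 lines)
  GX-CONST gx_const                     (~50 lines)
-/
import Mathlib
import Claimed.Agent.R245.GeoDefs
import Claimed.Agent.R245.Crit
import Claimed.Agent.R245.L2Smul

set_option autoImplicit false

namespace Claimed.Agent.R245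

open MvPolynomial Metric Set Filter Topology Claims.C0412

/-- the reparametrised strip `(x, τ) ↦ κ exp (A₂ x) σ (w₁ + A₀ x, z₁ + A₁ x + τ)` -/
noncomputable def gxS {E : Type*} (σ : ℂ × ℂ → V4) (A : E → V3) (w₁ z₁ κ : ℂ) (p : E × ℂ) : V4 :=
  (κ * Complex.exp (A p.1 2)) • σ (w₁ + A p.1 0, z₁ + A p.1 1 + p.2)

/-! ### GX-MONO -/

/-- a thin strip can be restricted to a smaller bidisc.  (For `R ≥ b'` use `h.long (max R b)`; new width `min b'' b'`.) -/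
theorem gx_thin_mono {F : MvPolynomial (Fin 4) ℂ} {b b' : ℝ} {s1 : ℂ × ℂ → V4} (h : ThinStrip F b s1)
    (hb' : 0 < b') (hbb : b' ≤ b) : ThinStrip F b' s1 := by
  have hsub : ball (0 : ℂ) b' ×ˢ ball (0 : ℂ) b' ⊆ ball (0 : ℂ) b ×ˢ ball (0 : ℂ) b :=
    prod_mono (ball_subset_ball hbb) (ball_subset_ball hbb)
  refine ⟨hb', ⟨h.hol.1.mono hsub, h.hol.2.mono hsub subset_rfl⟩, h.reg, fun R _ => ?_⟩
  obtain ⟨b₁, hb₁, hb₁b, S1, hS1, hE⟩ := h.long (max R b) (le_max_right _ _)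
  have hsub2 : ball (0 : ℂ) R ×ˢ ball (0 : ℂ) (min b₁ b') ∪ ball (0 : ℂ) b' ×ˢ ball (0 : ℂ) b' ⊆
      ball (0 : ℂ) (max R b) ×ˢ ball (0 : ℂ) b₁ ∪ ball (0 : ℂ) b ×ˢ ball (0 : ℂ) b :=
    union_subset_union
      (prod_mono (ball_subset_ball (le_max_left _ _)) (ball_subset_ball (min_le_left _ _))) hsub
  exact ⟨min b₁ b', lt_min hb₁ hb', min_le_right _ _, S1,
    ⟨hS1.1.mono hsub2, hS1.2.mono hsub2 subset_rfl⟩, hE.mono hsub⟩

/-! ### GX-ALIGN -/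

/-- **Alignment.**  A holomorphic map `y` into the cone with `y x₀ = σ (w₁, z₁)` factors through the chart `(u, v, l) ↦ exp l • σ (w₁ + u, z₁ + v)`.
Route: `s (u, v) = σ (w₁ + u, z₁ + v)` is `HolOn F` on the bidisc of radius `b₂ = b - dist w₁ w₀`, `StripReg s` is `hσ.reg (w₁, z₁)` transported by the translation (`fderiv_comp_add_left`-type lemma);
`cr_chart F hF` gives `r₀, Ψ`; `A = Ψ ∘ y`; `r'` by continuity of `y` at `x₀`; `‖Ψ _‖ < b₂` gives `w₁ + A x 0 ∈ ball w₀ b`; `A x₀ = Ψ (Sig s 0) = 0`. -/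
theorem gx_align {F : MvPolynomial (Fin 4) ℂ} (hF : IsSmoothQuarticForm F) {E : Type*} [NormedAddCommGroup E]
    [NormedSpace ℂ E] {w₀ : ℂ} {b : ℝ} {σ : ℂ × ℂ → V4} (hσ : IsStrip F w₀ b σ) {w₁ z₁ : ℂ}
    (hw₁ : w₁ ∈ ball w₀ b) {y : E → V4} {x₀ : E} {r : ℝ} (hr : 0 < r) (hy : DifferentiableOn ℂ y (ball x₀ r))
    (hyc : ∀ x ∈ ball x₀ r, y x ∈ Cone F) (h0 : y x₀ = σ (w₁, z₁)) :
    ∃ (r' : ℝ) (A : E → V3), 0 < r' ∧ r' ≤ r ∧ DifferentiableOn ℂ A (ball x₀ r') ∧ A x₀ = 0 ∧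
      ∀ x ∈ ball x₀ r', w₁ + A x 0 ∈ ball w₀ b ∧
        y x = Complex.exp (A x 2) • σ (w₁ + A x 0, z₁ + A x 1) := by
  set b₂ : ℝ := b - dist w₁ w₀ with hb₂
  have hb₂0 : 0 < b₂ := by
    have := mem_ball.1 hw₁
    linarith
  have hmem : ∀ w : ℂ, ‖w‖ < b₂ → w₁ + w ∈ ball w₀ b := by
    intro w hw
    rw [mem_ball]
    calc dist (w₁ + w) w₀ ≤ dist (w₁ + w) w₁ + dist w₁ w₀ := dist_triangle _ _ _
      _ = ‖w‖ + dist w₁ w₀ := by rw [dist_eq_norm, add_sub_cancel_left]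
      _ < b := by linarith
  set s : ℂ × ℂ → V4 := fun p => σ ((w₁, z₁) + p) with hs
  have hs00 : s (0, 0) = σ (w₁, z₁) := by simp [hs]
  have hsapp : ∀ u v : ℂ, s (u, v) = σ (w₁ + u, z₁ + v) := fun u v => rfl
  have hshol : HolOn F s (ball (0 : ℂ) b₂ ×ˢ ball (0 : ℂ) b₂) := by
    have hm : ∀ p ∈ ball (0 : ℂ) b₂ ×ˢ ball (0 : ℂ) b₂, (w₁, z₁) + p ∈ ball w₀ b ×ˢ (univ : Set ℂ) :=
      fun p hp => ⟨hmem _ (by simpa using hp.1), mem_univ _⟩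
    exact ⟨hσ.hol.1.comp (differentiable_id.const_add (w₁, z₁)).differentiableOn hm,
      fun p hp => hσ.hol.2 (hm p hp)⟩
  have hsreg : StripReg s := by
    have h1 : fderiv ℂ s (0, 0) = fderiv ℂ σ (w₁, z₁) := by
      have := fderiv_comp_add_left (𝕜 := ℂ) (f := σ) (x := ((0 : ℂ), (0 : ℂ))) (w₁, z₁)
      simpa using this
    unfold StripReg
    rw [h1, hs00]
    exact hσ.reg (w₁, z₁) ⟨hw₁, mem_univ _⟩
  obtain ⟨r₀, r₂, Ψ, hr₀, hr₂, -, hΨd, hΨb, hΨl, hΨr⟩ := cr_chart F hF hb₂0 hshol hsreg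
  have hyc0 : ContinuousAt y x₀ :=
    (hy.differentiableAt (isOpen_ball.mem_nhds (mem_ball_self hr))).continuousAt
  obtain ⟨r₁, hr₁, hr₁b⟩ := Metric.continuousAt_iff.1 hyc0 r₀ hr₀
  have hmaps : ∀ x ∈ ball x₀ (min r r₁), y x ∈ ball (s (0, 0)) r₀ := by
    intro x hx
    have := hr₁b (lt_of_lt_of_le (mem_ball.1 hx) (min_le_right _ _))
    rw [h0, ← hs00] at this
    exact this
  refine ⟨min r r₁, fun x => Ψ (y x), lt_min hr hr₁, min_le_left _ _, ?_, ?_, fun x hx => ?_⟩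
  · exact hΨd.comp (hy.mono (ball_subset_ball (min_le_left _ _))) hmaps
  · have := (hΨl 0 (by simpa using hr₂)).2
    rw [crc_Sig_zero] at this
    show Ψ (y x₀) = 0
    rw [h0, ← hs00]
    exact this
  · have hx' := hmaps x hx
    have hn : ‖Ψ (y x)‖ < b₂ := hΨb _ hx'
    refine ⟨hmem _ (lt_of_le_of_lt (norm_le_pi_norm _ 0) hn), ?_⟩
    have := hΨr _ hx' (hyc x (ball_subset_ball (min_le_left _ _) hx))
    rw [Sig, hsapp] at this
    exact this.symm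

/-- the reparametrised strip is holomorphic with values in the cone.  (Composition; `l2_smul_mem_cone`, `Complex.exp_ne_zero`.) -/
theorem gx_holOn {F : MvPolynomial (Fin 4) ℂ} (hF : F.IsHomogeneous 4) {E : Type*} [NormedAddCommGroup E]
    [NormedSpace ℂ E] {w₀ : ℂ} {b : ℝ} {σ : ℂ × ℂ → V4} (hσ : IsStrip F w₀ b σ) {A : E → V3} {U : Set E}
    (hA : DifferentiableOn ℂ A U) {w₁ : ℂ} (hAm : ∀ x ∈ U, w₁ + A x 0 ∈ ball w₀ b) (z₁ : ℂ) {κ : ℂ}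
    (hκ : κ ≠ 0) : HolOn F (gxS σ A w₁ z₁ κ) (U ×ˢ univ) := by
  have hA' : ∀ i : Fin 3, DifferentiableOn ℂ (fun p : E × ℂ => A p.1 i) (U ×ˢ (univ : Set ℂ)) := by
    intro i
    have h1 : DifferentiableOn ℂ (fun x => A x i) U := fun x hx => differentiableWithinAt_pi.1 (hA x hx) i
    exact h1.comp differentiableOn_fst (fun p hp => hp.1)
  refine ⟨?_, ?_⟩
  · have h1 : DifferentiableOn ℂ (fun p : E × ℂ => κ * Complex.exp (A p.1 2)) (U ×ˢ (univ : Set ℂ)) :=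
      ((hA' 2).cexp).const_mul κ
    have h2 : DifferentiableOn ℂ (fun p : E × ℂ => (w₁ + A p.1 0, z₁ + A p.1 1 + p.2))
        (U ×ˢ (univ : Set ℂ)) :=
      ((hA' 0).const_add w₁).prodMk (((hA' 1).const_add z₁).add differentiableOn_snd)
    exact h1.smul (hσ.hol.1.comp h2 (fun p hp => ⟨hAm p.1 hp.1, mem_univ _⟩))
  · intro p hp
    exact l2_smul_mem_cone hF (mul_ne_zero hκ (Complex.exp_ne_zero _))
      (hσ.hol.2 ⟨hAm p.1 hp.1, mem_univ _⟩)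

/-! ### GX-REG -/

/-- the derivative of the reparametrised strip at `(x₀, 0)` (`A x₀ = 0`).  Chain rule. -/
theorem gx_fderiv {E : Type*} [NormedAddCommGroup E] [NormedSpace ℂ E] {σ : ℂ × ℂ → V4} {A : E → V3}
    {x₀ : E} {w₁ z₁ κ : ℂ} (hA : DifferentiableAt ℂ A x₀) (hA0 : A x₀ = 0)
    (hσ : DifferentiableAt ℂ σ (w₁, z₁)) (e : E) (τ : ℂ) :
    DifferentiableAt ℂ (gxS σ A w₁ z₁ κ) (x₀, 0) ∧
    fderiv ℂ (gxS σ A w₁ z₁ κ) (x₀, 0) (e, τ) =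
      (κ * fderiv ℂ A x₀ e 2) • σ (w₁, z₁) + (κ * fderiv ℂ A x₀ e 0) • fderiv ℂ σ (w₁, z₁) (1, 0) +
        (κ * (fderiv ℂ A x₀ e 1 + τ)) • fderiv ℂ σ (w₁, z₁) (0, 1) := by
  set a : E →L[ℂ] V3 := fderiv ℂ A x₀ with ha
  have hAf : HasFDerivAt (fun p : E × ℂ => A p.1) (a.comp (ContinuousLinearMap.fst ℂ E ℂ)) (x₀, (0 : ℂ)) :=
    HasFDerivAt.comp (x₀, (0 : ℂ)) (g := A) (f := fun p : E × ℂ => p.1) hA.hasFDerivAt hasFDerivAt_fst
  have hAi : ∀ i : Fin 3, HasFDerivAt (fun p : E × ℂ => A p.1 i)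
      ((ContinuousLinearMap.proj i).comp (a.comp (ContinuousLinearMap.fst ℂ E ℂ))) (x₀, (0 : ℂ)) :=
    fun i => (hasFDerivAt_pi'.1 hAf) i
  have hg := ((hAi 2).cexp).const_mul κ
  have hφ : HasFDerivAt (fun p : E × ℂ => (w₁ + A p.1 0, z₁ + A p.1 1 + p.2))
      (((ContinuousLinearMap.proj 0).comp (a.comp (ContinuousLinearMap.fst ℂ E ℂ))).prod
        ((ContinuousLinearMap.proj 1).comp (a.comp (ContinuousLinearMap.fst ℂ E ℂ))
          + ContinuousLinearMap.snd ℂ E ℂ)) (x₀, (0 : ℂ)) :=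
    ((hAi 0).const_add w₁).prodMk (((hAi 1).const_add z₁).add hasFDerivAt_snd)
  have hφ0 : (fun p : E × ℂ => (w₁ + A p.1 0, z₁ + A p.1 1 + p.2)) (x₀, (0 : ℂ)) = (w₁, z₁) := by
    simp [hA0]
  have hσ' : HasFDerivAt σ (fderiv ℂ σ (w₁, z₁))
      ((fun p : E × ℂ => (w₁ + A p.1 0, z₁ + A p.1 1 + p.2)) (x₀, (0 : ℂ))) := by
    rw [hφ0]
    exact hσ.hasFDerivAt
  have hc := HasFDerivAt.comp (x₀, (0 : ℂ)) hσ' hφ
  have hall := hg.smul hc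
  have hfun : ((fun p : E × ℂ => κ * Complex.exp (A p.1 2)) •
      (σ ∘ fun p : E × ℂ => (w₁ + A p.1 0, z₁ + A p.1 1 + p.2))) = gxS σ A w₁ z₁ κ := by
    funext p
    rfl
  rw [hfun] at hall
  refine ⟨hall.differentiableAt, ?_⟩
  rw [hall.fderiv]
  have hsplit : ∀ α β : ℂ, fderiv ℂ σ (w₁, z₁) (α, β)
      = α • fderiv ℂ σ (w₁, z₁) (1, 0) + β • fderiv ℂ σ (w₁, z₁) (0, 1) := by
    intro α β
    rw [← map_smul, ← map_smul, ← map_add]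
    congr 1
    ext <;> simp
  simp only [ContinuousLinearMap.add_apply, ContinuousLinearMap.smul_apply,
    ContinuousLinearMap.comp_apply, ContinuousLinearMap.smulRight_apply,
    ContinuousLinearMap.prod_apply, ContinuousLinearMap.proj_apply, ContinuousLinearMap.coe_fst',
    ContinuousLinearMap.coe_snd', Function.comp_apply, hA0, Pi.zero_apply, Complex.exp_zero,
    add_zero, mul_one, one_smul, smul_eq_mul]
  rw [hsplit, smul_add, smul_smul, smul_smul]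
  abel

theorem gx_li3 {v0 v1 v2 : V4} (h : LinearIndependent ℂ ![v0, v1, v2]) {a b c : ℂ}
    (habc : a • v0 + b • v1 + c • v2 = 0) : a = 0 ∧ b = 0 ∧ c = 0 := by
  have h1 := Fintype.linearIndependent_iff.1 h ![a, b, c] (by simpa [Fin.sum_univ_three] using habc)
  exact ⟨h1 0, h1 1, h1 2⟩

theorem gx_li3_mk {v0 v1 v2 : V4}
    (h : ∀ a b c : ℂ, a • v0 + b • v1 + c • v2 = 0 → a = 0 ∧ b = 0 ∧ c = 0) :
    LinearIndependent ℂ ![v0, v1, v2] := by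
  rw [Fintype.linearIndependent_iff]
  intro g hg
  have h1 := h (g 0) (g 1) (g 2) (by simpa [Fin.sum_univ_three] using hg)
  intro i
  fin_cases i
  · exact h1.1
  · exact h1.2.1
  · exact h1.2.2

/-- the triangular change of frame -/
theorem gx_li3_tri {v0 v1 v2 : V4} (h : LinearIndependent ℂ ![v0, v1, v2]) {κ a0 : ℂ} (hκ : κ ≠ 0)
    (ha0 : a0 ≠ 0) (a2 a1 : ℂ) {w : V4} {μ : ℂ} (hw : w = μ • v2 ∧ μ ≠ 0) :
    LinearIndependent ℂ ![κ • v0, (κ * a2) • v0 + (κ * a0) • v1 + (κ * a1) • v2, w] := by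
  obtain ⟨rfl, hμ⟩ := hw
  refine gx_li3_mk fun x y z hxyz => ?_
  have h1 : (x * κ + y * (κ * a2)) • v0 + (y * (κ * a0)) • v1 + (y * (κ * a1) + z * μ) • v2 = 0 := by
    rw [← hxyz]
    simp only [smul_add, smul_smul, add_smul]
    abel
  obtain ⟨e0, e1, e2⟩ := gx_li3 h h1
  have hy : y = 0 := by
    rcases mul_eq_zero.1 e1 with h | h
    · exact h
    · exact absurd h (mul_ne_zero hκ ha0)
  subst hy
  simp only [zero_mul, add_zero, zero_add] at e0 e2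
  exact ⟨(mul_eq_zero.1 e0).resolve_right hκ, rfl, (mul_eq_zero.1 e2).resolve_right hμ⟩

/-- the reparametrised strip is regular when `A₀' ≠ 0`.  (`gx_fderiv` with `E = ℂ`, `e = 1, τ = 0` and `e = 0, τ = 1`; then linear algebra:
`(κ σ, κ (a₂ σ + a₀ ∂₁σ + a₁ ∂₂σ), κ ∂₂σ)` is independent iff `κ ≠ 0`, `a₀ ≠ 0`.) -/
theorem gx_reg {σ : ℂ × ℂ → V4} {A : ℂ → V3} {w₁ z₁ κ : ℂ} (hA : DifferentiableAt ℂ A 0) (hA0 : A 0 = 0)
    (hσ : DifferentiableAt ℂ σ (w₁, z₁)) (hreg : RegAt σ (w₁, z₁)) (hκ : κ ≠ 0)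
    (hne : fderiv ℂ A 0 1 0 ≠ 0) : RegAt (gxS σ A w₁ z₁ κ) (0, 0) := by
  obtain ⟨-, h10⟩ := gx_fderiv (κ := κ) hA hA0 hσ (1 : ℂ) (0 : ℂ)
  obtain ⟨-, h01⟩ := gx_fderiv (κ := κ) hA hA0 hσ (0 : ℂ) (1 : ℂ)
  have h00 : gxS σ A w₁ z₁ κ (0, 0) = κ • σ (w₁, z₁) := by
    simp [gxS, hA0]
  unfold RegAt
  rw [h00, h10, h01]
  exact gx_li3_tri hreg hκ hne _ _ (μ := κ) ⟨by simp, hκ⟩

/-- transversality gives `A₀' (0) ≠ 0`.   (`deriv γ 0 = fderiv (gxS …) (0,0) (1,0)`, `gx_fderiv`; if `A₀' = 0` then `deriv γ 0 ∈ span (γ 0, ∂₂σ)`.) -/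
theorem gx_transv {σ : ℂ × ℂ → V4} {A : ℂ → V3} {w₁ z₁ κ : ℂ} {γ : ℂ → V4} (hA : DifferentiableAt ℂ A 0)
    (hA0 : A 0 = 0) (hσ : DifferentiableAt ℂ σ (w₁, z₁))
    (heq : ∀ᶠ z in 𝓝 (0 : ℂ), γ z = gxS σ A w₁ z₁ κ (z, 0))
    (htr : LinearIndependent ℂ ![γ 0, deriv γ 0, fderiv ℂ σ (w₁, z₁) (0, 1)]) :
    fderiv ℂ A 0 1 0 ≠ 0 := by
  intro h0
  obtain ⟨hd, h10⟩ := gx_fderiv (κ := κ) hA hA0 hσ (1 : ℂ) (0 : ℂ)
  have hγ0 : γ 0 = κ • σ (w₁, z₁) := by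
    rw [heq.self_of_nhds]
    simp [gxS, hA0]
  have hφ : HasDerivAt (fun z : ℂ => (z, (0 : ℂ))) ((1 : ℂ), (0 : ℂ)) 0 :=
    (hasDerivAt_id 0).prodMk (hasDerivAt_const 0 0)
  have hder : deriv γ 0 = fderiv ℂ (gxS σ A w₁ z₁ κ) (0, 0) (1, 0) := by
    rw [Filter.EventuallyEq.deriv_eq heq]
    exact (HasFDerivAt.comp_hasDerivAt (0 : ℂ) (l := gxS σ A w₁ z₁ κ) (f := fun z : ℂ => (z, (0 : ℂ)))
      hd.hasFDerivAt hφ).deriv
  rw [h10, h0] at hder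
  have hrel : (fderiv ℂ A 0 1 2) • γ 0 + (-1 : ℂ) • deriv γ 0
      + (κ * (fderiv ℂ A 0 1 1 + 0)) • fderiv ℂ σ (w₁, z₁) (0, 1) = 0 := by
    rw [hder, hγ0]
    simp only [smul_add, smul_smul, mul_zero, zero_smul, add_zero]
    rw [mul_comm κ (fderiv ℂ A 0 1 2)]
    simp only [neg_mul, one_mul, neg_smul]
    abel
  have := (gx_li3 htr hrel).2.1
  norm_num at this

/-- conversely: if `σ₁ = κ exp (A₂) σ (w₁ + A₀, z₁ + A₁)` near `x₀` and `∂₂ A₀ (x₀) ≠ 0`, the two leaves are transversal at the common point.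
(`A x₀` need not vanish: apply `gx_fderiv` to `A - A x₀`, `w₁ + A x₀ 0`, `z₁ + A x₀ 1`, `κ exp (A x₀ 2)`; or redo the chain rule.) -/
theorem gx_indep {σ₁ σ : ℂ × ℂ → V4} {A : ℂ × ℂ → V3} {x₀ : ℂ × ℂ} {w₁ z₁ κ : ℂ}
    (hA : DifferentiableAt ℂ A x₀) (hσ : DifferentiableAt ℂ σ (w₁ + A x₀ 0, z₁ + A x₀ 1))
    (hreg : RegAt σ (w₁ + A x₀ 0, z₁ + A x₀ 1)) (hκ : κ ≠ 0)
    (heq : ∀ᶠ x in 𝓝 x₀, σ₁ x = gxS σ A w₁ z₁ κ (x, 0)) (hne : fderiv ℂ A x₀ (0, 1) 0 ≠ 0) :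
    LinearIndependent ℂ ![σ₁ x₀, fderiv ℂ σ₁ x₀ (0, 1),
      fderiv ℂ σ (w₁ + A x₀ 0, z₁ + A x₀ 1) (0, 1)] := by
  set P : ℂ × ℂ := (w₁ + A x₀ 0, z₁ + A x₀ 1) with hP
  set A' : ℂ × ℂ → V3 := fun x => A x - A x₀ with hA'
  set κ' : ℂ := κ * Complex.exp (A x₀ 2) with hκ'
  have hκ'0 : κ' ≠ 0 := mul_ne_zero hκ (Complex.exp_ne_zero _)
  have hfun : gxS σ A' (w₁ + A x₀ 0) (z₁ + A x₀ 1) κ' = gxS σ A w₁ z₁ κ := by
    funext p
    simp only [gxS, hA', hκ', Pi.sub_apply]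
    have e1 : κ * Complex.exp (A x₀ 2) * Complex.exp (A p.1 2 - A x₀ 2) = κ * Complex.exp (A p.1 2) := by
      rw [mul_assoc, ← Complex.exp_add]
      congr 2
      ring
    have e2 : w₁ + A x₀ 0 + (A p.1 0 - A x₀ 0) = w₁ + A p.1 0 := by ring
    have e3 : z₁ + A x₀ 1 + (A p.1 1 - A x₀ 1) + p.2 = z₁ + A p.1 1 + p.2 := by ring
    rw [e1, e2, e3]
  have hA'd : DifferentiableAt ℂ A' x₀ := hA.sub_const _
  have hA'0 : A' x₀ = 0 := by simp [hA']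
  have hA'f : fderiv ℂ A' x₀ = fderiv ℂ A x₀ := by
    simp only [hA']
    exact fderiv_sub_const _
  obtain ⟨hd, h10⟩ := gx_fderiv (κ := κ') hA'd hA'0 hσ ((0 : ℂ), (1 : ℂ)) (0 : ℂ)
  rw [hfun, hA'f] at h10
  rw [hfun] at hd
  have hσ0 : σ₁ x₀ = κ' • σ P := by
    rw [heq.self_of_nhds, ← hfun]
    simp [gxS, hA'0, hP]
  have hφ : HasFDerivAt (fun x : ℂ × ℂ => (x, (0 : ℂ)))
      ((ContinuousLinearMap.id ℂ (ℂ × ℂ)).prod (0 : ℂ × ℂ →L[ℂ] ℂ)) x₀ :=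
    (hasFDerivAt_id x₀).prodMk (hasFDerivAt_const (0 : ℂ) x₀)
  have hder : fderiv ℂ σ₁ x₀ (0, 1) = fderiv ℂ (gxS σ A w₁ z₁ κ) (x₀, 0) ((0, 1), 0) := by
    rw [Filter.EventuallyEq.fderiv_eq heq]
    have h1 := HasFDerivAt.comp x₀ (g := gxS σ A w₁ z₁ κ) (f := fun x : ℂ × ℂ => (x, (0 : ℂ)))
      hd.hasFDerivAt hφ
    have h2 : fderiv ℂ (fun x => gxS σ A w₁ z₁ κ (x, 0)) x₀ = _ := h1.fderiv
    rw [h2]
    simp
  rw [hσ0, hder, h10]
  exact gx_li3_tri hreg hκ'0 hne _ _ (μ := 1) ⟨by simp, one_ne_zero⟩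

/-! ### GX-LEAF -/

/-- the derivative of a leaf -/
theorem gx_deriv_leaf {σ : ℂ × ℂ → V4} {w₁ z₁ : ℂ} (hσ : DifferentiableAt ℂ σ (w₁, z₁)) :
    deriv (fun z => σ (w₁, z)) z₁ = fderiv ℂ σ (w₁, z₁) (0, 1) := by
  have hφ : HasDerivAt (fun z : ℂ => (w₁, z)) ((0 : ℂ), (1 : ℂ)) z₁ :=
    (hasDerivAt_const z₁ w₁).prodMk (hasDerivAt_id z₁)
  exact (hσ.hasFDerivAt.comp_hasDerivAt z₁ hφ).deriv

/-- the leaves of a complete strip are long curves.  (`s1 (z, w) = σ (w₁ + w, ζ₀ + z)` on the bidisc of radius `b - dist w₁ w₀`, `S1 = s1`, `b' = b`; regularity: swap of the variables.) -/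
theorem gx_leaf {F : MvPolynomial (Fin 4) ℂ} {w₀ : ℂ} {b : ℝ} {σ : ℂ × ℂ → V4} (hσ : IsStrip F w₀ b σ)
    {w₁ : ℂ} (hw₁ : w₁ ∈ ball w₀ b) : LongCurve F (fun z => σ (w₁, z)) := by
  have hdiff : ∀ z : ℂ, DifferentiableAt ℂ σ (w₁, z) := fun z =>
    hσ.hol.1.differentiableAt ((isOpen_ball.prod isOpen_univ).mem_nhds ⟨hw₁, mem_univ _⟩)
  refine ⟨fun z => ?_, fun ζ₀ => ?_⟩
  · exact DifferentiableAt.comp z (g := σ) (f := fun z : ℂ => (w₁, z)) (hdiff z)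
      ((differentiableAt_const _).prodMk differentiableAt_id)
  set b₂ : ℝ := b - dist w₁ w₀ with hb₂
  have hb₂0 : 0 < b₂ := by
    have := mem_ball.1 hw₁
    linarith
  have hmem : ∀ w ∈ ball (0 : ℂ) b₂, w₁ + w ∈ ball w₀ b := by
    intro w hw
    rw [mem_ball] at hw ⊢
    rw [dist_zero_right] at hw
    calc dist (w₁ + w) w₀ ≤ dist (w₁ + w) w₁ + dist w₁ w₀ := dist_triangle _ _ _
      _ = ‖w‖ + dist w₁ w₀ := by rw [dist_eq_norm, add_sub_cancel_left]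
      _ < b := by linarith
  have hφd : Differentiable ℂ (fun p : ℂ × ℂ => (w₁ + p.2, ζ₀ + p.1)) :=
    (differentiable_snd.const_add w₁).prodMk (differentiable_fst.const_add ζ₀)
  have hhol : ∀ S : Set (ℂ × ℂ), (∀ p ∈ S, p.2 ∈ ball (0 : ℂ) b₂) →
      HolOn F (fun p : ℂ × ℂ => σ (w₁ + p.2, ζ₀ + p.1)) S := by
    intro S hS
    exact ⟨hσ.hol.1.comp hφd.differentiableOn (fun p hp => ⟨hmem _ (hS p hp), mem_univ _⟩),
      fun p hp => hσ.hol.2 ⟨hmem _ (hS p hp), mem_univ _⟩⟩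
  refine ⟨b₂, fun p => σ (w₁ + p.2, ζ₀ + p.1), ⟨hb₂0, hhol _ (fun p hp => hp.2), ?_, fun R _ => ?_⟩,
    fun z _ => by simp⟩
  · -- regularity
    have hφ : HasFDerivAt (fun p : ℂ × ℂ => (w₁ + p.2, ζ₀ + p.1))
        ((ContinuousLinearMap.snd ℂ ℂ ℂ).prod (ContinuousLinearMap.fst ℂ ℂ ℂ)) ((0 : ℂ), (0 : ℂ)) :=
      (hasFDerivAt_snd.const_add w₁).prodMk (hasFDerivAt_fst.const_add ζ₀)
    have hσ' : HasFDerivAt σ (fderiv ℂ σ (w₁, ζ₀))
        ((fun p : ℂ × ℂ => (w₁ + p.2, ζ₀ + p.1)) ((0 : ℂ), (0 : ℂ))) := by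
      simpa using (hdiff ζ₀).hasFDerivAt
    have hc := (HasFDerivAt.comp ((0 : ℂ), (0 : ℂ)) hσ' hφ).fderiv
    have hc' : fderiv ℂ (fun p : ℂ × ℂ => σ (w₁ + p.2, ζ₀ + p.1)) (0, 0) = _ := hc
    have hreg := hσ.reg (w₁, ζ₀) ⟨hw₁, mem_univ _⟩
    unfold RegAt at hreg ⊢
    rw [hc']
    simp only [ContinuousLinearMap.comp_apply, ContinuousLinearMap.prod_apply,
      ContinuousLinearMap.coe_fst', ContinuousLinearMap.coe_snd', add_zero]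
    refine gx_li3_mk fun x y z hxyz => ?_
    have h1 : x • σ (w₁, ζ₀) + z • fderiv ℂ σ (w₁, ζ₀) (1, 0) + y • fderiv ℂ σ (w₁, ζ₀) (0, 1) = 0 := by
      rw [← hxyz]
      abel
    obtain ⟨e0, e1, e2⟩ := gx_li3 hreg h1
    exact ⟨e0, e2, e1⟩
  · refine ⟨b₂, hb₂0, le_rfl, fun p => σ (w₁ + p.2, ζ₀ + p.1), hhol _ ?_, fun p _ => rfl⟩
    rintro p (hp | hp)
    · exact hp.2
    · exact hp.2

/-! ### GX-CONST -/

/-- a holomorphic function on a ball of `ℂ × ℂ` whose derivative in the second variable vanishes does not depend on the second variable -/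
theorem gx_const {u : ℂ × ℂ → ℂ} {x₀ : ℂ × ℂ} {r : ℝ} (hu : DifferentiableOn ℂ u (ball x₀ r))
    (h : ∀ x ∈ ball x₀ r, fderiv ℂ u x (0, 1) = 0) (z : ℂ) (hz : ‖z‖ < r) :
    u (x₀.1, x₀.2 + z) = u x₀ := by
  have hr : 0 < r := (norm_nonneg z).trans_lt hz
  have hmem : ∀ t ∈ ball (0 : ℂ) r, (x₀.1, x₀.2 + t) ∈ ball x₀ r := by
    intro t ht
    rw [mem_ball, Prod.dist_eq]
    simpa using ht
  have hφ : ∀ t : ℂ, HasDerivAt (fun t : ℂ => (x₀.1, x₀.2 + t)) ((0 : ℂ), (1 : ℂ)) t := fun t =>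
    (hasDerivAt_const t x₀.1).prodMk ((hasDerivAt_id t).const_add x₀.2)
  have hd : ∀ t ∈ ball (0 : ℂ) r, HasDerivAt (fun t : ℂ => u (x₀.1, x₀.2 + t)) 0 t := by
    intro t ht
    have h1 : DifferentiableAt ℂ u (x₀.1, x₀.2 + t) :=
      hu.differentiableAt (isOpen_ball.mem_nhds (hmem t ht))
    have h2 := h1.hasFDerivAt.comp_hasDerivAt t (hφ t)
    rw [h _ (hmem t ht)] at h2
    exact h2
  have h3 := isOpen_ball.is_const_of_fderiv_eq_zero (𝕜 := ℂ) (f := fun t : ℂ => u (x₀.1, x₀.2 + t))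
    (convex_ball (0 : ℂ) r).isPreconnected
    (fun t ht => (hd t ht).differentiableAt.differentiableWithinAt)
    (fun t ht => by
      have := (hd t ht).hasFDerivAt.fderiv
      rw [this]
      ext
      simp)
    (x := z) (y := 0) (by simpa using hz) (mem_ball_self hr)
  simpa using h3

/-! ### the glue -/

theorem gx_diffAt {F : MvPolynomial (Fin 4) ℂ} {w₀ : ℂ} {b : ℝ} {σ : ℂ × ℂ → V4} (hσ : IsStrip F w₀ b σ)
    {w₁ : ℂ} (hw₁ : w₁ ∈ ball w₀ b) (z : ℂ) : DifferentiableAt ℂ σ (w₁, z) :=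
  hσ.hol.1.differentiableAt ((isOpen_ball.prod isOpen_univ).mem_nhds ⟨hw₁, mem_univ _⟩)

/-- **CROSSING.**  A long curve which crosses a leaf of a complete strip transversally gives `L` along the whole leaf. -/
theorem gx_cross {F : MvPolynomial (Fin 4) ℂ} (hF : IsSmoothQuarticForm F) {γ : ℂ → V4} (hγ : LongCurve F γ)
    {w₀ : ℂ} {b : ℝ} {σ : ℂ × ℂ → V4} (hσ : IsStrip F w₀ b σ) {ζ₀ w₁ z₁ t : ℂ} (hw₁ : w₁ ∈ ball w₀ b)
    (ht : t ≠ 0) (hmeet : γ ζ₀ = t • σ (w₁, z₁))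
    (htr : LinearIndependent ℂ ![γ ζ₀, deriv γ ζ₀, fderiv ℂ σ (w₁, z₁) (0, 1)]) (z : ℂ) :
    HasL F (σ (w₁, z)) := by
  obtain ⟨hγd, hγs⟩ := hγ
  obtain ⟨b₁, s1, hs1, hax⟩ := hγs ζ₀
  have hcone : ∀ x ∈ ball (0 : ℂ) b₁, γ (ζ₀ + x) ∈ Cone F := fun x hx => by
    rw [← hax x (by simpa using hx)]
    exact hs1.hol.2 ⟨hx, mem_ball_self hs1.b_pos⟩
  obtain ⟨r', A, hr', hr'b, hAd, hA0, hA⟩ := gx_align hF hσ hw₁ (y := fun x => t⁻¹ • γ (ζ₀ + x))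
    (x₀ := (0 : ℂ)) (z₁ := z₁) hs1.b_pos
    (((hγd.comp (differentiable_id.const_add ζ₀)).const_smul t⁻¹).differentiableOn)
    (fun x hx => l2_smul_mem_cone hF.1 (inv_ne_zero ht) (hcone x hx))
    (by simp only [add_zero, hmeet, smul_smul, inv_mul_cancel₀ ht, one_smul])
  have hAat : DifferentiableAt ℂ A 0 := hAd.differentiableAt (isOpen_ball.mem_nhds (mem_ball_self hr'))
  have hkey : ∀ x ∈ ball (0 : ℂ) r', γ (ζ₀ + x) = gxS σ A w₁ z₁ t (x, 0) := fun x hx => by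
    have h := (hA x hx).2
    simp only [gxS, add_zero]
    rw [mul_smul, ← h, smul_smul, mul_inv_cancel₀ ht, one_smul]
  have hne : fderiv ℂ A 0 1 0 ≠ 0 := by
    refine gx_transv (γ := fun x => γ (ζ₀ + x)) (κ := t) hAat hA0 (gx_diffAt hσ hw₁ z₁)
      (Filter.eventually_of_mem (isOpen_ball.mem_nhds (mem_ball_self hr')) hkey) ?_
    have h1 : deriv (fun x => γ (ζ₀ + x)) 0 = deriv γ ζ₀ := by
      rw [deriv_comp_const_add, add_zero]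
    simp only [add_zero, h1]
    exact htr
  have hs2 : ∀ z' : ℂ, HolOn F (gxS σ A w₁ z' t) (ball (0 : ℂ) r' ×ˢ univ) := fun z' =>
    gx_holOn hF.1 hσ hAd (fun x hx => (hA x hx).1) z' ht
  have hthin := gx_thin_mono hs1 hr' hr'b
  have htrans : ∀ c : ℂ, (fun p : ℂ × ℂ => gxS σ A w₁ z₁ t (p.1, p.2 + c)) = gxS σ A w₁ (z₁ + c) t := by
    intro c
    funext p
    simp only [gxS]
    congr 3
    ring
  have hP : StripPair F r' (z - z₁) s1 (gxS σ A w₁ z₁ t) :=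
    { b_pos := hr'
      hol1 := hthin.hol
      hol2 := ⟨(hs2 z₁).1.mono (prod_mono subset_rfl (subset_univ _)),
        (hs2 z₁).2.mono (prod_mono subset_rfl (subset_univ _)) subset_rfl⟩
      axis := fun x hx => by
        rw [hax x (lt_of_lt_of_le hx hr'b)]
        exact hkey x (by simpa using hx)
      reg1 := hs1.reg
      reg2 := gx_reg hAat hA0 (gx_diffAt hσ hw₁ z₁) (hσ.reg _ ⟨hw₁, mem_univ _⟩) ht hne
      hol2c := ⟨(hs2 z₁).1.mono (prod_mono subset_rfl (subset_univ _)),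
        (hs2 z₁).2.mono (prod_mono subset_rfl (subset_univ _)) subset_rfl⟩
      reg2c := by
        rw [htrans]
        exact gx_reg hAat hA0 (gx_diffAt hσ hw₁ _) (hσ.reg _ ⟨hw₁, mem_univ _⟩) ht hne
      long1 := fun R hR => by
        obtain ⟨b', hb', hb'r, S1, hS1, hE⟩ := hthin.long R hR
        exact ⟨b', hb', hb'r, fun δ hδ => ⟨S1, hS1, fun p hp => by rw [hE hp, sub_self, norm_zero]; exact hδ⟩⟩
      long2 := fun R δ _ hδ => ⟨gxS σ A w₁ z₁ t,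
        ⟨(hs2 z₁).1.mono (prod_mono subset_rfl (subset_univ _)),
          (hs2 z₁).2.mono (prod_mono subset_rfl (subset_univ _)) subset_rfl⟩,
        fun p _ => by rw [sub_self, norm_zero]; exact hδ,
        fun p _ => by rw [sub_self, norm_zero]; exact hδ⟩ }
  have hL := cr_crit F hF hP
  have hval : gxS σ A w₁ z₁ t (0, z - z₁) = t • σ (w₁, z) := by
    simp only [gxS, hA0]
    simp
  rw [hval] at hL
  have h2 := l2_hasL_smul hF.1 hL (inv_ne_zero ht)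
  rwa [smul_smul, inv_mul_cancel₀ ht, one_smul] at h2

/-- **PERTURBATION.**  Two complete strips which meet at a point cross transversally at a nearby point, unless the germ of the first leaf lies in the second leaf. -/
theorem gx_perturb {F : MvPolynomial (Fin 4) ℂ} (hF : IsSmoothQuarticForm F) {w₀ w₀' : ℂ} {b b' : ℝ}
    {σ σ' : ℂ × ℂ → V4} (hσ : IsStrip F w₀ b σ) (hσ' : IsStrip F w₀' b' σ') {w₁ z₁ w₂ z₂ t : ℂ}
    (hw₁ : w₁ ∈ ball w₀ b) (hw₂ : w₂ ∈ ball w₀' b') (ht : t ≠ 0) (hmeet : σ (w₁, z₁) = t • σ' (w₂, z₂)) :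
    (∃ u₁ v₁ u₂ v₂ t' : ℂ, u₁ ∈ ball w₀ b ∧ u₂ ∈ ball w₀' b' ∧ t' ≠ 0 ∧ σ (u₁, v₁) = t' • σ' (u₂, v₂) ∧
      LinearIndependent ℂ ![σ (u₁, v₁), fderiv ℂ σ (u₁, v₁) (0, 1), fderiv ℂ σ' (u₂, v₂) (0, 1)]) ∨
    (∃ ε : ℝ, 0 < ε ∧ ∀ z : ℂ, ‖z‖ < ε → ∃ ζ t' : ℂ, t' ≠ 0 ∧ σ (w₁, z₁ + z) = t' • σ' (w₂, ζ)) := by
  have hopen : IsOpen (ball w₀ b ×ˢ (univ : Set ℂ)) := isOpen_ball.prod isOpen_univ
  obtain ⟨r, hr, hrsub⟩ := Metric.isOpen_iff.1 hopen (w₁, z₁) ⟨hw₁, mem_univ _⟩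
  obtain ⟨r', A, hr', hr'r, hAd, hA0, hA⟩ := gx_align hF hσ' hw₂ (y := fun x => t⁻¹ • σ x)
    (x₀ := (w₁, z₁)) (z₁ := z₂) hr ((hσ.hol.1.mono hrsub).const_smul t⁻¹)
    (fun x hx => l2_smul_mem_cone hF.1 (inv_ne_zero ht) (hσ.hol.2 (hrsub hx)))
    (by simp only [hmeet, smul_smul, inv_mul_cancel₀ ht, one_smul])
  have hkey : ∀ x ∈ ball ((w₁, z₁) : ℂ × ℂ) r', σ x = gxS σ' A w₂ z₂ t (x, 0) := fun x hx => by
    have h := (hA x hx).2
    simp only [gxS, add_zero]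
    rw [mul_smul, ← h, smul_smul, mul_inv_cancel₀ ht, one_smul]
  by_cases hex : ∃ x ∈ ball ((w₁, z₁) : ℂ × ℂ) r', fderiv ℂ A x (0, 1) 0 ≠ 0
  · left
    obtain ⟨x, hx, hne⟩ := hex
    have hxd : x.1 ∈ ball w₀ b := (hrsub (ball_subset_ball hr'r hx)).1
    refine ⟨x.1, x.2, w₂ + A x 0, z₂ + A x 1, t * Complex.exp (A x 2), hxd, (hA x hx).1,
      mul_ne_zero ht (Complex.exp_ne_zero _), ?_, ?_⟩
    · have := hkey x hx
      simpa only [gxS, add_zero] using this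
    · exact gx_indep (σ₁ := σ) (x₀ := x) (κ := t) (hAd.differentiableAt (isOpen_ball.mem_nhds hx))
        (gx_diffAt hσ' (hA x hx).1 _) (hσ'.reg _ ⟨(hA x hx).1, mem_univ _⟩) ht
        (Filter.eventually_of_mem (isOpen_ball.mem_nhds hx) hkey) hne
  · right
    push Not at hex
    refine ⟨r', hr', fun z hz => ?_⟩
    have hxz : ((w₁, z₁ + z) : ℂ × ℂ) ∈ ball ((w₁, z₁) : ℂ × ℂ) r' := by
      rw [mem_ball, Prod.dist_eq]
      simpa using hz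
    have hu : DifferentiableOn ℂ (fun x => A x 0) (ball ((w₁, z₁) : ℂ × ℂ) r') :=
      fun x hx => (differentiableWithinAt_pi.1 (hAd x hx)) 0
    have hder : ∀ x ∈ ball ((w₁, z₁) : ℂ × ℂ) r', fderiv ℂ (fun x => A x 0) x (0, 1) = 0 := fun x hx => by
      have h1 : DifferentiableAt ℂ A x := hAd.differentiableAt (isOpen_ball.mem_nhds hx)
      have h2 : fderiv ℂ (fun x => A x 0) x = (ContinuousLinearMap.proj 0).comp (fderiv ℂ A x) :=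
        ((hasFDerivAt_pi'.1 h1.hasFDerivAt) 0).fderiv
      rw [h2]
      exact hex x hx
    have hc := gx_const hu hder z hz
    simp only [hA0] at hc
    have h3 := hkey _ hxz
    simp only [gxS, add_zero] at h3
    rw [hc] at h3
    exact ⟨z₂ + A (w₁, z₁ + z) 1, t * Complex.exp (A (w₁, z₁ + z) 2),
      mul_ne_zero ht (Complex.exp_ne_zero _), by simpa using h3⟩

end Claimed.Agent.R245
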