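/-
Row 245 / S0484, sec 2.2 (architect: helper98).  Package L2-ROOT: quantitative scalar implicit function theorem with
holomorphic parameters.  ONE FILE = ONE PACKAGE = ONE OWNER.  Statement FROZEN; helper lemmas: prefix `l2r_`.
Black box: `scv_tendsto` (PROVED, `R245/SCVLim.lean`).
-/
import Mathlib
import Claimed.Agent.R245.SCV

set_option autoImplicit false

namespace Claimed.Agent.R245

open Metric Set Filter Topology

variable {X : Type*} [NormedAddCommGroup X] [NormedSpace ℂ X]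

/-- **The small root.**  `P (x, l)` holomorphic on `D × ball 0 r₁`; `l ↦ l - P (x, l)` is `1/2`-Lipschitz on
`closedBall 0 r₀` (`r₀ < r₁`) and `‖P (x, 0)‖ ≤ r₀ / 2`.  Then `P (x, ·)` has exactly one zero `μ x` in `closedBall 0 r₀`,
`‖μ x‖ ≤ 2 ‖P (x, 0)‖`, and `μ` is holomorphic on `D`.
Route: `μ_0 = 0`, `μ_{n+1} x = μ_n x - P (x, μ_n x)`.  Induction: `‖μ_n x‖ ≤ 2 (1 - 2^{-n}) ‖P (x,0)‖ ≤ r₀`,
`‖μ_{n+1} x - μ_n x‖ ≤ 2^{-n} ‖P (x,0)‖ ≤ 2^{-n} r₀ / 2`, `μ_n` holomorphic on `D`.  Uniformly Cauchy on `D`, limit `μ`;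
`scv_tendsto` (via `TendstoUniformlyOn.tendstoLocallyUniformlyOn`).  `P (x, μ x) = 0` by continuity (Lipschitz);
uniqueness: two zeros are fixed points of a `1/2`-contraction. -/
theorem l2_root {D : Set X} (hD : IsOpen D) {P : X × ℂ → ℂ} {r₀ r₁ : ℝ} (hr₀ : 0 < r₀) (hr : r₀ < r₁)
    (hP : DifferentiableOn ℂ P (D ×ˢ ball (0 : ℂ) r₁))
    (hlip : ∀ x ∈ D, ∀ l₁ ∈ closedBall (0 : ℂ) r₀, ∀ l₂ ∈ closedBall (0 : ℂ) r₀,
      ‖(P (x, l₁) - l₁) - (P (x, l₂) - l₂)‖ ≤ 1 / 2 * ‖l₁ - l₂‖)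
    (h0 : ∀ x ∈ D, ‖P (x, 0)‖ ≤ r₀ / 2) :
    ∃ μ : X → ℂ, DifferentiableOn ℂ μ D ∧ (∀ x ∈ D, ‖μ x‖ ≤ 2 * ‖P (x, 0)‖ ∧ P (x, μ x) = 0) ∧
      ∀ x ∈ D, ∀ l ∈ closedBall (0 : ℂ) r₀, P (x, l) = 0 → l = μ x := by
  classical
  -- Picard iterates
  let μs : ℕ → X → ℂ := fun n => Nat.rec (fun _ => 0) (fun _ g x => g x - P (x, g x)) n
  have hμ0 : ∀ x, μs 0 x = 0 := fun x => rfl
  have hμS : ∀ n x, μs (n + 1) x = μs n x - P (x, μs n x) := fun n x => rfl
  have key : ∀ n, ∀ x ∈ D, ‖μs n x‖ ≤ 2 * (1 - (1 / 2 : ℝ) ^ n) * ‖P (x, 0)‖ ∧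
      ‖μs (n + 1) x - μs n x‖ ≤ (1 / 2 : ℝ) ^ n * ‖P (x, 0)‖ := by
    intro n
    induction n with
    | zero =>
      intro x _
      constructor
      · simp [hμ0]
      · rw [hμS, hμ0]
        simp
    | succ n ih =>
      intro x hx
      obtain ⟨h1, h2⟩ := ih x hx
      have hc : 0 ≤ ‖P (x, 0)‖ := norm_nonneg _
      have hc' := h0 x hx
      have hpow : 0 < (1 / 2 : ℝ) ^ n := by positivity
      have hpow1 : (1 / 2 : ℝ) ^ n ≤ 1 := pow_le_one₀ (by norm_num) (by norm_num)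
      have h3 : ‖μs (n + 1) x‖ ≤ 2 * (1 - (1 / 2 : ℝ) ^ (n + 1)) * ‖P (x, 0)‖ := by
        have : ‖μs (n + 1) x‖ ≤ ‖μs n x‖ + ‖μs (n + 1) x - μs n x‖ := by
          have := norm_add_le (μs n x) (μs (n + 1) x - μs n x)
          simpa using this
        rw [pow_succ]
        nlinarith
      refine ⟨h3, ?_⟩
      have hb1 : μs n x ∈ closedBall (0 : ℂ) r₀ := by
        rw [mem_closedBall_zero_iff]
        nlinarith
      have hb2 : μs (n + 1) x ∈ closedBall (0 : ℂ) r₀ := by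
        rw [mem_closedBall_zero_iff]
        have hpow' : 0 < (1 / 2 : ℝ) ^ (n + 1) := by positivity
        nlinarith
      have h4 := hlip x hx _ hb2 _ hb1
      have h5 : μs (n + 1 + 1) x - μs (n + 1) x
          = -((P (x, μs (n + 1) x) - μs (n + 1) x) - (P (x, μs n x) - μs n x)) := by
        rw [hμS (n + 1) x]
        nth_rewrite 2 [hμS n x]
        ring
      rw [h5, norm_neg, pow_succ]
      nlinarith
  have hle : ∀ n, ∀ x ∈ D, ‖μs n x‖ ≤ 2 * ‖P (x, 0)‖ := by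
    intro n x hx
    have h1 := (key n x hx).1
    have hpow : 0 < (1 / 2 : ℝ) ^ n := by positivity
    have hc : 0 ≤ ‖P (x, 0)‖ := norm_nonneg _
    nlinarith
  have hler : ∀ n, ∀ x ∈ D, ‖μs n x‖ ≤ r₀ := fun n x hx => by
    have := hle n x hx
    have := h0 x hx
    linarith
  have hol : ∀ n, DifferentiableOn ℂ (μs n) D := by
    intro n
    induction n with
    | zero => exact differentiableOn_const (c := (0 : ℂ))
    | succ n ih =>
      have h1 : DifferentiableOn ℂ (fun x => (x, μs n x)) D := differentiableOn_id.prodMk ih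
      have h2 : MapsTo (fun x => (x, μs n x)) D (D ×ˢ ball (0 : ℂ) r₁) := by
        intro x hx
        refine ⟨hx, ?_⟩
        rw [mem_ball_zero_iff]
        exact lt_of_le_of_lt (hler n x hx) hr
      exact ih.sub (hP.comp h1 h2)
  have hdist : ∀ x ∈ D, ∀ n, dist (μs n x) (μs (n + 1) x) ≤ ‖P (x, 0)‖ * (1 / 2 : ℝ) ^ n := by
    intro x hx n
    rw [dist_comm, dist_eq_norm, mul_comm]
    exact (key n x hx).2
  have hex : ∀ x, ∃ a : ℂ, x ∈ D → Tendsto (fun n => μs n x) atTop (𝓝 a) := by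
    intro x
    by_cases hx : x ∈ D
    · obtain ⟨a, ha⟩ := cauchySeq_tendsto_of_complete
        (cauchySeq_of_le_geometric (1 / 2 : ℝ) ‖P (x, 0)‖ (by norm_num) (hdist x hx))
      exact ⟨a, fun _ => ha⟩
    · exact ⟨0, fun h => absurd h hx⟩
  choose μ hμ using hex
  have herr : ∀ x ∈ D, ∀ n, dist (μs n x) (μ x) ≤ r₀ * (1 / 2 : ℝ) ^ n := by
    intro x hx n
    have h1 := dist_le_of_le_geometric_of_tendsto (1 / 2 : ℝ) ‖P (x, 0)‖ (by norm_num) (hdist x hx)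
      (hμ x hx) n
    have h2 := h0 x hx
    have hpow : 0 < (1 / 2 : ℝ) ^ n := by positivity
    have h3 : ‖P (x, 0)‖ * (1 / 2 : ℝ) ^ n / (1 - 1 / 2) = 2 * ‖P (x, 0)‖ * (1 / 2 : ℝ) ^ n := by
      ring
    rw [h3] at h1
    nlinarith
  have hunif : TendstoUniformlyOn μs μ atTop D := by
    rw [Metric.tendstoUniformlyOn_iff]
    intro ε hε
    have ht : Tendsto (fun n : ℕ => r₀ * (1 / 2 : ℝ) ^ n) atTop (𝓝 (r₀ * 0)) :=
      (tendsto_pow_atTop_nhds_zero_of_lt_one (by norm_num) (by norm_num)).const_mul r₀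
    rw [mul_zero] at ht
    filter_upwards [ht.eventually (gt_mem_nhds hε)] with n hn x hx
    rw [dist_comm]
    exact lt_of_le_of_lt (herr x hx n) hn
  have hμd : DifferentiableOn ℂ μ D :=
    scv_tendsto hD (Eventually.of_forall hol) hunif.tendstoLocallyUniformlyOn
  have hμle : ∀ x ∈ D, ‖μ x‖ ≤ 2 * ‖P (x, 0)‖ := fun x hx =>
    le_of_tendsto (hμ x hx).norm (Eventually.of_forall fun n => hle n x hx)
  have hμr : ∀ x ∈ D, ‖μ x‖ ≤ r₀ := fun x hx => by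
    have := hμle x hx
    have := h0 x hx
    linarith
  have hzero : ∀ x ∈ D, P (x, μ x) = 0 := by
    intro x hx
    have hmem : (x, μ x) ∈ D ×ˢ ball (0 : ℂ) r₁ :=
      ⟨hx, by rw [mem_ball_zero_iff]; exact lt_of_le_of_lt (hμr x hx) hr⟩
    have hc : ContinuousAt P (x, μ x) :=
      hP.continuousOn.continuousAt ((hD.prod isOpen_ball).mem_nhds hmem)
    have h1 : Tendsto (fun n => P (x, μs n x)) atTop (𝓝 (P (x, μ x))) :=
      hc.tendsto.comp (tendsto_const_nhds.prodMk_nhds (hμ x hx))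
    have h2 : Tendsto (fun n => μs n x - μs (n + 1) x) atTop (𝓝 (μ x - μ x)) :=
      (hμ x hx).sub ((tendsto_add_atTop_iff_nat 1).2 (hμ x hx))
    rw [sub_self] at h2
    have h3 : (fun n => μs n x - μs (n + 1) x) = fun n => P (x, μs n x) := by
      funext n
      rw [hμS]
      ring
    rw [h3] at h2
    exact tendsto_nhds_unique h1 h2
  refine ⟨μ, hμd, fun x hx => ⟨hμle x hx, hzero x hx⟩, fun x hx l hl hPl => ?_⟩
  have hb : μ x ∈ closedBall (0 : ℂ) r₀ := by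
    rw [mem_closedBall_zero_iff]
    exact hμr x hx
  have h1 := hlip x hx l hl (μ x) hb
  rw [hPl, hzero x hx] at h1
  have h2 : (0 - l) - (0 - μ x) = -(l - μ x) := by ring
  rw [h2, norm_neg] at h1
  have h3 : ‖l - μ x‖ = 0 := le_antisymm (by linarith) (norm_nonneg _)
  exact sub_eq_zero.1 (norm_eq_zero.1 h3)

end Claimed.Agent.R245
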