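/-
Row 245 / S0484, GEO-THICK: A LINE OF THE SURFACE IS A LONG CURVE.   Architect: helper138.   Prefix `gln`.   (Definitions `RegAt`, `ThinStrip`, `LongCurve`: GeoDefs.lean, helper18.)

  gln_tube      : for every basis `(y₀, y₁)` of a line of the surface there are a neighbourhood `Ω` of `ℂ × {0}` in `ℂ²` and `Ξ : Ω → Cone F` holomorphic, `Ξ (z, 0) = y₀ + z y₁`, regular at all points `(z, 0)`.
  gln_longCurve : `z ↦ y₀ + z y₁` is a long curve.

CONSTRUCTION.  `G (z) = grad F (y₀ + z y₁)` kills `y₀, y₁` and never vanishes.  Complete to a basis `y₀, y₁, y₂, y₃`; `α = G · y₂`, `β = G · y₃` are polynomials in `z` without common zero, so `A α + B β = 1` (Bezout).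
`ν = A y₂ + B y₃` (`G · ν = 1`), `m = β y₂ - α y₃` (`det (m, ν) = 1` in the basis `y₂, y₃`).   `Ξ (z, w) = y₀ + z y₁ + w m (z) + μ (z, w) ν (z)`, `μ` = the small root of
`P ((z, w), l) = F (y₀ + z y₁ + w m (z) + l ν (z))`, `P ((z, 0), 0) = 0`, `∂_l P ((z, 0), 0) = 1`     (`gln_root`: global version of `l2_root`).

LEAVES (statements FROZEN; helper lemmas directly above the theorem, prefix as indicated):
  GLN-ROOT   gln_root              (~200 lines, `l2_root` as a black box, gluing by uniqueness)       prefix glnr_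
  GLN-FRAME  gln_frame             (~250 lines, linear algebra + Bezout)                              prefix glnf_
  GLN-REG    gln_P, gln_reg        (~150 lines, chain rule)                                           prefix glng_
-/
import Mathlib
import Claimed.Agent.R245.GeoDefs
import Claimed.Agent.R245.L2Poly
import Claimed.Agent.R245.L2Root

set_option autoImplicit false

namespace Claimed.Agent.R245

open MvPolynomial Metric Set Filter Topology Claims.C0412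

/-! ### GLN-ROOT -/

/-- the parameters at which `l2_root` applies with the radius `r` -/
def glnrGood {X : Type*} [NormedAddCommGroup X] (P : X × ℂ → ℂ) (r : ℝ) : Set X :=
  {x | (∀ l₁ ∈ closedBall (0 : ℂ) r, ∀ l₂ ∈ closedBall (0 : ℂ) r,
      ‖(P (x, l₁) - l₁) - (P (x, l₂) - l₂)‖ ≤ 1 / 2 * ‖l₁ - l₂‖) ∧ ‖P (x, 0)‖ ≤ r / 2}

theorem glnr_hasDerivAt {X : Type*} [NormedAddCommGroup X] [NormedSpace ℂ X] {P : X × ℂ → ℂ}
    (hP : Differentiable ℂ P) (x : X) (l : ℂ) :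
    HasDerivAt (fun l : ℂ => P (x, l)) (fderiv ℂ P (x, l) (0, 1)) l :=
  (hP (x, l)).hasFDerivAt.comp_hasDerivAt l ((hasDerivAt_const l x).prodMk (hasDerivAt_id l))

/-- a point with `P (x₀, 0) = 0`, `∂_l P (x₀, 0) = 1` is an interior point of some `glnrGood P r` -/
theorem glnr_mem {X : Type*} [NormedAddCommGroup X] [NormedSpace ℂ X] [FiniteDimensional ℂ X]
    {P : X × ℂ → ℂ} (hP : Differentiable ℂ P) {x₀ : X} (h0 : P (x₀, 0) = 0)
    (h1 : fderiv ℂ P (x₀, 0) (0, 1) = 1) : ∃ r : ℝ, 0 < r ∧ x₀ ∈ interior (glnrGood P r) := by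
  have han : AnalyticOnNhd ℂ P univ := scv_analyticOnNhd isOpen_univ hP.differentiableOn
  have hcd : ContDiff ℂ 1 P := by
    rw [← contDiffOn_univ]
    exact han.contDiffOn uniqueDiffOn_univ
  have hg : Continuous fun q : X × ℂ => fderiv ℂ P q (0, 1) :=
    (hcd.continuous_fderiv one_ne_zero).clm_apply continuous_const
  have hev : ∀ᶠ q in 𝓝 ((x₀, 0) : X × ℂ), ‖fderiv ℂ P q (0, 1) - 1‖ < 1 / 2 := by
    have h2 : Tendsto (fun q : X × ℂ => ‖fderiv ℂ P q (0, 1) - 1‖) (𝓝 (x₀, 0)) (𝓝 0) := by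
      have := ((hg.sub (continuous_const (y := (1 : ℂ)))).continuousAt (x := (x₀, 0))).norm
      simpa [ContinuousAt, h1] using this
    exact h2.eventually (gt_mem_nhds (by norm_num))
  obtain ⟨ρ, hρ, hball⟩ := Metric.mem_nhds_iff.1 hev
  set r : ℝ := ρ / 2 with hr
  have hr0 : 0 < r := by positivity
  have hev2 : ∀ᶠ x in 𝓝 x₀, ‖P (x, 0)‖ < r / 2 := by
    have hc : Continuous fun x : X => P (x, 0) := hP.continuous.comp (by fun_prop)
    have h2 : Tendsto (fun x : X => ‖P (x, 0)‖) (𝓝 x₀) (𝓝 0) := by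
      have := (hc.continuousAt (x := x₀)).norm
      simpa [ContinuousAt, h0] using this
    exact h2.eventually (gt_mem_nhds (by positivity))
  obtain ⟨ρ', hρ', hball'⟩ := Metric.mem_nhds_iff.1 hev2
  refine ⟨r, hr0, mem_interior.2 ⟨ball x₀ (min ρ ρ'), ?_, isOpen_ball, mem_ball_self (lt_min hρ hρ')⟩⟩
  intro x hx
  have hx1 : x ∈ ball x₀ ρ := ball_subset_ball (min_le_left _ _) hx
  have hx2 : x ∈ ball x₀ ρ' := ball_subset_ball (min_le_right _ _) hx
  refine ⟨fun l₁ hl₁ l₂ hl₂ => ?_, (hball' hx2).le⟩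
  have hder : ∀ l ∈ closedBall (0 : ℂ) r, HasDerivWithinAt (fun l : ℂ => P (x, l) - l)
      (fderiv ℂ P (x, l) (0, 1) - 1) (closedBall (0 : ℂ) r) l := fun l _ =>
    ((glnr_hasDerivAt hP x l).sub (hasDerivAt_id l)).hasDerivWithinAt
  have hbd : ∀ l ∈ closedBall (0 : ℂ) r, ‖fderiv ℂ P (x, l) (0, 1) - 1‖ ≤ 1 / 2 := by
    intro l hl
    have hmem : ((x, l) : X × ℂ) ∈ ball ((x₀, 0) : X × ℂ) ρ := by
      rw [← ball_prod_same]
      refine ⟨hx1, ?_⟩
      rw [mem_closedBall_zero_iff] at hl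
      rw [mem_ball_zero_iff]
      linarith
    exact (hball hmem).le
  exact Convex.norm_image_sub_le_of_norm_hasDerivWithin_le hder hbd (convex_closedBall _ _) hl₂ hl₁

/-- **The small root near a set `K`.**   `P` entire on `X × ℂ`, `P (x, 0) = 0` and `∂_l P (x, 0) = 1` for `x ∈ K`.  Then there are a neighbourhood `Ω` of `K` and `μ` holomorphic on `Ω` with `P (x, μ x) = 0`, `μ = 0` on `K`.
Route.  For `r > 0` let `D r` be the INTERIOR of the set of all `x` such that `‖(P (x, l₁) - l₁) - (P (x, l₂) - l₂)‖ ≤ 1/2 ‖l₁ - l₂‖` for `l₁, l₂ ∈ closedBall 0 r`, and `‖P (x, 0)‖ ≤ r / 2`.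
`l2_root` (`D = D r`, `r₀ = r`, `r₁ = r + 1`) gives `μ_r` on `D r`, `‖μ_r x‖ ≤ 2 ‖P (x, 0)‖ ≤ r`, unique zero in `closedBall 0 r`.  If `x ∈ D r ∩ D r'`, `r ≤ r'`, then `μ_r x` is a zero in `closedBall 0 r'`, so `μ_r x = μ_r' x`.
`Ω = ⋃ r > 0, D r`, `μ x = μ_r x` for a chosen `r`; `μ = μ_r` on the o-p-e-n set `D r`, so `μ` is holomorphic on `Ω`.
`K ⊆ Ω`: `P` is analytic (`scv_analyticOnNhd isOpen_univ`), so `q ↦ fderiv ℂ P q (0, 1)` is continuous; choose `ρ > 0` with `‖fderiv ℂ P (x, l) (0, 1) - 1‖ ≤ 1/2` for `x ∈ ball x₀ ρ`, `l ∈ closedBall 0 ρ`; put `r = ρ`;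
mean value inequality on the convex set `closedBall 0 r` for `l ↦ P (x, l) - l` (`Convex.norm_image_sub_le_of_norm_hasDerivWithin_le` or `..._fderiv_le`); shrink `ρ` to `ρ'` with `‖P (x, 0)‖ ≤ r / 2` on `ball x₀ ρ'` (continuity); `ball x₀ ρ' ⊆` the set, so `x₀ ∈ D r`. -/
theorem gln_root {X : Type*} [NormedAddCommGroup X] [NormedSpace ℂ X] [FiniteDimensional ℂ X]
    {P : X × ℂ → ℂ} (hP : Differentiable ℂ P) {K : Set X} (h0 : ∀ x ∈ K, P (x, 0) = 0)
    (h1 : ∀ x ∈ K, fderiv ℂ P (x, 0) (0, 1) = 1) :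
    ∃ (Ω : Set X) (μ : X → ℂ), IsOpen Ω ∧ K ⊆ Ω ∧ DifferentiableOn ℂ μ Ω ∧ (∀ x ∈ K, μ x = 0) ∧
      ∀ x ∈ Ω, P (x, μ x) = 0 := by
  classical
  have H : ∀ r : ℝ, 0 < r → ∃ μ : X → ℂ, DifferentiableOn ℂ μ (interior (glnrGood P r)) ∧
      (∀ x ∈ interior (glnrGood P r), ‖μ x‖ ≤ 2 * ‖P (x, 0)‖ ∧ P (x, μ x) = 0) ∧
      ∀ x ∈ interior (glnrGood P r), ∀ l ∈ closedBall (0 : ℂ) r, P (x, l) = 0 → l = μ x := fun r hr =>
    l2_root isOpen_interior hr (lt_add_one r) hP.differentiableOn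
      (fun x hx => (interior_subset hx).1) (fun x hx => (interior_subset hx).2)
  choose μ hμd hμz hμu using H
  -- consistency
  have hle : ∀ (r r' : ℝ) (hr : 0 < r) (hr' : 0 < r'), r ≤ r' → ∀ x ∈ interior (glnrGood P r),
      x ∈ interior (glnrGood P r') → μ r hr x = μ r' hr' x := by
    intro r r' hr hr' hrr x hx hx'
    refine hμu r' hr' x hx' _ ?_ (hμz r hr x hx).2
    rw [mem_closedBall_zero_iff]
    have h2 := (interior_subset hx).2
    have h3 := (hμz r hr x hx).1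
    linarith
  have hcons : ∀ (r r' : ℝ) (hr : 0 < r) (hr' : 0 < r'), ∀ x ∈ interior (glnrGood P r),
      x ∈ interior (glnrGood P r') → μ r hr x = μ r' hr' x := by
    intro r r' hr hr' x hx hx'
    rcases le_total r r' with h | h
    · exact hle r r' hr hr' h x hx hx'
    · exact (hle r' r hr' hr h x hx' hx).symm
  set Ω : Set X := {x | ∃ r : ℝ, 0 < r ∧ x ∈ interior (glnrGood P r)} with hΩ
  set ν : X → ℂ := fun x => if h : ∃ r : ℝ, 0 < r ∧ x ∈ interior (glnrGood P r) then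
    μ h.choose h.choose_spec.1 x else 0 with hν
  have hνeq : ∀ (r : ℝ) (hr : 0 < r), ∀ x ∈ interior (glnrGood P r), ν x = μ r hr x := by
    intro r hr x hx
    have h : ∃ r : ℝ, 0 < r ∧ x ∈ interior (glnrGood P r) := ⟨r, hr, hx⟩
    simp only [hν, dif_pos h]
    exact hcons _ _ _ _ x h.choose_spec.2 hx
  have hΩo : IsOpen Ω := by
    have : Ω = ⋃ r : ℝ, ⋃ _ : 0 < r, interior (glnrGood P r) := by
      ext x
      simp [hΩ]
    rw [this]
    exact isOpen_iUnion fun r => isOpen_iUnion fun _ => isOpen_interior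
  have hKΩ : K ⊆ Ω := fun x hx => glnr_mem hP (h0 x hx) (h1 x hx)
  refine ⟨Ω, ν, hΩo, hKΩ, ?_, ?_, ?_⟩
  · rintro x ⟨r, hr, hx⟩
    have h2 : DifferentiableAt ℂ (μ r hr) x := (hμd r hr).differentiableAt (isOpen_interior.mem_nhds hx)
    have h3 : ν =ᶠ[𝓝 x] μ r hr := by
      filter_upwards [isOpen_interior.mem_nhds hx] with y hy using hνeq r hr y hy
    exact (h2.congr_of_eventuallyEq h3).differentiableWithinAt
  · intro x hx
    obtain ⟨r, hr, hxr⟩ := hKΩ hx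
    rw [hνeq r hr x hxr]
    have := (hμz r hr x hxr).1
    rw [h0 x hx, norm_zero, mul_zero] at this
    exact norm_le_zero_iff.1 this
  · rintro x ⟨r, hr, hx⟩
    rw [hνeq r hr x hx]
    exact (hμz r hr x hx).2

/-! ### GLN-FRAME -/

/-- extend two independent vectors of `ℂ⁴` to a basis (explicit form) -/
theorem glnf_basis {y₀ y₁ : V4} (hli : LinearIndependent ℂ ![y₀, y₁]) :
    ∃ y₂ y₃ : V4,
      (∀ a b c d : ℂ, a • y₀ + b • y₁ + c • y₂ + d • y₃ = 0 → a = 0 ∧ b = 0 ∧ c = 0 ∧ d = 0) ∧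
      ∀ v : V4, ∃ a b c d : ℂ, v = a • y₀ + b • y₁ + c • y₂ + d • y₃ := by
  obtain ⟨y₂, h2⟩ := exists_linearIndependent_cons_of_lt_finrank hli (by simp)
  obtain ⟨y₃, h3⟩ := exists_linearIndependent_cons_of_lt_finrank h2 (by simp)
  have h4 : LinearIndependent ℂ ![y₃, y₂, y₀, y₁] := h3
  refine ⟨y₂, y₃, ?_, ?_⟩
  · intro a b c d h
    have := Fintype.linearIndependent_iff.1 h4 ![d, c, a, b] (by
      simp only [Fin.sum_univ_four]
      simp only [Matrix.cons_val]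
      rw [← h]; abel)
    exact ⟨this 2, this 3, this 1, this 0⟩
  · intro v
    have hs := (basisOfLinearIndependentOfCardEqFinrank h4 (by simp)).sum_repr v
    refine ⟨(basisOfLinearIndependentOfCardEqFinrank h4 (by simp)).repr v 2,
      (basisOfLinearIndependentOfCardEqFinrank h4 (by simp)).repr v 3,
      (basisOfLinearIndependentOfCardEqFinrank h4 (by simp)).repr v 1,
      (basisOfLinearIndependentOfCardEqFinrank h4 (by simp)).repr v 0, ?_⟩
    conv_lhs => rw [← hs]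
    simp only [Fin.sum_univ_four, coe_basisOfLinearIndependentOfCardEqFinrank]
    simp only [Matrix.cons_val]
    abel

theorem glnf_dot_add (g a b : V4) : dot g (a + b) = dot g a + dot g b := by
  rw [← l2dotL_apply, ← l2dotL_apply, ← l2dotL_apply, map_add]

theorem glnf_dot_smul (g a : V4) (c : ℂ) : dot g (c • a) = c * dot g a := by
  rw [← l2dotL_apply, ← l2dotL_apply, map_smul, smul_eq_mul]

/-- the gradient kills a direction along which `F` vanishes -/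
theorem glnf_dot_zero (F : MvPolynomial (Fin 4) ℂ) (y v : V4)
    (h : ∀ t : ℂ, eval (y + t • v) F = 0) : dot (grad F y) v = 0 := by
  have h1 : HasDerivAt (fun t : ℂ => y + t • v) v 0 := by
    simpa using ((hasDerivAt_id (0 : ℂ)).smul_const v).const_add y
  have h2 := (l2_hasFDerivAt_eval F (y + (0 : ℂ) • v)).comp_hasDerivAt (0 : ℂ) h1
  have h3 : ((fun y : V4 => eval y F) ∘ fun t : ℂ => y + t • v) = fun _ => (0 : ℂ) := by
    funext t
    exact h t
  rw [h3] at h2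
  have h4 := h2.unique (hasDerivAt_const (0 : ℂ) (0 : ℂ))
  rw [zero_smul, add_zero, l2dotL_apply] at h4
  exact h4

/-- evaluation of a substituted polynomial -/
theorem glnf_eval_aeval (p : MvPolynomial (Fin 4) ℂ) (f : Fin 4 → Polynomial ℂ) (z : ℂ) :
    Polynomial.eval z (MvPolynomial.aeval f p) = MvPolynomial.eval (fun j => Polynomial.eval z (f j)) p := by
  induction p using MvPolynomial.induction_on with
  | C a => simp
  | add p q hp hq => simp [hp, hq]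
  | mul_X p i hp => simp [hp]

/-- `z ↦ dot (grad F (y₀ + z y₁)) v` is a polynomial -/
theorem glnf_poly (F : MvPolynomial (Fin 4) ℂ) (y₀ y₁ v : V4) :
    ∃ p : Polynomial ℂ, ∀ z : ℂ, p.eval z = dot (grad F (y₀ + z • y₁)) v := by
  refine ⟨∑ i, Polynomial.C (v i) * MvPolynomial.aeval
    (fun j => Polynomial.C (y₀ j) + Polynomial.C (y₁ j) * Polynomial.X) (pderiv i F), fun z => ?_⟩
  rw [Polynomial.eval_finsetSum]
  unfold dot grad
  refine Finset.sum_congr rfl fun i _ => ?_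
  rw [Polynomial.eval_mul, Polynomial.eval_C, glnf_eval_aeval, mul_comm]
  congr 3
  funext j
  simp only [Polynomial.eval_add, Polynomial.eval_C, Polynomial.eval_mul, Polynomial.eval_X,
    Pi.add_apply, Pi.smul_apply, smul_eq_mul]
  ring

/-- **The frame along a line.**
Route.  (1) extend `y₀, y₁` to a basis `y₀, y₁, y₂, y₃` of `ℂ⁴` (e.g. `LinearIndependent.extend`/`Basis.extend`, or: `exists_linearIndependent_cons_of_lt_finrank`-type lemma twice).
(2) `G z := grad F (y₀ + z • y₁)`: `dot (G z) y₀ = 0 = dot (G z) y₁` (differentiate `s ↦ eval (s • y₀ + z • y₁) F = 0` at `s = 1`, resp. `t ↦ eval (y₀ + t • y₁) F` at `t = z`, with `l2_hasFDerivAt_eval`).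
(3) `G z ≠ 0` (`l2_grad_ne_zero`, `y₀ + z • y₁ ≠ 0` by independence), hence `dot (G z) y₂ ≠ 0 ∨ dot (G z) y₃ ≠ 0` (a vector orthogonal for `dot` to a basis vanishes).
(4) `z ↦ dot (G z) v` is a polynomial: `p_v = ∑ i, C (v i) * aeval (fun j => C (y₀ j) + C (y₁ j) * X) (pderiv i F) : Polynomial ℂ`.
(5) Bezout: `Polynomial.isCoprime_iff_aeval_ne_zero_of_isAlgClosed` (or: a common root of a non unit gcd).  `A * α + B * β = 1`.
(6) `ν z = A.eval z • y₂ + B.eval z • y₃`, `m z = β.eval z • y₂ - α.eval z • y₃`.  In the basis: `y₀ + z y₁ + w m + l ν` has `y₀`-coordinate `1`; `m + c ν = (β + c A) y₂ + (c B - α) y₃ ≠ 0` because `B (β + c A) - A (c B - α) = A α + B β = 1`. -/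
theorem gln_frame {F : MvPolynomial (Fin 4) ℂ} (hF : IsSmoothQuarticForm F) {y₀ y₁ : V4}
    (hli : LinearIndependent ℂ ![y₀, y₁]) (hline : ∀ s t : ℂ, eval (s • y₀ + t • y₁) F = 0) :
    ∃ m ν : ℂ → V4, Differentiable ℂ m ∧ Differentiable ℂ ν ∧
      (∀ z : ℂ, dot (grad F (y₀ + z • y₁)) (ν z) = 1) ∧
      (∀ z w l : ℂ, y₀ + z • y₁ + w • m z + l • ν z ≠ 0) ∧
      (∀ z c : ℂ, LinearIndependent ℂ ![y₀ + z • y₁, y₁, m z + c • ν z]) := by
  obtain ⟨y₂, y₃, hind, hspan⟩ := glnf_basis hli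
  obtain ⟨α, hα⟩ := glnf_poly F y₀ y₁ y₂
  obtain ⟨β, hβ⟩ := glnf_poly F y₀ y₁ y₃
  have hG0 : ∀ z : ℂ, dot (grad F (y₀ + z • y₁)) y₀ = 0 := fun z =>
    glnf_dot_zero F _ _ fun t => by
      have e : y₀ + z • y₁ + t • y₀ = (1 + t) • y₀ + z • y₁ := by module
      rw [e]; exact hline _ _
  have hG1 : ∀ z : ℂ, dot (grad F (y₀ + z • y₁)) y₁ = 0 := fun z =>
    glnf_dot_zero F _ _ fun t => by
      have e : y₀ + z • y₁ + t • y₁ = (1 : ℂ) • y₀ + (z + t) • y₁ := by module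
      rw [e]; exact hline _ _
  have hne0 : ∀ z : ℂ, y₀ + z • y₁ ≠ 0 := fun z h => by
    have := (hind 1 z 0 0 (by rw [← h]; module)).1
    exact one_ne_zero this
  have hcop : IsCoprime α β := by
    refine (Polynomial.isCoprime_iff_aeval_ne_zero_of_isAlgClosed (k := ℂ) ℂ α β).2 ?_
    intro z
    by_contra hcon
    push Not at hcon
    obtain ⟨ha, hb⟩ := hcon
    rw [Polynomial.coe_aeval_eq_eval, hα] at ha
    rw [Polynomial.coe_aeval_eq_eval, hβ] at hb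
    refine l2_grad_ne_zero hF (y := y₀ + z • y₁) ⟨hne0 z, ?_⟩ ?_
    · have := hline 1 z
      rwa [one_smul] at this
    · funext j
      obtain ⟨a, b, c, d, he⟩ := hspan (Pi.single j 1)
      have h1 : dot (grad F (y₀ + z • y₁)) (Pi.single j 1) = grad F (y₀ + z • y₁) j := by
        simp [dot, Pi.single_apply]
      rw [Pi.zero_apply, ← h1, he]
      simp only [glnf_dot_add, glnf_dot_smul, hG0, hG1, ha, hb, mul_zero, add_zero]
  obtain ⟨A, B, hAB⟩ := hcop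
  have hAB' : ∀ z : ℂ, A.eval z * α.eval z + B.eval z * β.eval z = 1 := fun z => by
    have := congrArg (Polynomial.eval z) hAB
    simpa using this
  refine ⟨fun z => β.eval z • y₂ - α.eval z • y₃, fun z => A.eval z • y₂ + B.eval z • y₃,
    ?_, ?_, ?_, ?_, ?_⟩
  · exact (β.differentiable.smul_const y₂).sub (α.differentiable.smul_const y₃)
  · exact (A.differentiable.smul_const y₂).add (B.differentiable.smul_const y₃)
  · intro z
    rw [glnf_dot_add, glnf_dot_smul, glnf_dot_smul, ← hα, ← hβ]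
    exact hAB' z
  · intro z w l h
    have := (hind 1 z (w * β.eval z + l * A.eval z) (-(w * α.eval z) + l * B.eval z) (by
      rw [← h]; module)).1
    exact one_ne_zero this
  · intro z c
    rw [Fintype.linearIndependent_iff]
    intro g hg
    simp only [Fin.sum_univ_three] at hg
    simp only [Matrix.cons_val] at hg
    obtain ⟨e0, e1, e2, e3⟩ := hind (g 0) (g 0 * z + g 1) (g 2 * (β.eval z + c * A.eval z))
      (g 2 * (-α.eval z + c * B.eval z)) (by rw [← hg]; module)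
    have e4 : g 2 = 0 := by
      have : g 2 = B.eval z * (g 2 * (β.eval z + c * A.eval z))
          - A.eval z * (g 2 * (-α.eval z + c * B.eval z)) := by
        have := hAB' z
        linear_combination (-(g 2)) * this
      rw [this, e2, e3]; ring
    have e5 : g 1 = 0 := by simpa [e0] using e1
    intro i
    fin_cases i
    · exact e0
    · exact e5
    · exact e4

/-! ### GLN-REG -/

/-- a directional derivative computed along the line -/
theorem glng_fderiv_apply {E G : Type*} [NormedAddCommGroup E] [NormedSpace ℂ E]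
    [NormedAddCommGroup G] [NormedSpace ℂ G] {f : E → G} {x v : E} (hf : DifferentiableAt ℂ f x)
    {g' : G} (h : HasDerivAt (fun t : ℂ => f (x + t • v)) g' 0) : fderiv ℂ f x v = g' := by
  rw [← hf.lineDeriv_eq_fderiv]
  exact h.deriv

/-- the equation of the cone in the frame.  (Chain rule: `l2_hasFDerivAt_eval`, `l2dotL_apply`.) -/
theorem gln_P (F : MvPolynomial (Fin 4) ℂ) (y₀ y₁ : V4) {m ν : ℂ → V4} (hm : Differentiable ℂ m)
    (hν : Differentiable ℂ ν) :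
    Differentiable ℂ (fun q : (ℂ × ℂ) × ℂ => eval (y₀ + q.1.1 • y₁ + q.1.2 • m q.1.1 + q.2 • ν q.1.1) F) ∧
    ∀ z : ℂ, fderiv ℂ (fun q : (ℂ × ℂ) × ℂ => eval (y₀ + q.1.1 • y₁ + q.1.2 • m q.1.1 + q.2 • ν q.1.1) F)
      ((z, 0), 0) (0, 1) = dot (grad F (y₀ + z • y₁)) (ν z) := by
  have hΦ : Differentiable ℂ
      (fun q : (ℂ × ℂ) × ℂ => y₀ + q.1.1 • y₁ + q.1.2 • m q.1.1 + q.2 • ν q.1.1) := by fun_prop
  have hd : Differentiable ℂ (fun q : (ℂ × ℂ) × ℂ =>
      eval (y₀ + q.1.1 • y₁ + q.1.2 • m q.1.1 + q.2 • ν q.1.1) F) :=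
    (l2_differentiable_eval F).comp hΦ
  refine ⟨hd, fun z => glng_fderiv_apply (hd _) ?_⟩
  have e : (fun t : ℂ => eval (y₀ + (((z, (0 : ℂ)), (0 : ℂ)) + t • ((0 : ℂ × ℂ), (1 : ℂ))).1.1 • y₁
        + (((z, (0 : ℂ)), (0 : ℂ)) + t • ((0 : ℂ × ℂ), (1 : ℂ))).1.2
          • m (((z, (0 : ℂ)), (0 : ℂ)) + t • ((0 : ℂ × ℂ), (1 : ℂ))).1.1
        + (((z, (0 : ℂ)), (0 : ℂ)) + t • ((0 : ℂ × ℂ), (1 : ℂ))).2
          • ν (((z, (0 : ℂ)), (0 : ℂ)) + t • ((0 : ℂ × ℂ), (1 : ℂ))).1.1) F)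
      = fun t : ℂ => eval (y₀ + z • y₁ + t • ν z) F := by
    funext t
    simp
  rw [e]
  have h1 : HasDerivAt (fun t : ℂ => y₀ + z • y₁ + t • ν z) (ν z) 0 := by
    simpa using ((hasDerivAt_id (0 : ℂ)).smul_const (ν z)).const_add (y₀ + z • y₁)
  have h2 : HasFDerivAt (fun y : V4 => eval y F) (l2dotL (grad F (y₀ + z • y₁)))
      (y₀ + z • y₁ + (0 : ℂ) • ν z) := by
    simpa using l2_hasFDerivAt_eval F (y₀ + z • y₁)
  have h3 := h2.comp_hasDerivAt (0 : ℂ) h1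
  rw [l2dotL_apply] at h3
  exact h3

/-- the two partial derivatives of `Ξ` on the axis.   (`fderiv Ξ (z, 0) (1, 0)` is the derivative of `t ↦ Ξ (z + t, 0) = y₀ + (z + t) y₁`; `fderiv Ξ (z, 0) (0, 1)` is the derivative of `t ↦ Ξ (z, t) = y₀ + z y₁ + t m z + μ (z, t) ν z`,
`c = fderiv ℂ μ (z, 0) (0, 1)`.) -/
theorem gln_reg (y₀ y₁ : V4) {m ν : ℂ → V4} (hm : Differentiable ℂ m) (hν : Differentiable ℂ ν)
    {μ : ℂ × ℂ → ℂ} {z : ℂ} (hμ : DifferentiableAt ℂ μ (z, 0)) (hμ0 : ∀ z' : ℂ, μ (z', 0) = 0) :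
    fderiv ℂ (fun p : ℂ × ℂ => y₀ + p.1 • y₁ + p.2 • m p.1 + μ p • ν p.1) (z, 0) (1, 0) = y₁ ∧
    fderiv ℂ (fun p : ℂ × ℂ => y₀ + p.1 • y₁ + p.2 • m p.1 + μ p • ν p.1) (z, 0) (0, 1) =
      m z + fderiv ℂ μ (z, 0) (0, 1) • ν z := by
  have hd : DifferentiableAt ℂ (fun p : ℂ × ℂ => y₀ + p.1 • y₁ + p.2 • m p.1 + μ p • ν p.1)
      (z, 0) := by
    have h1 : DifferentiableAt ℂ (fun p : ℂ × ℂ => y₀ + p.1 • y₁ + p.2 • m p.1) (z, 0) := by
      fun_prop
    have h2 : DifferentiableAt ℂ (fun p : ℂ × ℂ => ν p.1) (z, 0) := by fun_prop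
    exact h1.add (hμ.smul h2)
  constructor
  · refine glng_fderiv_apply hd ?_
    have e : (fun t : ℂ => y₀ + ((z, (0 : ℂ)) + t • ((1 : ℂ), (0 : ℂ))).1 • y₁
          + ((z, (0 : ℂ)) + t • ((1 : ℂ), (0 : ℂ))).2 • m ((z, (0 : ℂ)) + t • ((1 : ℂ), (0 : ℂ))).1
          + μ ((z, (0 : ℂ)) + t • ((1 : ℂ), (0 : ℂ))) • ν ((z, (0 : ℂ)) + t • ((1 : ℂ), (0 : ℂ))).1)
        = fun t : ℂ => y₀ + (z + t) • y₁ := by
      funext t
      have : ((z, (0 : ℂ)) + t • ((1 : ℂ), (0 : ℂ))) = (z + t, 0) := by simp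
      rw [this, hμ0]
      simp
    rw [e]
    have h1 : HasDerivAt (fun t : ℂ => z + t) 1 0 := by
      simpa using (hasDerivAt_id (0 : ℂ)).const_add z
    simpa using (h1.smul_const y₁).const_add y₀
  · refine glng_fderiv_apply hd ?_
    have e : (fun t : ℂ => y₀ + ((z, (0 : ℂ)) + t • ((0 : ℂ), (1 : ℂ))).1 • y₁
          + ((z, (0 : ℂ)) + t • ((0 : ℂ), (1 : ℂ))).2 • m ((z, (0 : ℂ)) + t • ((0 : ℂ), (1 : ℂ))).1
          + μ ((z, (0 : ℂ)) + t • ((0 : ℂ), (1 : ℂ))) • ν ((z, (0 : ℂ)) + t • ((0 : ℂ), (1 : ℂ))).1)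
        = fun t : ℂ => y₀ + z • y₁ + t • m z + μ ((z, (0 : ℂ)) + t • ((0 : ℂ), (1 : ℂ))) • ν z := by
      funext t
      simp
    rw [e]
    have h1 : HasDerivAt (fun t : ℂ => y₀ + z • y₁ + t • m z) (m z) 0 := by
      simpa using ((hasDerivAt_id (0 : ℂ)).smul_const (m z)).const_add (y₀ + z • y₁)
    have h2 : HasDerivAt (fun t : ℂ => μ ((z, (0 : ℂ)) + t • ((0 : ℂ), (1 : ℂ))))
        (fderiv ℂ μ (z, 0) (0, 1)) 0 := by
      have := hμ.hasFDerivAt.hasLineDerivAt ((0 : ℂ), (1 : ℂ))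
      exact this
    exact h1.add (h2.smul_const (ν z))

/-! ### the glue -/

/-- **The tube around a line.** -/
theorem gln_tube {F : MvPolynomial (Fin 4) ℂ} (hF : IsSmoothQuarticForm F) {y₀ y₁ : V4}
    (hli : LinearIndependent ℂ ![y₀, y₁]) (hline : ∀ s t : ℂ, eval (s • y₀ + t • y₁) F = 0) :
    ∃ (Ω : Set (ℂ × ℂ)) (Ξ : ℂ × ℂ → V4), IsOpen Ω ∧ (∀ z : ℂ, (z, (0 : ℂ)) ∈ Ω) ∧ HolOn F Ξ Ω ∧
      (∀ z : ℂ, Ξ (z, 0) = y₀ + z • y₁) ∧ ∀ z : ℂ, RegAt Ξ (z, 0) := by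
  obtain ⟨m, ν, hm, hν, hGν, hne, hind⟩ := gln_frame hF hli hline
  obtain ⟨hPd, hPf⟩ := gln_P F y₀ y₁ hm hν
  obtain ⟨Ω, μ, hΩ, hK, hμd, hμ0, hμP⟩ := gln_root hPd (K := {p : ℂ × ℂ | p.2 = 0})
    (fun x hx => by
      have hx2 : x.2 = 0 := hx
      have := hline 1 x.1
      simpa [hx2] using this)
    (fun x hx => by
      have hx2 : x.2 = 0 := hx
      have hx' : x = (x.1, 0) := by rw [← hx2]
      rw [hx', hPf, hGν])
  have hμ0' : ∀ z : ℂ, μ (z, 0) = 0 := fun z => hμ0 (z, 0) rfl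
  refine ⟨Ω, fun p => y₀ + p.1 • y₁ + p.2 • m p.1 + μ p • ν p.1, hΩ, fun z => hK rfl, ⟨?_, ?_⟩, ?_, ?_⟩
  · have h1 : DifferentiableOn ℂ (fun p : ℂ × ℂ => y₀ + p.1 • y₁ + p.2 • m p.1) Ω := by
      have : Differentiable ℂ (fun p : ℂ × ℂ => y₀ + p.1 • y₁ + p.2 • m p.1) := by fun_prop
      exact this.differentiableOn
    have h2 : DifferentiableOn ℂ (fun p : ℂ × ℂ => ν p.1) Ω := by
      have : Differentiable ℂ (fun p : ℂ × ℂ => ν p.1) := by fun_prop
      exact this.differentiableOn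
    exact h1.add (hμd.smul h2)
  · intro p hp
    exact ⟨hne _ _ _, hμP p hp⟩
  · intro z
    simp [hμ0']
  · intro z
    obtain ⟨e1, e2⟩ := gln_reg y₀ y₁ hm hν (hμd.differentiableAt (hΩ.mem_nhds (hK rfl))) hμ0' (z := z)
    unfold RegAt
    rw [e1, e2]
    have := hind z (fderiv ℂ μ (z, 0) (0, 1))
    simpa [hμ0'] using this

/-- a tube gives a thin strip -/
theorem gln_thin {F : MvPolynomial (Fin 4) ℂ} {Ω : Set (ℂ × ℂ)} {Ξ : ℂ × ℂ → V4} (hΩ : IsOpen Ω)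
    (hax : ∀ z : ℂ, (z, (0 : ℂ)) ∈ Ω) (hΞ : HolOn F Ξ Ω) (hreg : RegAt Ξ (0, 0)) :
    ∃ b : ℝ, ThinStrip F b Ξ := by
  obtain ⟨b, hb, hsub⟩ := Metric.isOpen_iff.1 hΩ (0, 0) (hax 0)
  have hbi : ball (0 : ℂ) b ×ˢ ball (0 : ℂ) b ⊆ Ω := by
    rw [ball_prod_same]
    exact hsub
  refine ⟨b, hb, ⟨hΞ.1.mono hbi, hΞ.2.mono hbi subset_rfl⟩, hreg, fun R _ => ?_⟩
  obtain ⟨u, v, _, hv, hsu, htv, huv⟩ := generalized_tube_lemma (isCompact_closedBall (0 : ℂ) R)
    (isCompact_singleton (x := (0 : ℂ))) hΩ (by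
      rintro ⟨z, w⟩ ⟨_, hw⟩
      rw [mem_singleton_iff] at hw
      simp only at hw
      rw [hw]
      exact hax z)
  obtain ⟨b₁, hb₁, hb₁v⟩ := Metric.isOpen_iff.1 hv 0 (htv rfl)
  have hsub2 : ball (0 : ℂ) R ×ˢ ball (0 : ℂ) (min b₁ b) ∪ ball (0 : ℂ) b ×ˢ ball (0 : ℂ) b ⊆ Ω := by
    refine union_subset ?_ hbi
    refine (prod_mono (ball_subset_closedBall.trans hsu) ?_).trans huv
    exact (ball_subset_ball (min_le_left _ _)).trans hb₁v
  exact ⟨min b₁ b, lt_min hb₁ hb, min_le_right _ _, Ξ, ⟨hΞ.1.mono hsub2, hΞ.2.mono hsub2 subset_rfl⟩,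
    fun _ _ => rfl⟩

/-- **A line of the surface is a long curve**, for every basis of the line. -/
theorem gln_longCurve {F : MvPolynomial (Fin 4) ℂ} (hF : IsSmoothQuarticForm F) {y₀ y₁ : V4}
    (hli : LinearIndependent ℂ ![y₀, y₁]) (hline : ∀ s t : ℂ, eval (s • y₀ + t • y₁) F = 0) :
    LongCurve F (fun z => y₀ + z • y₁) := by
  refine ⟨by fun_prop, fun ζ₀ => ?_⟩
  have hli' : LinearIndependent ℂ ![y₀ + ζ₀ • y₁, y₁] := by
    rw [LinearIndependent.pair_iff] at hli ⊢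
    intro s t h
    have h2 := hli s (s * ζ₀ + t) (by
      rw [← h]
      module)
    obtain ⟨hs, ht⟩ := h2
    refine ⟨hs, ?_⟩
    simpa [hs] using ht
  have hline' : ∀ s t : ℂ, eval (s • (y₀ + ζ₀ • y₁) + t • y₁) F = 0 := fun s t => by
    have h1 : s • (y₀ + ζ₀ • y₁) + t • y₁ = s • y₀ + (s * ζ₀ + t) • y₁ := by module
    rw [h1]
    exact hline s (s * ζ₀ + t)
  obtain ⟨Ω, Ξ, hΩ, hax, hΞ, hval, hreg⟩ := gln_tube hF hli' hline'
  obtain ⟨b, hb⟩ := gln_thin hΩ hax hΞ (hreg 0)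
  refine ⟨b, Ξ, hb, fun z _ => ?_⟩
  rw [hval]
  module

end Claimed.Agent.R245
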