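/-
Row 245 / S0484.  TOOL `Nu`, part 1 (architect helper292): Hefer decompositions.
ONE FILE = ONE PACKAGE = ONE OWNER.  Statements FROZEN; helper lemmas: prefix `nuh_`, in this file.  Black boxes: SCV.lean (`scv_analyticOnNhd`, ...).
-/
import Claimed.Agent.R245.SCV

set_option autoImplicit false

namespace Claimed.Agent.R245

open Metric Set

/-- the integral over `[0,1]` as an integral over an open subset of `ℂ` containing `[0,1]` -/
theorem nuh_integral_map {C : Set ℂ} (hC : ∀ τ ∈ Icc (0 : ℝ) 1, (τ : ℂ) ∈ C) (f : ℂ → ℂ) :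
    ∫ ζ in C, (1 : ℂ) • f ζ
        ∂(MeasureTheory.Measure.map ((↑) : ℝ → ℂ) (MeasureTheory.volume.restrict (Ioc (0 : ℝ) 1)))
      = ∫ τ in (0 : ℝ)..1, f (τ : ℂ) := by
  have hemb : MeasurableEmbedding ((↑) : ℝ → ℂ) :=
    Complex.isUniformEmbedding_ofReal.isClosedEmbedding.measurableEmbedding
  have hsub : ((↑) : ℝ → ℂ) ⁻¹' C ∩ Ioc (0 : ℝ) 1 = Ioc (0 : ℝ) 1 :=
    inter_eq_right.2 fun τ hτ => hC τ ⟨hτ.1.le, hτ.2⟩
  rw [hemb.restrict_map, hemb.integral_map, MeasureTheory.Measure.restrict_restrict' measurableSet_Ioc, hsub,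
    intervalIntegral.integral_of_le zero_le_one]
  simp only [one_smul]

/-- parameter integrals along segments (`intervalIntegral.hasFDerivAt_integral_of_dominated_of_fderiv_le`; `H` is analytic by `scv_analyticOnNhd`, all
bounds by compactness of `[0,1]`). -/
theorem nu_param_integral {X : Type*} [NormedAddCommGroup X] [NormedSpace ℂ X] [FiniteDimensional ℂ X] {V V' : Set X}
    (hV : IsOpen V) (hV' : IsOpen V') {H : X → ℂ} (hH : DifferentiableOn ℂ H V) {p₀ p₁ : X → X} (hp₀ : Differentiable ℂ p₀)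
    (hp₁ : Differentiable ℂ p₁) (hp : ∀ x ∈ V', ∀ τ ∈ Icc (0 : ℝ) 1, p₀ x + (τ : ℂ) • p₁ x ∈ V) :
    DifferentiableOn ℂ (fun x => ∫ τ in (0 : ℝ)..1, H (p₀ x + (τ : ℂ) • p₁ x)) V' := by
  intro x₀ hx₀
  apply DifferentiableAt.differentiableWithinAt
  have hφ : Differentiable ℂ (fun z : ℂ × X => p₀ z.2 + z.1 • p₁ z.2) :=
    (hp₀.comp differentiable_snd).add (differentiable_fst.smul (hp₁.comp differentiable_snd))
  have hO : IsOpen ((fun z : ℂ × X => p₀ z.2 + z.1 • p₁ z.2) ⁻¹' V) := hV.preimage hφ.continuous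
  have hu : DifferentiableOn ℂ (fun z : ℂ × X => H (p₀ z.2 + z.1 • p₁ z.2))
      ((fun z : ℂ × X => p₀ z.2 + z.1 • p₁ z.2) ⁻¹' V) :=
    hH.comp hφ.differentiableOn fun z hz => hz
  have hS : IsCompact (((↑) : ℝ → ℂ) '' Icc (0 : ℝ) 1) := isCompact_Icc.image Complex.continuous_ofReal
  have hSO : (((↑) : ℝ → ℂ) '' Icc (0 : ℝ) 1) ×ˢ ({x₀} : Set X)
      ⊆ (fun z : ℂ × X => p₀ z.2 + z.1 • p₁ z.2) ⁻¹' V := by
    rintro ⟨ζ, x⟩ ⟨⟨τ, hτ, rfl⟩, hx⟩
    rw [mem_singleton_iff] at hx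
    simp only at hx
    subst hx
    exact hp x hx₀ τ hτ
  obtain ⟨M, hM⟩ := (hS.prod isCompact_singleton).exists_bound_of_continuousOn (hu.continuousOn.mono hSO)
  have hO' : IsOpen (((fun z : ℂ × X => p₀ z.2 + z.1 • p₁ z.2) ⁻¹' V)
      ∩ (fun z : ℂ × X => ‖H (p₀ z.2 + z.1 • p₁ z.2)‖) ⁻¹' Iio (M + 1)) :=
    hu.continuousOn.norm.isOpen_inter_preimage hO isOpen_Iio
  obtain ⟨C, P, hC, hP, hSC, hxP, hCP⟩ := generalized_tube_lemma hS isCompact_singleton hO'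
    (fun z hz => ⟨hSO hz, by
      have := hM z hz
      simp only [mem_preimage, mem_Iio]
      linarith⟩)
  have hfin : MeasureTheory.IsFiniteMeasure
      (MeasureTheory.Measure.map ((↑) : ℝ → ℂ) (MeasureTheory.volume.restrict (Ioc (0 : ℝ) 1))) :=
    MeasureTheory.Measure.isFiniteMeasure_map _ _
  have hmain := scv_integral
    (μ := MeasureTheory.Measure.map ((↑) : ℝ → ℂ) (MeasureTheory.volume.restrict (Ioc (0 : ℝ) 1)))
    hC hP (hu.mono fun z hz => (hCP hz).1) (M := M + 1)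
    (fun z hz => le_of_lt (hCP hz).2) (k := fun _ => (1 : ℂ)) MeasureTheory.integrableOn_const
  have hx₀P : x₀ ∈ P := hxP (mem_singleton _)
  have h1 := (hmain x₀ hx₀P).differentiableAt (hP.mem_nhds hx₀P)
  have h2 : (fun t => ∫ ζ in C, (1 : ℂ) • H (p₀ (ζ, t).2 + (ζ, t).1 • p₁ (ζ, t).2)
        ∂(MeasureTheory.Measure.map ((↑) : ℝ → ℂ) (MeasureTheory.volume.restrict (Ioc (0 : ℝ) 1))))
      = fun x => ∫ τ in (0 : ℝ)..1, H (p₀ x + (τ : ℂ) • p₁ x) := by
    funext t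
    exact nuh_integral_map (fun τ hτ => hSC ⟨τ, hτ, rfl⟩) (fun ζ => H (p₀ t + ζ • p₁ t))
  rw [← h2]
  exact h1

/-- directional derivatives of holomorphic functions are holomorphic -/
theorem nuh_fderiv_differentiableOn {X : Type*} [NormedAddCommGroup X] [NormedSpace ℂ X] [FiniteDimensional ℂ X]
    {V : Set X} (hV : IsOpen V) {g : X → ℂ} (hg : DifferentiableOn ℂ g V) (e : X) :
    DifferentiableOn ℂ (fun y => fderiv ℂ g y e) V :=
  ((scv_analyticOnNhd hV hg).fderiv.differentiableOn).clm_apply (differentiableOn_const e)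

/-- the fundamental theorem of calculus along a segment -/
theorem nuh_ftc {X : Type*} [NormedAddCommGroup X] [NormedSpace ℂ X] [FiniteDimensional ℂ X]
    {V : Set X} (hV : IsOpen V) {g : X → ℂ} (hg : DifferentiableOn ℂ g V) {x h : X}
    (hseg : ∀ τ ∈ Icc (0 : ℝ) 1, x + (τ : ℂ) • h ∈ V) :
    IntervalIntegrable (fun τ : ℝ => fderiv ℂ g (x + (τ : ℂ) • h) h) MeasureTheory.volume 0 1 ∧
    g (x + h) - g x = ∫ τ in (0 : ℝ)..1, fderiv ℂ g (x + (τ : ℂ) • h) h := by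
  have hline : ∀ τ : ℝ, HasDerivAt (fun τ : ℝ => x + (τ : ℂ) • h) h τ := by
    intro τ
    have h1 : HasDerivAt (fun τ : ℝ => (τ : ℂ)) 1 τ := Complex.ofRealCLM.hasDerivAt
    simpa using (h1.smul_const h).const_add x
  have hcont : ContinuousOn (fun τ : ℝ => fderiv ℂ g (x + (τ : ℂ) • h) h) (uIcc (0 : ℝ) 1) := by
    rw [uIcc_of_le zero_le_one]
    refine (nuh_fderiv_differentiableOn hV hg h).continuousOn.comp ?_ hseg
    exact fun τ _ => (hline τ).continuousAt.continuousWithinAt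
  have hint : IntervalIntegrable (fun τ : ℝ => fderiv ℂ g (x + (τ : ℂ) • h) h) MeasureTheory.volume 0 1 :=
    hcont.intervalIntegrable
  refine ⟨hint, ?_⟩
  have hd : ∀ τ ∈ uIcc (0 : ℝ) 1,
      HasDerivAt (fun τ : ℝ => g (x + (τ : ℂ) • h)) (fderiv ℂ g (x + (τ : ℂ) • h) h) τ := by
    intro τ hτ
    rw [uIcc_of_le zero_le_one] at hτ
    have h1 : HasFDerivAt g (fderiv ℂ g (x + (τ : ℂ) • h)) (x + (τ : ℂ) • h) :=
      ((hg _ (hseg τ hτ)).differentiableAt (hV.mem_nhds (hseg τ hτ))).hasFDerivAt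
    exact (h1.restrictScalars ℝ).comp_hasDerivAt τ (hline τ)
  have h2 := intervalIntegral.integral_eq_sub_of_hasDerivAt hd hint
  rw [h2]
  simp

/-- Hefer decomposition on a convex open set: `Q j z = ∫₀¹ ∂_j g (w + τ (z - w)) dτ`. -/
theorem nu_hefer_convex {q : ℕ} {V : Set (Fin q → ℂ)} (hV : IsOpen V) (hVc : Convex ℝ V) {g : (Fin q → ℂ) → ℂ}
    (hg : DifferentiableOn ℂ g V) {w : Fin q → ℂ} (hw : w ∈ V) :
    ∃ Q : Fin q → (Fin q → ℂ) → ℂ, (∀ j, DifferentiableOn ℂ (Q j) V) ∧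
      ∀ z ∈ V, g z - g w = ∑ j, (z j - w j) * Q j z := by
  have hseg : ∀ z ∈ V, ∀ τ ∈ Icc (0 : ℝ) 1, w + (τ : ℂ) • (z - w) ∈ V := by
    intro z hz τ hτ
    have h1 := hVc hw hz (sub_nonneg.2 hτ.2) hτ.1 (by ring)
    have h2 : (1 - τ) • w + τ • z = w + (τ : ℂ) • (z - w) := by
      ext i
      simp only [Pi.add_apply, Pi.smul_apply, Pi.sub_apply, Complex.real_smul, smul_eq_mul]
      push_cast
      ring
    rwa [h2] at h1
  refine ⟨fun j z => ∫ τ in (0 : ℝ)..1, fderiv ℂ g (w + (τ : ℂ) • (z - w)) (Pi.single j 1), fun j => ?_,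
    fun z hz => ?_⟩
  · exact nu_param_integral hV hV (nuh_fderiv_differentiableOn hV hg (Pi.single j 1))
      (p₀ := fun _ => w) (p₁ := fun z => z - w) (differentiable_const w)
      (differentiable_id.sub (differentiable_const w)) hseg
  · obtain ⟨-, h1⟩ := nuh_ftc hV hg (hseg z hz)
    rw [add_sub_cancel] at h1
    rw [h1]
    have hcont : ∀ j : Fin q, IntervalIntegrable
        (fun τ : ℝ => fderiv ℂ g (w + (τ : ℂ) • (z - w)) (Pi.single j 1)) MeasureTheory.volume 0 1 := by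
      intro j
      apply ContinuousOn.intervalIntegrable
      rw [uIcc_of_le zero_le_one]
      refine (nuh_fderiv_differentiableOn hV hg (Pi.single j 1)).continuousOn.comp ?_ (hseg z hz)
      exact (continuous_const.add ((Complex.continuous_ofReal).smul continuous_const)).continuousOn
    have h2 : ∀ τ : ℝ, fderiv ℂ g (w + (τ : ℂ) • (z - w)) (z - w)
        = ∑ j, (z j - w j) * fderiv ℂ g (w + (τ : ℂ) • (z - w)) (Pi.single j 1) := by
      intro τ
      have h3 : (z - w) = ∑ j, (z j - w j) • (Pi.single j 1 : Fin q → ℂ) := by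
        simpa using pi_eq_sum_univ' (z - w)
      generalize fderiv ℂ g (w + (τ : ℂ) • (z - w)) = L
      rw [h3, map_sum]
      refine Finset.sum_congr rfl fun j _ => ?_
      rw [map_smul, smul_eq_mul]
    simp only [h2]
    rw [intervalIntegral.integral_finsetSum fun j _ => (hcont j).const_mul _]
    exact Finset.sum_congr rfl fun j _ => intervalIntegral.integral_const_mul _ _

/-- division by `z₀ - w₀` with parameters: `Q₀ (s, t) = (g (s, t) - g (w₀, t)) / (s - w₀)` for `s ≠ w₀`; near `s = w₀` it is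
`∫₀¹ ∂_s g (w₀ + τ (s - w₀), t) dτ`. -/
theorem nu_hefer_planar {T : Type*} [NormedAddCommGroup T] [NormedSpace ℂ T] [FiniteDimensional ℂ T] {V₀ : Set ℂ} {V' : Set T}
    (hV₀ : IsOpen V₀) (hV' : IsOpen V') {g : ℂ × T → ℂ} (hg : DifferentiableOn ℂ g (V₀ ×ˢ V')) {w₀ : ℂ} (hw₀ : w₀ ∈ V₀) :
    ∃ Q₀ : ℂ × T → ℂ, DifferentiableOn ℂ Q₀ (V₀ ×ˢ V') ∧ ∀ p ∈ V₀ ×ˢ V', g p - g (w₀, p.2) = (p.1 - w₀) * Q₀ p := by
  classical
  obtain ⟨ρ, hρ, hball⟩ := Metric.isOpen_iff.1 hV₀ w₀ hw₀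
  have hVV : IsOpen (V₀ ×ˢ V') := hV₀.prod hV'
  have hBV : IsOpen (ball w₀ ρ ×ˢ V') := isOpen_ball.prod hV'
  have hseg : ∀ p ∈ ball w₀ ρ ×ˢ V', ∀ τ ∈ Icc (0 : ℝ) 1,
      ((w₀, p.2) : ℂ × T) + (τ : ℂ) • ((p.1 - w₀, 0) : ℂ × T) ∈ V₀ ×ˢ V' := by
    rintro ⟨s, t⟩ ⟨hs, ht⟩ τ hτ
    simp only at hs ht
    refine ⟨hball ?_, by simpa using ht⟩
    simp only [Prod.fst_add, Prod.smul_fst, smul_eq_mul, mem_ball, dist_eq_norm, add_sub_cancel_left,
      norm_mul, Complex.norm_real, Real.norm_eq_abs, abs_of_nonneg hτ.1]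
    rw [mem_ball, dist_eq_norm] at hs
    calc τ * ‖s - w₀‖ ≤ 1 * ‖s - w₀‖ := mul_le_mul_of_nonneg_right hτ.2 (norm_nonneg _)
      _ < ρ := by rwa [one_mul]
  obtain ⟨I, hI⟩ : ∃ I : ℂ × T → ℂ, I = fun p => ∫ τ in (0 : ℝ)..1,
      fderiv ℂ g (((w₀, p.2) : ℂ × T) + (τ : ℂ) • ((p.1 - w₀, 0) : ℂ × T)) ((1, 0) : ℂ × T) := ⟨_, rfl⟩
  have hId : DifferentiableOn ℂ I (ball w₀ ρ ×ˢ V') := by
    rw [hI]
    exact nu_param_integral hVV hBV (nuh_fderiv_differentiableOn hVV hg ((1, 0) : ℂ × T))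
      (p₀ := fun p => ((w₀, p.2) : ℂ × T)) (p₁ := fun p => ((p.1 - w₀, 0) : ℂ × T))
      ((differentiable_const w₀).prodMk differentiable_snd)
      ((differentiable_fst.sub (differentiable_const w₀)).prodMk (differentiable_const 0)) hseg
  have hIe : ∀ p ∈ ball w₀ ρ ×ˢ V', g p - g (w₀, p.2) = (p.1 - w₀) * I p := by
    intro p hp
    obtain ⟨-, h1⟩ := nuh_ftc hVV hg (hseg p hp)
    have h2 : ((w₀, p.2) : ℂ × T) + ((p.1 - w₀, 0) : ℂ × T) = p := by
      ext <;> simp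
    rw [h2] at h1
    rw [h1, hI]
    simp only
    rw [← intervalIntegral.integral_const_mul]
    refine intervalIntegral.integral_congr fun τ _ => ?_
    have h3 : ((p.1 - w₀, 0) : ℂ × T) = (p.1 - w₀) • ((1, 0) : ℂ × T) := by
      ext <;> simp
    generalize fderiv ℂ g (((w₀, p.2) : ℂ × T) + (τ : ℂ) • ((p.1 - w₀, 0) : ℂ × T)) = L
    rw [h3, map_smul, smul_eq_mul]
  refine ⟨fun p => if p.1 ∈ ball w₀ ρ then I p else (g p - g (w₀, p.2)) / (p.1 - w₀), ?_, ?_⟩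
  · intro p hp
    apply DifferentiableAt.differentiableWithinAt
    by_cases hpb : p.1 ∈ ball w₀ ρ
    · have h1 : DifferentiableAt ℂ I p := (hId p ⟨hpb, hp.2⟩).differentiableAt (hBV.mem_nhds ⟨hpb, hp.2⟩)
      refine h1.congr_of_eventuallyEq ?_
      have h2 : ∀ᶠ p' : ℂ × T in nhds p, p'.1 ∈ ball w₀ ρ :=
        continuous_fst.continuousAt.eventually (isOpen_ball.mem_nhds hpb)
      filter_upwards [h2] with p' hp'
      simp only [if_pos hp']
    · have hne : p.1 ≠ w₀ := by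
        rintro h
        exact hpb (h ▸ mem_ball_self hρ)
      have hgp : DifferentiableAt ℂ g p := (hg p hp).differentiableAt (hVV.mem_nhds hp)
      have hgw : DifferentiableAt ℂ (fun p' : ℂ × T => g (w₀, p'.2)) p := by
        have hm : ((w₀, p.2) : ℂ × T) ∈ V₀ ×ˢ V' := ⟨hw₀, hp.2⟩
        have h3 : DifferentiableAt ℂ g (w₀, p.2) := (hg (w₀, p.2) hm).differentiableAt (hVV.mem_nhds hm)
        exact DifferentiableAt.comp p (g := g) (f := fun p' : ℂ × T => ((w₀, p'.2) : ℂ × T)) h3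
          ((differentiableAt_const w₀).prodMk differentiableAt_snd)
      have hden : DifferentiableAt ℂ (fun p' : ℂ × T => p'.1 - w₀) p :=
        differentiableAt_fst.sub (differentiableAt_const w₀)
      have h1 : DifferentiableAt ℂ (fun p' : ℂ × T => (g p' - g (w₀, p'.2)) / (p'.1 - w₀)) p := by
        simp only [div_eq_mul_inv]
        exact (hgp.sub hgw).mul (hden.fun_inv (sub_ne_zero.2 hne))
      refine h1.congr_of_eventuallyEq ?_
      have h2 : ∀ᶠ p' : ℂ × T in nhds p, p'.1 ≠ w₀ :=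
        continuous_fst.continuousAt.eventually (isOpen_ne.mem_nhds hne)
      filter_upwards [h2, hVV.mem_nhds hp] with p' hp' hp'V
      by_cases hb : p'.1 ∈ ball w₀ ρ
      · simp only [if_pos hb]
        rw [hIe p' ⟨hb, hp'V.2⟩, mul_div_cancel_left₀ _ (sub_ne_zero.2 hp')]
      · simp only [if_neg hb]
  · intro p hp
    by_cases hpb : p.1 ∈ ball w₀ ρ
    · simp only [if_pos hpb]
      exact hIe p ⟨hpb, hp.2⟩
    · have hne : p.1 ≠ w₀ := by
        rintro h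
        exact hpb (h ▸ mem_ball_self hρ)
      simp only [if_neg hpb]
      rw [mul_div_cancel₀ _ (sub_ne_zero.2 hne)]

end Claimed.Agent.R245
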