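/-
Row 245 / S0484.  SHARED TOOL `Nu` (architect helper292): a holomorphic field `ν` with `dF_f(ν) = 1` near `K₀ × C`, `K₀ ⊆ ℂ` an ARBITRARY compact set,
`C` compact convex (package NU; replaces Cartan's Theorem B).

Proof by Gelfand theory.  `𝒜` = closure in `C(K, ℂ)` of the restrictions of functions holomorphic near `K = K₀ × C`.  Let `χ` be a character of `𝒜`,
`w₀ = χ(z₀)`, `w'_j = χ(z'_j)`.  Then `w₀ ∈ K₀` (otherwise `1/(z₀ - w₀) ∈ 𝒜`), `w' ∈ C` (otherwise separate: `re λ < u < re λ(w')` on `C`, `1/(λ(z') - λ(w')) ∈ 𝒜`;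
`RCLike.geometric_hahn_banach_closed_point`), and `χ(g) = g(w)` by the Hefer decomposition `nu_hefer`.  So the ideal generated by functions without common
zero on `K` lies in no maximal ideal (`Ideal.exists_le_maximal`, `Ideal.toCharacterSpace`).
ONE FILE = ONE PACKAGE = ONE OWNER.  Statement FROZEN; helper lemmas: prefix `nub_`, in this file.  Black boxes: NuHefer.lean.
-/
import Claimed.Agent.R245.NuHefer

set_option autoImplicit false

namespace Claimed.Agent.R245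

open Metric Set

/-- Bezout equation in a commutative Banach algebra -/
theorem nub_abstract {A : Type*} [NormedCommRing A] [NormedAlgebra ℂ A] [CompleteSpace A] {n : ℕ}
    (α : Fin n → A) (h : ∀ χ : WeakDual.characterSpace ℂ A, ∃ i, χ (α i) ≠ 0) :
    ∃ β : Fin n → A, ∑ i, β i * α i = 1 := by
  by_contra hcon
  have hI : Ideal.span (Set.range α) ≠ ⊤ := by
    intro htop
    apply hcon
    have : (1 : A) ∈ Ideal.span (Set.range α) := by
      rw [htop]
      trivial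
    exact (Ideal.mem_span_range_iff_exists_fun).1 this
  obtain ⟨m, hm, hle⟩ := Ideal.exists_le_maximal _ hI
  obtain ⟨i, hi⟩ := h (m.toCharacterSpace)
  exact hi (Ideal.toCharacterSpace_apply_eq_zero_of_mem m (hle (Ideal.subset_span ⟨i, rfl⟩)))

section germs

variable {X : Type*} [NormedAddCommGroup X] [NormedSpace ℂ X]

/-- holomorphic near `K` -/
def NubGerm (K : Set X) (g : X → ℂ) : Prop :=
  ∃ V : Set X, IsOpen V ∧ K ⊆ V ∧ DifferentiableOn ℂ g V

variable {K : Set X} {g g₁ g₂ : X → ℂ}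

theorem NubGerm.of_differentiable (h : Differentiable ℂ g) : NubGerm K g :=
  ⟨univ, isOpen_univ, subset_univ _, h.differentiableOn⟩

theorem NubGerm.const (c : ℂ) : NubGerm K (fun _ : X => c) :=
  NubGerm.of_differentiable (differentiable_const c)

theorem NubGerm.add (h₁ : NubGerm K g₁) (h₂ : NubGerm K g₂) : NubGerm K (fun x => g₁ x + g₂ x) := by
  obtain ⟨V₁, o₁, s₁, d₁⟩ := h₁
  obtain ⟨V₂, o₂, s₂, d₂⟩ := h₂
  exact ⟨V₁ ∩ V₂, o₁.inter o₂, subset_inter s₁ s₂,
    (d₁.mono inter_subset_left).add (d₂.mono inter_subset_right)⟩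

theorem NubGerm.mul (h₁ : NubGerm K g₁) (h₂ : NubGerm K g₂) : NubGerm K (fun x => g₁ x * g₂ x) := by
  obtain ⟨V₁, o₁, s₁, d₁⟩ := h₁
  obtain ⟨V₂, o₂, s₂, d₂⟩ := h₂
  exact ⟨V₁ ∩ V₂, o₁.inter o₂, subset_inter s₁ s₂,
    (d₁.mono inter_subset_left).mul (d₂.mono inter_subset_right)⟩

theorem NubGerm.sum {ι : Type*} (s : Finset ι) {G : ι → X → ℂ} (h : ∀ i ∈ s, NubGerm K (G i)) :
    NubGerm K (fun x => ∑ i ∈ s, G i x) := by
  classical
  induction s using Finset.induction_on with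
  | empty => simpa using NubGerm.const (K := K) 0
  | insert i s hi ih =>
    have h1 := (h i (Finset.mem_insert_self i s)).add
      (ih fun k hk => h k (Finset.mem_insert_of_mem hk))
    simpa [Finset.sum_insert hi] using h1

theorem NubGerm.continuousOn (h : NubGerm K g) : ContinuousOn g K := by
  obtain ⟨V, -, s, d⟩ := h
  exact d.continuousOn.mono s

/-- the algebra of restrictions to `K` of functions holomorphic near `K` -/
def nubAlg₀ (K : Set X) : Subalgebra ℂ C(K, ℂ) where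
  carrier := {φ | ∃ g, NubGerm K g ∧ ∀ x : K, φ x = g x}
  mul_mem' := by
    rintro φ₁ φ₂ ⟨g₁, h₁, e₁⟩ ⟨g₂, h₂, e₂⟩
    exact ⟨_, h₁.mul h₂, fun x => by rw [ContinuousMap.mul_apply, e₁, e₂]⟩
  add_mem' := by
    rintro φ₁ φ₂ ⟨g₁, h₁, e₁⟩ ⟨g₂, h₂, e₂⟩
    exact ⟨_, h₁.add h₂, fun x => by rw [ContinuousMap.add_apply, e₁, e₂]⟩
  algebraMap_mem' := fun c => ⟨_, NubGerm.const c, fun x => rfl⟩

/-- its closure -/
noncomputable def nubAlg (K : Set X) [CompactSpace K] : Subalgebra ℂ C(K, ℂ) := (nubAlg₀ K).topologicalClosure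

variable [CompactSpace K]

open Classical in
/-- the class of a germ -/
noncomputable def nubE (K : Set X) [CompactSpace K] (g : X → ℂ) : nubAlg K :=
  if h : NubGerm K g then
    ⟨⟨fun x : K => g x, h.continuousOn.domRestrict⟩,
      Subalgebra.le_topologicalClosure _ ⟨g, h, fun _ => rfl⟩⟩
  else 0

theorem nubE_apply (h : NubGerm K g) (x : K) : (nubE K g : C(K, ℂ)) x = g x := by
  unfold nubE
  rw [dif_pos h]
  rfl

theorem nubE_add (h₁ : NubGerm K g₁) (h₂ : NubGerm K g₂) :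
    nubE K (fun x => g₁ x + g₂ x) = nubE K g₁ + nubE K g₂ := by
  apply Subtype.ext
  ext x
  rw [nubE_apply (h₁.add h₂)]
  show _ = (nubE K g₁ : C(K, ℂ)) x + (nubE K g₂ : C(K, ℂ)) x
  rw [nubE_apply h₁, nubE_apply h₂]

theorem nubE_mul (h₁ : NubGerm K g₁) (h₂ : NubGerm K g₂) :
    nubE K (fun x => g₁ x * g₂ x) = nubE K g₁ * nubE K g₂ := by
  apply Subtype.ext
  ext x
  rw [nubE_apply (h₁.mul h₂)]
  show _ = (nubE K g₁ : C(K, ℂ)) x * (nubE K g₂ : C(K, ℂ)) x
  rw [nubE_apply h₁, nubE_apply h₂]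

theorem nubE_const (c : ℂ) : nubE K (fun _ : X => c) = algebraMap ℂ (nubAlg K) c := by
  apply Subtype.ext
  ext x
  rw [nubE_apply (NubGerm.const c)]
  rfl

theorem nubE_congr (h₁ : NubGerm K g₁) (h₂ : NubGerm K g₂) (h : ∀ x ∈ K, g₁ x = g₂ x) :
    nubE K g₁ = nubE K g₂ := by
  apply Subtype.ext
  ext x
  rw [nubE_apply h₁, nubE_apply h₂, h x x.2]

end germs

section chars

variable {X : Type*} [NormedAddCommGroup X] [NormedSpace ℂ X]

/-- a multiplicative functional on the germs of holomorphic functions near `K` -/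
structure NubChar (K : Set X) (φ : (X → ℂ) → ℂ) : Prop where
  add : ∀ {g₁ g₂ : X → ℂ}, NubGerm K g₁ → NubGerm K g₂ → φ (fun x => g₁ x + g₂ x) = φ g₁ + φ g₂
  mul : ∀ {g₁ g₂ : X → ℂ}, NubGerm K g₁ → NubGerm K g₂ → φ (fun x => g₁ x * g₂ x) = φ g₁ * φ g₂
  const : ∀ c : ℂ, φ (fun _ => c) = c
  congr : ∀ {g₁ g₂ : X → ℂ}, NubGerm K g₁ → NubGerm K g₂ → (∀ x ∈ K, g₁ x = g₂ x) → φ g₁ = φ g₂

variable {K : Set X} {φ : (X → ℂ) → ℂ} {g : X → ℂ}

theorem NubChar.sum (hφ : NubChar K φ) {ι : Type*} (s : Finset ι) {G : ι → X → ℂ}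
    (h : ∀ i ∈ s, NubGerm K (G i)) : φ (fun x => ∑ i ∈ s, G i x) = ∑ i ∈ s, φ (G i) := by
  classical
  induction s using Finset.induction_on with
  | empty => simpa using hφ.const 0
  | insert i s hi ih =>
    have h1 := hφ.add (h i (Finset.mem_insert_self i s))
      (NubGerm.sum s fun k hk => h k (Finset.mem_insert_of_mem hk))
    rw [ih fun k hk => h k (Finset.mem_insert_of_mem hk)] at h1
    simpa [Finset.sum_insert hi] using h1

theorem NubGerm.sub_const (h : NubGerm K g) (c : ℂ) : NubGerm K (fun x => g x - c) := by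
  have := h.add (NubGerm.const (-c))
  simpa [sub_eq_add_neg] using this

theorem NubChar.sub_const (hφ : NubChar K φ) (h : NubGerm K g) (c : ℂ) :
    φ (fun x => g x - c) = φ g - c := by
  have := hφ.add h (NubGerm.const (-c))
  rw [hφ.const] at this
  simpa [sub_eq_add_neg] using this

theorem NubChar.ne_zero (hφ : NubChar K φ) {V : Set X} (hV : IsOpen V) (hKV : K ⊆ V)
    (hd : DifferentiableOn ℂ g V) (hne : ∀ x ∈ V, g x ≠ 0) : φ g ≠ 0 := by
  intro h0
  have hg : NubGerm K g := ⟨V, hV, hKV, hd⟩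
  have hi : NubGerm K (fun x => (g x)⁻¹) := ⟨V, hV, hKV, hd.inv hne⟩
  have h1 := hφ.mul hg hi
  have h2 := hφ.congr (hg.mul hi) (NubGerm.const 1) (fun x hx => mul_inv_cancel₀ (hne x (hKV hx)))
  rw [h1, h0, zero_mul, hφ.const] at h2
  exact zero_ne_one h2

end chars

/-- **characters are point evaluations** -/
theorem nub_char_eval {q : ℕ} {K₀ : Set ℂ} {C : Set (Fin q → ℂ)} (hK₀ : IsCompact K₀)
    (hC : IsCompact C) (hCc : Convex ℝ C) {φ : (ℂ × (Fin q → ℂ) → ℂ) → ℂ}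
    (hφ : NubChar (K₀ ×ˢ C) φ) :
    ∃ w ∈ K₀ ×ˢ C, ∀ g, NubGerm (K₀ ×ˢ C) g → φ g = g w := by
  set w₀ : ℂ := φ (fun p => p.1) with hw₀
  set w' : Fin q → ℂ := fun j => φ (fun p => p.2 j) with hw'
  have g0 : NubGerm (K₀ ×ˢ C) (fun p : ℂ × (Fin q → ℂ) => p.1) :=
    NubGerm.of_differentiable differentiable_fst
  have gj : ∀ j, NubGerm (K₀ ×ˢ C) (fun p : ℂ × (Fin q → ℂ) => p.2 j) := fun j =>
    NubGerm.of_differentiable ((differentiable_pi.1 differentiable_snd) j)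
  -- the first coordinate
  have h0 : w₀ ∈ K₀ := by
    by_contra hw
    refine hφ.ne_zero (g := fun p => p.1 - w₀) (V := {p | p.1 ≠ w₀})
      (isOpen_ne_fun continuous_fst continuous_const) ?_
      ((differentiable_fst (𝕜 := ℂ) (E := ℂ) (F := Fin q → ℂ)).sub_const w₀).differentiableOn
      (fun p hp => sub_ne_zero.2 (show p.1 ≠ w₀ from hp)) ?_
    · intro p hp hpw
      exact hw (hpw ▸ hp.1)
    · rw [hφ.sub_const g0, sub_self]
  -- the other coordinates
  have h1 : w' ∈ C := by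
    by_contra hw
    obtain ⟨l, u, hlt, hgt⟩ := RCLike.geometric_hahn_banach_closed_point (𝕜 := ℂ) hCc hC.isClosed hw
    set c : Fin q → ℂ := fun j => l (fun k => if j = k then 1 else 0) with hc
    have hl : ∀ x : Fin q → ℂ, l x = ∑ j, x j * c j := fun x => by
      have := LinearMap.pi_apply_eq_sum_univ l.toLinearMap x
      simpa [smul_eq_mul] using this
    have e : φ (fun p => l p.2) = l w' := by
      have e1 : (fun p : ℂ × (Fin q → ℂ) => l p.2) = fun p => ∑ j, p.2 j * c j :=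
        funext fun p => hl p.2
      rw [e1, hφ.sum Finset.univ (fun j _ => (gj j).mul (NubGerm.const (c j))), hl]
      refine Finset.sum_congr rfl fun j _ => ?_
      rw [hφ.mul (gj j) (NubGerm.const (c j)), hφ.const]
    have dl : Differentiable ℂ (fun p : ℂ × (Fin q → ℂ) => l p.2) :=
      l.differentiable.comp differentiable_snd
    refine hφ.ne_zero (g := fun p => l p.2 - l w') (V := {p | (l p.2).re < u})
      (isOpen_lt (Complex.continuous_re.comp dl.continuous) continuous_const) ?_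
      (dl.sub_const _).differentiableOn (fun p hp h0 => ?_) ?_
    · intro p hp
      exact hlt p.2 hp.2
    · have h2 : l p.2 = l w' := sub_eq_zero.1 h0
      have h3 : (l p.2).re < u := hp
      rw [h2] at h3
      exact lt_asymm h3 hgt
    · rw [hφ.sub_const (NubGerm.of_differentiable dl), e, sub_self]
  refine ⟨(w₀, w'), ⟨h0, h1⟩, ?_⟩
  rintro g ⟨V, hV, hKV, hg⟩
  obtain ⟨V₀, V₁, hV₀, hV₁, hK₀V, hCV, hVV⟩ := generalized_tube_lemma hK₀ hC hV hKV
  obtain ⟨δ, hδ, hδV⟩ := hC.exists_thickening_subset_open hV₁ hCV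
  set V' := thickening δ C with hV'
  have hV'o : IsOpen V' := isOpen_thickening
  have hCV' : C ⊆ V' := self_subset_thickening hδ C
  have hsub : V₀ ×ˢ V' ⊆ V := (prod_mono Subset.rfl hδV).trans hVV
  have hKsub : K₀ ×ˢ C ⊆ V₀ ×ˢ V' := prod_mono hK₀V hCV'
  obtain ⟨Q₀, hQ₀, e₀⟩ := nu_hefer_planar hV₀ hV'o (hg.mono hsub) (hK₀V h0)
  have hg1 : DifferentiableOn ℂ (fun z => g (w₀, z)) V' := by
    refine hg.comp ((differentiable_const w₀).prodMk differentiable_id).differentiableOn ?_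
    intro z hz
    exact hsub ⟨hK₀V h0, hz⟩
  obtain ⟨Q, hQ, e₁⟩ := nu_hefer_convex hV'o (hCc.thickening δ) hg1 (hCV' h1)
  have gQ₀ : NubGerm (K₀ ×ˢ C) Q₀ := ⟨V₀ ×ˢ V', hV₀.prod hV'o, hKsub, hQ₀⟩
  have gQ : ∀ j, NubGerm (K₀ ×ˢ C) (fun p : ℂ × (Fin q → ℂ) => Q j p.2) := fun j =>
    ⟨Prod.snd ⁻¹' V', hV'o.preimage continuous_snd, fun p hp => hCV' hp.2,
      (hQ j).comp differentiable_snd.differentiableOn (fun p hp => hp)⟩
  have G1 : NubGerm (K₀ ×ˢ C) (fun p : ℂ × (Fin q → ℂ) => (p.1 - w₀) * Q₀ p) :=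
    (g0.sub_const w₀).mul gQ₀
  have G2 : ∀ j, NubGerm (K₀ ×ˢ C) (fun p : ℂ × (Fin q → ℂ) => (p.2 j - w' j) * Q j p.2) :=
    fun j => ((gj j).sub_const (w' j)).mul (gQ j)
  have G3 := NubGerm.sum Finset.univ (fun j _ => G2 j)
  have key := hφ.congr ⟨V, hV, hKV, hg⟩ (((NubGerm.const (g (w₀, w'))).add G1).add G3)
    (fun p hp => by
      have a1 := e₀ p (hKsub hp)
      have a2 := e₁ p.2 (hCV' hp.2)
      have a3 : g p = g (w₀, w') + (g p - g (w₀, p.2)) + (g (w₀, p.2) - g (w₀, w')) := by ring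
      rw [a3, a1, a2])
  rw [key, hφ.add ((NubGerm.const (g (w₀, w'))).add G1) G3, hφ.add (NubGerm.const _) G1,
    hφ.const, hφ.mul (g0.sub_const w₀) gQ₀, hφ.sub_const g0, sub_self, zero_mul,
    hφ.sum Finset.univ (fun j _ => G2 j)]
  have : ∀ j ∈ Finset.univ, φ (fun p : ℂ × (Fin q → ℂ) => (p.2 j - w' j) * Q j p.2) = 0 := by
    intro j _
    rw [hφ.mul ((gj j).sub_const (w' j)) (gQ j), hφ.sub_const (gj j), sub_self, zero_mul]
  rw [Finset.sum_eq_zero this, add_zero, add_zero]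

/-- **Bezout equation near `K₀ × C`.** -/
theorem nu_bezout {q n : ℕ} {K₀ : Set ℂ} {C : Set (Fin q → ℂ)} (hK₀ : IsCompact K₀) (hC : IsCompact C) (hCc : Convex ℝ C)
    {W : Set (ℂ × (Fin q → ℂ))} (hW : IsOpen W) (hKW : K₀ ×ˢ C ⊆ W) {a : ℂ × (Fin q → ℂ) → (Fin n → ℂ)}
    (ha : DifferentiableOn ℂ a W) (hne : ∀ x ∈ K₀ ×ˢ C, a x ≠ 0) :
    ∃ (W' : Set (ℂ × (Fin q → ℂ))) (ν : ℂ × (Fin q → ℂ) → (Fin n → ℂ)), IsOpen W' ∧ K₀ ×ˢ C ⊆ W' ∧ W' ⊆ W ∧
      DifferentiableOn ℂ ν W' ∧ ∀ x ∈ W', ∑ i, a x i * ν x i = 1 := by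
  set K : Set (ℂ × (Fin q → ℂ)) := K₀ ×ˢ C with hK
  have hKc : IsCompact K := hK₀.prod hC
  have _ : CompactSpace K := isCompact_iff_compactSpace.1 hKc
  have _ : CompleteSpace (nubAlg K) :=
    (Subalgebra.isClosed_topologicalClosure (nubAlg₀ K)).completeSpace_coe
  have ga : ∀ i, NubGerm K (fun p => a p i) := fun i => ⟨W, hW, hKW, (differentiableOn_pi.1 ha) i⟩
  -- no character kills all the `a i`
  have hchar : ∀ χ : WeakDual.characterSpace ℂ (nubAlg K),
      ∃ i, χ (nubE K (fun p => a p i)) ≠ 0 := by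
    intro χ
    have hφ : NubChar K (fun g => χ (nubE K g)) :=
      { add := fun h₁ h₂ => by
          show χ _ = χ _ + χ _
          rw [nubE_add h₁ h₂, map_add]
        mul := fun h₁ h₂ => by
          show χ _ = χ _ * χ _
          rw [nubE_mul h₁ h₂, map_mul]
        const := fun c => by
          show χ _ = c
          rw [nubE_const, AlgHomClass.commutes]
          rfl
        congr := fun h₁ h₂ h => by
          show χ _ = χ _
          rw [nubE_congr h₁ h₂ h] }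
    obtain ⟨w, hw, hev⟩ := nub_char_eval hK₀ hC hCc hφ
    obtain ⟨i, hi⟩ := Function.ne_iff.1 (hne w hw)
    refine ⟨i, ?_⟩
    have := hev _ (ga i)
    rw [show χ (nubE K fun p => a p i) = a w i from this]
    exact hi
  obtain ⟨β, hβ⟩ := nub_abstract _ hchar
  -- approximation of the coefficients by germs
  set S : ℝ := ∑ i, ‖(nubE K (fun p => a p i) : C(K, ℂ))‖ with hS
  have hS0 : 0 ≤ S := Finset.sum_nonneg fun _ _ => norm_nonneg _
  set ε : ℝ := 1 / (2 * (1 + S)) with hεdef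
  have hε : 0 < ε := by positivity
  have happ : ∀ i, ∃ g, NubGerm K g ∧ ∀ x : K, ‖(β i : C(K, ℂ)) x - g x‖ < ε := by
    intro i
    have hmem : ((β i : nubAlg K) : C(K, ℂ)) ∈ closure ((nubAlg₀ K : Subalgebra ℂ C(K, ℂ)) : Set C(K, ℂ)) :=
      (β i).2
    obtain ⟨b, ⟨g, hg, hb⟩, hdist⟩ := Metric.mem_closure_iff.1 hmem ε hε
    refine ⟨g, hg, fun x => ?_⟩
    rw [← hb x]
    calc ‖(β i : C(K, ℂ)) x - b x‖ = ‖((β i : C(K, ℂ)) - b) x‖ := rfl
      _ ≤ ‖(β i : C(K, ℂ)) - b‖ := ContinuousMap.norm_coe_le_norm _ x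
      _ < ε := by rwa [← dist_eq_norm]
  choose G hG hGε using happ
  choose VG hVo hVK hVd using hG
  set V : Set (ℂ × (Fin q → ℂ)) := W ∩ ⋂ i, VG i with hV
  have hVopen : IsOpen V := hW.inter (isOpen_iInter_of_finite hVo)
  have hKV : K ⊆ V := subset_inter hKW (subset_iInter hVK)
  have hVi : ∀ i, V ⊆ VG i := fun i => inter_subset_right.trans (iInter_subset _ i)
  set h : ℂ × (Fin q → ℂ) → ℂ := fun p => ∑ i, a p i * G i p with hh
  have hhd : DifferentiableOn ℂ h V :=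
    DifferentiableOn.fun_sum fun i _ =>
      (((differentiableOn_pi.1 ha) i).mono inter_subset_left).mul ((hVd i).mono (hVi i))
  have hh0 : ∀ x ∈ K, h x ≠ 0 := by
    intro x hx h0
    have e1 : ∑ i, (β i : C(K, ℂ)) ⟨x, hx⟩ * a x i = 1 := by
      have := congrArg (fun f : nubAlg K =>
        ((ContinuousMap.evalAlgHom ℂ ℂ (⟨x, hx⟩ : K)).comp (nubAlg K).val) f) hβ
      simp only [map_sum, map_mul, map_one] at this
      rw [← this]
      refine Finset.sum_congr rfl fun i _ => ?_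
      congr 1
      exact (nubE_apply (ga i) ⟨x, hx⟩).symm
    have e2 : (1 : ℂ) = ∑ i, ((β i : C(K, ℂ)) ⟨x, hx⟩ - G i x) * a x i := by
      have : ∑ i, ((β i : C(K, ℂ)) ⟨x, hx⟩ - G i x) * a x i
          = ∑ i, (β i : C(K, ℂ)) ⟨x, hx⟩ * a x i - h x := by
        rw [hh, ← Finset.sum_sub_distrib]
        refine Finset.sum_congr rfl fun i _ => ?_
        ring
      rw [this, e1, h0, sub_zero]
    have e3 : ‖(1 : ℂ)‖ ≤ ε * S := by
      rw [e2, hS, Finset.mul_sum]
      refine (norm_sum_le _ _).trans (Finset.sum_le_sum fun i _ => ?_)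
      rw [norm_mul]
      refine mul_le_mul (hGε i ⟨x, hx⟩).le ?_ (norm_nonneg _) hε.le
      rw [← nubE_apply (ga i) ⟨x, hx⟩]
      exact ContinuousMap.norm_coe_le_norm _ _
    have e4 : ε * S < 1 := by
      rw [hεdef, div_mul_eq_mul_div, one_mul, div_lt_one (by positivity)]
      linarith
    rw [norm_one] at e3
    linarith
  refine ⟨V ∩ h ⁻¹' {0}ᶜ, fun p i => G i p / h p,
    hhd.continuousOn.isOpen_inter_preimage hVopen isOpen_compl_singleton,
    fun x hx => ⟨hKV hx, hh0 x hx⟩, inter_subset_left.trans inter_subset_left, ?_, ?_⟩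
  · refine differentiableOn_pi.2 fun i => ?_
    have d1 : DifferentiableOn ℂ (G i) (V ∩ h ⁻¹' {0}ᶜ) :=
      (hVd i).mono (inter_subset_left.trans (hVi i))
    have d2 : DifferentiableOn ℂ h (V ∩ h ⁻¹' {0}ᶜ) := hhd.mono inter_subset_left
    have d3 : DifferentiableOn ℂ (fun p => G i p * (h p)⁻¹) (V ∩ h ⁻¹' {0}ᶜ) :=
      d1.mul (d2.inv (fun x hx => hx.2))
    simpa only [div_eq_mul_inv] using d3
  · intro x hx
    have hx0 : h x ≠ 0 := hx.2
    have : ∑ i, a x i * (G i x / h x) = h x / h x := by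
      rw [hh, Finset.sum_div]
      refine Finset.sum_congr rfl fun i _ => ?_
      rw [mul_div_assoc]
    rw [this, div_self hx0]

end Claimed.Agent.R245
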