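/-
Row 245 / S0484.  TOOL `Nu`, part 3 (architect helper292): the transversal field `ν`, `dF_f(ν) = 1` (package NU), from the Bezout equation `nu_bezout`
for `a = grad F ∘ f`.  ONE FILE = ONE PACKAGE = ONE OWNER.  Statements FROZEN; helper lemmas: prefix `nu_`, in this file.
-/
import Claimed.Agent.R245.Defs
import Claimed.Agent.R245.NuBezout

set_option autoImplicit false

namespace Claimed.Agent.R245

open MvPolynomial Metric Set Claims.C0412

/-- `grad F ≠ 0` on the cone. -/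
theorem nu_grad_ne_zero {F : MvPolynomial (Fin 4) ℂ} (hF : IsSmoothQuarticForm F) {y : V4} (hy : y ∈ Cone F) : grad F y ≠ 0 := by
  intro h
  exact hy.1 (hF.2 y fun i => congrFun h i)

theorem nu_differentiable_grad (F : MvPolynomial (Fin 4) ℂ) : Differentiable ℂ (grad F) := by
  rw [differentiable_pi]
  intro i
  have h := (AnalyticOnNhd.eval_mvPolynomial (𝕜 := ℂ) (pderiv i F)).differentiableOn
  exact differentiableOn_univ.1 h

/-- **NU**, planar compact set times a compact convex set. -/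
theorem nu_exists {F : MvPolynomial (Fin 4) ℂ} (hF : IsSmoothQuarticForm F) {q : ℕ} {K₀ : Set ℂ} {C : Set (Fin q → ℂ)}
    (hK₀ : IsCompact K₀) (hC : IsCompact C) (hCc : Convex ℝ C) {f : ℂ × (Fin q → ℂ) → V4} (hf : HolNear F f (K₀ ×ˢ C)) :
    ∃ (W : Set (ℂ × (Fin q → ℂ))) (ν : ℂ × (Fin q → ℂ) → V4), IsOpen W ∧ K₀ ×ˢ C ⊆ W ∧ HolOn F f W ∧
      DifferentiableOn ℂ ν W ∧ ∀ x ∈ W, dot (grad F (f x)) (ν x) = 1 := by
  obtain ⟨W₀, hW₀, hKW₀, hfd, hfm⟩ := hf
  obtain ⟨W', ν, hW', hKW', hW'W, hν, hdot⟩ := nu_bezout hK₀ hC hCc hW₀ hKW₀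
    (a := fun x => grad F (f x)) ((nu_differentiable_grad F).comp_differentiableOn hfd)
    (fun x hx => nu_grad_ne_zero hF (hfm (hKW₀ hx)))
  exact ⟨W', ν, hW', hKW', ⟨hfd.mono hW'W, hfm.mono_left hW'W⟩, hν, hdot⟩

/-- **NU**, compact convex subsets of a finite dimensional space (`K₀ = {0}`, a linear isomorphism `E ≃ Fin q → ℂ`). -/
theorem nu_exists_convex {F : MvPolynomial (Fin 4) ℂ} (hF : IsSmoothQuarticForm F) {E : Type*} [NormedAddCommGroup E]
    [NormedSpace ℂ E] [FiniteDimensional ℂ E] {K : Set E} (hK : IsCompact K) (hKc : Convex ℝ K) {f : E → V4} (hf : HolNear F f K) :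
    ∃ (W : Set E) (ν : E → V4), IsOpen W ∧ K ⊆ W ∧ HolOn F f W ∧
      DifferentiableOn ℂ ν W ∧ ∀ x ∈ W, dot (grad F (f x)) (ν x) = 1 := by
  obtain ⟨W₀, hW₀, hKW₀, hfd, hfm⟩ := hf
  let L : E ≃L[ℂ] (Fin (Module.finrank ℂ E) → ℂ) := (Module.finBasis ℂ E).equivFunL
  have hC : IsCompact (L '' K) := hK.image L.continuous
  have hCc : Convex ℝ (L '' K) :=
    hKc.linear_image ((L.toLinearEquiv.toLinearMap).restrictScalars ℝ)
  have hsnd : Differentiable ℂ (fun p : ℂ × (Fin (Module.finrank ℂ E) → ℂ) => L.symm p.2) :=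
    L.symm.differentiable.comp differentiable_snd
  have hf' : HolNear F (fun p : ℂ × (Fin (Module.finrank ℂ E) → ℂ) => f (L.symm p.2))
      (({0} : Set ℂ) ×ˢ (L '' K)) := by
    refine ⟨(fun p : ℂ × (Fin (Module.finrank ℂ E) → ℂ) => L.symm p.2) ⁻¹' W₀,
      hW₀.preimage hsnd.continuous, ?_, ?_, ?_⟩
    · rintro ⟨s, t⟩ ⟨-, x, hx, rfl⟩
      show L.symm (L x) ∈ W₀
      rw [L.symm_apply_apply]
      exact hKW₀ hx
    · exact hfd.comp hsnd.differentiableOn (fun p hp => hp)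
    · intro p hp
      exact hfm hp
  obtain ⟨W, ν, hW, hKW, ⟨hfd', hfm'⟩, hν, hdot⟩ := nu_exists hF isCompact_singleton hC hCc hf'
  have hj : Differentiable ℂ (fun x : E => ((0 : ℂ), L x)) :=
    (differentiable_const _).prodMk L.differentiable
  refine ⟨(fun x : E => ((0 : ℂ), L x)) ⁻¹' W, fun x => ν (0, L x), hW.preimage hj.continuous, ?_,
    ⟨?_, ?_⟩, ?_, ?_⟩
  · intro x hx
    exact hKW ⟨rfl, x, hx, rfl⟩
  · have h1 := hfd'.comp hj.differentiableOn (s := (fun x : E => ((0 : ℂ), L x)) ⁻¹' W)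
      (fun x hx => hx)
    refine h1.congr fun x _ => ?_
    show f x = f (L.symm (L x))
    rw [L.symm_apply_apply]
  · intro x hx
    have h1 := hfm' hx
    simp only [L.symm_apply_apply] at h1
    exact h1
  · exact hν.comp hj.differentiableOn (fun x hx => hx)
  · intro x hx
    have h1 := hdot _ hx
    simp only [L.symm_apply_apply] at h1
    exact h1

end Claimed.Agent.R245
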