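/-
Row 245 / S0484, Section 4 (from polydiscs to convex sets): definitions and the frozen
top-level interfaces.  Architect: helper178.
-/
import Claimed.Agent.R245.Defs

set_option autoImplicit false

namespace Claimed.Agent.R245

open MvPolynomial Metric Set Claims.C0412

/-- A *polydisc* in a complex normed space `Z`: an affine image of the closed unit ball of
`Fin q → ℂ` (sup norm). Products of polydiscs are polydiscs, closed discs in `ℂ` and closed balls of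
`Fin q → ℂ` are polydiscs. -/
def IsPolydisc {Z : Type*} [NormedAddCommGroup Z] [NormedSpace ℂ Z] (P : Set Z) : Prop :=
  ∃ (q : ℕ) (φ : (Fin q → ℂ) ≃ᴬ[ℂ] Z), P = φ '' closedBall (0 : Fin q → ℂ) 1

/-- `𝒜_r` with an arbitrary polydisc as passive factor. -/
def PropA' (F : MvPolynomial (Fin 4) ℂ) (r : ℕ) : Prop :=
  ∀ (E Z : Type) [NormedAddCommGroup E] [NormedSpace ℂ E] [FiniteDimensional ℂ E]
    [NormedAddCommGroup Z] [NormedSpace ℂ Z] [FiniteDimensional ℂ Z],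
    Module.finrank ℂ E = r → ∀ (C : Set E) (P : Set Z), IsCompact C → Convex ℝ C → C.Nonempty →
      IsPolydisc P → Approx F (C ×ˢ P)

/-- `G` is `C¹`-close to `f` at the points of `S` (values and complex Fréchet derivatives). -/
def C1Close {X : Type*} [NormedAddCommGroup X] [NormedSpace ℂ X] (G f : X → V4) (S : Set X)
    (ε : ℝ) : Prop :=
  ∀ x ∈ S, ‖G x - f x‖ < ε ∧ ‖fderiv ℂ G x - fderiv ℂ f x‖ < ε

/-- The face statement (Lemma `ana:face`) for faces in `ℝ × E'`, `finrank E' = n`. -/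
def FaceStmt (F : MvPolynomial (Fin 4) ℂ) (n : ℕ) : Prop :=
  ∀ (E' Z : Type) [NormedAddCommGroup E'] [NormedSpace ℂ E'] [FiniteDimensional ℂ E']
    [NormedAddCommGroup Z] [NormedSpace ℂ Z] [FiniteDimensional ℂ Z],
    Module.finrank ℂ E' = n → ∀ (Fc : Set (ℂ × E')) (P : Set Z), IsCompact Fc → Convex ℝ Fc →
      Fc.Nonempty → (∀ z ∈ Fc, z.1.im = 0) → IsPolydisc P →
      ∀ f : (ℂ × E') × Z → V4, HolNear F f (Fc ×ˢ P) → ∀ ε : ℝ, 0 < ε →
        ∃ G : (ℂ × E') × Z → V4, Entire F G ∧ C1Close G f (Fc ×ˢ P) ε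

/-- The trace gluing statement (Lemmas `glue:linear-trace`, `glue:trace` and the spray over the
lower side, packaged).  `K ⊂ int K⁺` compact convex, `ℓ ≠ 0` complex linear, `b` real; the lower
side is `{Im ℓ ≤ b}`. -/
def TraceGlueStmt (F : MvPolynomial (Fin 4) ℂ) : Prop :=
  ∀ (X : Type) [NormedAddCommGroup X] [NormedSpace ℂ X] [FiniteDimensional ℂ X]
    (ℓ : X →L[ℂ] ℂ) (b : ℝ) (K Kp : Set X), ℓ ≠ 0 → IsCompact K → Convex ℝ K → IsCompact Kp →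
    Convex ℝ Kp → K ⊆ interior Kp → ∀ f : X → V4, HolNear F f (Kp ∩ {x | (ℓ x).im ≤ b}) →
    ∃ (β : ℝ) (s : X × V4 → V4), 0 < β ∧
      HolNear F s ((Kp ∩ {x | (ℓ x).im ≤ b}) ×ˢ closedBall (0 : V4) β) ∧
      (∀ x ∈ Kp ∩ {x | (ℓ x).im ≤ b}, s (x, 0) = f x) ∧
      ∀ ε : ℝ, 0 < ε → ∃ e₀ : ℝ, 0 < e₀ ∧ ∀ G : X × V4 → V4,
        HolNear F G ((Kp ∩ {x | b ≤ (ℓ x).im}) ×ˢ closedBall (0 : V4) β) →
        C1Close G s ((Kp ∩ {x | (ℓ x).im = b}) ×ˢ closedBall (0 : V4) β) e₀ →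
        ∃ g : X → V4, HolNear F g K ∧ ∀ x ∈ K, (ℓ x).im ≤ b → ‖g x - f x‖ < ε

/-- One enlargement step: remove the real constraint `lam ≤ b`. -/
def EnlargeStmt (F : MvPolynomial (Fin 4) ℂ) (r : ℕ) : Prop :=
  ∀ (E Z : Type) [NormedAddCommGroup E] [NormedSpace ℂ E] [FiniteDimensional ℂ E]
    [NormedAddCommGroup Z] [NormedSpace ℂ Z] [FiniteDimensional ℂ Z],
    Module.finrank ℂ E = r → ∀ (Q : Set E) (P : Set Z) (lam : E →L[ℝ] ℝ) (b : ℝ),
      IsCompact Q → Convex ℝ Q → (Q ∩ {x | lam x ≤ b}).Nonempty → IsPolydisc P →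
      ∀ f : E × Z → V4, HolNear F f ((Q ∩ {x | lam x ≤ b}) ×ˢ P) → ∀ ε : ℝ, 0 < ε →
        ∃ g : E × Z → V4, HolNear F g (Q ×ˢ P) ∧ ∀ x ∈ (Q ∩ {x | lam x ≤ b}) ×ˢ P, ‖g x - f x‖ < ε

end Claimed.Agent.R245
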