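/-
Row 245 / S0484, Section 4, block FACE (Lemma ana:face): frozen statements of the sub-blocks.
Architect: helper178.

Tools used as hypotheses (proved elsewhere): `NuStmt` (direction field on compact convex sets),
`RetrStmt` (holomorphic retraction onto the cone along the direction field).
-/
import Claimed.Agent.R245.S4Defs

set_option autoImplicit false

namespace Claimed.Agent.R245

open MvPolynomial Metric Set Claims.C0412

/-- NU on compact convex sets: a holomorphic direction field transversal to the cone along `f`. -/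
def NuStmt (F : MvPolynomial (Fin 4) ℂ) : Prop :=
  ∀ (X : Type) [NormedAddCommGroup X] [NormedSpace ℂ X] [FiniteDimensional ℂ X]
    (K : Set X) (f : X → V4), IsCompact K → Convex ℝ K → HolNear F f K →
    ∃ (ν : X → V4) (W : Set X), IsOpen W ∧ K ⊆ W ∧ HolOn F f W ∧ DifferentiableOn ℂ ν W ∧
      ∀ x ∈ W, dot (grad F (f x)) (ν x) = 1

/-- PROJ: the retraction `R (x,y) = y + μ(x,y) ν(x)` onto the cone, holomorphic in `(x,y)` for `y`
close to `f x`.  (`R (x,y) = y` for `y` on the cone follows from the bound on `μ`.) -/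
def RetrStmt (F : MvPolynomial (Fin 4) ℂ) : Prop :=
  ∀ (X : Type) [NormedAddCommGroup X] [NormedSpace ℂ X] [FiniteDimensional ℂ X]
    (S W : Set X) (f ν : X → V4), IsCompact S → IsOpen W → S ⊆ W → HolOn F f W →
    DifferentiableOn ℂ ν W → (∀ x ∈ W, dot (grad F (f x)) (ν x) = 1) →
    ∃ (W' : Set X) (r₀ C₀ : ℝ) (R : X × V4 → V4), IsOpen W' ∧ S ⊆ W' ∧ W' ⊆ W ∧ 0 < r₀ ∧ 0 < C₀ ∧
      HolOn F R {p | p.1 ∈ W' ∧ ‖p.2 - f p.1‖ < r₀} ∧
      ∀ p : X × V4, p.1 ∈ W' → ‖p.2 - f p.1‖ < r₀ →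
        ∃ μ : ℂ, ‖μ‖ ≤ C₀ * ‖eval p.2 F‖ ∧ R p = p.2 + μ • ν p.1

/-- the real segment `[a,b]` inside `ℂ` -/
def CSeg (a b : ℝ) : Set ℂ := (fun t : ℝ => (t : ℂ)) '' Icc a b

/-- Lemma `glue:interval` (complexifying a real parameter), `C¹` version. -/
def IntervalStmt (F : MvPolynomial (Fin 4) ℂ) : Prop :=
  ∀ (X : Type) [NormedAddCommGroup X] [NormedSpace ℂ X] [FiniteDimensional ℂ X]
    (C N : Set X) (a b : ℝ) (J : Set ℝ) (H : ℝ → X → V4), IsCompact C → Convex ℝ C → C.Nonempty →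
    a ≤ b → IsOpen J → Icc a b ⊆ J → IsOpen N → C ⊆ N → (∀ s ∈ J, HolOn F (H s) N) →
    ContDiffOn ℝ 1 (fun p : ℝ × X => H p.1 p.2) (J ×ˢ N) → ∀ ε : ℝ, 0 < ε →
    ∃ Ht : ℂ × X → V4, HolNear F Ht (CSeg a b ×ˢ C) ∧ ∀ s ∈ Icc a b, ∀ x ∈ C,
      ‖Ht ((s : ℂ), x) - H s x‖ < ε ∧
      ‖deriv (fun σ : ℂ => Ht (σ, x)) (s : ℂ) - deriv (fun t : ℝ => H t x) s‖ < ε

/-- Lemma `ana:parameter-disc`: sup-norm approximation on a complex neighbourhood of the interval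
whose size `θ` depends on the map but not on the accuracy. -/
def ParamStmt (F : MvPolynomial (Fin 4) ℂ) (r : ℕ) : Prop :=
  ∀ (E Z : Type) [NormedAddCommGroup E] [NormedSpace ℂ E] [FiniteDimensional ℂ E]
    [NormedAddCommGroup Z] [NormedSpace ℂ Z] [FiniteDimensional ℂ Z],
    Module.finrank ℂ E = r → ∀ (C : Set E) (P : Set Z) (a b : ℝ), IsCompact C → Convex ℝ C →
      C.Nonempty → IsPolydisc P → a ≤ b → ∀ H : ℂ × (E × Z) → V4,
      HolNear F H (CSeg a b ×ˢ (C ×ˢ P)) → ∃ θ : ℝ, 0 < θ ∧ ∀ ε : ℝ, 0 < ε →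
        ∃ G : ℂ × (E × Z) → V4, Entire F G ∧
          ∀ x ∈ cthickening θ (CSeg a b) ×ˢ (C ×ˢ P), ‖G x - H x‖ < ε

/-- the same for a polydisc only (`r = 0`) -/
def Param0Stmt (F : MvPolynomial (Fin 4) ℂ) : Prop :=
  ∀ (Z : Type) [NormedAddCommGroup Z] [NormedSpace ℂ Z] [FiniteDimensional ℂ Z]
    (P : Set Z) (a b : ℝ), IsPolydisc P → a ≤ b → ∀ H : ℂ × Z → V4,
      HolNear F H (CSeg a b ×ˢ P) → ∃ θ : ℝ, 0 < θ ∧ ∀ ε : ℝ, 0 < ε →
        ∃ G : ℂ × Z → V4, Entire F G ∧ ∀ x ∈ cthickening θ (CSeg a b) ×ˢ P, ‖G x - H x‖ < ε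

/-- The path lemma (the scaling trick inside the proof of Lemma `ana:face`): two entire maps close
to `f` on `C × P` are joined by a `C¹` path of maps holomorphic near the LARGE set `B × P`, which
stays close to `f` on `C⁻ × P` and moves slowly there. -/
def PathStmt (F : MvPolynomial (Fin 4) ℂ) (n : ℕ) : Prop :=
  ∀ (E' Z : Type) [NormedAddCommGroup E'] [NormedSpace ℂ E'] [FiniteDimensional ℂ E']
    [NormedAddCommGroup Z] [NormedSpace ℂ Z] [FiniteDimensional ℂ Z],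
    Module.finrank ℂ E' = n → ∀ (Cm C B : Set E') (P : Set Z), IsCompact Cm → Convex ℝ Cm →
      Cm.Nonempty → IsCompact C → Convex ℝ C → Cm ⊆ interior C → IsCompact B → Convex ℝ B →
      C ⊆ B → IsPolydisc P → ∀ f : E' × Z → V4, HolNear F f (C ×ˢ P) → ∀ ε : ℝ, 0 < ε →
      ∃ δ : ℝ, 0 < δ ∧ ∀ g₀ g₁ : E' × Z → V4, Entire F g₀ → Entire F g₁ →
        (∀ x ∈ C ×ˢ P, ‖g₀ x - f x‖ < δ) → (∀ x ∈ C ×ˢ P, ‖g₁ x - f x‖ < δ) →
        ∃ (H : ℝ → E' × Z → V4) (N : Set (E' × Z)), IsOpen N ∧ B ×ˢ P ⊆ N ∧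
          (∀ s, HolOn F (H s) N) ∧
          ContDiffOn ℝ 1 (fun p : ℝ × (E' × Z) => H p.1 p.2) (univ ×ˢ N) ∧
          (∀ s ≤ 0, ∀ x ∈ N, H s x = g₀ x) ∧ (∀ s, 1 ≤ s → ∀ x ∈ N, H s x = g₁ x) ∧
          ∀ s, ∀ x ∈ Cm ×ˢ P, ‖H s x - f x‖ < ε ∧ ‖deriv (fun t : ℝ => H t x) s‖ < ε

/-- The real family of Lemma `ana:face`: a `C¹` family `Φ_t`, `t` real, of maps holomorphic near a
fixed polydisc `B × P'`, close to `f` (with its `t`-derivative) on a `κ`-neighbourhood (in the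
`E'` and `Z` directions) of the face; `κ, B, P'` do not depend on the accuracy. -/
def FamStmt (F : MvPolynomial (Fin 4) ℂ) (n : ℕ) : Prop :=
  ∀ (E' Z : Type) [NormedAddCommGroup E'] [NormedSpace ℂ E'] [FiniteDimensional ℂ E']
    [NormedAddCommGroup Z] [NormedSpace ℂ Z] [FiniteDimensional ℂ Z],
    Module.finrank ℂ E' = n → ∀ (Fc : Set (ℂ × E')) (P : Set Z), IsCompact Fc → Convex ℝ Fc →
      Fc.Nonempty → (∀ z ∈ Fc, z.1.im = 0) → IsPolydisc P →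
      ∀ f : (ℂ × E') × Z → V4, HolNear F f (Fc ×ˢ P) →
      ∃ (κ : ℝ) (B : Set E') (P' : Set Z) (W : Set ((ℂ × E') × Z)), 0 < κ ∧ IsPolydisc B ∧
        IsPolydisc P' ∧ cthickening κ P ⊆ P' ∧ IsOpen W ∧ HolOn F f W ∧
        (∀ z ∈ Fc, ∀ y ∈ closedBall z.2 κ, ∀ u ∈ P', y ∈ B ∧ ((z.1, y), u) ∈ W) ∧
        ∀ ε : ℝ, 0 < ε → ∃ (J : Set ℝ) (N : Set (E' × Z)) (Φ : ℝ → E' × Z → V4),
          IsOpen J ∧ (∀ z ∈ Fc, z.1.re ∈ J) ∧ IsOpen N ∧ B ×ˢ P' ⊆ N ∧ (∀ t ∈ J, HolOn F (Φ t) N) ∧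
          ContDiffOn ℝ 1 (fun p : ℝ × (E' × Z) => Φ p.1 p.2) (J ×ˢ N) ∧
          ∀ z ∈ Fc, ∀ y ∈ closedBall z.2 κ, ∀ u ∈ P',
            ‖Φ z.1.re (y, u) - f ((z.1, y), u)‖ < ε ∧
            ‖deriv (fun t : ℝ => Φ t (y, u)) z.1.re - deriv (fun σ : ℂ => f ((σ, y), u)) z.1‖ < ε

end Claimed.Agent.R245
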