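/-
Row 245 / S0484, Section 4, block FACE. BRIDGE to the shared tools (Nu.lean, Spray.lean of helper292): the two tool statements in the form used by Section 4.
-/
import Claimed.Agent.R245.S4FDefs
import Claimed.Agent.R245.SCV
import Claimed.Agent.R245.Nu

set_option autoImplicit false

namespace Claimed.Agent.R245

open MvPolynomial Metric Set Claims.C0412 Filter Topology

/-- `dot a ·` as a continuous linear form -/
noncomputable def s4tDotL (a : V4) : V4 →L[ℂ] ℂ :=
  ∑ i, a i • (ContinuousLinearMap.proj i : V4 →L[ℂ] ℂ)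

theorem s4tDotL_apply (a b : V4) : s4tDotL a b = dot a b := by
  simp [s4tDotL, dot]

theorem s4t_hasFDerivAt_eval (F : MvPolynomial (Fin 4) ℂ) (y : V4) :
    HasFDerivAt (fun y : V4 => eval y F) (s4tDotL (grad F y)) y := by
  induction F using MvPolynomial.induction_on with
  | C a =>
    have : s4tDotL (grad (C a) y) = 0 := by
      ext b
      simp [s4tDotL, grad]
    rw [this]
    simpa using hasFDerivAt_const (a : ℂ) y
  | add p q hp hq =>
    have h := hp.fun_add hq
    have e : s4tDotL (grad (p + q) y) = s4tDotL (grad p y) + s4tDotL (grad q y) := by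
      ext b
      simp [s4tDotL, grad, add_mul, Finset.sum_add_distrib]
    rw [e]
    simp only [map_add]
    exact h
  | mul_X p i hp =>
    have h1 : HasFDerivAt (fun y : V4 => y i) (ContinuousLinearMap.proj i : V4 →L[ℂ] ℂ) y :=
      hasFDerivAt_apply i y
    have h := hp.fun_mul h1
    have e : s4tDotL (grad (p * X i) y)
        = eval y p • (ContinuousLinearMap.proj i : V4 →L[ℂ] ℂ) + y i • s4tDotL (grad p y) := by
      ext b
      simp only [s4tDotL_apply, add_apply, smul_apply,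
        ContinuousLinearMap.proj_apply, smul_eq_mul, dot, grad, Derivation.leibniz, pderiv_X,
        map_add, map_mul, eval_X, smul_eq_mul]
      simp only [Pi.single_apply, Finset.mul_sum, add_mul, Finset.sum_add_distrib]
      congr 1
      · rw [Finset.sum_eq_single i]
        · simp
        · intro j _ hj
          simp [Ne.symm hj]
        · simp
      · exact Finset.sum_congr rfl fun j _ => by ring
    rw [e]
    simp only [map_mul, eval_X]
    exact h


theorem s4t_differentiable_eval (F : MvPolynomial (Fin 4) ℂ) :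
    Differentiable ℂ (fun y : V4 => eval y F) :=
  fun y => (s4t_hasFDerivAt_eval F y).differentiableAt

/-- derivative of `F` along a line -/
theorem s4t_hasDerivAt_line (F : MvPolynomial (Fin 4) ℂ) (y n : V4) (μ : ℂ) :
    HasDerivAt (fun μ : ℂ => eval (y + μ • n) F) (dot (grad F (y + μ • n)) n) μ := by
  have h1 : HasDerivAt (fun μ : ℂ => y + μ • n) n μ := by
    simpa using ((hasDerivAt_id μ).smul_const n).const_add y
  have h2 := (s4t_hasFDerivAt_eval F (y + μ • n)).comp_hasDerivAt μ h1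
  rw [s4tDotL_apply] at h2
  exact h2

theorem s4t_continuous_grad (F : MvPolynomial (Fin 4) ℂ) : Continuous (grad F) :=
  continuous_pi fun _ => MvPolynomial.continuous_eval _

theorem s4t_continuousAt_grad (F : MvPolynomial (Fin 4) ℂ) {Z : Type*} [TopologicalSpace Z]
    {A : Z → V4} {z : Z} (hA : ContinuousAt A z) : ContinuousAt (fun z => grad F (A z)) z :=
  (s4t_continuous_grad F).continuousAt.comp hA

theorem s4t_continuousAt_dot {Z : Type*} [TopologicalSpace Z] {A B : Z → V4} {z : Z}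
    (hA : ContinuousAt A z) (hB : ContinuousAt B z) : ContinuousAt (fun z => dot (A z) (B z)) z := by
  unfold dot
  refine tendsto_finsetSum _ fun i _ => ?_
  exact ((continuous_apply i).continuousAt.comp hA).mul ((continuous_apply i).continuousAt.comp hB)

/-- the scalar contraction: iterates of `μ ↦ μ - φ μ` starting at `0`. -/
theorem s4t_iter {φ φ' : ℂ → ℂ} {ρ : ℝ} (hρ : 0 < ρ) (hd : ∀ μ, HasDerivAt φ (φ' μ) μ)
    (h1 : ∀ μ, ‖μ‖ ≤ ρ → ‖φ' μ - 1‖ ≤ 1 / 2) (h0 : ‖φ 0‖ ≤ ρ / 2) {m : ℕ → ℂ} (hm0 : m 0 = 0)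
    (hm : ∀ n, m (n + 1) = m n - φ (m n)) :
    (∀ n, ‖m n‖ ≤ ρ) ∧ ∀ n, ‖m (n + 1) - m n‖ ≤ ‖φ 0‖ * (1 / 2) ^ n := by
  have hT : ∀ a b : ℂ, ‖a‖ ≤ ρ → ‖b‖ ≤ ρ → ‖(a - φ a) - (b - φ b)‖ ≤ 1 / 2 * ‖a - b‖ := by
    intro a b ha hb
    have hconv : Convex ℝ (closedBall (0 : ℂ) ρ) := convex_closedBall 0 ρ
    refine hconv.norm_image_sub_le_of_norm_hasDerivWithin_le (f := fun μ => μ - φ μ)
      (f' := fun μ => 1 - φ' μ) (fun x _ => ((hasDerivAt_id x).sub (hd x)).hasDerivWithinAt)
      (fun x hx => ?_) (mem_closedBall_zero_iff.2 hb) (mem_closedBall_zero_iff.2 ha)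
    rw [norm_sub_rev]
    exact h1 x (mem_closedBall_zero_iff.1 hx)
  have hA : ∀ n, ‖m n‖ ≤ ρ := by
    intro n
    induction n with
    | zero => rw [hm0, norm_zero]; exact hρ.le
    | succ n ih =>
      have h2 := hT (m n) 0 ih (by rw [norm_zero]; exact hρ.le)
      rw [hm]
      have h3 : m n - φ (m n) = ((m n - φ (m n)) - (0 - φ 0)) + (- φ 0) := by ring
      rw [h3]
      refine (norm_add_le _ _).trans ?_
      rw [norm_neg]
      rw [sub_zero] at h2
      linarith
  refine ⟨hA, fun n => ?_⟩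
  induction n with
  | zero => rw [hm, hm0]; simp
  | succ n ih =>
    rw [hm (n + 1)]
    nth_rewrite 3 [hm n]
    refine (hT _ _ (hA _) (hA _)).trans ?_
    rw [pow_succ]
    linarith

/-- the limit of the scalar contraction. -/
theorem s4t_iter_lim {φ φ' : ℂ → ℂ} {ρ : ℝ} (hρ : 0 < ρ) (hd : ∀ μ, HasDerivAt φ (φ' μ) μ)
    (h1 : ∀ μ, ‖μ‖ ≤ ρ → ‖φ' μ - 1‖ ≤ 1 / 2) (h0 : ‖φ 0‖ ≤ ρ / 2) {m : ℕ → ℂ} (hm0 : m 0 = 0)
    (hm : ∀ n, m (n + 1) = m n - φ (m n)) :
    ∃ a : ℂ, Tendsto m atTop (𝓝 a) ∧ φ a = 0 ∧ ‖a‖ ≤ 2 * ‖φ 0‖ ∧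
      ∀ n, dist (m n) a ≤ ρ * (1 / 2) ^ n := by
  obtain ⟨-, hB⟩ := s4t_iter hρ hd h1 h0 hm0 hm
  have hB' : ∀ n, dist (m n) (m (n + 1)) ≤ ‖φ 0‖ * (1 / 2) ^ n := by
    intro n
    rw [dist_comm, dist_eq_norm]
    exact hB n
  have hc : CauchySeq m := cauchySeq_of_le_geometric (1 / 2) ‖φ 0‖ (by norm_num) hB'
  obtain ⟨a, ha⟩ := cauchySeq_tendsto_of_complete hc
  refine ⟨a, ha, ?_, ?_, ?_⟩
  · have h2 : Tendsto (fun n => φ (m n)) atTop (𝓝 (φ a)) :=
      ((hd a).continuousAt.tendsto).comp ha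
    have h3 : Tendsto (fun n => φ (m n)) atTop (𝓝 (a - a)) := by
      have h4 : (fun n => φ (m n)) = fun n => m n - m (n + 1) := by
        funext n
        rw [hm]
        ring
      rw [h4]
      exact ha.sub ((tendsto_add_atTop_iff_nat 1).2 ha)
    rw [sub_self] at h3
    exact tendsto_nhds_unique h2 h3
  · have := dist_le_of_le_geometric_of_tendsto₀ (1 / 2) ‖φ 0‖ (by norm_num) hB' ha
    rw [hm0, dist_comm, dist_zero_right] at this
    have h5 : ‖φ 0‖ / (1 - 1 / 2) = 2 * ‖φ 0‖ := by ring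
    rw [h5] at this
    exact this
  · intro n
    have := dist_le_of_le_geometric_of_tendsto (1 / 2) ‖φ 0‖ (by norm_num) hB' ha n
    have hp : (0 : ℝ) ≤ (1 / 2) ^ n := by positivity
    have h5 : ‖φ 0‖ * (1 / 2) ^ n / (1 - 1 / 2) = (2 * ‖φ 0‖) * (1 / 2) ^ n := by ring
    rw [h5] at this
    exact this.trans (mul_le_mul_of_nonneg_right (by linarith) hp)


section retr

variable {X : Type} [NormedAddCommGroup X] [NormedSpace ℂ X]

/-- the Newton-type iterates for the root `μ` of `F (y + μ ν x) = 0` -/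
noncomputable def s4tIter (F : MvPolynomial (Fin 4) ℂ) (ν : X → V4) : ℕ → X × V4 → ℂ
  | 0 => fun _ => 0
  | n + 1 => fun p => s4tIter F ν n p - eval (p.2 + s4tIter F ν n p • ν p.1) F

theorem s4t_iter_differentiableOn (F : MvPolynomial (Fin 4) ℂ) {ν : X → V4} {W : Set X}
    (hν : DifferentiableOn ℂ ν W) {U : Set (X × V4)} (hU : ∀ p ∈ U, p.1 ∈ W) (n : ℕ) :
    DifferentiableOn ℂ (s4tIter F ν n) U := by
  induction n with
  | zero => exact differentiableOn_const _
  | succ n ih =>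
    have h1 : DifferentiableOn ℂ (fun p : X × V4 => ν p.1) U :=
      hν.comp differentiableOn_fst hU
    have h2 : DifferentiableOn ℂ (fun p : X × V4 => p.2 + s4tIter F ν n p • ν p.1) U :=
      differentiableOn_snd.add (ih.smul h1)
    exact ih.sub ((s4t_differentiable_eval F).comp_differentiableOn h2)

end retr

/-- BRIDGE S4-TOOLS. The retraction along a direction field (scalar quantitative implicit function
theorem with holomorphic parameters; helper292's `Spray.lean`). -/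
theorem s4_retr (F : MvPolynomial (Fin 4) ℂ) : RetrStmt F := by
  intro X _ _ _ S W f ν hS hW hSW hf hν hdot
  have : ProperSpace X := FiniteDimensional.proper ℂ X
  obtain ⟨K, hK, hSK, hKW⟩ := exists_compact_between hS hW hSW
  have hfc : ∀ x ∈ K, ContinuousAt f x := fun x hx =>
    (hf.1.differentiableAt (hW.mem_nhds (hKW hx))).continuousAt
  have hνc : ∀ x ∈ K, ContinuousAt ν x := fun x hx =>
    (hν.differentiableAt (hW.mem_nhds (hKW hx))).continuousAt
  -- first compactness argument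
  have hP : ∀ᶠ e : V4 × ℂ in 𝓝 ((0 : V4), (0 : ℂ)), ∀ x ∈ K,
      ‖dot (grad F (f x + e.1 + e.2 • ν x)) (ν x) - 1‖ < 1 / 2 ∧ f x + e.1 + e.2 • ν x ≠ 0 := by
    refine hK.eventually_forall_of_forall_eventually fun x hx => ?_
    have c1 : ContinuousAt (fun z : (V4 × ℂ) × X => f z.2) (((0 : V4), (0 : ℂ)), x) :=
      ContinuousAt.comp (g := f) (f := Prod.snd) (hfc x hx) continuousAt_snd
    have c2 : ContinuousAt (fun z : (V4 × ℂ) × X => ν z.2) (((0 : V4), (0 : ℂ)), x) :=
      ContinuousAt.comp (g := ν) (f := Prod.snd) (hνc x hx) continuousAt_snd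
    have c3 : ContinuousAt (fun z : (V4 × ℂ) × X => f z.2 + z.1.1 + z.1.2 • ν z.2)
        (((0 : V4), (0 : ℂ)), x) :=
      (c1.add continuous_fst.fst.continuousAt).add (continuous_fst.snd.continuousAt.smul c2)
    have c4 : ContinuousAt (fun z : (V4 × ℂ) × X =>
        dot (grad F (f z.2 + z.1.1 + z.1.2 • ν z.2)) (ν z.2)) (((0 : V4), (0 : ℂ)), x) :=
      s4t_continuousAt_dot (s4t_continuousAt_grad F c3) c2
    have c5 : ContinuousAt (fun z : (V4 × ℂ) × X =>
        ‖dot (grad F (f z.2 + z.1.1 + z.1.2 • ν z.2)) (ν z.2) - 1‖) (((0 : V4), (0 : ℂ)), x) :=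
      (c4.sub continuousAt_const).norm
    have v5 : ‖dot (grad F (f x + (0 : V4) + (0 : ℂ) • ν x)) (ν x) - 1‖ < 1 / 2 := by
      rw [zero_smul, add_zero, add_zero, hdot x (hKW hx), sub_self, norm_zero]
      norm_num
    have v3 : f x + (0 : V4) + (0 : ℂ) • ν x ≠ 0 := by
      rw [zero_smul, add_zero, add_zero]
      exact (hf.2 (hKW hx)).1
    exact (c5.eventually_lt continuousAt_const v5).and (c3.eventually_ne v3)
  obtain ⟨δ, hδ, hPδ⟩ := Metric.eventually_nhds_iff.1 hP
  -- second compactness argument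
  have hQ : ∀ᶠ v : V4 in 𝓝 (0 : V4), ∀ x ∈ K, ‖eval (f x + v) F‖ < δ / 4 := by
    refine hK.eventually_forall_of_forall_eventually fun x hx => ?_
    have c1 : ContinuousAt (fun z : V4 × X => f z.2) ((0 : V4), x) :=
      ContinuousAt.comp (g := f) (f := Prod.snd) (hfc x hx) continuousAt_snd
    have c2 : ContinuousAt (fun z : V4 × X => ‖eval (f z.2 + z.1) F‖) ((0 : V4), x) :=
      (ContinuousAt.comp (g := fun y : V4 => eval y F) (MvPolynomial.continuous_eval F).continuousAt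
        (c1.add continuousAt_fst)).norm
    have v2 : ‖eval (f x + (0 : V4)) F‖ < δ / 4 := by
      rw [add_zero, (hf.2 (hKW hx)).2, norm_zero]
      positivity
    exact c2.eventually_lt continuousAt_const v2
  obtain ⟨δ', hδ', hQδ⟩ := Metric.eventually_nhds_iff.1 hQ
  set U : Set (X × V4) := {p | p.1 ∈ interior K ∧ ‖p.2 - f p.1‖ < min δ δ'} with hU
  have key : ∀ p ∈ U, ∃ a : ℂ, Tendsto (fun n => s4tIter F ν n p) atTop (𝓝 a) ∧
      eval (p.2 + a • ν p.1) F = 0 ∧ ‖a‖ ≤ 2 * ‖eval p.2 F‖ ∧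
      (∀ n, dist (s4tIter F ν n p) a ≤ δ / 2 * (1 / 2) ^ n) ∧ p.2 + a • ν p.1 ≠ 0 := by
    rintro ⟨x, y⟩ ⟨hx, hy⟩
    have hxK : x ∈ K := interior_subset hx
    simp only at hx hy ⊢
    obtain ⟨v, hv⟩ : ∃ v, v = y - f x := ⟨_, rfl⟩
    have hyv : y = f x + v := by rw [hv]; abel
    rw [← hv] at hy
    have hvδ : ‖v‖ < δ := hy.trans_le (min_le_left _ _)
    have hvδ' : ‖v‖ < δ' := hy.trans_le (min_le_right _ _)
    have hPv : ∀ μ : ℂ, ‖μ‖ < δ → ‖dot (grad F (y + μ • ν x)) (ν x) - 1‖ < 1 / 2 ∧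
        y + μ • ν x ≠ 0 := by
      intro μ hμ
      have h1 : dist (v, μ) ((0 : V4), (0 : ℂ)) < δ := by
        rw [Prod.dist_eq, dist_zero_right, dist_zero_right]
        exact max_lt hvδ hμ
      have h2 := hPδ h1 x hxK
      rw [hyv]
      exact h2
    have hF0 : ‖eval y F‖ < δ / 4 := by
      have h1 : dist v (0 : V4) < δ' := by rw [dist_zero_right]; exact hvδ'
      have h2 := hQδ h1 x hxK
      rw [hyv]
      exact h2
    have e0 : eval (y + (0 : ℂ) • ν x) F = eval y F := by rw [zero_smul, add_zero]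
    obtain ⟨a, ha1, ha2, ha3, ha4⟩ := s4t_iter_lim (φ := fun μ : ℂ => eval (y + μ • ν x) F)
      (φ' := fun μ : ℂ => dot (grad F (y + μ • ν x)) (ν x)) (ρ := δ / 2) (by positivity)
      (fun μ => s4t_hasDerivAt_line F y (ν x) μ)
      (fun μ hμ => (hPv μ (by linarith)).1.le)
      (by
        show ‖eval (y + (0 : ℂ) • ν x) F‖ ≤ δ / 2 / 2
        rw [e0]
        linarith)
      (m := fun n => s4tIter F ν n (x, y)) rfl (fun n => rfl)
    have ha3' : ‖a‖ ≤ 2 * ‖eval y F‖ := by
      have : ‖a‖ ≤ 2 * ‖eval (y + (0 : ℂ) • ν x) F‖ := ha3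
      rwa [e0] at this
    exact ⟨a, ha1, ha2, ha3', ha4, (hPv a (by linarith)).2⟩
  choose! mu hmu using key
  have hUo : IsOpen U := by
    have hc : ContinuousOn (fun p : X × V4 => ‖p.2 - f p.1‖) (Prod.fst ⁻¹' interior K) := by
      refine (continuousOn_snd.sub ?_).norm
      exact (hf.1.continuousOn.mono (interior_subset.trans hKW)).comp continuousOn_fst
        (fun p hp => hp)
    exact hc.isOpen_inter_preimage (isOpen_interior.preimage continuous_fst)
      (isOpen_Iio (a := min δ δ'))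
  have hUW : ∀ p ∈ U, p.1 ∈ W := fun p hp => hKW (interior_subset hp.1)
  have hmud : DifferentiableOn ℂ mu U := by
    refine scv_tendsto (l := atTop) (F := s4tIter F ν) hUo
      (Eventually.of_forall fun n => s4t_iter_differentiableOn F hν hUW n) ?_
    refine TendstoUniformlyOn.tendstoLocallyUniformlyOn ?_
    rw [Metric.tendstoUniformlyOn_iff]
    intro ε hε
    have ht : Tendsto (fun n : ℕ => δ / 2 * (1 / 2 : ℝ) ^ n) atTop (𝓝 (δ / 2 * 0)) :=
      (tendsto_pow_atTop_nhds_zero_of_lt_one (by norm_num) (by norm_num)).const_mul _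
    rw [mul_zero] at ht
    filter_upwards [ht.eventually_lt_const hε] with n hn p hp
    rw [dist_comm]
    exact ((hmu p hp).2.2.2.1 n).trans_lt hn
  refine ⟨interior K, min δ δ', 2, fun p => p.2 + mu p • ν p.1, isOpen_interior, hSK,
    interior_subset.trans hKW, lt_min hδ hδ', two_pos, ⟨?_, ?_⟩, ?_⟩
  · exact differentiableOn_snd.add (hmud.smul (hν.comp differentiableOn_fst hUW))
  · intro p hp
    exact ⟨(hmu p hp).2.2.2.2, (hmu p hp).2.1⟩
  · intro p hp1 hp2
    exact ⟨mu p, (hmu p ⟨hp1, hp2⟩).2.2.1, rfl⟩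

/-- BRIDGE S4-TOOLS. NU on compact convex sets (Gelfand theory + Hefer by integration; helper292's
`Nu.lean`). -/
theorem s4_nu (F : MvPolynomial (Fin 4) ℂ) (hF : IsSmoothQuarticForm F) : NuStmt F := by
  intro X _ _ _ K f hK hKc hf
  obtain ⟨W, ν, h⟩ := nu_exists_convex hF hK hKc hf
  exact ⟨ν, W, h⟩

end Claimed.Agent.R245
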