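/-
Row 245 / S0484, GEO block (PK): THE PEAK POINT TRICK.   Architect: helper138.   Prefix `gp`.

  gp_peak : if property `L` holds at all points of ONE plane section `{a · y = 0}` of the cone, then it holds everywhere.

Input: `DiscStmt F` = propagation of `L` across a (curved) disc, chart form (proved elsewhere: DISC, helper98).
PROOF.  `A = {y ∈ Cone F, ¬ L}` is closed in the cone and `ℂˣ`-invariant, `a · y ≠ 0` on `A`.  If `A ≠ ∅`, the scale invariant function
`|y|² / |a · y|²` (`|y|² = gpN y = ∑ |y i|²`) has a maximum on `A` at a point `x` with `a · x = 1` (`gp_exists_max`).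
With `g = grad F x` choose (`gp_jet`) vectors `e, e', m, n`:
   `a·e = g·e = ⟨e,x⟩ = 0`,   `a·e' = ⟨e',x⟩ = 0`,  `g·e' = - Q e`  (`Q = gpQ F x` = quadratic term of `F` at `x`),   `g·n = 1`, `a·n = 0`,  `g·m = 0`, `x, e, m` independent.
Then `F (x + z e + z² e') = O(z³)` (`gp_taylor`); the retraction onto the cone along `n` gives a chart `ξ(z,w) = Y(z,w) + μ(z,w) n`,
`Y = x + z e + z² e' + w m`, `|μ| ≤ C₀ |F(Y)|` (`gp_chart`), and `a·ξ(z,0) = 1`, `|ξ(z,0)|² ≥ |x|² + |z|²(|e|² - C|z|) > |x|²` for small `z ≠ 0` (`gp_norm_gt`).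
So the punctured disc `ξ(z,0)` avoids `A`, and `DiscStmt` gives `L` at `x`: contradiction.

LEAVES (each: statement FROZEN, helper lemmas with prefix `gp…_` directly above it):
  GP-MAX   gp_exists_max                                        (~120 lines)
  GP-JET   gp_Q_isotropic, gp_jet                               (~200 lines, pure linear algebra in `Fin 4 → ℂ`)
  GP-TAY   gp_taylor                                            (~150 lines, polynomials)
  GP-CHART gp_chart                                             (~150 lines, uses `s4_retr` (proved) as a black box)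
  GP-NORM  gp_norm_gt                                           (~120 lines, inequalities)
-/
import Mathlib
import Claimed.Agent.R245.Defs
import Claimed.Agent.R245.L2Poly
import Claimed.Agent.R245.L2Smul
import Claimed.Agent.R245.S4Tools
import Claimed.Agent.R245.Spray

set_option autoImplicit false

namespace Claimed.Agent.R245

open MvPolynomial Metric Set Claims.C0412

/-- **DISC, chart form** (Cor. loc:disc of the paper): `L` propagates to the centre of a disc `z ↦ ξ(z,0)`, `|z| ≤ r`, in a chart `ξ` of the cone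
(modulo scaling) which is regular at the centre, when `L` holds on the boundary circle. -/
def DiscStmt (F : MvPolynomial (Fin 4) ℂ) : Prop :=
  ∀ (ξ : ℂ × ℂ → V4) (r : ℝ), 0 < r → HolNear F ξ (closedBall (0 : ℂ) r ×ˢ ({0} : Set ℂ)) →
    LinearIndependent ℂ ![ξ (0, 0), fderiv ℂ ξ (0, 0) (1, 0), fderiv ℂ ξ (0, 0) (0, 1)] →
    (∀ ζ : ℂ, ‖ζ‖ = r → HasL F (ξ (ζ, 0))) → HasL F (ξ (0, 0))

/-- the hermitian norm squared -/
noncomputable def gpN (y : V4) : ℝ := ∑ i, ‖y i‖ ^ 2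

/-- the hermitian product (linear in the first variable) -/
noncomputable def gpH (a b : V4) : ℂ := ∑ i, a i * (starRingEnd ℂ) (b i)

/-- the quadratic term of the Taylor expansion of `F` at `x` -/
noncomputable def gpQ (F : MvPolynomial (Fin 4) ℂ) (x e : V4) : ℂ :=
  (1 / 2) * ∑ i, ∑ j, eval x (pderiv i (pderiv j F)) * e i * e j

/-- the polynomial 2-jet `x + z e + z² e' + w m` -/
noncomputable def gpY (x e e' m : V4) (q : ℂ × ℂ) : V4 := x + q.1 • e + q.1 ^ 2 • e' + q.2 • m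

/-! ### scaling (`L2Smul.lean`, helper98) and openness -/

theorem gp_hasL_smul {F : MvPolynomial (Fin 4) ℂ} (hF : F.IsHomogeneous 4) {y : V4} (hy : HasL F y)
    {t : ℂ} (ht : t ≠ 0) : HasL F (t • y) := l2_hasL_smul hF hy ht

theorem gp_isOpen_hasL (F : MvPolynomial (Fin 4) ℂ) : IsOpen {y : V4 | HasL F y} := by
  rw [isOpen_iff_mem_nhds]
  rintro y ⟨V, hV, hyV⟩
  exact Filter.mem_of_superset (hV.1.mem_nhds hyV) fun z hz => ⟨V, hV, hz⟩

/-! ### GP-MAX -/

theorem gpm_dot_smul (a b : V4) (t : ℂ) : dot a (t • b) = t * dot a b := by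
  simp only [dot, Pi.smul_apply, smul_eq_mul, Finset.mul_sum]
  exact Finset.sum_congr rfl fun i _ => by ring

theorem gpm_gpN_smul (t : ℂ) (y : V4) : gpN (t • y) = ‖t‖ ^ 2 * gpN y := by
  simp only [gpN, Pi.smul_apply, smul_eq_mul, norm_mul, mul_pow, Finset.mul_sum]

theorem gpm_continuous_gpN : Continuous gpN := by
  unfold gpN
  exact continuous_finsetSum _ fun i _ => ((continuous_apply i).norm).pow 2

theorem gpm_continuous_dot (a : V4) : Continuous (dot a) := by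
  have : dot a = fun b => l2dotL a b := funext fun b => (l2dotL_apply a b).symm
  rw [this]
  exact (l2dotL a).continuous

/-- The maximum point.  `K = {y | ‖y‖ = 1 ∧ eval y F = 0 ∧ ¬ HasL F y}` is compact (closed in the unit sphere of the finite dimensional space `V4`:
`gp_isOpen_hasL`, `MvPolynomial.continuous_eval`), nonempty (`‖y₀‖⁻¹ • y₀`), and `dot a y ≠ 0` on `K` (by `ha`); `y ↦ gpN y / ‖dot a y‖²` is continuous on `K`:
maximum at `y₁`; `x = (dot a y₁)⁻¹ • y₁`.  For `y` in the cone without `L`: `‖y‖⁻¹ • y ∈ K`; both sides are homogeneous of degree 2 in `|t|`. -/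
theorem gp_exists_max {F : MvPolynomial (Fin 4) ℂ} (hF : F.IsHomogeneous 4) (a : V4)
    (ha : ∀ y ∈ Cone F, dot a y = 0 → HasL F y) (y₀ : V4) (hy₀ : y₀ ∈ Cone F) (hn : ¬ HasL F y₀) :
    ∃ x ∈ Cone F, ¬ HasL F x ∧ dot a x = 1 ∧
      ∀ y ∈ Cone F, ¬ HasL F y → gpN y ≤ gpN x * ‖dot a y‖ ^ 2 := by
  set K : Set V4 := sphere (0 : V4) 1 ∩ ({y | eval y F = 0} ∩ {y | HasL F y}ᶜ) with hK
  have hKc : IsCompact K := by
    refine (isCompact_sphere (0 : V4) 1).inter_right (IsClosed.inter ?_ ?_)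
    · exact isClosed_eq (MvPolynomial.continuous_eval F) continuous_const
    · exact (gp_isOpen_hasL F).isClosed_compl
  have hKcone : ∀ y ∈ K, y ∈ Cone F := by
    rintro y ⟨h1, h2, -⟩
    refine ⟨?_, h2⟩
    intro h0
    rw [h0, mem_sphere_zero_iff_norm, norm_zero] at h1
    exact zero_ne_one h1
  have hKdot : ∀ y ∈ K, dot a y ≠ 0 := fun y hy h0 => hy.2.2 (ha y (hKcone y hy) h0)
  -- normalisation
  have hnorm : ∀ y ∈ Cone F, ¬ HasL F y → ((‖y‖⁻¹ : ℝ) : ℂ) • y ∈ K := by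
    intro y hy hyn
    have hy0 : 0 < ‖y‖ := norm_pos_iff.2 hy.1
    have hc : ((‖y‖⁻¹ : ℝ) : ℂ) ≠ 0 := by
      exact_mod_cast (inv_pos.2 hy0).ne'
    refine ⟨?_, (l2_smul_mem_cone hF hc hy).2, ?_⟩
    · rw [mem_sphere_zero_iff_norm, norm_smul, Complex.norm_real, Real.norm_eq_abs,
        abs_of_pos (inv_pos.2 hy0), inv_mul_cancel₀ hy0.ne']
    · intro hL
      apply hyn
      have := gp_hasL_smul hF hL (inv_ne_zero hc)
      rwa [smul_smul, inv_mul_cancel₀ hc, one_smul] at this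
  have hcont : ContinuousOn (fun y => gpN y / ‖dot a y‖ ^ 2) K := by
    refine gpm_continuous_gpN.continuousOn.div ((gpm_continuous_dot a).norm.pow 2).continuousOn ?_
    intro y hy
    exact pow_ne_zero 2 (norm_ne_zero_iff.2 (hKdot y hy))
  obtain ⟨y₁, hy₁, hmax⟩ := hKc.exists_isMaxOn ⟨_, hnorm y₀ hy₀ hn⟩ hcont
  have hd₁ := hKdot y₁ hy₁
  refine ⟨(dot a y₁)⁻¹ • y₁, l2_smul_mem_cone hF (inv_ne_zero hd₁) (hKcone y₁ hy₁), ?_, ?_, ?_⟩
  · intro hL
    apply hy₁.2.2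
    have := gp_hasL_smul hF hL hd₁
    rwa [smul_smul, mul_inv_cancel₀ hd₁, one_smul] at this
  · rw [gpm_dot_smul, inv_mul_cancel₀ hd₁]
  · intro y hy hyn
    have hy0 : 0 < ‖y‖ := norm_pos_iff.2 hy.1
    have hyK := hnorm y hy hyn
    have h1 : gpN (((‖y‖⁻¹ : ℝ) : ℂ) • y) / ‖dot a (((‖y‖⁻¹ : ℝ) : ℂ) • y)‖ ^ 2 ≤
        gpN y₁ / ‖dot a y₁‖ ^ 2 := hmax hyK
    have hdy : dot a y ≠ 0 := fun h0 => hyn (ha y hy h0)
    have hdyn : 0 < ‖dot a y‖ ^ 2 := pow_pos (norm_pos_iff.2 hdy) 2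
    have hcn : ‖((‖y‖⁻¹ : ℝ) : ℂ)‖ = ‖y‖⁻¹ := by
      rw [Complex.norm_real, Real.norm_eq_abs, abs_of_pos (inv_pos.2 hy0)]
    rw [gpm_gpN_smul, gpm_dot_smul, norm_mul, mul_pow, hcn,
      mul_div_mul_left _ _ (pow_ne_zero 2 (inv_pos.2 hy0).ne'), div_le_iff₀ hdyn] at h1
    rw [gpm_gpN_smul, norm_inv, inv_pow]
    calc gpN y ≤ gpN y₁ / ‖dot a y₁‖ ^ 2 * ‖dot a y‖ ^ 2 := h1
      _ = (‖dot a y₁‖ ^ 2)⁻¹ * gpN y₁ * ‖dot a y‖ ^ 2 := by rw [div_eq_mul_inv]; ring

/-! ### GP-JET -/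

theorem gpj_Q_expand (F : MvPolynomial (Fin 4) ℂ) (x u v : V4) (t : ℂ) :
    gpQ F x ((1 : ℂ) • u + t • v) = gpQ F x v * (t * t) +
      ((1 / 2) * ∑ i, ∑ j, eval x (pderiv i (pderiv j F)) * (u i * v j + v i * u j)) * t +
      gpQ F x u := by
  simp only [gpQ, Pi.add_apply, Pi.smul_apply, smul_eq_mul, one_mul]
  rw [mul_assoc, mul_assoc, ← mul_add, ← mul_add, Finset.sum_mul, Finset.sum_mul,
    ← Finset.sum_add_distrib, ← Finset.sum_add_distrib]
  congr 1
  refine Finset.sum_congr rfl fun i _ => ?_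
  rw [Finset.sum_mul, Finset.sum_mul, ← Finset.sum_add_distrib, ← Finset.sum_add_distrib]
  refine Finset.sum_congr rfl fun j _ => ?_
  ring

/-- a quadratic form has an isotropic vector in every pencil.  (`t ↦ gpQ F x (u + t • v)` is a polynomial of degree `≤ 2` with leading coefficient `gpQ F x v`:
if `gpQ F x v = 0` take `(s,t) = (0,1)`; otherwise a root `t` exists (`IsAlgClosed.exists_root` or the explicit formula with `Complex.cpow`/`IsAlgClosed.exists_pow_nat_eq`), take `(1,t)`.) -/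
theorem gp_Q_isotropic (F : MvPolynomial (Fin 4) ℂ) (x u v : V4) :
    ∃ s t : ℂ, (s ≠ 0 ∨ t ≠ 0) ∧ gpQ F x (s • u + t • v) = 0 := by
  by_cases hv : gpQ F x v = 0
  · refine ⟨0, 1, Or.inr one_ne_zero, ?_⟩
    rw [zero_smul, one_smul, zero_add, hv]
  · obtain ⟨t, ht⟩ := exists_quadratic_eq_zero (a := gpQ F x v)
      (b := (1 / 2) * ∑ i, ∑ j, eval x (pderiv i (pderiv j F)) * (u i * v j + v i * u j))
      (c := gpQ F x u) hv (IsAlgClosed.exists_eq_mul_self _)
    exact ⟨1, t, Or.inl one_ne_zero, by rw [gpj_Q_expand, ht]⟩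

theorem gpj_dot_add (a b c : V4) : dot a (b + c) = dot a b + dot a c := by
  simp [dot, mul_add, Finset.sum_add_distrib]

theorem gpj_dot_smul (a b : V4) (t : ℂ) : dot a (t • b) = t * dot a b := by
  simp only [dot, Pi.smul_apply, smul_eq_mul, Finset.mul_sum]
  exact Finset.sum_congr rfl fun i _ => by ring

theorem gpj_dot_zero (a : V4) : dot a 0 = 0 := by
  simp [dot]

theorem gpj_gpH_eq_dot (y x : V4) : gpH y x = dot (fun i => (starRingEnd ℂ) (x i)) y := by
  unfold gpH dot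
  exact Finset.sum_congr rfl fun i _ => mul_comm _ _

theorem gpj_gpH_self_ne_zero {e : V4} (he : e ≠ 0) : gpH e e ≠ 0 := by
  intro h
  apply he
  have h1 : gpH e e = ((∑ i, ‖e i‖ ^ 2 : ℝ) : ℂ) := by
    unfold gpH
    push_cast
    refine Finset.sum_congr rfl fun i _ => ?_
    rw [Complex.mul_conj, Complex.normSq_eq_norm_sq]
    push_cast
    rfl
  rw [h1] at h
  have h2 : ∑ i, ‖e i‖ ^ 2 = 0 := by exact_mod_cast h
  funext i
  have h3 := (Finset.sum_eq_zero_iff_of_nonneg (fun i _ => by positivity)).1 h2 i (Finset.mem_univ i)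
  exact norm_eq_zero.1 (pow_eq_zero_iff (two_ne_zero)|>.1 h3)

/-- three linear equations in four unknowns have a nonzero solution -/
theorem gpj_exists_ne_zero (p q r : V4) : ∃ y : V4, y ≠ 0 ∧ dot p y = 0 ∧ dot q y = 0 ∧ dot r y = 0 := by
  set L : V4 →ₗ[ℂ] (Fin 3 → ℂ) := LinearMap.pi ![(l2dotL p : V4 →ₗ[ℂ] ℂ), (l2dotL q : V4 →ₗ[ℂ] ℂ),
    (l2dotL r : V4 →ₗ[ℂ] ℂ)] with hL
  have hker : LinearMap.ker L ≠ ⊥ := by
    apply LinearMap.ker_ne_bot_of_finrank_lt
    simp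
  obtain ⟨y, hy, hy0⟩ := Submodule.exists_mem_ne_zero_of_ne_bot hker
  have hy' : L y = 0 := hy
  refine ⟨y, hy0, ?_, ?_, ?_⟩
  · have := congrFun hy' 0
    simpa [hL, l2dotL_apply] using this
  · have := congrFun hy' 1
    simpa [hL, l2dotL_apply] using this
  · have := congrFun hy' 2
    simpa [hL, l2dotL_apply] using this

/-- The 2-jet (linear algebra).  `K₂ = ker (dot a) ∩ ker (gpH · x)` has dimension `≥ 2`.
Case 1: `dot g u ≠ 0` for some `u ∈ K₂`.  Take `0 ≠ e ∈ K₂ ∩ ker (dot g)` (dimension `≥ 1`), `e' = - (Q e / dot g u) • u`.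
Case 2: `dot g = 0` on `K₂`.  Take independent `u, v ∈ K₂`, `e = s • u + t • v` isotropic (`hQ`), `e' = 0`.
`n`: `a` and `g` are independent (`dot a x = 1`, `dot g x = 0`, `g ≠ 0`), so `y ↦ (dot g y, dot a y)` is onto `ℂ²`.
`m`: `x, e ∈ ker (dot g)` are independent (`dot a x = 1`, `dot a e = 0`, `e ≠ 0`) and `ker (dot g)` has dimension 3. -/
theorem gp_jet (Q : V4 → ℂ) (hQ : ∀ u v : V4, ∃ s t : ℂ, (s ≠ 0 ∨ t ≠ 0) ∧ Q (s • u + t • v) = 0)
    (a g x : V4) (hax : dot a x = 1) (hgx : dot g x = 0) (hg : g ≠ 0) :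
    ∃ e e' m n : V4, dot a e = 0 ∧ dot g e = 0 ∧ gpH e x = 0 ∧
      dot a e' = 0 ∧ dot g e' = - Q e ∧ gpH e' x = 0 ∧
      dot g n = 1 ∧ dot a n = 0 ∧ dot g m = 0 ∧ LinearIndependent ℂ ![x, e, m] := by
  -- the pair `e, e'`
  have hee : ∃ e e' : V4, e ≠ 0 ∧ dot a e = 0 ∧ dot g e = 0 ∧ gpH e x = 0 ∧
      dot a e' = 0 ∧ dot g e' = - Q e ∧ gpH e' x = 0 := by
    obtain ⟨e₀, he₀, h1, h2, h3⟩ := gpj_exists_ne_zero a (fun i => (starRingEnd ℂ) (x i)) g
    obtain ⟨v, hv, k1, k2, k3⟩ := gpj_exists_ne_zero a (fun i => (starRingEnd ℂ) (x i))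
      (fun i => (starRingEnd ℂ) (e₀ i))
    by_cases hgv : dot g v = 0
    · obtain ⟨s, t, hst, hQe⟩ := hQ e₀ v
      refine ⟨s • e₀ + t • v, 0, ?_, ?_, ?_, ?_, gpj_dot_zero a, ?_, ?_⟩
      · intro h0
        have h4 : gpH (s • e₀ + t • v) e₀ = 0 := by rw [h0, gpj_gpH_eq_dot, gpj_dot_zero]
        rw [gpj_gpH_eq_dot, gpj_dot_add, gpj_dot_smul, gpj_dot_smul, k3, mul_zero, add_zero,
          ← gpj_gpH_eq_dot] at h4
        have hs : s = 0 := (mul_eq_zero.1 h4).resolve_right (gpj_gpH_self_ne_zero he₀)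
        rw [hs, zero_smul, zero_add] at h0
        have ht : t = 0 := (smul_eq_zero.1 h0).resolve_right hv
        rcases hst with h | h
        · exact h hs
        · exact h ht
      · rw [gpj_dot_add, gpj_dot_smul, gpj_dot_smul, h1, k1]; ring
      · rw [gpj_dot_add, gpj_dot_smul, gpj_dot_smul, h3, hgv]; ring
      · rw [gpj_gpH_eq_dot, gpj_dot_add, gpj_dot_smul, gpj_dot_smul, h2, k2]; ring
      · rw [gpj_dot_zero, hQe, neg_zero]
      · rw [gpj_gpH_eq_dot, gpj_dot_zero]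
    · refine ⟨e₀, (-(Q e₀ / dot g v)) • v, he₀, h1, h3, ?_, ?_, ?_, ?_⟩
      · rw [gpj_gpH_eq_dot, h2]
      · rw [gpj_dot_smul, k1, mul_zero]
      · rw [gpj_dot_smul]
        field_simp
      · rw [gpj_gpH_eq_dot, gpj_dot_smul, k2, mul_zero]
  obtain ⟨e, e', he0, hae, hge, hHe, hae', hge', hHe'⟩ := hee
  -- the vector `n`
  have hn : ∃ n : V4, dot g n = 1 ∧ dot a n = 0 := by
    have : ∃ i, g i ≠ 0 := by
      by_contra hcon
      push Not at hcon
      exact hg (funext hcon)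
    obtain ⟨i, hi⟩ := this
    have hy : dot g (Pi.single i 1) = g i := by
      simp [dot, Pi.single_apply]
    refine ⟨(g i)⁻¹ • (Pi.single i 1 + (-(dot a (Pi.single i 1))) • x), ?_, ?_⟩
    · rw [gpj_dot_smul, gpj_dot_add, gpj_dot_smul, hgx, hy, mul_zero, add_zero, inv_mul_cancel₀ hi]
    · rw [gpj_dot_smul, gpj_dot_add, gpj_dot_smul, hax]
      ring
  obtain ⟨n, hgn, han⟩ := hn
  -- the vector `m`
  obtain ⟨m, hm0, hgm, ham, hme⟩ := gpj_exists_ne_zero g a (fun i => (starRingEnd ℂ) (e i))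
  refine ⟨e, e', m, n, hae, hge, hHe, hae', hge', hHe', hgn, han, hgm, ?_⟩
  rw [Fintype.linearIndependent_iff]
  intro c hc
  rw [Fin.sum_univ_three] at hc
  simp only [Matrix.cons_val_zero, Matrix.cons_val_one, Matrix.cons_val_two, Matrix.head_cons,
    Matrix.tail_cons] at hc
  have hc0 : c 0 = 0 := by
    have := congrArg (dot a) hc
    rw [gpj_dot_add, gpj_dot_add, gpj_dot_smul, gpj_dot_smul, gpj_dot_smul, hax, hae, ham,
      gpj_dot_zero] at this
    simpa using this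
  rw [hc0, zero_smul, zero_add] at hc
  have hc1 : c 1 = 0 := by
    have := congrArg (dot (fun i => (starRingEnd ℂ) (e i))) hc
    rw [gpj_dot_add, gpj_dot_smul, gpj_dot_smul, hme, gpj_dot_zero, mul_zero, add_zero,
      ← gpj_gpH_eq_dot] at this
    exact (mul_eq_zero.1 this).resolve_right (gpj_gpH_self_ne_zero he0)
  rw [hc1, zero_smul, zero_add] at hc
  have hc2 : c 2 = 0 := (smul_eq_zero.1 hc).resolve_right hm0
  intro i
  fin_cases i
  · exact hc0
  · exact hc1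
  · exact hc2

/-! ### GP-TAY -/

/-- chain rule for the substitution of one-variable polynomials. -/
theorem gpt_chain (γ : Fin 4 → Polynomial ℂ) (G : MvPolynomial (Fin 4) ℂ) :
    Polynomial.derivative (aeval γ G) =
      ∑ i, aeval γ (pderiv i G) * Polynomial.derivative (γ i) := by
  induction G using MvPolynomial.induction_on with
  | C a => simp [Polynomial.algebraMap_eq]
  | add p q hp hq =>
    simp only [map_add, hp, hq, add_mul, Finset.sum_add_distrib]
  | mul_X p n hp =>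
    have h1 : ∀ i, aeval γ (pderiv i (p * X n)) * Polynomial.derivative (γ i)
        = (aeval γ (pderiv i p) * Polynomial.derivative (γ i)) * γ n
          + (if i = n then aeval γ p * Polynomial.derivative (γ n) else 0) := by
      intro i
      rw [pderiv_mul, pderiv_X, map_add, map_mul, map_mul, aeval_X]
      by_cases hi : i = n
      · subst hi
        simp
        ring
      · simp [hi]
        ring
    rw [map_mul, aeval_X, Polynomial.derivative_mul, hp, Finset.sum_congr rfl (fun i _ => h1 i),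
      Finset.sum_add_distrib, Finset.sum_mul]
    simp

/-- evaluation of a substitution. -/
theorem gpt_eval (γ : Fin 4 → Polynomial ℂ) (G : MvPolynomial (Fin 4) ℂ) (z : ℂ) :
    (aeval γ G).eval z = eval (fun i => (γ i).eval z) G := by
  induction G using MvPolynomial.induction_on with
  | C a => simp [Polynomial.algebraMap_eq]
  | add p q hp hq => simp only [map_add, Polynomial.eval_add, hp, hq]
  | mul_X p n hp => simp only [map_mul, aeval_X, Polynomial.eval_mul, hp, eval_X]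

/-- the curve `x + z e + z² e'` as a family of polynomials -/
noncomputable def gptγ (x e e' : V4) : Fin 4 → Polynomial ℂ := fun i =>
  Polynomial.C (x i) + Polynomial.C (e i) * Polynomial.X + Polynomial.C (e' i) * Polynomial.X ^ 2

theorem gptγ_eval (x e e' : V4) (z : ℂ) :
    (fun i => (gptγ x e e' i).eval z) = x + z • e + z ^ 2 • e' := by
  ext i
  simp [gptγ]
  ring

theorem gptγ_eval_zero (x e e' : V4) :
    (fun i => (gptγ x e e' i).eval 0) = x := by
  rw [gptγ_eval]; simp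

theorem gptγ_deriv (x e e' : V4) (i : Fin 4) :
    Polynomial.derivative (gptγ x e e' i) = Polynomial.C (e i) + Polynomial.C (2 * e' i) * Polynomial.X := by
  have h2 : (Polynomial.C (2 : ℂ) : Polynomial ℂ) = 2 := map_ofNat Polynomial.C 2
  simp [gptγ, h2]
  ring

theorem gptγ_deriv2 (x e e' : V4) (i : Fin 4) :
    Polynomial.derivative (Polynomial.derivative (gptγ x e e' i)) = Polynomial.C (2 * e' i) := by
  rw [gptγ_deriv]
  simp

/-- `F (x + z e + z² e') = O(z³)`.   `P = aeval (fun i => C (x i) + C (e i) * X + C (e' i) * X ^ 2) F : ℂ[X]` satisfies `P.eval z = eval (x + z e + z² e') F`;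
chain rule `derivative (aeval γ G) = ∑ i, aeval γ (pderiv i G) * derivative (γ i)` (`MvPolynomial.induction_on`), applied twice, gives
`P.coeff 0 = F x = 0`, `P.coeff 1 = g·e = 0`, `2 P.coeff 2 = 2 Q e + 2 g·e' = 0`; so `X ^ 3 ∣ P` (`Polynomial.X_pow_dvd_iff`), `P = X ^ 3 * P₁`,
`C = sup` of `‖P₁.eval z‖` on the closed unit disc. -/
theorem gp_taylor (F : MvPolynomial (Fin 4) ℂ) (x e e' : V4) (hx : eval x F = 0)
    (he : dot (grad F x) e = 0) (he' : dot (grad F x) e' = - gpQ F x e) :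
    ∃ C : ℝ, 0 ≤ C ∧ ∀ z : ℂ, ‖z‖ ≤ 1 → ‖eval (x + z • e + z ^ 2 • e') F‖ ≤ C * ‖z‖ ^ 3 := by
  set γ := gptγ x e e' with hγ
  set P : Polynomial ℂ := aeval γ F with hP
  have hd0 : ∀ i, (Polynomial.derivative (γ i)).eval 0 = e i := by
    intro i; rw [hγ, gptγ_deriv]; simp
  have hdd0 : ∀ i, (Polynomial.derivative (Polynomial.derivative (γ i))).eval 0 = 2 * e' i := by
    intro i; rw [hγ, gptγ_deriv2]; simp
  have hev0 : ∀ G : MvPolynomial (Fin 4) ℂ, (aeval γ G).eval 0 = eval x G := by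
    intro G; rw [gpt_eval, hγ, gptγ_eval_zero]
  have hc0 : P.coeff 0 = 0 := by
    rw [Polynomial.coeff_zero_eq_eval_zero, hP, hev0, hx]
  have hc1 : P.coeff 1 = 0 := by
    have h1 : (Polynomial.derivative P).coeff 0 = P.coeff 1 := by
      rw [Polynomial.coeff_derivative]; simp
    rw [← h1, Polynomial.coeff_zero_eq_eval_zero, hP, gpt_chain, Polynomial.eval_finsetSum]
    simp only [Polynomial.eval_mul, hev0, hd0]
    simpa [dot, grad] using he
  have hc2 : P.coeff 2 = 0 := by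
    have h1 : (Polynomial.derivative (Polynomial.derivative P)).coeff 0 = P.coeff 2 * 2 := by
      rw [Polynomial.coeff_derivative, Polynomial.coeff_derivative]; norm_num
    have h3 : ∀ i, (Polynomial.derivative (aeval γ (pderiv i F) * Polynomial.derivative (γ i))).eval 0
        = (∑ j, eval x (pderiv j (pderiv i F)) * e j * e i) + 2 * (grad F x i * e' i) := by
      intro i
      rw [Polynomial.derivative_mul, Polynomial.eval_add, Polynomial.eval_mul, Polynomial.eval_mul,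
        gpt_chain, Polynomial.eval_finsetSum, hd0, hdd0, hev0, Finset.sum_mul]
      simp only [Polynomial.eval_mul, hev0, hd0, grad]
      ring
    have h2 : (Polynomial.derivative (Polynomial.derivative P)).coeff 0 = 0 := by
      rw [Polynomial.coeff_zero_eq_eval_zero, hP, gpt_chain, Polynomial.derivative_sum,
        Polynomial.eval_finsetSum, Finset.sum_congr rfl (fun i _ => h3 i), Finset.sum_add_distrib,
        ← Finset.mul_sum]
      have h4 : ∑ i, grad F x i * e' i = - gpQ F x e := he'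
      rw [h4, gpQ, Finset.sum_comm]
      ring
    rw [h2] at h1
    have := h1.symm
    simpa using this
  have hdvd : (Polynomial.X : Polynomial ℂ) ^ 3 ∣ P := by
    rw [Polynomial.X_pow_dvd_iff]
    intro d hd
    interval_cases d
    · exact hc0
    · exact hc1
    · exact hc2
  obtain ⟨P₁, hP₁⟩ := hdvd
  obtain ⟨C, hC⟩ := (isCompact_closedBall (0 : ℂ) 1).exists_bound_of_continuousOn
    (f := fun z => P₁.eval z) P₁.continuous.continuousOn
  refine ⟨max C 0, le_max_right _ _, fun z hz => ?_⟩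
  have h1 : eval (x + z • e + z ^ 2 • e') F = z ^ 3 * P₁.eval z := by
    rw [← gptγ_eval, ← gpt_eval, ← hγ, ← hP, hP₁]
    simp
  rw [h1, norm_mul, norm_pow, mul_comm]
  exact mul_le_mul_of_nonneg_right ((hC z (by simpa using hz)).trans (le_max_left _ _)) (by positivity)

/-! ### GP-CHART -/

theorem gpc_dot_add (a b c : V4) : dot a (b + c) = dot a b + dot a c := by
  simp [dot, mul_add, Finset.sum_add_distrib]

theorem gpc_dot_smul (a b : V4) (t : ℂ) : dot a (t • b) = t * dot a b := by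
  simp only [dot, Pi.smul_apply, smul_eq_mul, Finset.mul_sum]
  exact Finset.sum_congr rfl fun i _ => by ring

theorem gpc_hasFDerivAt_gpY (x e e' m : V4) :
    HasFDerivAt (gpY x e e' m)
      ((ContinuousLinearMap.fst ℂ ℂ ℂ).smulRight e + (ContinuousLinearMap.snd ℂ ℂ ℂ).smulRight m)
      ((0 : ℂ), (0 : ℂ)) := by
  have h1 : HasFDerivAt (fun q : ℂ × ℂ => q.1 • e) ((ContinuousLinearMap.fst ℂ ℂ ℂ).smulRight e)
      ((0 : ℂ), (0 : ℂ)) := hasFDerivAt_fst.smul_const e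
  have h2 : HasFDerivAt (fun q : ℂ × ℂ => q.2 • m) ((ContinuousLinearMap.snd ℂ ℂ ℂ).smulRight m)
      ((0 : ℂ), (0 : ℂ)) := hasFDerivAt_snd.smul_const m
  have h3 := ((hasFDerivAt_fst (𝕜 := ℂ) (E := ℂ) (F := ℂ) (p := ((0 : ℂ), (0 : ℂ)))).pow 2).smul_const e'
  have h := (((hasFDerivAt_const x ((0 : ℂ), (0 : ℂ))).fun_add h1).fun_add h3).fun_add h2
  refine h.congr_fderiv (ContinuousLinearMap.ext fun v => ?_)
  simp

theorem gpc_differentiable_gpY (x e e' m : V4) : Differentiable ℂ (gpY x e e' m) := by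
  unfold gpY
  fun_prop

/-- The chart.  `s4_retr F` (`S4Tools.lean`, PROVED) with `X = ℂ × ℂ`, `S = {0}`, `W = univ`, `f = fun _ => x`, `ν = fun _ => n` gives `r₀', C₀, R`;
`μ q = dot (grad F x) (R (q, Y q) - Y q)`, `Y = gpY x e e' m₀` (so `R (q, Y q) = Y q + μ q • n` because `dot (grad F x) n = 1`); `r₀` so small that the bidisc lies in `W'` and
`‖Y q - x‖ < r₀'` on it (continuity of `gpY` at `0`).   Regularity at `(0,0)`: `ξ (0,0) = x` (`‖μ 0‖ ≤ C₀ ‖F x‖ = 0`);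
`∂₁ ξ = e + α n`, `∂₂ ξ = m₀ + β n` with `α = ∂₁ μ`, `β = ∂₂ μ`; the tangent vectors of a map into the cone are killed by `dot (grad F x)`
(differentiate `eval (ξ q) F = 0` with `l2_hasFDerivAt_eval`), so `α = β = 0`. -/
theorem gp_chart (F : MvPolynomial (Fin 4) ℂ) (x e e' m n : V4) (hx : x ∈ Cone F)
    (he : dot (grad F x) e = 0) (hm : dot (grad F x) m = 0) (hn : dot (grad F x) n = 1)
    (hli : LinearIndependent ℂ ![x, e, m]) :
    ∃ (r₀ C₀ : ℝ) (μ : ℂ × ℂ → ℂ), 0 < r₀ ∧ 0 ≤ C₀ ∧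
      HolOn F (fun q => gpY x e e' m q + μ q • n) (ball (0 : ℂ) r₀ ×ˢ ball (0 : ℂ) r₀) ∧
      (∀ q ∈ ball (0 : ℂ) r₀ ×ˢ ball (0 : ℂ) r₀, ‖μ q‖ ≤ C₀ * ‖eval (gpY x e e' m q) F‖) ∧
      LinearIndependent ℂ ![gpY x e e' m (0, 0) + μ (0, 0) • n,
        fderiv ℂ (fun q => gpY x e e' m q + μ q • n) (0, 0) (1, 0),
        fderiv ℂ (fun q => gpY x e e' m q + μ q • n) (0, 0) (0, 1)] := by
  have hx0 : 0 < ‖x‖ := norm_pos_iff.2 hx.1
  obtain ⟨r₁, s₀, M, hr₁, -, hM, hMp⟩ := spr_retract F (X := ℂ × ℂ) (U := univ) isOpen_univ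
    (f := fun _ => x) (ν := fun _ => n) ⟨differentiableOn_const x, fun _ _ => hx⟩
    (differentiableOn_const n) (fun _ _ => hn) (Mf := ‖x‖) (Mν := ‖n‖) (mf := ‖x‖) hx0
    (fun _ _ => le_rfl) (fun _ _ => le_rfl) (fun _ _ => le_rfl)
  have hYd : Differentiable ℂ (gpY x e e' m) := gpc_differentiable_gpY x e e' m
  have hY0 : gpY x e e' m (0, 0) = x := by simp [gpY]
  -- the radius
  have hnear : ∀ᶠ q in nhds ((0 : ℂ), (0 : ℂ)), ‖gpY x e e' m q - x‖ < r₁ := by
    have hc : ContinuousAt (fun q => ‖gpY x e e' m q - x‖) ((0 : ℂ), (0 : ℂ)) :=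
      ((hYd.continuous.continuousAt).sub continuousAt_const).norm
    have h0 : ‖gpY x e e' m (0, 0) - x‖ < r₁ := by rw [hY0, sub_self, norm_zero]; exact hr₁
    exact hc.eventually (gt_mem_nhds h0)
  obtain ⟨r₀, hr₀, hball⟩ := Metric.eventually_nhds_iff_ball.1 hnear
  have hbi : ∀ q ∈ ball (0 : ℂ) r₀ ×ˢ ball (0 : ℂ) r₀, ‖gpY x e e' m q - x‖ < r₁ := by
    intro q hq
    apply hball q
    rw [← ball_prod_same]
    exact hq
  have hμd : DifferentiableOn ℂ (fun q => M (q, gpY x e e' m q))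
      (ball (0 : ℂ) r₀ ×ˢ ball (0 : ℂ) r₀) :=
    hM.comp (differentiableOn_id.prodMk hYd.differentiableOn) fun q hq => ⟨mem_univ _, hbi q hq⟩
  have hξd : DifferentiableOn ℂ (fun q => gpY x e e' m q + M (q, gpY x e e' m q) • n)
      (ball (0 : ℂ) r₀ ×ˢ ball (0 : ℂ) r₀) :=
    hYd.differentiableOn.add (hμd.smul_const n)
  have hcone : ∀ q ∈ ball (0 : ℂ) r₀ ×ˢ ball (0 : ℂ) r₀,
      gpY x e e' m q + M (q, gpY x e e' m q) • n ∈ Cone F := fun q hq =>
    (hMp q (mem_univ _) _ (hbi q hq)).1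
  refine ⟨r₀, 2, fun q => M (q, gpY x e e' m q), hr₀, by norm_num, ⟨hξd, hcone⟩,
    fun q hq => (hMp q (mem_univ _) _ (hbi q hq)).2.1, ?_⟩
  -- regularity
  have hopen : ball (0 : ℂ) r₀ ×ˢ ball (0 : ℂ) r₀ ∈ nhds ((0 : ℂ), (0 : ℂ)) :=
    (isOpen_ball.prod isOpen_ball).mem_nhds ⟨mem_ball_self hr₀, mem_ball_self hr₀⟩
  have h00 : ((0 : ℂ), (0 : ℂ)) ∈ ball (0 : ℂ) r₀ ×ˢ ball (0 : ℂ) r₀ := mem_of_mem_nhds hopen
  have hμ0 : M ((0, 0), gpY x e e' m (0, 0)) = 0 := by
    have h := (hMp (0, 0) (mem_univ _) _ (hbi _ h00)).2.1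
    rw [hY0, hx.2, norm_zero, mul_zero] at h
    rw [hY0]
    exact norm_le_zero_iff.1 h
  have hμF : HasFDerivAt (fun q => M (q, gpY x e e' m q))
      (fderiv ℂ (fun q => M (q, gpY x e e' m q)) (0, 0)) (0, 0) :=
    (hμd.differentiableAt hopen).hasFDerivAt
  have hξF := (gpc_hasFDerivAt_gpY x e e' m).fun_add (hμF.smul_const n)
  have hξ0 : gpY x e e' m (0, 0) + M ((0, 0), gpY x e e' m (0, 0)) • n = x := by
    rw [hμ0, zero_smul, add_zero, hY0]
  have hkill : ∀ v : ℂ × ℂ, dot (grad F x)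
      (v.1 • e + v.2 • m + fderiv ℂ (fun q => M (q, gpY x e e' m q)) (0, 0) v • n) = 0 := by
    intro v
    have h1 := (spr_hasFDerivAt_eval F
      (gpY x e e' m (0, 0) + M ((0, 0), gpY x e e' m (0, 0)) • n)).comp ((0 : ℂ), (0 : ℂ)) hξF
    have h2 : HasFDerivAt ((fun y : V4 => eval y F) ∘
        fun q => gpY x e e' m q + M (q, gpY x e e' m q) • n) (0 : ℂ × ℂ →L[ℂ] ℂ) (0, 0) := by
      refine (hasFDerivAt_const (0 : ℂ) ((0 : ℂ), (0 : ℂ))).congr_of_eventuallyEq ?_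
      filter_upwards [hopen] with q hq
      exact (hcone q hq).2
    have h3 := congrArg (fun L : ℂ × ℂ →L[ℂ] ℂ => L v) (h1.unique h2)
    simp only [ContinuousLinearMap.comp_apply, spr_sum_proj_apply] at h3
    rw [hξ0] at h3
    simpa using h3
  have hα : ∀ v : ℂ × ℂ, fderiv ℂ (fun q => M (q, gpY x e e' m q)) (0, 0) v = 0 := by
    intro v
    have h := hkill v
    rw [gpc_dot_add, gpc_dot_add, gpc_dot_smul, gpc_dot_smul, gpc_dot_smul, he, hm, hn] at h
    simpa using h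
  have hD : ∀ v : ℂ × ℂ, fderiv ℂ (fun q => gpY x e e' m q + M (q, gpY x e e' m q) • n) (0, 0) v
      = v.1 • e + v.2 • m := by
    intro v
    rw [hξF.fderiv]
    simp [hα v]
  rw [hD, hD, hξ0]
  simpa using hli

/-! ### GP-NORM -/

theorem gpn_add (a b : V4) : gpN (a + b) = gpN a + 2 * (gpH b a).re + gpN b := by
  have h : ∀ i, ‖(a + b) i‖ ^ 2
      = ‖a i‖ ^ 2 + 2 * (b i * (starRingEnd ℂ) (a i)).re + ‖b i‖ ^ 2 := by
    intro i
    simp only [Pi.add_apply, Complex.sq_norm, Complex.normSq_apply, Complex.mul_re, Complex.add_re,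
      Complex.add_im, Complex.conj_re, Complex.conj_im]
    ring
  simp only [gpN, gpH, Complex.re_sum, Finset.mul_sum, ← Finset.sum_add_distrib]
  exact Finset.sum_congr rfl fun i _ => h i

theorem gpn_nonneg (a : V4) : 0 ≤ gpN a := Finset.sum_nonneg fun _ _ => by positivity

theorem gpn_pos {a : V4} (ha : a ≠ 0) : 0 < gpN a := by
  obtain ⟨i, hi⟩ := Function.ne_iff.mp ha
  have h1 : 0 < ‖a i‖ ^ 2 := by
    have : 0 < ‖a i‖ := norm_pos_iff.mpr hi
    positivity
  exact lt_of_lt_of_le h1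
    (Finset.single_le_sum (f := fun i => ‖a i‖ ^ 2) (fun _ _ => by positivity) (Finset.mem_univ i))

theorem gpn_smul (t : ℂ) (a : V4) : gpN (t • a) = ‖t‖ ^ 2 * gpN a := by
  simp only [gpN, Pi.smul_apply, smul_eq_mul, norm_mul, mul_pow, Finset.mul_sum]

theorem gpn_H_add (a b x : V4) : gpH (a + b) x = gpH a x + gpH b x := by
  simp only [gpH, Pi.add_apply, add_mul, Finset.sum_add_distrib]

theorem gpn_H_smul (t : ℂ) (a x : V4) : gpH (t • a) x = t * gpH a x := by
  simp only [gpH, Pi.smul_apply, smul_eq_mul, Finset.mul_sum, mul_assoc]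

theorem gpn_H_smul_right (t : ℂ) (a x : V4) : gpH a (t • x) = (starRingEnd ℂ) t * gpH a x := by
  simp only [gpH, Pi.smul_apply, smul_eq_mul, Finset.mul_sum, map_mul]
  exact Finset.sum_congr rfl fun i _ => by ring

/-- The norm grows along the curve.  `gpN (x + u) = gpN x + 2 Re (gpH u x) + gpN u`; with `u = z e + v`, `v = z² e' + c n`: `gpH u x = c gpH n x`,
`√(gpN u) ≥ |z| √(gpN e) - √(gpN v)`, `√(gpN v) ≤ |z|² √(gpN e') + |c| √(gpN n)`.
(Convenient: transport to `EuclideanSpace ℂ (Fin 4)`, `EuclideanSpace.norm_sq_eq`, `norm_add_sq`.) -/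
theorem gp_norm_gt (x e e' n : V4) (C : ℝ) (he0 : e ≠ 0) (he : gpH e x = 0) (he' : gpH e' x = 0) :
    ∃ r₁ : ℝ, 0 < r₁ ∧ ∀ (z c : ℂ), z ≠ 0 → ‖z‖ ≤ r₁ → ‖c‖ ≤ C * ‖z‖ ^ 3 →
      gpN x < gpN (x + z • e + z ^ 2 • e' + c • n) := by
  have hE : 0 < gpN e := gpn_pos he0
  set A : ℝ := ‖gpH e' e‖ with hA
  set B : ℝ := ‖gpH n e‖ with hB
  set H : ℝ := ‖gpH n x‖ with hH
  set M : ℝ := A + |C| * B + |C| * H with hM
  have hA0 : 0 ≤ A := norm_nonneg _
  have hB0 : 0 ≤ B := norm_nonneg _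
  have hH0 : 0 ≤ H := norm_nonneg _
  have hM0 : 0 ≤ M := by positivity
  refine ⟨min 1 (gpN e / (4 * (M + 1))), lt_min one_pos (by positivity), ?_⟩
  intro z c hz hzr hc
  set t : ℝ := ‖z‖ with ht
  have ht0 : 0 < t := norm_pos_iff.mpr hz
  have ht1 : t ≤ 1 := hzr.trans (min_le_left _ _)
  have ht2 : t * (4 * (M + 1)) ≤ gpN e := by
    have := hzr.trans (min_le_right _ _)
    rwa [le_div_iff₀ (by positivity)] at this
  have hc' : ‖c‖ ≤ |C| * t ^ 3 :=
    hc.trans (mul_le_mul_of_nonneg_right (le_abs_self C) (by positivity))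
  have e1 : x + z • e + z ^ 2 • e' + c • n = x + (z • e + (z ^ 2 • e' + c • n)) := by
    simp only [add_assoc]
  have h1 : gpH (z • e + (z ^ 2 • e' + c • n)) x = c * gpH n x := by
    rw [gpn_H_add, gpn_H_add, gpn_H_smul, gpn_H_smul, gpn_H_smul, he, he']
    ring
  have h2 : gpH (z ^ 2 • e' + c • n) (z • e)
      = (starRingEnd ℂ) z * (z ^ 2 * gpH e' e + c * gpH n e) := by
    rw [gpn_H_smul_right, gpn_H_add, gpn_H_smul, gpn_H_smul]
  have b1 : - (|C| * t ^ 3 * H) ≤ (c * gpH n x).re := by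
    have h := (abs_le.mp (Complex.abs_re_le_norm (c * gpH n x))).1
    have h' : ‖c * gpH n x‖ ≤ |C| * t ^ 3 * H := by
      rw [norm_mul]
      exact mul_le_mul_of_nonneg_right hc' hH0
    linarith
  have b2 : - (t ^ 3 * (A + |C| * B))
      ≤ ((starRingEnd ℂ) z * (z ^ 2 * gpH e' e + c * gpH n e)).re := by
    have h := (abs_le.mp (Complex.abs_re_le_norm
      ((starRingEnd ℂ) z * (z ^ 2 * gpH e' e + c * gpH n e)))).1
    have h' : ‖(starRingEnd ℂ) z * (z ^ 2 * gpH e' e + c * gpH n e)‖ ≤ t ^ 3 * (A + |C| * B) := by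
      rw [norm_mul, RCLike.norm_conj]
      have h3 : ‖z ^ 2 * gpH e' e + c * gpH n e‖ ≤ t ^ 2 * A + |C| * t ^ 3 * B := by
        refine (norm_add_le _ _).trans ?_
        rw [norm_mul, norm_mul, norm_pow]
        exact add_le_add le_rfl (mul_le_mul_of_nonneg_right hc' hB0)
      have h4 : |C| * t ^ 3 * B ≤ |C| * t ^ 2 * B := by
        have : t ^ 3 ≤ t ^ 2 := pow_le_pow_of_le_one ht0.le ht1 (by norm_num)
        exact mul_le_mul_of_nonneg_right (mul_le_mul_of_nonneg_left this (abs_nonneg C)) hB0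
      calc ‖z‖ * ‖z ^ 2 * gpH e' e + c * gpH n e‖ ≤ t * (t ^ 2 * A + |C| * t ^ 2 * B) :=
            mul_le_mul_of_nonneg_left (h3.trans (by linarith)) ht0.le
        _ = t ^ 3 * (A + |C| * B) := by ring
    linarith
  rw [e1, gpn_add, h1, gpn_add (z • e), h2, gpn_smul]
  have b3 := gpn_nonneg (z ^ 2 • e' + c • n)
  have key : 0 < t ^ 2 * (gpN e - 2 * t * M) := by
    have : 0 < gpN e - 2 * t * M := by nlinarith
    positivity
  have expand : t ^ 2 * (gpN e - 2 * t * M)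
      = t ^ 2 * gpN e - 2 * (t ^ 3 * (A + |C| * B)) - 2 * (|C| * t ^ 3 * H) := by
    rw [hM]; ring
  linarith

/-! ### the glue -/

theorem gp_dot_add (a b c : V4) : dot a (b + c) = dot a b + dot a c := by
  simp [dot, mul_add, Finset.sum_add_distrib]

theorem gp_dot_smul (a b : V4) (t : ℂ) : dot a (t • b) = t * dot a b := by
  simp only [dot, Pi.smul_apply, smul_eq_mul, Finset.mul_sum]
  exact Finset.sum_congr rfl fun i _ => by ring

/-- **THE PEAK POINT TRICK.** -/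
theorem gp_peak {F : MvPolynomial (Fin 4) ℂ} (hF : IsSmoothQuarticForm F) (hD : DiscStmt F) (a : V4)
    (ha : ∀ y ∈ Cone F, dot a y = 0 → HasL F y) : LEverywhere F := by
  intro y₀ hy₀
  by_contra hn
  obtain ⟨x, hx, hxn, hax, hmax⟩ := gp_exists_max hF.1 a ha y₀ hy₀ hn
  have hg : grad F x ≠ 0 := l2_grad_ne_zero hF hx
  have hgx : dot (grad F x) x = 0 := by rw [l2_euler hF.1, hx.2, mul_zero]
  obtain ⟨e, e', m, n, hae, hge, hHe, hae', hge', hHe', hgn, han, hgm, hli⟩ :=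
    gp_jet (gpQ F x) (gp_Q_isotropic F x) a (grad F x) x hax hgx hg
  have he0 : e ≠ 0 := by
    have := hli.ne_zero 1
    simpa using this
  obtain ⟨C, hC0, hC⟩ := gp_taylor F x e e' hx.2 hge hge'
  obtain ⟨r₀, C₀, μ, hr₀, hC₀, hhol, hμ, hreg⟩ := gp_chart F x e e' m n hx hge hgm hgn hli
  obtain ⟨r₁, hr₁, hgt⟩ := gp_norm_gt x e e' n (C₀ * C) he0 hHe hHe'
  set ξ : ℂ × ℂ → V4 := fun q => gpY x e e' m q + μ q • n with hξ
  set r : ℝ := min (min (r₀ / 2) r₁) 1 with hr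
  have hr0 : 0 < r := lt_min (lt_min (by linarith) hr₁) one_pos
  have hrr₀ : r < r₀ := lt_of_le_of_lt ((min_le_left _ _).trans (min_le_left _ _)) (by linarith)
  have hrr₁ : r ≤ r₁ := (min_le_left _ _).trans (min_le_right _ _)
  have hr1 : r ≤ 1 := min_le_right _ _
  have hY : ∀ z : ℂ, gpY x e e' m (z, 0) = x + z • e + z ^ 2 • e' := fun z => by
    simp [gpY]
  have hmem : ∀ z : ℂ, ‖z‖ ≤ r → (z, (0 : ℂ)) ∈ ball (0 : ℂ) r₀ ×ˢ ball (0 : ℂ) r₀ := fun z hz =>
    ⟨by simpa using lt_of_le_of_lt hz hrr₀, mem_ball_self hr₀⟩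
  have hμ0 : μ (0, 0) = 0 := by
    have h := hμ (0, 0) (hmem 0 (by simpa using hr0.le))
    rw [hY] at h
    simpa [hx.2] using h
  have hξ0 : ξ (0, 0) = x := by
    simp [hξ, hY, hμ0]
  apply hxn
  rw [← hξ0]
  refine hD ξ r hr0 ⟨ball (0 : ℂ) r₀ ×ˢ ball (0 : ℂ) r₀, isOpen_ball.prod isOpen_ball, ?_, hhol⟩ hreg ?_
  · rintro ⟨z, w⟩ ⟨hz, hw⟩
    have hw' : w = 0 := hw
    subst hw'
    exact hmem z (by simpa using hz)
  · intro ζ hζ
    by_contra hnζ
    have hζ0 : ζ ≠ 0 := by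
      intro h
      rw [h, norm_zero] at hζ
      exact hr0.ne hζ
    have hc : ‖μ (ζ, 0)‖ ≤ C₀ * C * ‖ζ‖ ^ 3 := by
      have h1 := hμ (ζ, 0) (hmem ζ hζ.le)
      rw [hY] at h1
      have h2 := hC ζ (hζ.le.trans hr1)
      calc ‖μ (ζ, 0)‖ ≤ C₀ * ‖eval (x + ζ • e + ζ ^ 2 • e') F‖ := h1
        _ ≤ C₀ * (C * ‖ζ‖ ^ 3) := by gcongr
        _ = C₀ * C * ‖ζ‖ ^ 3 := by ring
    have hval : ξ (ζ, 0) = x + ζ • e + ζ ^ 2 • e' + μ (ζ, 0) • n := by
      simp only [hξ, hY]
    have h1 := hgt ζ (μ (ζ, 0)) hζ0 (hζ.le.trans hrr₁) hc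
    have h2 := hmax (ξ (ζ, 0)) (hhol.2 (hmem ζ hζ.le)) hnζ
    have h3 : dot a (ξ (ζ, 0)) = 1 := by
      rw [hval, gp_dot_add, gp_dot_add, gp_dot_add, gp_dot_smul, gp_dot_smul, gp_dot_smul, hax, hae,
        hae', han]
      ring
    rw [h3, hval] at h2
    simp only [norm_one, one_pow, mul_one] at h2
    exact absurd h1 (not_lt.2 h2)

end Claimed.Agent.R245
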