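/-
Row 245 / S0484, sec 2.3 (architect: helper98).  Package L2-DISC-A: compactness step and regularity step of Cor loc:disc.
ONE FILE = ONE PACKAGE = ONE OWNER.  Statements FROZEN; helper lemmas: prefix `l2da_`, in this file.
-/
import Mathlib
import Claimed.Agent.R245.L2Defs
import Claimed.Agent.R245.CritDefs

set_option autoImplicit false

namespace Claimed.Agent.R245

open MvPolynomial Metric Set

theorem l2da_pos_lower {α : Type*} (t : Finset α) (δ : α → ℝ) (h : ∀ a ∈ t, 0 < δ a) :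
    ∃ b : ℝ, 0 < b ∧ ∀ a ∈ t, b ≤ δ a := by
  classical
  induction t using Finset.induction_on with
  | empty => exact ⟨1, one_pos, fun a ha => absurd ha (Finset.notMem_empty a)⟩
  | insert a t _ ih =>
    obtain ⟨b, hb, hbt⟩ := ih fun c hc => h c (Finset.mem_insert_of_mem hc)
    refine ⟨min b (δ a), lt_min hb (h a (Finset.mem_insert_self _ _)), fun c hc => ?_⟩
    rcases Finset.mem_insert.1 hc with rfl | hc
    · exact min_le_right _ _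
    · exact (min_le_left _ _).trans (hbt c hc)

/-- radial projection to the closed disc -/
theorem l2da_proj {r b : ℝ} (hr : 0 < r) {z : ℂ} (hz : ‖z‖ ≤ r + b) (hb : 0 ≤ b) :
    ∃ z' : ℂ, ‖z'‖ ≤ r ∧ ‖z - z'‖ ≤ b := by
  by_cases h : ‖z‖ ≤ r
  · exact ⟨z, h, by simpa using hb⟩
  · push Not at h
    have hz0 : 0 < ‖z‖ := hr.trans h
    refine ⟨((r / ‖z‖ : ℝ) : ℂ) * z, ?_, ?_⟩
    · rw [norm_mul, Complex.norm_real, Real.norm_eq_abs, abs_of_pos (div_pos hr hz0),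
        div_mul_cancel₀ _ hz0.ne']
    · have e : z - ((r / ‖z‖ : ℝ) : ℂ) * z = ((1 - r / ‖z‖ : ℝ) : ℂ) * z := by
        push_cast
        ring
      have h1 : 0 ≤ 1 - r / ‖z‖ := by
        rw [sub_nonneg, div_le_one hz0]
        exact h.le
      rw [e, norm_mul, Complex.norm_real, Real.norm_eq_abs, abs_of_nonneg h1, sub_mul, one_mul,
        div_mul_cancel₀ _ hz0.ne']
      linarith

/-- **Uniform thickening of the disc.**
Route.  (1) `closedBall 0 r ×ˢ {0}` is compact in the open `Wξ`: `IsCompact.exists_cthickening_subset_open` (or `exists_thickening…`) gives `b₁ > 0`;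
a point `(z, w)` with `‖z‖ ≤ r + b₁/2`, `‖w‖ ≤ b₁/2` is within `b₁/2` (sup metric) of `(z', 0)`, `z'` = radial projection of `z` to the closed disc.
(2) For `ζ` on the circle let `V_ζ` be a witness with `ξ (ζ, 0) ∈ V_ζ` (`HasL`); `V_ζ` is open and `ξ` is continuous at `(ζ, 0) ∈ Wξ`, so there is `δ_ζ > 0` with
`ξ (z, w) ∈ V_ζ` for `‖z - ζ‖ < 2 δ_ζ`, `‖w‖ < 2 δ_ζ`.  Cover the circle (`isCompact_sphere`) by finitely many `ball ζ_i δ_i`; `b₀ := min (b₁/2) (min_i δ_i)`.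
For `ζ` pick `i` with `ζ ∈ ball ζ_i δ_i`, `V := V_{ζ_i}`. -/
theorem l2_disc_compact {F : MvPolynomial (Fin 4) ℂ} {ξ : ℂ × ℂ → V4} {r : ℝ} (hr : 0 < r)
    {Wξ : Set (ℂ × ℂ)} (hWo : IsOpen Wξ) (hsub : closedBall (0 : ℂ) r ×ˢ {(0 : ℂ)} ⊆ Wξ)
    (hc : ContinuousOn ξ Wξ) (hL : ∀ ζ : ℂ, ‖ζ‖ = r → HasL F (ξ (ζ, 0))) :
    ∃ b₀ : ℝ, 0 < b₀ ∧ (∀ z w : ℂ, ‖z‖ ≤ r + b₀ → ‖w‖ ≤ b₀ → (z, w) ∈ Wξ) ∧
      ∀ ζ : ℂ, ‖ζ‖ = r → ∃ V : Set V4, IsWitness F V ∧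
        ∀ z w : ℂ, ‖z - ζ‖ ≤ b₀ → ‖w‖ ≤ b₀ → ξ (z, w) ∈ V := by
  -- (1) thickening
  obtain ⟨b₁, hb₁, hthick⟩ := ((isCompact_closedBall (0 : ℂ) r).prod
    (isCompact_singleton (x := (0 : ℂ)))).exists_cthickening_subset_open hWo hsub
  -- (2) witnesses
  have hloc : ∀ ζ : ℂ, ‖ζ‖ = r → ∃ (V : Set V4) (δ : ℝ), IsWitness F V ∧ 0 < δ ∧
      ∀ z w : ℂ, ‖z - ζ‖ < 2 * δ → ‖w‖ < 2 * δ → ξ (z, w) ∈ V := by
    intro ζ hζ
    obtain ⟨V, hV, hVζ⟩ := hL ζ hζ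
    have hmem : (ζ, (0 : ℂ)) ∈ Wξ := hsub ⟨mem_closedBall_zero_iff.2 hζ.le, rfl⟩
    have hca : ContinuousAt ξ (ζ, (0 : ℂ)) := hc.continuousAt (hWo.mem_nhds hmem)
    obtain ⟨ε, hε, hball⟩ := Metric.mem_nhds_iff.1 (hca.preimage_mem_nhds (hV.1.mem_nhds hVζ))
    refine ⟨V, ε / 2, hV, by positivity, fun z w hz hw => hball ?_⟩
    rw [← ball_prod_same]
    refine ⟨?_, ?_⟩
    · rw [mem_ball, dist_eq_norm]
      linarith
    · rw [mem_ball_zero_iff]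
      linarith
  choose! V δ hV hδ hVδ using hloc
  obtain ⟨t, ht, hcov⟩ := (isCompact_sphere (0 : ℂ) r).elim_nhds_subcover (fun ζ => ball ζ (δ ζ))
    fun ζ hζ => ball_mem_nhds ζ (hδ ζ (mem_sphere_zero_iff_norm.1 hζ))
  obtain ⟨b₂, hb₂, hb₂t⟩ := l2da_pos_lower t δ fun ζ hζ => hδ ζ (mem_sphere_zero_iff_norm.1 (ht ζ hζ))
  refine ⟨min b₁ b₂, lt_min hb₁ hb₂, fun z w hz hw => ?_, fun ζ hζ => ?_⟩
  · obtain ⟨z', hz', hzz'⟩ := l2da_proj hr hz (lt_min hb₁ hb₂).le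
    refine hthick (Metric.mem_cthickening_of_dist_le (z, w) (z', 0) b₁ _
      ⟨mem_closedBall_zero_iff.2 hz', rfl⟩ ?_)
    rw [Prod.dist_eq, dist_eq_norm, dist_zero_right]
    exact max_le (hzz'.trans (min_le_left _ _)) (hw.trans (min_le_left _ _))
  · have hζs : ζ ∈ sphere (0 : ℂ) r := mem_sphere_zero_iff_norm.2 hζ
    obtain ⟨ζi, hζi, hζb⟩ := mem_iUnion₂.1 (hcov hζs)
    have hri : ‖ζi‖ = r := mem_sphere_zero_iff_norm.1 (ht ζi hζi)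
    have hbi : min b₁ b₂ ≤ δ ζi := (min_le_right _ _).trans (hb₂t ζi hζi)
    have hd : ‖ζ - ζi‖ < δ ζi := by rwa [mem_ball, dist_eq_norm] at hζb
    refine ⟨V ζi, hV ζi hri, fun z w hz hw => hVδ ζi hri z w ?_ ?_⟩
    · calc ‖z - ζi‖ = ‖(z - ζ) + (ζ - ζi)‖ := by rw [sub_add_sub_cancel]
        _ ≤ ‖z - ζ‖ + ‖ζ - ζi‖ := norm_add_le _ _
        _ < 2 * δ ζi := by linarith
    · linarith [hδ ζi hri]

/-- **The tilted strip is regular.**  `s2 (z, w) = ξ (z + w, η w)`: by the chain rule `D s2 (0,0) (1,0) = A`, `D s2 (0,0) (0,1) = A + η B` with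
`A = Dξ (0,0) (1,0)`, `B = Dξ (0,0) (0,1)`; `![y, A, A + η B]` is linearly independent if `![y, A, B]` is and `η ≠ 0`
(`LinearIndependent` via `Fintype.linearIndependent_iff` / `LinearIndependent.pair…`, or `linearIndependent_fin3`-style unfolding). -/
theorem l2_disc_reg {ξ : ℂ × ℂ → V4} (hd : DifferentiableAt ℂ ξ (0, 0)) (hreg : StripReg ξ) {η : ℂ}
    (hη : η ≠ 0) : StripReg (fun p : ℂ × ℂ => ξ (p.1 + p.2, η * p.2)) := by
  have hℓ : HasFDerivAt (fun p : ℂ × ℂ => (p.1 + p.2, η * p.2))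
      ((ContinuousLinearMap.fst ℂ ℂ ℂ + ContinuousLinearMap.snd ℂ ℂ ℂ).prod
        (η • ContinuousLinearMap.snd ℂ ℂ ℂ)) ((0 : ℂ), (0 : ℂ)) :=
    (hasFDerivAt_fst.fun_add hasFDerivAt_snd).prodMk (hasFDerivAt_snd.const_mul η)
  have h0 : (fun p : ℂ × ℂ => (p.1 + p.2, η * p.2)) ((0 : ℂ), (0 : ℂ)) = (0, 0) := by simp
  have hd' : HasFDerivAt ξ (fderiv ℂ ξ (0, 0))
      ((fun p : ℂ × ℂ => (p.1 + p.2, η * p.2)) ((0 : ℂ), (0 : ℂ))) := by
    rw [h0]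
    exact hd.hasFDerivAt
  have hcomp := hd'.comp ((0 : ℂ), (0 : ℂ)) hℓ
  have hf : fderiv ℂ (fun p : ℂ × ℂ => ξ (p.1 + p.2, η * p.2)) (0, 0)
      = (fderiv ℂ ξ (0, 0)).comp ((ContinuousLinearMap.fst ℂ ℂ ℂ + ContinuousLinearMap.snd ℂ ℂ ℂ).prod
        (η • ContinuousLinearMap.snd ℂ ℂ ℂ)) := hcomp.fderiv
  have e1 : fderiv ℂ (fun p : ℂ × ℂ => ξ (p.1 + p.2, η * p.2)) (0, 0) (1, 0)
      = fderiv ℂ ξ (0, 0) (1, 0) := by
    rw [hf]
    simp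
  have e2 : fderiv ℂ (fun p : ℂ × ℂ => ξ (p.1 + p.2, η * p.2)) (0, 0) (0, 1)
      = fderiv ℂ ξ (0, 0) (1, 0) + η • fderiv ℂ ξ (0, 0) (0, 1) := by
    rw [hf, ← map_smul, ← map_add]
    simp
  unfold StripReg at hreg ⊢
  rw [e1, e2]
  simp only [add_zero, mul_zero]
  rw [Fintype.linearIndependent_iff] at hreg ⊢
  intro g hg
  simp only [Fin.sum_univ_three, Matrix.cons_val_zero, Matrix.cons_val_one, Matrix.cons_val] at hg
  have h := hreg ![g 0, g 1 + g 2, g 2 * η] (by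
    simp only [Fin.sum_univ_three, Matrix.cons_val_zero, Matrix.cons_val_one, Matrix.cons_val]
    rw [← hg]
    module)
  have h0' : g 0 = 0 := by simpa using h 0
  have h1' : g 1 + g 2 = 0 := by simpa using h 1
  have h2' : g 2 * η = 0 := by simpa using h 2
  have h2'' : g 2 = 0 := (mul_eq_zero.1 h2').resolve_right hη
  have h1'' : g 1 = 0 := by rw [h2'', add_zero] at h1'; exact h1'
  intro i
  fin_cases i
  · exact h0'
  · exact h1''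
  · exact h2''

end Claimed.Agent.R245
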