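/-
Row 245 / S0484, sec 2.3 (architect: helper98).  **Cor loc:disc** (propagation of property `L` across a small disc), chart form.
Proved from `l2_planar` (+ `nu_exists`), `cr_crit`, `l2_disc_compact`, `l2_disc_reg`.

No alignment is needed: the germs `s1 (z, w) = ξ (z, w)`, `s2 (z, w) = ξ (z + w, η w)` agree exactly on the first axis, and the criterion asks
for exact agreement of the limit germs only.
-/
import Mathlib
import Claimed.Agent.R245.L2Planar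
import Claimed.Agent.R245.Nu
import Claimed.Agent.R245.Crit
import Claimed.Agent.R245.L2DiscA

set_option autoImplicit false

namespace Claimed.Agent.R245

open MvPolynomial Metric Set Filter Topology Claims.C0412

/-- one thickened disc with boundary values in witness neighbourhoods is a uniform limit of arbitrarily long strips -/
theorem l2_disc_long {F : MvPolynomial (Fin 4) ℂ} (hF : IsSmoothQuarticForm F) {g : ℂ × ℂ → V4}
    {r b₀ : ℝ} (hr : 0 < r) (hb₀ : 0 < b₀) {Wg : Set (ℂ × ℂ)} (hWo : IsOpen Wg)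
    (hsub : ∀ z w : ℂ, ‖z‖ ≤ r → ‖w‖ ≤ b₀ → (z, w) ∈ Wg) (hg : HolOn F g Wg)
    (hwit : ∀ ζ : ℂ, ‖ζ‖ = r → ∃ V : Set V4, IsWitness F V ∧ ∀ w : ℂ, ‖w‖ ≤ b₀ → g (ζ, w) ∈ V)
    (R : ℝ) {δ : ℝ} (hδ : 0 < δ) :
    ∃ S : ℂ × ℂ → V4, HolOn F S (ball (0 : ℂ) R ×ˢ ball (0 : ℂ) (b₀ / 2)) ∧
      ∀ z w : ℂ, ‖z‖ ≤ r → ‖w‖ ≤ b₀ / 2 → ‖S (z, w) - g (z, w)‖ < δ := by
  let j : ℂ × (Fin 1 → ℂ) → ℂ × ℂ := fun x => (x.1, x.2 0)
  have hj : Differentiable ℂ j := by
    have e1 : Differentiable ℂ (fun x : ℂ × (Fin 1 → ℂ) => x.2 0) :=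
      (differentiable_pi.1 differentiable_snd) 0
    exact differentiable_fst.prodMk e1
  have hf : HolNear F (fun x => g (j x)) (Ann (-1) r ×ˢ closedBall (0 : Fin 1 → ℂ) b₀) := by
    refine ⟨j ⁻¹' Wg, hWo.preimage hj.continuous, ?_, hg.1.comp hj.differentiableOn (fun x hx => hx),
      fun x hx => hg.2 hx⟩
    rintro ⟨z, t⟩ ⟨hz, ht⟩
    refine hsub z (t 0) hz.2 ?_
    exact (norm_le_pi_norm t 0).trans (by simpa using ht)
  obtain ⟨W, ν, hW, hsubW, hfW, hν, hdot⟩ := nu_exists hF (l2_isCompact_Ann (-1) r)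
    (isCompact_closedBall (0 : Fin 1 → ℂ) b₀) (convex_closedBall _ _) hf
  have hwit' : ∀ ζ : ℂ, ‖ζ‖ = r → ∃ V : Set V4, IsWitness F V ∧
      ∀ t ∈ closedBall (0 : Fin 1 → ℂ) b₀, g (j (ζ, t)) ∈ V := by
    intro ζ hζ
    obtain ⟨V, hV, hVm⟩ := hwit ζ hζ
    refine ⟨V, hV, fun t ht => hVm (t 0) ?_⟩
    exact (norm_le_pi_norm t 0).trans (by simpa using ht)
  set R' : ℝ := max R r + 1 with hR'
  have hrR' : r < R' := by
    have := le_max_right R r
    rw [hR']; linarith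
  have hRR' : R < R' := by
    have := le_max_left R r
    rw [hR']; linarith
  obtain ⟨G, ⟨WG, hWG, hsubG, hGhol⟩, hGc⟩ := l2_planar (by linarith : (-1 : ℝ) < r) hr hrR'
    (half_pos hb₀) (half_lt_self hb₀) hW hsubW hfW hν hdot hwit' hδ
  let i : ℂ × ℂ → ℂ × (Fin 1 → ℂ) := fun p => (p.1, fun _ => p.2)
  have hi : Differentiable ℂ i :=
    differentiable_fst.prodMk (differentiable_pi.2 fun _ => differentiable_snd)
  have hnorm : ∀ w : ℂ, ‖(fun _ : Fin 1 => w)‖ = ‖w‖ := fun w => pi_norm_const w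
  have hmaps : MapsTo i (ball (0 : ℂ) R ×ˢ ball (0 : ℂ) (b₀ / 2)) WG := by
    rintro ⟨z, w⟩ ⟨hz, hw⟩
    refine hsubG ⟨⟨?_, ?_⟩, ?_⟩
    · have := norm_nonneg z
      show (-1 : ℝ) ≤ ‖z‖
      linarith
    · have : ‖z‖ < R := by simpa using hz
      show ‖z‖ ≤ R'
      linarith
    · have : ‖w‖ < b₀ / 2 := by simpa using hw
      rw [mem_closedBall_zero_iff]
      show ‖(fun _ : Fin 1 => w)‖ ≤ b₀ / 2
      rw [hnorm]
      exact this.le
  refine ⟨fun p => G (i p), ⟨hGhol.1.comp hi.differentiableOn hmaps, fun p hp => hGhol.2 (hmaps hp)⟩,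
    ?_⟩
  intro z w hz hw
  have h1 := hGc (i (z, w)) ⟨⟨by have := norm_nonneg z; show (-1 : ℝ) ≤ ‖z‖; linarith, hz⟩, by
    rw [mem_closedBall_zero_iff]
    show ‖(fun _ : Fin 1 => w)‖ ≤ b₀ / 2
    rw [hnorm]; exact hw⟩
  exact h1

/-- **Cor loc:disc, chart form.**  `ξ` a regular chart of a slice of the cone, defined near the closed disc `closedBall 0 r × {0}`; if `L` holds at all points
`ξ (ζ, 0)`, `|ζ| = r`, then `L` holds at `ξ (0, 0)`. -/
theorem l2_disc {F : MvPolynomial (Fin 4) ℂ} (hF : IsSmoothQuarticForm F) {ξ : ℂ × ℂ → V4} {r : ℝ}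
    (hr : 0 < r) (hξ : HolNear F ξ (closedBall (0 : ℂ) r ×ˢ {(0 : ℂ)})) (hreg : StripReg ξ)
    (hL : ∀ ζ : ℂ, ‖ζ‖ = r → HasL F (ξ (ζ, 0))) : HasL F (ξ (0, 0)) := by
  obtain ⟨Wξ, hWo, hsub, hhol⟩ := hξ
  obtain ⟨b₀, hb₀, hin, hwit⟩ := l2_disc_compact hr hWo hsub hhol.1.continuousOn hL
  -- the tilt
  set η : ℂ := ((b₀ / r : ℝ) : ℂ) with hη
  have hηn : ‖η‖ = b₀ / r := by
    rw [hη, Complex.norm_real, Real.norm_eq_abs, abs_of_pos (by positivity)]
  have hη0 : η ≠ 0 := by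
    rw [← norm_pos_iff, hηn]; positivity
  have hηw : ∀ w : ℂ, ‖w‖ ≤ r → ‖η * w‖ ≤ b₀ := by
    intro w hw
    rw [norm_mul, hηn]
    calc b₀ / r * ‖w‖ ≤ b₀ / r * r := mul_le_mul_of_nonneg_left hw (by positivity)
      _ = b₀ := by field_simp
  -- the second strip in the order (long, short)
  let τ : ℂ × ℂ → ℂ × ℂ := fun p => (p.2 + p.1, η * p.1)
  have hτ : Differentiable ℂ τ :=
    (differentiable_snd.add differentiable_fst).prodMk (differentiable_fst.const_mul η)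
  have hg2 : HolOn F (fun p => ξ (τ p)) (τ ⁻¹' Wξ) :=
    ⟨hhol.1.comp hτ.differentiableOn (fun p hp => hp), fun p hp => hhol.2 hp⟩
  have hsub2 : ∀ z w : ℂ, ‖z‖ ≤ r → ‖w‖ ≤ b₀ → (z, w) ∈ τ ⁻¹' Wξ := by
    intro z w hz hw
    refine hin _ _ ?_ (hηw z hz)
    calc ‖w + z‖ ≤ ‖w‖ + ‖z‖ := norm_add_le _ _
      _ ≤ r + b₀ := by linarith
  have hwit2 : ∀ ζ : ℂ, ‖ζ‖ = r → ∃ V : Set V4, IsWitness F V ∧
      ∀ w : ℂ, ‖w‖ ≤ b₀ → ξ (τ (ζ, w)) ∈ V := by
    intro ζ hζ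
    obtain ⟨V, hV, hVm⟩ := hwit ζ hζ
    refine ⟨V, hV, fun w hw => hVm _ _ ?_ (hηw ζ hζ.le)⟩
    simpa using hw
  have hsub1 : ∀ z w : ℂ, ‖z‖ ≤ r → ‖w‖ ≤ b₀ → (z, w) ∈ Wξ :=
    fun z w hz hw => hin z w (by linarith) hw
  have hwit1 : ∀ ζ : ℂ, ‖ζ‖ = r → ∃ V : Set V4, IsWitness F V ∧
      ∀ w : ℂ, ‖w‖ ≤ b₀ → ξ (ζ, w) ∈ V := by
    intro ζ hζ
    obtain ⟨V, hV, hVm⟩ := hwit ζ hζ
    exact ⟨V, hV, fun w hw => hVm _ _ (by simpa using hb₀.le) hw⟩
  -- the radius of the bidisc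
  set b : ℝ := min (b₀ / 2) (r / 2) with hb
  have hbpos : 0 < b := lt_min (half_pos hb₀) (half_pos hr)
  have hbb₀ : b ≤ b₀ / 2 := min_le_left _ _
  have hbr : b ≤ r / 2 := min_le_right _ _
  let s2 : ℂ × ℂ → V4 := fun p => ξ (p.1 + p.2, η * p.2)
  have hs2hol : HolOn F s2 (ball (0 : ℂ) b ×ˢ ball (0 : ℂ) b) := by
    let σ : ℂ × ℂ → ℂ × ℂ := fun p => (p.1 + p.2, η * p.2)
    have hσ : Differentiable ℂ σ :=
      (differentiable_fst.add differentiable_snd).prodMk (differentiable_snd.const_mul η)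
    have hm : MapsTo σ (ball (0 : ℂ) b ×ˢ ball (0 : ℂ) b) Wξ := by
      rintro ⟨z, w⟩ ⟨hz, hw⟩
      have hz' : ‖z‖ < b := by simpa using hz
      have hw' : ‖w‖ < b := by simpa using hw
      refine hin _ _ ?_ (hηw w (by linarith))
      calc ‖z + w‖ ≤ ‖z‖ + ‖w‖ := norm_add_le _ _
        _ ≤ r + b₀ := by linarith
    exact ⟨hhol.1.comp hσ.differentiableOn hm, fun p hp => hhol.2 (hm hp)⟩
  have h00 : ((0 : ℂ), (0 : ℂ)) ∈ Wξ := hin 0 0 (by simpa using (by positivity : 0 ≤ r + b₀))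
    (by simpa using hb₀.le)
  have hreg2 : StripReg s2 := l2_disc_reg (hhol.1.differentiableAt (hWo.mem_nhds h00)) hreg hη0
  have hP : StripPair F b 0 ξ s2 :=
    { b_pos := hbpos
      hol1 := by
        have hm : ball (0 : ℂ) b ×ˢ ball (0 : ℂ) b ⊆ Wξ := by
          rintro ⟨z, w⟩ ⟨hz, hw⟩
          have hz' : ‖z‖ < b := by simpa using hz
          have hw' : ‖w‖ < b := by simpa using hw
          exact hin z w (by linarith) (by linarith)
        exact ⟨hhol.1.mono hm, hhol.2.mono_left hm⟩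
      hol2 := hs2hol
      axis := by
        intro z _
        simp [s2]
      reg1 := hreg
      reg2 := hreg2
      hol2c := hs2hol
      reg2c := by
        have : (fun p : ℂ × ℂ => s2 (p.1, p.2 + 0)) = s2 := by
          funext p; simp
        rw [this]; exact hreg2
      long1 := by
        intro R _
        refine ⟨b, hbpos, le_rfl, fun δ hδ => ?_⟩
        obtain ⟨S, hS, hSc⟩ := l2_disc_long hF hr hb₀ hWo hsub1 hhol hwit1 (max R b) hδ
        refine ⟨S, ?_, ?_⟩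
        · have hm : ball (0 : ℂ) R ×ˢ ball (0 : ℂ) b ∪ ball (0 : ℂ) b ×ˢ ball (0 : ℂ) b ⊆
              ball (0 : ℂ) (max R b) ×ˢ ball (0 : ℂ) (b₀ / 2) := by
            apply union_subset
            · exact prod_mono (ball_subset_ball (le_max_left _ _)) (ball_subset_ball hbb₀)
            · exact prod_mono (ball_subset_ball (le_max_right _ _)) (ball_subset_ball hbb₀)
          exact ⟨hS.1.mono hm, hS.2.mono_left hm⟩
        · rintro ⟨z, w⟩ ⟨hz, hw⟩
          have hz' : ‖z‖ < b := by simpa using hz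
          have hw' : ‖w‖ < b := by simpa using hw
          exact hSc z w (by linarith) (by linarith)
      long2 := by
        intro R δ _ hδ
        obtain ⟨S, hS, hSc⟩ := l2_disc_long hF hr hb₀ (hWo.preimage hτ.continuous) hsub2 hg2 hwit2 R hδ
        have hsw : Differentiable ℂ (fun p : ℂ × ℂ => (p.2, p.1)) :=
          differentiable_snd.prodMk differentiable_fst
        have hm : MapsTo (fun p : ℂ × ℂ => (p.2, p.1)) (ball (0 : ℂ) b ×ˢ ball (0 : ℂ) R)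
            (ball (0 : ℂ) R ×ˢ ball (0 : ℂ) (b₀ / 2)) := by
          rintro ⟨z, w⟩ ⟨hz, hw⟩
          exact ⟨hw, ball_subset_ball hbb₀ hz⟩
        have hcl : ∀ p ∈ ball (0 : ℂ) b ×ˢ ball (0 : ℂ) b, ‖S (p.2, p.1) - s2 p‖ < δ := by
          rintro ⟨z, w⟩ ⟨hz, hw⟩
          have hz' : ‖z‖ < b := by simpa using hz
          have hw' : ‖w‖ < b := by simpa using hw
          exact hSc w z (by linarith) (by linarith)
        exact ⟨fun p => S (p.2, p.1), ⟨hS.1.comp hsw.differentiableOn hm, fun p hp => hS.2 (hm hp)⟩,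
          hcl, hcl⟩ }
  have := cr_crit F hF hP
  simpa [s2] using this

end Claimed.Agent.R245
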