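/-
Row 245 / S0484 (helper98).  Bridge: `DiscStmt F` (GeoPeak.lean, helper138) is `l2_disc`; hence the peak point trick without hypothesis on DISC.
-/
import Mathlib
import Claimed.Agent.R245.L2Disc
import Claimed.Agent.R245.GeoPeak

set_option autoImplicit false

namespace Claimed.Agent.R245

open MvPolynomial Metric Set Claims.C0412

theorem l2_discStmt {F : MvPolynomial (Fin 4) ℂ} (hF : IsSmoothQuarticForm F) : DiscStmt F :=
  fun _ _ hr hξ hreg hL => l2_disc hF hr hξ hreg hL

/-- if `L` holds on one plane section of the cone, it holds everywhere -/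
theorem l2_LEverywhere_of_plane {F : MvPolynomial (Fin 4) ℂ} (hF : IsSmoothQuarticForm F) (a : V4)
    (ha : ∀ y ∈ Cone F, dot a y = 0 → HasL F y) : LEverywhere F :=
  gp_peak hF (l2_discStmt hF) a ha

end Claimed.Agent.R245
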