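/-
Row 245 / S0484, GEO: THE TWO END GAMES.   Architect: helper138.   Prefix `ge`.   (Definitions: GeoDefs.lean, helper18;  crossing: GeoCross.lean;  line: GeoLine.lean.)

  ge_typeI  : ONE complete strip `σ` whose leaves are the full plane sections `Cone F ∩ {a (w) · x = 0}`           ⇒ `LEverywhere F`.
  ge_typeII : a line of the surface + ONE complete strip whose leaves are the residual parts of plane sections through the line ⇒ `LEverywhere F`.

TYPE I.   (1) `ge_moves`: there are `w₁, w₂, z` with `a (w₂) · σ (w₁, z) ≠ 0`  (otherwise the strip lies in the plane `a (w₀)`, the tangent plane of the cone is constant along a leaf, the leaf is radial by `gg_gauss`, not regular).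
(2) `ge_common_zero`: `x₀ ∈ Cone F` with `a (w₁) · x₀ = a (w₂) · x₀ = 0`;  SURJ twice: `σ (w₁, z₁) ∥ σ (w₂, z₂)`.   (3) `gx_perturb`: a transversal crossing of two leaves, or a germ of the leaf `w₁` lies in the leaf `w₂`, hence in the plane `a (w₂)`,
hence (`ge_ident`) the whole leaf `w₁` does: excluded by (1).   (4) `gx_cross` + `gx_leaf`: `L` on a whole leaf `u₂`; SURJ: `L` on the plane section `a (u₂)`;  `l2_LEverywhere_of_plane`.

TYPE II.  (1) `ge_perturb` (curve version of `gx_perturb`): transversal crossings of the line with the strip at all points of a disc of the line, or a germ of the line lies in a leaf (excluded by hypothesis).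
(2) `gx_cross` + `gln_longCurve`: `L` on the leaves through these points, in particular on a disc of the line.  (3) `ge_line_all`: `L` on the whole line (`l2_disc` on big discs of the line, chart `gln_tube`).  (4) SURJ', `l2_LEverywhere_of_plane`.

LEAVES (statements FROZEN; helper lemmas directly above the theorem, prefix as indicated):
  GE-MOVES  ge_prop, ge_tangent, ge_radial          (~200 lines)   prefix gem_
  GE-ZERO   ge_common_zero                          (~120 lines)   prefix gez_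
  GE-IDENT  ge_ident                                (~40 lines)
  GE-INDEP  ge_indep                                (~100 lines)   prefix gei_
-/
import Mathlib
import Claimed.Agent.R245.GeoDefs
import Claimed.Agent.R245.GeoCrossX
import Claimed.Agent.R245.GeoLine
import Claimed.Agent.R245.GeoGauss
import Claimed.Agent.R245.L2DiscStmt

set_option autoImplicit false

namespace Claimed.Agent.R245

open MvPolynomial Metric Set Filter Topology Claims.C0412

/-! ### GE-MOVES -/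

/-- two covectors of `ℂ⁴` which kill the same three independent vectors are proportional.
(The map `g ↦ (dot g e₀, dot g e₁, dot g e₂)`, `V4 → V3`, is surjective by independence, so its kernel has dimension one; or: complete `e` to a basis `e₀ e₁ e₂ e₃`, `dot a e₃ ≠ 0`, `c = dot g e₃ / dot a e₃`, `g - c a` kills a basis.) -/
theorem ge_prop {e₀ e₁ e₂ a g : V4} (he : LinearIndependent ℂ ![e₀, e₁, e₂]) (ha : a ≠ 0)
    (ha0 : dot a e₀ = 0) (ha1 : dot a e₁ = 0) (ha2 : dot a e₂ = 0)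
    (hg0 : dot g e₀ = 0) (hg1 : dot g e₁ = 0) (hg2 : dot g e₂ = 0) : ∃ c : ℂ, g = c • a := by
  classical
  obtain ⟨M, hM⟩ : ∃ M : Matrix (Fin 3) (Fin 4) ℂ, M = Matrix.of ![e₀, e₁, e₂] := ⟨_, rfl⟩
  have hrank : M.rank = 3 := by
    have h1 : LinearIndependent ℂ M.row := by
      have : M.row = ![e₀, e₁, e₂] := by
        rw [hM]; rfl
      rw [this]
      exact he
    simpa using h1.rank_matrix
  have hker : Module.finrank ℂ (LinearMap.ker M.mulVecLin) = 1 := by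
    have h1 := LinearMap.finrank_range_add_finrank_ker M.mulVecLin
    have h2 : Module.finrank ℂ (LinearMap.range M.mulVecLin) = 3 := hrank
    rw [h2] at h1
    simp only [Module.finrank_fintype_fun_eq_card, Fintype.card_fin] at h1
    omega
  have hmem : ∀ x : V4, dot x e₀ = 0 → dot x e₁ = 0 → dot x e₂ = 0 →
      x ∈ LinearMap.ker M.mulVecLin := by
    intro x h0 h1 h2
    rw [LinearMap.mem_ker]
    have hd : ∀ v : V4, v ⬝ᵥ x = dot x v := fun v => by
      simp only [dotProduct, dot]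
      exact Finset.sum_congr rfl fun i _ => mul_comm _ _
    ext i
    rw [Matrix.mulVecLin_apply, Matrix.mulVec, hM]
    fin_cases i
    · exact (hd e₀).trans h0
    · exact (hd e₁).trans h1
    · exact (hd e₂).trans h2
  obtain ⟨c, hc⟩ := (finrank_eq_one_iff_of_nonzero'
    (⟨a, hmem a ha0 ha1 ha2⟩ : LinearMap.ker M.mulVecLin)
    (fun h => ha (congrArg Subtype.val h))).1 hker ⟨g, hmem g hg0 hg1 hg2⟩
  exact ⟨c, (congrArg Subtype.val hc).symm⟩

/-- a function `x ↦ dot (a) (σ x)` resp. `x ↦ eval (σ x) F` which vanishes near `x` has vanishing derivatives:  `a` and `grad F (σ x)` kill `σ x`, `∂₁σ x`, `∂₂σ x`.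
(`l2_hasFDerivAt_eval`, `l2dotL_apply`, `l2_euler`; chain rule; the derivative of a function which vanishes on a neighbourhood is zero: `Filter.EventuallyEq.fderiv_eq`.) -/
theorem ge_tangent {F : MvPolynomial (Fin 4) ℂ} (hF : F.IsHomogeneous 4) {σ : ℂ × ℂ → V4} {x : ℂ × ℂ} {a : V4}
    (hσ : DifferentiableAt ℂ σ x) (hc : ∀ᶠ y in 𝓝 x, eval (σ y) F = 0) (ha : ∀ᶠ y in 𝓝 x, dot a (σ y) = 0)
    (e : ℂ × ℂ) :
    dot a (σ x) = 0 ∧ dot a (fderiv ℂ σ x e) = 0 ∧ dot (grad F (σ x)) (σ x) = 0 ∧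
      dot (grad F (σ x)) (fderiv ℂ σ x e) = 0 := by
  refine ⟨ha.self_of_nhds, ?_, ?_, ?_⟩
  · have h1 : HasFDerivAt (fun y => l2dotL a (σ y)) ((l2dotL a).comp (fderiv ℂ σ x)) x :=
      (l2dotL a).hasFDerivAt.comp x hσ.hasFDerivAt
    have h2 : (fun y => l2dotL a (σ y)) =ᶠ[𝓝 x] fun _ => (0 : ℂ) := by
      filter_upwards [ha] with y hy
      rw [l2dotL_apply, hy]
    have h3 : fderiv ℂ (fun y => l2dotL a (σ y)) x = fderiv ℂ (fun _ => (0 : ℂ)) x := h2.fderiv_eq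
    rw [h1.fderiv, fderiv_const_apply] at h3
    have h4 := congrArg (fun L : ℂ × ℂ →L[ℂ] ℂ => L e) h3
    simpa [l2dotL_apply] using h4
  · rw [l2_euler hF, hc.self_of_nhds]
    simp
  · have h1 : HasFDerivAt (fun y => eval (σ y) F)
        ((l2dotL (grad F (σ x))).comp (fderiv ℂ σ x)) x :=
      (l2_hasFDerivAt_eval F (σ x)).comp x hσ.hasFDerivAt
    have h2 : (fun y => eval (σ y) F) =ᶠ[𝓝 x] fun _ => (0 : ℂ) := hc
    have h3 : fderiv ℂ (fun y => eval (σ y) F) x = fderiv ℂ (fun _ => (0 : ℂ)) x := h2.fderiv_eq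
    rw [h1.fderiv, fderiv_const_apply] at h3
    have h4 := congrArg (fun L : ℂ × ℂ →L[ℂ] ℂ => L e) h3
    simpa [l2dotL_apply] using h4

/-- a radial curve has a radial derivative.   (`p z = c z • p 0`; the slopes `(p z - p 0) / z` lie in the closed subspace `ℂ ∙ p 0`: `Submodule.closed_of_finiteDimensional`, `HasDerivAt.tendsto_slope`-type lemma, `IsClosed.mem_of_tendsto`.) -/
theorem ge_radial {p : ℂ → V4} (hp : DifferentiableAt ℂ p 0) (h : ∀ z : ℂ, ∃ c : ℂ, p z = c • p 0) :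
    ∃ c : ℂ, deriv p 0 = c • p 0 := by
  have h1 := hasDerivAt_iff_tendsto_slope.1 hp.hasDerivAt
  have hcl : IsClosed ((Submodule.span ℂ {p 0} : Submodule ℂ V4) : Set V4) :=
    Submodule.closed_of_finiteDimensional _
  have h2 : deriv p 0 ∈ ((Submodule.span ℂ {p 0} : Submodule ℂ V4) : Set V4) := by
    refine hcl.mem_of_tendsto h1 (Eventually.of_forall fun z => ?_)
    obtain ⟨c, hc⟩ := h z
    rw [slope_def_module, hc]
    refine Submodule.smul_mem _ _ (Submodule.sub_mem _ ?_ ?_)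
    · exact Submodule.smul_mem _ _ (Submodule.mem_span_singleton_self _)
    · exact Submodule.mem_span_singleton_self _
  obtain ⟨c, hc⟩ := Submodule.mem_span_singleton.1 h2
  exact ⟨c, hc.symm⟩

/-! ### GE-ZERO -/

/-- evaluation of a substituted polynomial -/
theorem gez_eval (F : MvPolynomial (Fin 4) ℂ) (f : Fin 4 → Polynomial ℂ) (s : ℂ) :
    (aeval f F : Polynomial ℂ).eval s = eval (fun i => (f i).eval s) F := by
  induction F using MvPolynomial.induction_on with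
  | C a => simp
  | add p q hp hq => simp [hp, hq]
  | mul_X p i hp => simp [hp]

/-- two independent vectors in the intersection of two planes -/
theorem gez_pair (a₁ a₂ : V4) : ∃ u v : V4, LinearIndependent ℂ ![u, v] ∧ dot a₁ u = 0 ∧
    dot a₂ u = 0 ∧ dot a₁ v = 0 ∧ dot a₂ v = 0 := by
  let L : V4 →ₗ[ℂ] ℂ × ℂ := ((l2dotL a₁ : V4 →ₗ[ℂ] ℂ)).prod (l2dotL a₂ : V4 →ₗ[ℂ] ℂ)
  have h1 := LinearMap.finrank_range_add_finrank_ker L
  have h2 : Module.finrank ℂ (LinearMap.range L) ≤ 2 := by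
    have := Submodule.finrank_le (LinearMap.range L)
    simpa using this
  have h3 : Module.finrank ℂ V4 = 4 := by simp
  have h4 : 1 < Module.finrank ℂ (LinearMap.ker L) := by omega
  have : Nontrivial (LinearMap.ker L) := Module.nontrivial_of_finrank_pos (R := ℂ) (by omega)
  obtain ⟨x, hx⟩ := exists_ne (0 : LinearMap.ker L)
  obtain ⟨y, hy⟩ := exists_linearIndependent_pair_of_one_lt_finrank h4 hx
  have hmem : ∀ z : LinearMap.ker L, dot a₁ z = 0 ∧ dot a₂ z = 0 := by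
    intro z
    have := z.2
    rw [LinearMap.mem_ker] at this
    have e1 := congrArg Prod.fst this
    have e2 := congrArg Prod.snd this
    simp only [L, LinearMap.prod_apply] at e1 e2
    exact ⟨by simpa [l2dotL_apply] using e1, by simpa [l2dotL_apply] using e2⟩
  refine ⟨x, y, ?_, (hmem x).1, (hmem x).2, (hmem y).1, (hmem y).2⟩
  have := hy.map' (LinearMap.ker L).subtype (Submodule.ker_subtype _)
  have e : (![(x : V4), (y : V4)] : Fin 2 → V4) = (LinearMap.ker L).subtype ∘ ![x, y] := by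
    funext i
    fin_cases i <;> rfl
  rw [e]
  exact this

/-- two planes and the cone have a common point.   (The kernel of `x ↦ (dot a₁ x, dot a₂ x)` has dimension `≥ 2`: independent `u, v` in it; `t ↦ eval (u + t • v) F` is a polynomial of degree `≤ 4`:
if it has a root `t`, take `x = u + t • v ≠ 0`; if not it is a non zero constant, its coefficient of `t⁴`, which is `eval v F`, vanishes: take `x = v`.
Polynomial: `aeval (fun i => C (u i) + C (v i) * X) F`, cf. `lc` in GeoDefs.lean; `IsAlgClosed.exists_root`; or use homogeneity: `eval (s • u + t • v) F` and `t⁴ eval (u/t.. )`.) -/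
theorem ge_common_zero {F : MvPolynomial (Fin 4) ℂ} (hF : F.IsHomogeneous 4) (a₁ a₂ : V4) :
    ∃ x ∈ Cone F, dot a₁ x = 0 ∧ dot a₂ x = 0 := by
  obtain ⟨u, v, hli, h1u, h2u, h1v, h2v⟩ := gez_pair a₁ a₂
  have hne : ∀ s t : ℂ, (s ≠ 0 ∨ t ≠ 0) → s • u + t • v ≠ 0 := fun s t hst h => by
    obtain ⟨e1, e2⟩ := LinearIndependent.pair_iff.1 hli s t h
    rcases hst with h' | h'
    · exact h' e1
    · exact h' e2
  have hdot : ∀ (a : V4), dot a u = 0 → dot a v = 0 → ∀ s t : ℂ, dot a (s • u + t • v) = 0 := by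
    intro a hu hv s t
    rw [← l2dotL_apply, map_add, map_smul, map_smul, l2dotL_apply, l2dotL_apply, hu, hv]
    simp
  -- it suffices to find a non trivial zero of the binary form
  suffices H : ∃ s t : ℂ, (s ≠ 0 ∨ t ≠ 0) ∧ eval (s • u + t • v) F = 0 by
    obtain ⟨s, t, hst, h0⟩ := H
    exact ⟨s • u + t • v, ⟨hne s t hst, h0⟩, hdot a₁ h1u h1v s t, hdot a₂ h2u h2v s t⟩
  set q : Polynomial ℂ :=
    aeval (fun i => Polynomial.C (u i) * Polynomial.X + Polynomial.C (v i)) F with hq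
  have hqe : ∀ s : ℂ, q.eval s = eval (s • u + (1 : ℂ) • v) F := by
    intro s
    have e : (fun i => (Polynomial.C (u i) * Polynomial.X + Polynomial.C (v i)).eval s)
        = s • u + (1 : ℂ) • v := by
      funext i
      simp only [Polynomial.eval_add, Polynomial.eval_mul, Polynomial.eval_C, Polynomial.eval_X,
        Pi.add_apply, Pi.smul_apply, smul_eq_mul, one_mul]
      ring
    rw [hq, gez_eval, e]
  by_cases hdeg : q.degree = 0
  swap
  · obtain ⟨s, hs⟩ := IsAlgClosed.exists_root q hdeg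
    exact ⟨s, 1, Or.inr one_ne_zero, by rw [← hqe]; exact hs⟩
  -- `q` is a constant `c`
  have hqc : q = Polynomial.C (q.coeff 0) := Polynomial.eq_C_of_degree_le_zero hdeg.le
  set c : ℂ := q.coeff 0 with hc
  have hconst : ∀ s : ℂ, eval (s • u + (1 : ℂ) • v) F = c := by
    intro s
    rw [← hqe, hqc]
    simp
  set p : Polynomial ℂ :=
    aeval (fun i => Polynomial.C (u i) + Polynomial.C (v i) * Polynomial.X) F with hp
  have hpe : ∀ t : ℂ, p.eval t = eval ((1 : ℂ) • u + t • v) F := by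
    intro t
    have e : (fun i => (Polynomial.C (u i) + Polynomial.C (v i) * Polynomial.X).eval t)
        = (1 : ℂ) • u + t • v := by
      funext i
      simp only [Polynomial.eval_add, Polynomial.eval_mul, Polynomial.eval_C, Polynomial.eval_X,
        Pi.add_apply, Pi.smul_apply, smul_eq_mul, one_mul]
      ring
    rw [hp, gez_eval, e]
  have hpt : ∀ t : ℂ, t ≠ 0 → p.eval t = (Polynomial.C c * Polynomial.X ^ 4).eval t := by
    intro t ht
    have e : (1 : ℂ) • u + t • v = t • (t⁻¹ • u + (1 : ℂ) • v) := by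
      rw [smul_add, smul_smul, smul_smul, mul_inv_cancel₀ ht, mul_one]
    rw [hpe, e, l2_eval_smul hF, hconst]
    simp only [Polynomial.eval_mul, Polynomial.eval_C, Polynomial.eval_pow, Polynomial.eval_X]
    ring
  have hpp : p = Polynomial.C c * Polynomial.X ^ 4 := by
    refine Polynomial.eq_of_infinite_eval_eq _ _ ?_
    refine Set.Infinite.mono (s := {0}ᶜ) (fun t ht => hpt t ht) ?_
    exact (Set.finite_singleton (0 : ℂ)).infinite_compl
  refine ⟨1, 0, Or.inl one_ne_zero, ?_⟩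
  rw [← hpe, hpp]
  simp

/-! ### GE-IDENT -/

/-- identity theorem on a leaf.  (`z ↦ dot a (σ (w₁, z))` is entire; `AnalyticOnNhd.eqOn_zero_of_preconnected_of_eventuallyEq_zero` / `Differentiable.analyticAt`.) -/
theorem ge_ident {g : ℂ → ℂ} (hg : Differentiable ℂ g) {z₁ : ℂ} {ε : ℝ} (hε : 0 < ε)
    (h : ∀ z : ℂ, ‖z‖ < ε → g (z₁ + z) = 0) (z : ℂ) : g z = 0 := by
  have han : AnalyticOnNhd ℂ g univ := fun z _ => hg.analyticAt z
  have h0 : g =ᶠ[𝓝 z₁] 0 := by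
    filter_upwards [ball_mem_nhds z₁ hε] with y hy
    rw [mem_ball, dist_eq_norm] at hy
    have := h (y - z₁) hy
    simpa using this
  exact han.eqOn_zero_of_preconnected_of_eventuallyEq_zero isPreconnected_univ (mem_univ z₁) h0
    (mem_univ z)

/-! ### GE-INDEP -/

/-- the derivative of `p ↦ γ p.2` in the second direction -/
theorem gei_fderiv_snd {G : Type*} [NormedAddCommGroup G] [NormedSpace ℂ G] (γ : ℂ → G) (x₀ : ℂ) :
    fderiv ℂ (fun p : ℂ × ℂ => γ p.2) (0, x₀) (0, 1) = deriv γ x₀ := by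
  by_cases h : DifferentiableAt ℂ γ x₀
  · have h1 : HasFDerivAt (fun p : ℂ × ℂ => γ p.2)
        ((fderiv ℂ γ x₀).comp (ContinuousLinearMap.snd ℂ ℂ ℂ)) (0, x₀) :=
      HasFDerivAt.comp (𝕜 := ℂ) (f := fun p : ℂ × ℂ => p.2) (g := γ) (0, x₀) h.hasFDerivAt
        hasFDerivAt_snd
    rw [h1.fderiv]
    simp
  · have h2 : ¬ DifferentiableAt ℂ (fun p : ℂ × ℂ => γ p.2) (0, x₀) := by
      intro hd
      apply h
      have h3 : DifferentiableAt ℂ (fun x : ℂ => ((0 : ℂ), x)) x₀ := by fun_prop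
      exact DifferentiableAt.comp (𝕜 := ℂ) (g := fun p : ℂ × ℂ => γ p.2) x₀ hd h3
    rw [fderiv_zero_of_not_differentiableAt h2, deriv_zero_of_not_differentiableAt h]
    simp

/-- curve version of `gx_indep`: if `γ = κ exp (A₂) σ (w₁ + A₀, z₁ + A₁)` near `x₀` and `A₀' (x₀) ≠ 0`, the curve is transversal to the leaf at the common point.
(Either apply `gx_indep` to `σ₁ p = γ p.2`, `A' p = A p.2`, or redo the chain rule, cf. `gx_fderiv`.) -/
theorem ge_indep {γ : ℂ → V4} {σ : ℂ × ℂ → V4} {A : ℂ → V3} {x₀ w₁ z₁ κ : ℂ}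
    (hA : DifferentiableAt ℂ A x₀) (hσ : DifferentiableAt ℂ σ (w₁ + A x₀ 0, z₁ + A x₀ 1))
    (hreg : RegAt σ (w₁ + A x₀ 0, z₁ + A x₀ 1)) (hκ : κ ≠ 0)
    (heq : ∀ᶠ x in 𝓝 x₀, γ x = gxS σ A w₁ z₁ κ (x, 0)) (hne : deriv (fun x => A x 0) x₀ ≠ 0) :
    LinearIndependent ℂ ![γ x₀, deriv γ x₀, fderiv ℂ σ (w₁ + A x₀ 0, z₁ + A x₀ 1) (0, 1)] := by
  have hA' : DifferentiableAt ℂ (fun p : ℂ × ℂ => A p.2) (0, x₀) :=
    DifferentiableAt.comp (𝕜 := ℂ) (f := fun p : ℂ × ℂ => p.2) (g := A) (0, x₀) hA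
      differentiableAt_snd
  have heq' : ∀ᶠ p in 𝓝 ((0 : ℂ), x₀), (fun p : ℂ × ℂ => γ p.2) p
      = gxS σ (fun p : ℂ × ℂ => A p.2) w₁ z₁ κ (p, 0) :=
    (continuous_snd.tendsto ((0 : ℂ), x₀)).eventually heq
  have hne' : fderiv ℂ (fun p : ℂ × ℂ => A p.2) (0, x₀) (0, 1) 0 ≠ 0 := by
    rw [gei_fderiv_snd A x₀]
    have h1 : HasDerivAt (fun x => A x 0) (deriv A x₀ 0) x₀ := hasDerivAt_pi.1 hA.hasDerivAt 0
    rw [h1.deriv] at hne
    exact hne
  have := gx_indep (σ₁ := fun p : ℂ × ℂ => γ p.2) (σ := σ) (A := fun p : ℂ × ℂ => A p.2)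
    (x₀ := (0, x₀)) (w₁ := w₁) (z₁ := z₁) (κ := κ) hA' hσ hreg hκ heq' hne'
  rw [gei_fderiv_snd γ x₀] at this
  exact this

/-! ### the glue, type I -/

/-- a complete strip does not lie in a plane -/
theorem ge_not_in_plane {F : MvPolynomial (Fin 4) ℂ} (hF : IsSmoothQuarticForm F) {w₀ : ℂ} {b : ℝ}
    {σ : ℂ × ℂ → V4} (hσ : IsStrip F w₀ b σ) {a : V4} (ha : a ≠ 0) :
    ∃ w ∈ ball w₀ b, ∃ z : ℂ, dot a (σ (w, z)) ≠ 0 := by
  by_contra hcon
  push Not at hcon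
  have hw₀ : w₀ ∈ ball w₀ b := mem_ball_self hσ.b_pos
  have hopen : IsOpen (ball w₀ b ×ˢ (univ : Set ℂ)) := isOpen_ball.prod isOpen_univ
  have hprop : ∀ z : ℂ, ∃ c : ℂ, grad F (σ (w₀, z)) = c • a := fun z => by
    have hmem : ((w₀, z) : ℂ × ℂ) ∈ ball w₀ b ×ˢ (univ : Set ℂ) := ⟨hw₀, mem_univ _⟩
    have hc : ∀ᶠ y in 𝓝 ((w₀, z) : ℂ × ℂ), eval (σ y) F = 0 :=
      Filter.eventually_of_mem (hopen.mem_nhds hmem) fun y hy => (hσ.hol.2 hy).2
    have hav : ∀ᶠ y in 𝓝 ((w₀, z) : ℂ × ℂ), dot a (σ y) = 0 :=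
      Filter.eventually_of_mem (hopen.mem_nhds hmem) fun y hy => hcon y.1 hy.1 y.2
    have h1 := ge_tangent hF.1 (gx_diffAt hσ hw₀ z) hc hav (1, 0)
    have h2 := ge_tangent hF.1 (gx_diffAt hσ hw₀ z) hc hav (0, 1)
    exact ge_prop (hσ.reg _ hmem) ha h1.1 h1.2.1 h2.2.1 h1.2.2.1 h1.2.2.2 h2.2.2.2
  have hleaf : Differentiable ℂ (fun z : ℂ => σ (w₀, z)) := fun z =>
    (gx_diffAt hσ hw₀ z).comp z (by fun_prop : DifferentiableAt ℂ (fun z : ℂ => ((w₀, z) : ℂ × ℂ)) z)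
  have hrad := gg_gauss F hF isOpen_univ isPreconnected_univ (p := fun z => σ (w₀, z)) (g₀ := a)
    hleaf.differentiableOn (fun z _ => hσ.hol.2 ⟨hw₀, mem_univ _⟩) (fun z _ => hprop z)
  obtain ⟨c, hc⟩ := ge_radial (p := fun z => σ (w₀, z)) (hleaf 0)
    (fun z => hrad 0 (mem_univ _) z (mem_univ _))
  rw [gx_deriv_leaf (gx_diffAt hσ hw₀ 0)] at hc
  have hreg := hσ.reg (w₀, 0) ⟨hw₀, mem_univ _⟩
  unfold RegAt at hreg
  have h3 := Fintype.linearIndependent_iff.1 hreg ![c, 0, -1] (by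
    simp only [Fin.sum_univ_three, Matrix.cons_val_zero, Matrix.cons_val_one, Matrix.cons_val_two,
      Matrix.head_cons, Matrix.tail_cons, hc]
    module) 2
  simp at h3

/-- the planes of a type I family move -/
theorem ge_moves {F : MvPolynomial (Fin 4) ℂ} (hF : IsSmoothQuarticForm F) {w₀ : ℂ} {b : ℝ}
    {σ : ℂ × ℂ → V4} (hσ : IsStrip F w₀ b σ) {a : ℂ → V4} (ha : ∀ w ∈ ball w₀ b, a w ≠ 0) :
    ∃ w₁ ∈ ball w₀ b, ∃ w₂ ∈ ball w₀ b, ∃ z : ℂ, dot (a w₂) (σ (w₁, z)) ≠ 0 := by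
  have hw₀ : w₀ ∈ ball w₀ b := mem_ball_self hσ.b_pos
  obtain ⟨w, hw, z, hz⟩ := ge_not_in_plane hF hσ (ha w₀ hw₀)
  exact ⟨w, hw, w₀, hw₀, z, hz⟩

/-- **END GAME, TYPE I.** -/
theorem ge_typeI {F : MvPolynomial (Fin 4) ℂ} (hF : IsSmoothQuarticForm F) {w₀ : ℂ} {b : ℝ}
    {σ : ℂ × ℂ → V4} (hσ : IsStrip F w₀ b σ) (a : ℂ → V4) (ha : ∀ w ∈ ball w₀ b, a w ≠ 0)
    (hpl : ∀ w ∈ ball w₀ b, ∀ z : ℂ, dot (a w) (σ (w, z)) = 0)
    (hsurj : ∀ w ∈ ball w₀ b, ∀ x ∈ Cone F, dot (a w) x = 0 → ∃ z t : ℂ, t ≠ 0 ∧ x = t • σ (w, z)) :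
    LEverywhere F := by
  obtain ⟨w₁, hw₁, w₂, hw₂, z₀, hz₀⟩ := ge_moves hF hσ ha
  obtain ⟨x₀, hx₀, h1, h2⟩ := ge_common_zero hF.1 (a w₁) (a w₂)
  obtain ⟨z₁, t₁, ht₁, e₁⟩ := hsurj w₁ hw₁ x₀ hx₀ h1
  obtain ⟨z₂, t₂, ht₂, e₂⟩ := hsurj w₂ hw₂ x₀ hx₀ h2
  have hmeet : σ (w₁, z₁) = (t₁⁻¹ * t₂) • σ (w₂, z₂) := by
    rw [mul_smul, ← e₂, e₁, smul_smul, inv_mul_cancel₀ ht₁, one_smul]
  have hdot_smul : ∀ (c : ℂ) (u v : V4), dot u (c • v) = c * dot u v := fun c u v => by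
    simp only [dot, Pi.smul_apply, smul_eq_mul, Finset.mul_sum]
    exact Finset.sum_congr rfl fun i _ => by ring
  rcases gx_perturb hF hσ hσ hw₁ hw₂ (mul_ne_zero (inv_ne_zero ht₁) ht₂) hmeet with
    ⟨u₁, v₁, u₂, v₂, t', hu₁, hu₂, ht', hm, hind⟩ | ⟨ε, hε, hgerm⟩
  · have hL : ∀ z : ℂ, HasL F (σ (u₂, z)) := by
      refine gx_cross hF (gx_leaf hσ hu₁) hσ (ζ₀ := v₁) (z₁ := v₂) hu₂ ht' hm ?_
      rw [gx_deriv_leaf (gx_diffAt hσ hu₁ v₁)]
      exact hind
    refine l2_LEverywhere_of_plane hF (a u₂) fun y hy hay => ?_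
    obtain ⟨z, t, ht, e⟩ := hsurj u₂ hu₂ y hy hay
    rw [e]
    exact l2_hasL_smul hF.1 (hL z) ht
  · exfalso
    have hleaf : Differentiable ℂ (fun z : ℂ => σ (w₁, z)) := fun z =>
      (gx_diffAt hσ hw₁ z).comp z (by fun_prop : DifferentiableAt ℂ (fun z : ℂ => ((w₁, z) : ℂ × ℂ)) z)
    have hg : Differentiable ℂ (fun z : ℂ => dot (a w₂) (σ (w₁, z))) := by
      have h3 : (fun z : ℂ => dot (a w₂) (σ (w₁, z))) = fun z => l2dotL (a w₂) (σ (w₁, z)) := by
        funext z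
        rw [l2dotL_apply]
      rw [h3]
      exact (l2dotL (a w₂)).differentiable.comp hleaf
    refine hz₀ (ge_ident hg hε (z₁ := z₁) (fun z hz => ?_) z₀)
    obtain ⟨ζ, t', _, e⟩ := hgerm z hz
    simp only [e, hdot_smul, hpl w₂ hw₂ ζ, mul_zero]

/-! ### the glue, type II -/

/-- **PERTURBATION, curve version.**  An entire curve in the cone which meets a complete strip crosses it transversally at all points of a small disc, unless a germ of the curve lies in a leaf. -/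
theorem ge_perturb {F : MvPolynomial (Fin 4) ℂ} (hF : IsSmoothQuarticForm F) {γ : ℂ → V4}
    (hγd : Differentiable ℂ γ) (hγc : ∀ ζ : ℂ, γ ζ ∈ Cone F) {w₀ : ℂ} {b : ℝ} {σ : ℂ × ℂ → V4}
    (hσ : IsStrip F w₀ b σ) {ζ₀ w₁ z₁ t : ℂ} (hw₁ : w₁ ∈ ball w₀ b) (ht : t ≠ 0)
    (hmeet : γ ζ₀ = t • σ (w₁, z₁)) :
    (∃ (ζ' : ℂ) (ε : ℝ), 0 < ε ∧ ∀ ζ ∈ ball ζ' ε, ∃ w z t' : ℂ, w ∈ ball w₀ b ∧ t' ≠ 0 ∧
      γ ζ = t' • σ (w, z) ∧ LinearIndependent ℂ ![γ ζ, deriv γ ζ, fderiv ℂ σ (w, z) (0, 1)]) ∨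
    (∃ ε : ℝ, 0 < ε ∧ ∀ ζ : ℂ, ‖ζ - ζ₀‖ < ε → ∃ z t' : ℂ, t' ≠ 0 ∧ γ ζ = t' • σ (w₁, z)) := by
  obtain ⟨r', A, hr', -, hAd, hA0, hA⟩ := gx_align hF hσ hw₁ (y := fun x => t⁻¹ • γ x)
    (x₀ := ζ₀) (z₁ := z₁) one_pos ((hγd.const_smul t⁻¹).differentiableOn)
    (fun x _ => l2_smul_mem_cone hF.1 (inv_ne_zero ht) (hγc x))
    (by simp only [hmeet, smul_smul, inv_mul_cancel₀ ht, one_smul])
  have hkey : ∀ x ∈ ball ζ₀ r', γ x = gxS σ A w₁ z₁ t (x, 0) := fun x hx => by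
    have h := (hA x hx).2
    simp only [gxS, add_zero]
    rw [mul_smul, ← h, smul_smul, mul_inv_cancel₀ ht, one_smul]
  have hu : DifferentiableOn ℂ (fun x => A x 0) (ball ζ₀ r') :=
    fun x hx => (differentiableWithinAt_pi.1 (hAd x hx)) 0
  by_cases hex : ∃ x ∈ ball ζ₀ r', deriv (fun x => A x 0) x ≠ 0
  · left
    obtain ⟨x, hx, hne⟩ := hex
    have hcont : ContinuousOn (deriv (fun x => A x 0)) (ball ζ₀ r') :=
      (hu.deriv isOpen_ball).continuousOn
    have hopen : IsOpen (ball ζ₀ r' ∩ deriv (fun x => A x 0) ⁻¹' {0}ᶜ) :=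
      hcont.isOpen_inter_preimage isOpen_ball isOpen_compl_singleton
    obtain ⟨ε, hε, hsub⟩ := Metric.isOpen_iff.1 hopen x ⟨hx, hne⟩
    refine ⟨x, ε, hε, fun ζ hζ => ?_⟩
    obtain ⟨hζb, hζne⟩ := hsub hζ
    refine ⟨w₁ + A ζ 0, z₁ + A ζ 1, t * Complex.exp (A ζ 2), (hA ζ hζb).1,
      mul_ne_zero ht (Complex.exp_ne_zero _), ?_, ?_⟩
    · have := hkey ζ hζb
      simpa only [gxS, add_zero] using this
    · exact ge_indep (κ := t) (hAd.differentiableAt (isOpen_ball.mem_nhds hζb))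
        (gx_diffAt hσ (hA ζ hζb).1 _) (hσ.reg _ ⟨(hA ζ hζb).1, mem_univ _⟩) ht
        (Filter.eventually_of_mem (isOpen_ball.mem_nhds hζb) hkey) hζne
  · right
    push Not at hex
    refine ⟨r', hr', fun ζ hζ => ?_⟩
    have hζb : ζ ∈ ball ζ₀ r' := by rwa [mem_ball, dist_eq_norm]
    have hc : A ζ 0 = A ζ₀ 0 := isOpen_ball.is_const_of_deriv_eq_zero
      (convex_ball ζ₀ r').isPreconnected hu (fun x hx => hex x hx) hζb (mem_ball_self hr')
    have h3 := hkey ζ hζb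
    simp only [gxS, add_zero] at h3
    rw [hc, hA0] at h3
    exact ⟨z₁ + A ζ 1, t * Complex.exp (A ζ 2), mul_ne_zero ht (Complex.exp_ne_zero _), by simpa using h3⟩

/-- **`L` propagates along a line**: from a disc of the line to the whole line. -/
theorem ge_line_all {F : MvPolynomial (Fin 4) ℂ} (hF : IsSmoothQuarticForm F) {y₀ y₁ : V4}
    (hli : LinearIndependent ℂ ![y₀, y₁]) (hline : ∀ s t : ℂ, eval (s • y₀ + t • y₁) F = 0) {wc : ℂ} {ρ : ℝ}
    (hρ : 0 < ρ) (hL : ∀ w ∈ ball wc ρ, HasL F (y₀ + w • y₁)) (s t : ℂ) (hst : s ≠ 0 ∨ t ≠ 0) :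
    HasL F (s • y₀ + t • y₁) := by
  by_cases hd : t - s * wc = 0
  · have ht : t = s * wc := by linear_combination hd
    have hs : s ≠ 0 := by
      rcases hst with h | h
      · exact h
      · intro hs
        exact h (by rw [ht, hs, zero_mul])
    have h1 : s • y₀ + t • y₁ = s • (y₀ + wc • y₁) := by rw [ht]; module
    rw [h1]
    exact l2_hasL_smul hF.1 (hL wc (mem_ball_self hρ)) hs
  · have hli' : LinearIndependent ℂ ![s • y₀ + t • y₁, y₀ + wc • y₁] := by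
      rw [LinearIndependent.pair_iff] at hli ⊢
      intro p q h
      obtain ⟨h1, h2⟩ := hli (p * s + q) (p * t + q * wc) (by rw [← h]; module)
      have hp : p * (t - s * wc) = 0 := by linear_combination h2 - wc * h1
      have hp0 : p = 0 := (mul_eq_zero.1 hp).resolve_right hd
      refine ⟨hp0, ?_⟩
      simpa [hp0] using h1
    have hline' : ∀ p q : ℂ, eval (p • (s • y₀ + t • y₁) + q • (y₀ + wc • y₁)) F = 0 := fun p q => by
      have h1 : p • (s • y₀ + t • y₁) + q • (y₀ + wc • y₁) = (p * s + q) • y₀ + (p * t + q * wc) • y₁ := by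
        module
      rw [h1]
      exact hline _ _
    obtain ⟨Ω, Ξ, hΩ, hax, hΞ, hval, hreg⟩ := gln_tube hF hli' hline'
    have hr : 0 < ‖s‖ + ‖t - s * wc‖ / ρ + 1 := by positivity
    have h0 := l2_disc hF hr (ξ := Ξ) ⟨Ω, hΩ, by
        rintro ⟨z, w⟩ ⟨_, hw⟩
        rw [mem_singleton_iff] at hw
        simp only at hw
        rw [hw]
        exact hax z, hΞ⟩ (hreg 0) (fun ζ hζ => by
      rw [hval]
      have hsζ : ‖s‖ + ‖t - s * wc‖ / ρ + 1 ≤ ‖s + ζ‖ + ‖s‖ := by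
        rw [← hζ]
        have := norm_add_le (s + ζ) (-s)
        simpa using this
      have hpos : 0 < ‖s + ζ‖ := by
        have : 0 ≤ ‖t - s * wc‖ / ρ := by positivity
        linarith
      have hne : s + ζ ≠ 0 := norm_pos_iff.1 hpos
      have h1 : s • y₀ + t • y₁ + ζ • (y₀ + wc • y₁) = (s + ζ) • (y₀ + ((t + ζ * wc) / (s + ζ)) • y₁) := by
        have h4 : (s + ζ) * ((t + ζ * wc) / (s + ζ)) = t + ζ * wc := mul_div_cancel₀ _ hne
        rw [smul_add (s + ζ), smul_smul, h4]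
        module
      rw [h1]
      refine l2_hasL_smul hF.1 (hL _ ?_) hne
      rw [mem_ball, dist_eq_norm]
      have h2 : (t + ζ * wc) / (s + ζ) - wc = (t - s * wc) / (s + ζ) := by
        field_simp
        ring
      rw [h2, norm_div, div_lt_iff₀ hpos]
      have h3 : ‖t - s * wc‖ / ρ < ‖s + ζ‖ := by linarith
      rw [div_lt_iff₀ hρ] at h3
      linarith)
    rw [hval] at h0
    simpa using h0

/-- **END GAME, TYPE II.** -/
theorem ge_typeII {F : MvPolynomial (Fin 4) ℂ} (hF : IsSmoothQuarticForm F) {y₀ y₁ : V4}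
    (hli : LinearIndependent ℂ ![y₀, y₁]) (hline : ∀ s t : ℂ, eval (s • y₀ + t • y₁) F = 0) {w₀ : ℂ} {b : ℝ}
    {σ : ℂ × ℂ → V4} (hσ : IsStrip F w₀ b σ) (a : ℂ → V4)
    (hsurj : ∀ w ∈ ball w₀ b, ∀ x ∈ Cone F, dot (a w) x = 0 →
      (∃ s t : ℂ, x = s • y₀ + t • y₁) ∨ ∃ z t : ℂ, t ≠ 0 ∧ x = t • σ (w, z))
    {ζ₀ w₁ z₁ t : ℂ} (hw₁ : w₁ ∈ ball w₀ b) (ht : t ≠ 0) (hmeet : y₀ + ζ₀ • y₁ = t • σ (w₁, z₁))
    (hfin : ∀ ε : ℝ, 0 < ε → ∃ ζ : ℂ, ‖ζ - ζ₀‖ < ε ∧ ∀ z t' : ℂ, t' ≠ 0 → y₀ + ζ • y₁ ≠ t' • σ (w₁, z)) :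
    LEverywhere F := by
  have hne : ∀ s t : ℂ, (s ≠ 0 ∨ t ≠ 0) → s • y₀ + t • y₁ ≠ 0 := fun s t hst h => by
    obtain ⟨h1, h2⟩ := LinearIndependent.pair_iff.1 hli s t h
    rcases hst with h' | h'
    · exact h' h1
    · exact h' h2
  have hγc : ∀ ζ : ℂ, y₀ + ζ • y₁ ∈ Cone F := fun ζ => by
    have h1 : y₀ + ζ • y₁ = (1 : ℂ) • y₀ + ζ • y₁ := by rw [one_smul]
    rw [h1]
    exact ⟨hne 1 ζ (Or.inl one_ne_zero), hline 1 ζ⟩
  have hlong := gln_longCurve hF hli hline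
  rcases ge_perturb hF (γ := fun ζ => y₀ + ζ • y₁) hlong.1 hγc hσ hw₁ ht hmeet with
    ⟨ζ', ε, hε, hcr⟩ | ⟨ε, hε, hgerm⟩
  · have hLline : ∀ ζ ∈ ball ζ' ε, HasL F (y₀ + ζ • y₁) := fun ζ hζ => by
      obtain ⟨w, z, t', hw, ht', hm, hind⟩ := hcr ζ hζ
      have := gx_cross hF hlong hσ (ζ₀ := ζ) hw ht' hm hind z
      have h2 := l2_hasL_smul hF.1 this ht'
      rw [← hm] at h2
      exact h2
    have hall := ge_line_all hF hli hline hε hLline
    obtain ⟨w, z, t', hw, ht', hm, hind⟩ := hcr ζ' (mem_ball_self hε)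
    have hleaf := gx_cross hF hlong hσ (ζ₀ := ζ') hw ht' hm hind
    refine l2_LEverywhere_of_plane hF (a w) fun y hy hay => ?_
    rcases hsurj w hw y hy hay with ⟨s, t₂, e⟩ | ⟨z₂, t₂, ht₂, e⟩
    · rw [e]
      refine hall s t₂ ?_
      by_contra hcon
      push Not at hcon
      exact hy.1 (by rw [e, hcon.1, hcon.2]; simp)
    · rw [e]
      exact l2_hasL_smul hF.1 (hleaf z₂) ht₂
  · exfalso
    obtain ⟨ζ, hζ, hno⟩ := hfin ε hε
    obtain ⟨z, t', ht', e⟩ := hgerm ζ hζ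
    exact hno z t' ht' e

end Claimed.Agent.R245
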