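/-
Row 245 / S0484, GEO (architect helper18).   Package GEO-ODE: holomorphic ODE with parameters (local flow, uniqueness).
ONE FILE = ONE PACKAGE = ONE OWNER.  Statements FROZEN; helper lemmas: prefix `go_`, in this file.
Tools: R245/SCV.lean (`scv_lipschitz`, `scv_tendsto`, `scv_integral`, `scv_osgood`, `scv_analyticOnNhd`), all sorry-free.
-/
import Claimed.Agent.R245.SCV

set_option autoImplicit false
set_option linter.unusedSectionVars false

namespace Claimed.Agent.R245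

open Metric Set Filter Topology

section prim

variable {E F : Type*} [NormedAddCommGroup E] [NormedSpace ℂ E] [CompleteSpace E]
  [NormedAddCommGroup F] [NormedSpace ℂ F] [FiniteDimensional ℂ F]

theorem go_mul_mem_ball {ε : ℝ} {s : ℂ} (hs : s ∈ ball (0 : ℂ) ε) {u : ℝ} (hu : u ∈ Icc (0 : ℝ) 1) :
    (u : ℂ) * s ∈ ball (0 : ℂ) ε := by
  rw [mem_ball_zero_iff] at hs ⊢
  rw [norm_mul, Complex.norm_real, Real.norm_eq_abs, abs_of_nonneg hu.1]
  calc u * ‖s‖ ≤ 1 * ‖s‖ := mul_le_mul_of_nonneg_right hu.2 (norm_nonneg _)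
    _ < ε := by rwa [one_mul]

/-- the radial integral is the primitive vanishing at the centre. -/
theorem go_prim_hasDerivAt {g : ℂ → E} {ε : ℝ} (hg : DifferentiableOn ℂ g (ball 0 ε)) {t : ℂ}
    (ht : t ∈ ball (0 : ℂ) ε) :
    HasDerivAt (fun s : ℂ => s • ∫ u in (0 : ℝ)..1, g ((u : ℂ) * s)) (g t) t := by
  obtain ⟨G, hG⟩ := hg.isExactOn_ball
  have key : ∀ s ∈ ball (0 : ℂ) ε, s • ∫ u in (0 : ℝ)..1, g ((u : ℂ) * s) = G s - G 0 := by
    intro s hs
    rw [← intervalIntegral.integral_smul]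
    have hd : ∀ u ∈ uIcc (0 : ℝ) 1, HasDerivAt (fun u : ℝ => G ((u : ℂ) * s)) (s • g ((u : ℂ) * s)) u := by
      intro u hu
      rw [uIcc_of_le zero_le_one] at hu
      have h1 : HasDerivAt (fun y : ℝ => (y : ℂ) * s) s u := by
        have := (Complex.ofRealCLM.hasDerivAt (x := u)).mul_const s
        simpa using this
      have h2 := HasDerivAt.scomp u (hG _ (go_mul_mem_ball hs hu)) h1
      exact h2
    have hint : IntervalIntegrable (fun u : ℝ => s • g ((u : ℂ) * s)) MeasureTheory.volume 0 1 := by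
      apply ContinuousOn.intervalIntegrable
      rw [uIcc_of_le zero_le_one]
      refine ContinuousOn.const_smul ?_ s
      exact hg.continuousOn.comp (by fun_prop) (fun u hu => go_mul_mem_ball hs hu)
    have := intervalIntegral.integral_eq_sub_of_hasDerivAt hd hint
    simpa using this
  refine ((hG t ht).sub_const (G 0)).congr_of_eventuallyEq ?_
  filter_upwards [isOpen_ball.mem_nhds ht] with s hs using key s hs

/-- joint holomorphy of the radial integral. -/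
theorem go_int_differentiableOn {h : ℂ × F → E} {ε M : ℝ} {Q : Set F} (hQ : IsOpen Q)
    (hh : DifferentiableOn ℂ h (ball 0 ε ×ˢ Q)) (hM : ∀ z ∈ ball (0 : ℂ) ε ×ˢ Q, ‖h z‖ ≤ M) :
    DifferentiableOn ℂ (fun z : ℂ × F => ∫ u in (0 : ℝ)..1, h ((u : ℂ) * z.1, z.2))
      (ball 0 ε ×ˢ Q) := by
  intro z₀ hz₀
  have hz1 : ‖z₀.1‖ < ε := by simpa using hz₀.1
  set δ : ℝ := (ε + ‖z₀.1‖) / 2 with hδ
  have hδ0 : 0 < δ := by
    have := norm_nonneg z₀.1
    rw [hδ]; linarith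
  have hδ1 : ‖z₀.1‖ < δ := by rw [hδ]; linarith
  have hδ2 : δ < ε := by rw [hδ]; linarith
  set ρ : ℝ := ε / δ with hρ
  have hρ1 : 1 < ρ := by rw [hρ, lt_div_iff₀ hδ0]; linarith
  set μ : MeasureTheory.Measure ℂ :=
    MeasureTheory.Measure.map (fun u : ℝ => (u : ℂ)) (MeasureTheory.volume.restrict (Ioc (0 : ℝ) 1))
    with hμ
  have hmaps : ∀ w ∈ ball (0 : ℂ) ρ ×ˢ (ball (0 : ℂ) δ ×ˢ Q), (w.1 * w.2.1, w.2.2) ∈ ball (0 : ℂ) ε ×ˢ Q := by
    rintro ⟨ζ, t, p⟩ ⟨hζ, ht, hp⟩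
    refine ⟨?_, hp⟩
    simp only [mem_ball_zero_iff] at hζ ht ⊢
    rw [norm_mul]
    calc ‖ζ‖ * ‖t‖ ≤ ρ * ‖t‖ := mul_le_mul_of_nonneg_right hζ.le (norm_nonneg _)
      _ < ρ * δ := mul_lt_mul_of_pos_left ht (by linarith)
      _ = ε := by rw [hρ]; field_simp
  have hu : DifferentiableOn ℂ (fun w : ℂ × (ℂ × F) => h (w.1 * w.2.1, w.2.2))
      (ball (0 : ℂ) ρ ×ˢ (ball (0 : ℂ) δ ×ˢ Q)) :=
    hh.comp (f := fun w : ℂ × (ℂ × F) => (w.1 * w.2.1, w.2.2)) (by fun_prop) hmaps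
  have hfin : MeasureTheory.IsFiniteMeasure μ := by
    rw [hμ]; infer_instance
  have main := scv_integral (μ := μ) (C := ball (0 : ℂ) ρ) (P := ball (0 : ℂ) δ ×ˢ Q) isOpen_ball
    (isOpen_ball.prod hQ) hu (M := M) (fun w hw => hM _ (hmaps w hw)) (k := fun _ => (1 : ℂ))
    (MeasureTheory.integrable_const (1 : ℂ)).integrableOn
  have heq : ∀ z : ℂ × F, ∫ ζ in ball (0 : ℂ) ρ, (1 : ℂ) • h (ζ * z.1, z.2) ∂μ
      = ∫ u in (0 : ℝ)..1, h ((u : ℂ) * z.1, z.2) := by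
    intro z
    rw [hμ, Complex.isUniformEmbedding_ofReal.isClosedEmbedding.measurableEmbedding.setIntegral_map,
      MeasureTheory.Measure.restrict_restrict (isOpen_ball.preimage Complex.continuous_ofReal).measurableSet,
      intervalIntegral.integral_of_le zero_le_one]
    have : (fun u : ℝ => (u : ℂ)) ⁻¹' ball (0 : ℂ) ρ ∩ Ioc (0 : ℝ) 1 = Ioc (0 : ℝ) 1 := by
      apply inter_eq_right.mpr
      intro u hu
      simp only [mem_preimage, mem_ball_zero_iff, Complex.norm_real, Real.norm_eq_abs]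
      rw [abs_of_pos hu.1]
      linarith [hu.2]
    rw [this]
    simp
  have hmem : z₀ ∈ ball (0 : ℂ) δ ×ˢ Q := ⟨by simpa using hδ1, hz₀.2⟩
  have h3 := (main z₀ hmem).differentiableAt ((isOpen_ball.prod hQ).mem_nhds hmem)
  have h4 : (fun z : ℂ × F => ∫ ζ in ball (0 : ℂ) ρ, (1 : ℂ) • h (ζ * z.1, z.2) ∂μ)
      = fun z : ℂ × F => ∫ u in (0 : ℝ)..1, h ((u : ℂ) * z.1, z.2) := funext heq
  rw [h4] at h3
  exact h3.differentiableWithinAt

end prim

variable {E P : Type*} [NormedAddCommGroup E] [NormedSpace ℂ E] [FiniteDimensional ℂ E]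
  [NormedAddCommGroup P] [NormedSpace ℂ P] [FiniteDimensional ℂ P]

/-- the Picard operator -/
noncomputable def goT (V : E × P → E) (y : ℂ × E × P → E) : ℂ × E × P → E := fun z =>
  z.2.1 + z.1 • ∫ u in (0 : ℝ)..1, V (y ((u : ℂ) * z.1, z.2), z.2.2)

/-- the standing hypotheses of the Picard iteration -/
structure GoHyp (V : E × P → E) (x₀ : E) (r M ε : ℝ) (W : Set P) : Prop where
  hr : 0 < r
  hW : IsOpen W
  hV : DifferentiableOn ℂ V (ball x₀ (2 * r) ×ˢ W)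
  hM : ∀ y ∈ ball x₀ (2 * r) ×ˢ W, ‖V y‖ ≤ M
  hM0 : 0 < M
  hε : ε = r / (4 * M)

/-- admissible approximate solutions -/
structure GoAdm (x₀ : E) (r ε : ℝ) (W : Set P) (y : ℂ × E × P → E) : Prop where
  diff : DifferentiableOn ℂ y (ball (0 : ℂ) ε ×ˢ ball x₀ r ×ˢ W)
  close : ∀ z ∈ ball (0 : ℂ) ε ×ˢ ball x₀ r ×ˢ W, ‖y z - z.2.1‖ ≤ r / 4

variable {V : E × P → E} {x₀ : E} {r M ε : ℝ} {W : Set P}

theorem GoHyp.eps_pos (H : GoHyp V x₀ r M ε W) : 0 < ε := by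
  rw [H.hε]; exact div_pos H.hr (mul_pos (by norm_num) H.hM0)

theorem GoHyp.eps_mul (H : GoHyp V x₀ r M ε W) : M * ε = r / 4 := by
  rw [H.hε]; have := H.hM0; field_simp

theorem go_mem (H : GoHyp V x₀ r M ε W) {x a : E} (hx : x ∈ ball x₀ r) (ha : ‖a - x‖ ≤ r / 4) :
    a ∈ ball x₀ (2 * r) := by
  rw [mem_ball, dist_eq_norm] at hx ⊢
  have h1 : a - x₀ = (a - x) + (x - x₀) := by abel
  rw [h1]
  have := norm_add_le (a - x) (x - x₀)
  have := H.hr
  linarith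

theorem go_comp_mem (H : GoHyp V x₀ r M ε W) {y : ℂ × E × P → E} (hy : GoAdm x₀ r ε W y) :
    ∀ z ∈ ball (0 : ℂ) ε ×ˢ ball x₀ r ×ˢ W, (y z, z.2.2) ∈ ball x₀ (2 * r) ×ˢ W :=
  fun z hz => ⟨go_mem H hz.2.1 (hy.close z hz), hz.2.2⟩

theorem go_comp_diff (H : GoHyp V x₀ r M ε W) {y : ℂ × E × P → E} (hy : GoAdm x₀ r ε W y) :
    DifferentiableOn ℂ (fun z : ℂ × E × P => V (y z, z.2.2)) (ball (0 : ℂ) ε ×ˢ ball x₀ r ×ˢ W) :=
  H.hV.comp (f := fun z : ℂ × E × P => (y z, z.2.2))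
    (hy.diff.prodMk (by fun_prop)) (go_comp_mem H hy)

theorem go_T_deriv (H : GoHyp V x₀ r M ε W) {y : ℂ × E × P → E} (hy : GoAdm x₀ r ε W y) {t : ℂ}
    (ht : t ∈ ball (0 : ℂ) ε) {x : E} (hx : x ∈ ball x₀ r) {π : P} (hπ : π ∈ W) :
    HasDerivAt (fun s : ℂ => goT V y (s, x, π)) (V (y (t, x, π), π)) t := by
  have : CompleteSpace E := FiniteDimensional.complete ℂ E
  have hg : DifferentiableOn ℂ (fun s : ℂ => V (y (s, x, π), π)) (ball 0 ε) :=
    (go_comp_diff H hy).comp (f := fun s : ℂ => ((s, x, π) : ℂ × E × P)) (by fun_prop)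
      (fun s hs => ⟨hs, hx, hπ⟩)
  exact (go_prim_hasDerivAt hg ht).const_add x

theorem go_T_diff (H : GoHyp V x₀ r M ε W) {y : ℂ × E × P → E} (hy : GoAdm x₀ r ε W y) :
    DifferentiableOn ℂ (goT V y) (ball (0 : ℂ) ε ×ˢ ball x₀ r ×ˢ W) := by
  have : CompleteSpace E := FiniteDimensional.complete ℂ E
  have h1 := go_int_differentiableOn (F := E × P) (h := fun z : ℂ × E × P => V (y z, z.2.2))
    (isOpen_ball.prod H.hW) (go_comp_diff H hy) (fun z hz => H.hM _ (go_comp_mem H hy z hz))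
  have h2 : DifferentiableOn ℂ (fun z : ℂ × E × P => z.2.1) (ball (0 : ℂ) ε ×ˢ ball x₀ r ×ˢ W) := by
    fun_prop
  have h3 : DifferentiableOn ℂ (fun z : ℂ × E × P => z.1) (ball (0 : ℂ) ε ×ˢ ball x₀ r ×ˢ W) := by
    fun_prop
  exact h2.add (h3.smul h1)

theorem go_T_zero (y : ℂ × E × P → E) (x : E) (π : P) : goT V y (0, x, π) = x := by
  simp [goT]

/-- mean value inequality on the disc. -/
theorem go_mvt {D D' : ℂ → E} {C : ℝ} (hD : ∀ t ∈ ball (0 : ℂ) ε, HasDerivAt D (D' t) t)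
    (hC : ∀ t ∈ ball (0 : ℂ) ε, ‖D' t‖ ≤ C) (h0 : D 0 = 0) {t : ℂ} (ht : t ∈ ball (0 : ℂ) ε) :
    ‖D t‖ ≤ C * ε := by
  have hε : 0 < ε := pos_of_mem_ball ht
  have h1 := Convex.norm_image_sub_le_of_norm_hasDerivWithin_le (f := D) (f' := D') (C := C)
    (s := ball (0 : ℂ) ε) (fun x hx => (hD x hx).hasDerivWithinAt) hC (convex_ball _ _)
    (mem_ball_self hε) ht
  rw [h0, sub_zero, sub_zero] at h1
  have hC0 : 0 ≤ C := (norm_nonneg _).trans (hC t ht)
  exact h1.trans (mul_le_mul_of_nonneg_left (mem_ball_zero_iff.1 ht).le hC0)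

theorem go_T_close (H : GoHyp V x₀ r M ε W) {y : ℂ × E × P → E} (hy : GoAdm x₀ r ε W y) :
    ∀ z ∈ ball (0 : ℂ) ε ×ˢ ball x₀ r ×ˢ W, ‖goT V y z - z.2.1‖ ≤ r / 4 := by
  rintro ⟨t, x, π⟩ ⟨ht, hx, hπ⟩
  have h1 := go_mvt (D := fun s => goT V y (s, x, π) - x) (D' := fun s => V (y (s, x, π), π)) (C := M)
    (fun s hs => (go_T_deriv H hy hs hx hπ).sub_const x)
    (fun s hs => H.hM _ (go_comp_mem H hy (s, x, π) ⟨hs, hx, hπ⟩)) (by simp [go_T_zero]) ht
  rw [H.eps_mul] at h1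
  exact h1

theorem go_T_adm (H : GoHyp V x₀ r M ε W) {y : ℂ × E × P → E} (hy : GoAdm x₀ r ε W y) :
    GoAdm x₀ r ε W (goT V y) := ⟨go_T_diff H hy, go_T_close H hy⟩

theorem go_lip (H : GoHyp V x₀ r M ε W) {x : E} (hx : x ∈ ball x₀ r) {π : P} (hπ : π ∈ W) {a b : E}
    (ha : ‖a - x‖ ≤ r / 4) (hb : ‖b - x‖ ≤ r / 4) :
    ‖V (a, π) - V (b, π)‖ ≤ 2 * M / r * ‖a - b‖ := by
  have hr := H.hr
  have hsub : ∀ v ∈ ball x r, (v, π) ∈ ball x₀ (2 * r) ×ˢ W := by
    intro v hv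
    refine ⟨?_, hπ⟩
    rw [mem_ball] at hv hx ⊢
    have := dist_triangle v x x₀
    linarith
  have hg : DifferentiableOn ℂ (fun v : E => V (v, π)) (ball x r) :=
    H.hV.comp (f := fun v : E => (v, π)) (by fun_prop) hsub
  exact scv_lipschitz hg (fun v hv => H.hM _ (hsub v hv))
    (by rw [mem_ball, dist_eq_norm]; linarith) (by rw [mem_ball, dist_eq_norm]; linarith)

theorem go_T_contr (H : GoHyp V x₀ r M ε W) {y₁ y₂ : ℂ × E × P → E} (h₁ : GoAdm x₀ r ε W y₁)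
    (h₂ : GoAdm x₀ r ε W y₂) {c : ℝ}
    (hc : ∀ z ∈ ball (0 : ℂ) ε ×ˢ ball x₀ r ×ˢ W, ‖y₁ z - y₂ z‖ ≤ c) :
    ∀ z ∈ ball (0 : ℂ) ε ×ˢ ball x₀ r ×ˢ W, ‖goT V y₁ z - goT V y₂ z‖ ≤ c / 2 := by
  rintro ⟨t, x, π⟩ ⟨ht, hx, hπ⟩
  have hr := H.hr
  have hM0 := H.hM0
  have h1 := go_mvt (D := fun s => goT V y₁ (s, x, π) - goT V y₂ (s, x, π))
    (D' := fun s => V (y₁ (s, x, π), π) - V (y₂ (s, x, π), π)) (C := 2 * M / r * c)
    (fun s hs => (go_T_deriv H h₁ hs hx hπ).sub (go_T_deriv H h₂ hs hx hπ))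
    (fun s hs => (go_lip H hx hπ (h₁.close (s, x, π) ⟨hs, hx, hπ⟩)
      (h₂.close (s, x, π) ⟨hs, hx, hπ⟩)).trans
      (mul_le_mul_of_nonneg_left (hc (s, x, π) ⟨hs, hx, hπ⟩) (by positivity)))
    (by simp [go_T_zero]) ht
  have h2 : 2 * M / r * c * ε = c / 2 := by
    rw [H.hε]; field_simp; ring
  rw [h2] at h1
  exact h1


/-- the Picard iterates -/
noncomputable def goY (V : E × P → E) : ℕ → ℂ × E × P → E
  | 0 => fun z => z.2.1
  | k + 1 => goT V (goY V k)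

theorem goY_adm (H : GoHyp V x₀ r M ε W) (k : ℕ) : GoAdm x₀ r ε W (goY V k) := by
  induction k with
  | zero =>
    refine ⟨?_, fun z _ => ?_⟩
    · show DifferentiableOn ℂ (fun z : ℂ × E × P => z.2.1) _
      fun_prop
    · show ‖z.2.1 - z.2.1‖ ≤ r / 4
      have := H.hr
      rw [sub_self, norm_zero]; linarith
  | succ k ih => exact go_T_adm H ih

theorem goY_step (H : GoHyp V x₀ r M ε W) (k : ℕ) :
    ∀ z ∈ ball (0 : ℂ) ε ×ˢ ball x₀ r ×ˢ W, ‖goY V (k + 1) z - goY V k z‖ ≤ r / 4 * (1 / 2) ^ k := by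
  induction k with
  | zero =>
    intro z hz
    have := (goY_adm H 1).close z hz
    simpa [goY] using this
  | succ k ih =>
    intro z hz
    have := go_T_contr H (goY_adm H (k + 1)) (goY_adm H k) ih z hz
    calc ‖goY V (k + 1 + 1) z - goY V (k + 1) z‖ ≤ r / 4 * (1 / 2) ^ k / 2 := this
      _ = r / 4 * (1 / 2) ^ (k + 1) := by rw [pow_succ]; ring

theorem goY_zero (k : ℕ) (x : E) (π : P) : goY V k (0, x, π) = x := by
  cases k with
  | zero => rfl
  | succ k => exact go_T_zero _ x π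

theorem go_flow_aux (H : GoHyp V x₀ r M ε W) :
    ∃ y : ℂ × E × P → E,
      DifferentiableOn ℂ y (ball (0 : ℂ) ε ×ˢ ball x₀ r ×ˢ W) ∧
      (∀ x ∈ ball x₀ r, ∀ π ∈ W, y (0, x, π) = x) ∧
      ∀ t ∈ ball (0 : ℂ) ε, ∀ x ∈ ball x₀ r, ∀ π ∈ W, y (t, x, π) ∈ ball x₀ (2 * r) ∧
        HasDerivAt (fun s : ℂ => y (s, x, π)) (V (y (t, x, π), π)) t := by
  have : CompleteSpace E := FiniteDimensional.complete ℂ E
  have hr := H.hr
  have hM0 := H.hM0
  have hε := H.eps_pos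
  set Ω : Set (ℂ × E × P) := ball (0 : ℂ) ε ×ˢ ball x₀ r ×ˢ W with hΩ
  have hΩo : IsOpen Ω := isOpen_ball.prod (isOpen_ball.prod H.hW)
  have hstep : ∀ z ∈ Ω, ∀ n, dist (goY V n z) (goY V (n + 1) z) ≤ r / 4 * (1 / 2) ^ n := by
    intro z hz n
    rw [dist_comm, dist_eq_norm]
    exact goY_step H n z hz
  set y : ℂ × E × P → E := fun z => limUnder atTop (fun n => goY V n z) with hy
  have hlim : ∀ z ∈ Ω, Tendsto (fun n => goY V n z) atTop (𝓝 (y z)) := by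
    intro z hz
    exact (cauchySeq_of_le_geometric (1 / 2) (r / 4) (by norm_num) (hstep z hz)).tendsto_limUnder
  have hrate : ∀ z ∈ Ω, ∀ n, dist (goY V n z) (y z) ≤ r / 2 * (1 / 2) ^ n := by
    intro z hz n
    have := dist_le_of_le_geometric_of_tendsto (1 / 2) (r / 4) (by norm_num) (hstep z hz)
      (hlim z hz) n
    calc dist (goY V n z) (y z) ≤ r / 4 * (1 / 2) ^ n / (1 - 1 / 2) := this
      _ = r / 2 * (1 / 2) ^ n := by ring
  have hgeo : ∀ c : ℝ, Tendsto (fun n : ℕ => c * (1 / 2 : ℝ) ^ n) atTop (𝓝 0) := by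
    intro c
    have := (tendsto_pow_atTop_nhds_zero_of_lt_one (by norm_num : (0 : ℝ) ≤ 1 / 2)
      (by norm_num : (1 / 2 : ℝ) < 1)).const_mul c
    simpa using this
  have hunif : TendstoUniformlyOn (goY V) y atTop Ω := by
    rw [Metric.tendstoUniformlyOn_iff]
    intro e he
    filter_upwards [(hgeo (r / 2)).eventually (gt_mem_nhds he)] with n hn z hz
    rw [dist_comm]
    exact lt_of_le_of_lt (hrate z hz n) hn
  have hdiff : DifferentiableOn ℂ y Ω :=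
    scv_tendsto hΩo (Eventually.of_forall fun n => (goY_adm H n).diff)
      hunif.tendstoLocallyUniformlyOn
  have hclose : ∀ z ∈ Ω, ‖y z - z.2.1‖ ≤ r / 4 := by
    intro z hz
    exact le_of_tendsto (((hlim z hz).sub_const z.2.1).norm)
      (Eventually.of_forall fun n => (goY_adm H n).close z hz)
  refine ⟨y, hdiff, ?_, ?_⟩
  · intro x hx π hπ
    have h1 := hlim (0, x, π) ⟨mem_ball_self hε, hx, hπ⟩
    simp only [goY_zero] at h1
    exact tendsto_nhds_unique h1 tendsto_const_nhds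
  · intro t ht x hx π hπ
    refine ⟨go_mem H hx (hclose (t, x, π) ⟨ht, hx, hπ⟩), ?_⟩
    have hu' : TendstoUniformlyOn (fun (n : ℕ) (s : ℂ) => V (goY V n (s, x, π), π))
        (fun s => V (y (s, x, π), π)) atTop (ball (0 : ℂ) ε) := by
      rw [Metric.tendstoUniformlyOn_iff]
      intro e he
      filter_upwards [(hgeo (2 * M / r * (r / 2))).eventually (gt_mem_nhds he)] with n hn s hs
      have hz : ((s, x, π) : ℂ × E × P) ∈ Ω := ⟨hs, hx, hπ⟩
      rw [dist_comm, dist_eq_norm]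
      refine lt_of_le_of_lt ((go_lip H hx hπ ((goY_adm H n).close _ hz) (hclose _ hz)).trans ?_) hn
      rw [mul_assoc]
      refine mul_le_mul_of_nonneg_left ?_ (by positivity)
      rw [← dist_eq_norm]
      exact hrate _ hz n
    exact hasDerivAt_of_tendstoUniformlyOn isOpen_ball hu'
      (f := fun (n : ℕ) (s : ℂ) => goY V (n + 1) (s, x, π))
      (Eventually.of_forall fun n s hs => go_T_deriv H (goY_adm H n) hs hx hπ)
      (fun s hs => (tendsto_add_atTop_iff_nat 1).2 (hlim (s, x, π) ⟨hs, hx, hπ⟩)) ht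

/-- **Local holomorphic flow with parameters.**  `V (x, π)` holomorphic and bounded by `M` on `ball x₀ (2 r) × W`.  There are `ε > 0` and
`y (t, x, π)`, jointly holomorphic on `ball 0 ε × ball x₀ r × W`, with `y (0, x, π) = x`, `∂_t y = V (y, π)`, `y ∈ ball x₀ (2 r)`.
Route (Picard iteration in the sup norm).  `V (·, π)` is `L`-Lipschitz on `ball x₀ (3r/2)`... simplest: apply `scv_lipschitz` on balls
`ball x (r/2) ⊆ ball x₀ (2r)` or directly `scv_norm_fderiv_le` + `Convex.norm_image_sub_le_of_norm_fderiv_le` on `ball x₀ (3 r / 2)`: `L = 2 M / r`.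
Take `ε = r / (4 (M + 1))`.  `y₀ (t,x,π) = x`, `y_{k+1} (t,x,π) = x + t • ∫ u in 0..1, V (y_k (u t, x, π), π)`.  By induction `y_k` is holomorphic on the
open set `Ω = ball 0 ε × ball x₀ r × W` (differentiate under the integral sign: `hasFDerivAt_integral_of_dominated_of_fderiv_le` for `volume.restrict (Ioc 0 1)`; the derivative of the integrand is
bounded locally uniformly by `scv_norm_fderiv_le`, it is continuous in `u`), `‖y_k - x‖ ≤ ε M < r / 2`, `‖y_{k+1} - y_k‖ ≤ (ε L)^k ε M ≤ 2^{-k} r`.  Uniform Cauchy ⇒ limit `y`, holomorphic by `scv_tendsto`,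
`y = x + t ∫₀¹ V (y (u t, x, π), π) du`.  For fixed `(x, π)`, `h (t) = V (y (t,x,π), π)` is holomorphic on `ball 0 ε` and `t ↦ t ∫₀¹ h (u t) du` is its primitive
vanishing at `0` (a holomorphic function on a disc has a primitive `H`: `DifferentiableOn.isExactOn_ball` / `Complex.IsExactOn`, or power series;
then `d/du H (u t) = t h (u t)` and the fundamental theorem of calculus give `t ∫₀¹ h (u t) du = H t - H 0`). -/
theorem go_flow {V : E × P → E} {x₀ : E} {r M : ℝ} {W : Set P} (hr : 0 < r) (hW : IsOpen W)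
    (hV : DifferentiableOn ℂ V (ball x₀ (2 * r) ×ˢ W)) (hM : ∀ y ∈ ball x₀ (2 * r) ×ˢ W, ‖V y‖ ≤ M) :
    ∃ (ε : ℝ) (y : ℂ × E × P → E), 0 < ε ∧
      DifferentiableOn ℂ y (ball (0 : ℂ) ε ×ˢ ball x₀ r ×ˢ W) ∧
      (∀ x ∈ ball x₀ r, ∀ π ∈ W, y (0, x, π) = x) ∧
      ∀ t ∈ ball (0 : ℂ) ε, ∀ x ∈ ball x₀ r, ∀ π ∈ W, y (t, x, π) ∈ ball x₀ (2 * r) ∧
        HasDerivAt (fun s : ℂ => y (s, x, π)) (V (y (t, x, π), π)) t := by
  have H : GoHyp V x₀ r (|M| + 1) (r / (4 * (|M| + 1))) W :=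
    ⟨hr, hW, hV, fun y hy => (hM y hy).trans ((le_abs_self M).trans (by linarith)),
      by positivity, rfl⟩
  obtain ⟨y, h1, h2, h3⟩ := go_flow_aux H
  exact ⟨_, y, H.eps_pos, h1, h2, h3⟩

/-- **Uniqueness.**  Two holomorphic solutions of `u' = V (u)` on a disc (`V` holomorphic on an open set `Ω`) with the same value at the centre coincide.
Route: the set `{t | u₁ = u₂ near t}`; or: along each ray `s ↦ u_i (t₀ + s e)`, `s ∈ [0, 1]`, both solve the real ODE `x' = e • V (x)` with locally Lipschitz right-hand side: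
`ODE_solution_unique_of_mem_Icc` (`V` is `C¹` on `Ω`, hence locally Lipschitz; the compact images of the segment lie in `Ω`).
Alternative without ODE library: `δ = u₁ - u₂` is analytic; if `δ ≢ 0` write the order of vanishing at the centre; `‖δ'‖ ≤ L ‖δ‖` near the centre contradicts
`δ (t) = c (t - t₀)^k + …`; then the identity theorem (`AnalyticOnNhd.eqOn_of_preconnected_of_eventuallyEq`). -/
theorem go_unique {V : E → E} {Ω : Set E} (hΩ : IsOpen Ω) (hV : DifferentiableOn ℂ V Ω) {t₀ : ℂ} {ρ : ℝ}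
    {u₁ u₂ : ℂ → E} (h₁ : ∀ t ∈ ball t₀ ρ, u₁ t ∈ Ω ∧ HasDerivAt u₁ (V (u₁ t)) t)
    (h₂ : ∀ t ∈ ball t₀ ρ, u₂ t ∈ Ω ∧ HasDerivAt u₂ (V (u₂ t)) t) (h0 : u₁ t₀ = u₂ t₀) :
    EqOn u₁ u₂ (ball t₀ ρ) := by
  have : CompleteSpace E := FiniteDimensional.complete ℂ E
  by_cases hρ : 0 < ρ
  swap
  · intro t ht
    exact absurd (pos_of_mem_ball ht) hρ
  have ht₀ : t₀ ∈ ball t₀ ρ := mem_ball_self hρ
  set a : E := u₁ t₀ with ha
  have haΩ : a ∈ Ω := (h₁ t₀ ht₀).1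
  -- a ball on which `V` is bounded
  have hVc : ContinuousAt V a := hV.continuousOn.continuousAt (hΩ.mem_nhds haΩ)
  have hbd : ∀ᶠ v in 𝓝 a, ‖V v‖ < ‖V a‖ + 1 := hVc.norm.eventually (gt_mem_nhds (by linarith))
  obtain ⟨β, hβ, hball⟩ := Metric.mem_nhds_iff.1 (inter_mem (hΩ.mem_nhds haΩ) hbd)
  set M : ℝ := ‖V a‖ + 1 with hM
  have hM0 : 0 < M := by positivity
  have hVβ : DifferentiableOn ℂ V (ball a β) := hV.mono fun v hv => (hball hv).1
  have hMβ : ∀ v ∈ ball a β, ‖V v‖ ≤ M := fun v hv => le_of_lt (hball hv).2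
  set L : ℝ := 2 * M / β with hL
  have hL0 : 0 < L := by positivity
  -- a disc on which both solutions stay in the half ball
  have hc₁ : ∀ᶠ t in 𝓝 t₀, u₁ t ∈ ball a (β / 2) :=
    (h₁ t₀ ht₀).2.continuousAt.eventually (ball_mem_nhds _ (by linarith))
  have hc₂ : ∀ᶠ t in 𝓝 t₀, u₂ t ∈ ball a (β / 2) := by
    have h := (h₂ t₀ ht₀).2.continuousAt
    rw [ContinuousAt, ← h0] at h
    exact h.eventually (ball_mem_nhds _ (by linarith))
  obtain ⟨δ, hδ, hδball⟩ := Metric.mem_nhds_iff.1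
    (inter_mem (isOpen_ball.mem_nhds ht₀) (hc₁.and hc₂))
  set δ' : ℝ := min δ (1 / (2 * L)) with hδ'
  have hδ'0 : 0 < δ' := lt_min hδ (by positivity)
  have hδ'L : L * δ' ≤ 1 / 2 := by
    calc L * δ' ≤ L * (1 / (2 * L)) := mul_le_mul_of_nonneg_left (min_le_right _ _) hL0.le
      _ = 1 / 2 := by field_simp
  have hsub : ∀ t ∈ ball t₀ δ', t ∈ ball t₀ ρ ∧ u₁ t ∈ ball a (β / 2) ∧ u₂ t ∈ ball a (β / 2) :=
    fun t ht => hδball (ball_subset_ball (min_le_left _ _) ht)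
  have hiter : ∀ n : ℕ, ∀ t ∈ ball t₀ δ', ‖u₁ t - u₂ t‖ ≤ β * (1 / 2) ^ n := by
    intro n
    induction n with
    | zero =>
      intro t ht
      obtain ⟨-, h3, h4⟩ := hsub t ht
      rw [mem_ball] at h3 h4
      rw [← dist_eq_norm]
      have := dist_triangle_right (u₁ t) (u₂ t) a
      simp only [pow_zero, mul_one]
      linarith
    | succ n ih =>
      intro t ht
      have h3 := Convex.norm_image_sub_le_of_norm_hasDerivWithin_le (f := fun s => u₁ s - u₂ s)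
        (f' := fun s => V (u₁ s) - V (u₂ s)) (C := L * (β * (1 / 2) ^ n)) (s := ball t₀ δ')
        (fun s hs => (((h₁ s (hsub s hs).1).2).sub ((h₂ s (hsub s hs).1).2)).hasDerivWithinAt)
        (fun s hs => (scv_lipschitz hVβ hMβ (hsub s hs).2.1 (hsub s hs).2.2).trans
          (mul_le_mul_of_nonneg_left (ih s hs) hL0.le))
        (convex_ball _ _) (mem_ball_self hδ'0) ht
      simp only [← ha, ← h0, sub_self, sub_zero] at h3
      have h4 : ‖t - t₀‖ ≤ δ' := by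
        rw [← dist_eq_norm]; exact (mem_ball.1 ht).le
      have h5 : 0 ≤ β * (1 / 2 : ℝ) ^ n := by positivity
      calc ‖u₁ t - u₂ t‖ ≤ L * (β * (1 / 2) ^ n) * ‖t - t₀‖ := h3
        _ ≤ L * (β * (1 / 2) ^ n) * δ' := mul_le_mul_of_nonneg_left h4 (by positivity)
        _ = (L * δ') * (β * (1 / 2) ^ n) := by ring
        _ ≤ 1 / 2 * (β * (1 / 2) ^ n) := mul_le_mul_of_nonneg_right hδ'L h5
        _ = β * (1 / 2) ^ (n + 1) := by rw [pow_succ]; ring
  have hloc : ∀ t ∈ ball t₀ δ', u₁ t = u₂ t := by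
    intro t ht
    have hgeo : Tendsto (fun n : ℕ => β * (1 / 2 : ℝ) ^ n) atTop (𝓝 0) := by
      have := (tendsto_pow_atTop_nhds_zero_of_lt_one (by norm_num : (0 : ℝ) ≤ 1 / 2)
        (by norm_num : (1 / 2 : ℝ) < 1)).const_mul β
      simpa using this
    have h3 : ‖u₁ t - u₂ t‖ ≤ 0 := ge_of_tendsto' hgeo fun n => hiter n t ht
    exact sub_eq_zero.1 (norm_le_zero_iff.1 h3)
  have han₁ : AnalyticOnNhd ℂ u₁ (ball t₀ ρ) :=
    DifferentiableOn.analyticOnNhd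
      (fun t ht => (h₁ t ht).2.differentiableAt.differentiableWithinAt) isOpen_ball
  have han₂ : AnalyticOnNhd ℂ u₂ (ball t₀ ρ) :=
    DifferentiableOn.analyticOnNhd
      (fun t ht => (h₂ t ht).2.differentiableAt.differentiableWithinAt) isOpen_ball
  refine han₁.eqOn_of_preconnected_of_eventuallyEq han₂ (convex_ball _ _).isPreconnected ht₀ ?_
  filter_upwards [ball_mem_nhds t₀ hδ'0] with t ht using hloc t ht

end Claimed.Agent.R245
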