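/-
Row 245 / S0484, GEO-JAC (sub-architect helper66).   Package GJ-LOC: the local solution `(sn, cn, dn, 1)`.
ONE FILE = ONE PACKAGE = ONE OWNER.  Statement FROZEN; helper lemmas: prefix `gjl_`, in this file.   Black box: `go_flow` (R245/GeoODE.lean).
-/
import Claimed.Agent.R245.GeoJacDefs
import Claimed.Agent.R245.GeoODE

set_option autoImplicit false

namespace Claimed.Agent.R245

open Metric Set Filter Topology

/-- the Jacobi vector field with the parameter `k` -/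
def gjlV (q : (Fin 3 → ℂ) × ℂ) : Fin 3 → ℂ :=
  ![q.1 1 * q.1 2, - (q.1 0 * q.1 2), - (q.2 * q.1 0 * q.1 1)]

theorem gjl_V_differentiable : Differentiable ℂ gjlV := by
  rw [differentiable_pi]
  intro i
  fin_cases i <;> simp only [gjlV] <;> simp <;> fun_prop

theorem gjl_V_bound {Λ : ℝ} (hΛ : 0 ≤ Λ) (q : (Fin 3 → ℂ) × ℂ)
    (hq : q ∈ ball (![0, 1, 1] : Fin 3 → ℂ) (2 * 1) ×ˢ ball (0 : ℂ) (Λ + 1)) :
    ‖gjlV q‖ ≤ 9 * (Λ + 1) := by
  obtain ⟨h1, h2⟩ := hq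
  rw [mem_ball, dist_eq_norm, pi_norm_lt_iff (by norm_num)] at h1
  rw [mem_ball_zero_iff] at h2
  have hx : ∀ i, ‖q.1 i‖ ≤ 3 := by
    intro i
    have h := h1 i
    have h3 : ‖(![0, 1, 1] : Fin 3 → ℂ) i‖ ≤ 1 := by
      fin_cases i <;> simp
    have h4 : ‖q.1 i‖ ≤ ‖(q.1 - (![0, 1, 1] : Fin 3 → ℂ)) i‖ + ‖(![0, 1, 1] : Fin 3 → ℂ) i‖ := by
      have := norm_add_le ((q.1 - (![0, 1, 1] : Fin 3 → ℂ)) i) ((![0, 1, 1] : Fin 3 → ℂ) i)
      simpa using this
    linarith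
  have hn := fun i => norm_nonneg (q.1 i)
  rw [pi_norm_le_iff_of_nonneg (by positivity)]
  intro i
  fin_cases i
  · show ‖q.1 1 * q.1 2‖ ≤ _
    rw [norm_mul]
    nlinarith [hx 1, hx 2, hn 1, hn 2]
  · show ‖-(q.1 0 * q.1 2)‖ ≤ _
    rw [norm_neg, norm_mul]
    nlinarith [hx 0, hx 2, hn 0, hn 2]
  · show ‖-(q.2 * q.1 0 * q.1 1)‖ ≤ _
    rw [norm_neg, norm_mul, norm_mul]
    have h5 : ‖q.1 0‖ * ‖q.1 1‖ ≤ 9 := by nlinarith [hx 0, hx 1, hn 0, hn 1]
    have h6 : 0 ≤ ‖q.1 0‖ * ‖q.1 1‖ := mul_nonneg (hn 0) (hn 1)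
    have h7 := norm_nonneg q.2
    nlinarith

/-- a function on a disc with vanishing derivative is constant -/
theorem gjl_const {F : ℂ → ℂ} {ε : ℝ} (h : ∀ t ∈ ball (0 : ℂ) ε, HasDerivAt F 0 t) :
    ∀ t ∈ ball (0 : ℂ) ε, F t = F 0 := by
  intro t ht
  have hε : 0 < ε := pos_of_mem_ball ht
  exact isOpen_ball.is_const_of_deriv_eq_zero (convex_ball _ _).isPreconnected
    (fun s hs => (h s hs).differentiableAt.differentiableWithinAt)
    (fun s hs => (h s hs).deriv) ht (mem_ball_self hε)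

/-- **(LOC)**
Route.  `Λ` := a bound of `|lam|` on the compact set `closedBall w₀ b' ⊆ ball w₀ b` (`lam` is continuous there).
`go_flow` with `E = Fin 3 → ℂ`, `P = ℂ`, `V (x, k) = ![x 1 * x 2, - (x 0 * x 2), - (k * x 0 * x 1)]`, `x₀ = ![0, 1, 1]`, `r = 1`, `W = ball 0 (Λ + 1)`; on `ball x₀ 2 ×ˢ W` all `|x i| < 3`, so `M = 9 (Λ + 1)`.
It gives `ε > 0` and `y`.  Put `φ (w, z) = ![u 0, u 1, u 2, 1]`, `u = y (z, x₀, lam w)`.
* `hol`: composition of `y` with the holomorphic map `(w, z) ↦ (z, x₀, lam w)` (`differentiableOn_pi`, `DifferentiableOn.comp`).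
* for fixed `w`: `u' = V (u, lam w)` (`HasDerivAt`, so `deriv (fun ζ => φ (w, ζ)) z = ![u 1 * u 2, - (u 0 * u 2), - (k * u 0 * u 1), 0]`; use `hasDerivAt_pi`).
* first integrals: `u 0 ^ 2 + u 1 ^ 2` and `k * u 0 ^ 2 + u 2 ^ 2` have derivative `0` on the disc `ball 0 ε` and value `1` at `0`
  (`IsOpen.is_const_of_deriv_eq_zero` / `Convex.is_const_of_fderivWithin_eq_zero` / `is_const_of_deriv_eq_zero` on a ball).   So `φ ∈ JCone` (`φ ≠ 0` because `φ 3 = 1`).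
* the six minors: with `W = 1`, `W' = 0`: `m03, m13, m23` are the ODE; `m01 : c d c + s s d = d (c² + s²) = d`; `m02 : c d d + k s s c = c (d² + k s²) = c`;
  `m12 : - s d d + k s c c = - s (d² - k c²) = - (1 - k) s` (`d² - k c² = (1 - k s²) - k (1 - s²)`). -/
theorem gj_local {w₀ : ℂ} {b b' : ℝ} (hb' : 0 < b') (hbb : b' < b) {lam : ℂ → ℂ}
    (hlam : DifferentiableOn ℂ lam (ball w₀ b)) :
    ∃ (ε : ℝ) (φ : ℂ × ℂ → V4), 0 < ε ∧ JLift lam w₀ b' ε φ ∧ ∀ w ∈ ball w₀ b', φ (w, 0) = ![0, 1, 1, 1] := by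
  have hsub : closedBall w₀ b' ⊆ ball w₀ b := closedBall_subset_ball hbb
  obtain ⟨Λ₀, hΛ₀⟩ := (isCompact_closedBall w₀ b').exists_bound_of_continuousOn
    (hlam.continuousOn.mono hsub)
  set Λ : ℝ := max Λ₀ 0 with hΛdef
  have hΛ : 0 ≤ Λ := le_max_right _ _
  have hlamW : ∀ w ∈ ball w₀ b', lam w ∈ ball (0 : ℂ) (Λ + 1) := by
    intro w hw
    rw [mem_ball_zero_iff]
    have := (hΛ₀ w (ball_subset_closedBall hw)).trans (le_max_left Λ₀ 0)
    linarith
  obtain ⟨ε, y, hε, hy1, hy2, hy3⟩ := go_flow (V := gjlV) (x₀ := (![0, 1, 1] : Fin 3 → ℂ))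
    (r := 1) (M := 9 * (Λ + 1)) (W := ball (0 : ℂ) (Λ + 1)) one_pos isOpen_ball
    gjl_V_differentiable.differentiableOn (gjl_V_bound hΛ)
  have hx₀ : (![0, 1, 1] : Fin 3 → ℂ) ∈ ball (![0, 1, 1] : Fin 3 → ℂ) 1 := mem_ball_self one_pos
  set φ : ℂ × ℂ → V4 := fun x => ![y (x.2, ![0, 1, 1], lam x.1) 0, y (x.2, ![0, 1, 1], lam x.1) 1,
    y (x.2, ![0, 1, 1], lam x.1) 2, 1] with hφ
  -- the solution for fixed `w`
  have hu : ∀ w ∈ ball w₀ b', ∀ z ∈ ball (0 : ℂ) ε, ∀ i,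
      HasDerivAt (fun ζ => y (ζ, ![0, 1, 1], lam w) i)
        (gjlV (y (z, ![0, 1, 1], lam w), lam w) i) z := fun w hw z hz i =>
    hasDerivAt_pi.1 (hy3 z hz _ hx₀ _ (hlamW w hw)).2 i
  have hu0 : ∀ w ∈ ball w₀ b', y (0, ![0, 1, 1], lam w) = ![0, 1, 1] := fun w hw =>
    hy2 _ hx₀ _ (hlamW w hw)
  -- first integrals
  have hI1 : ∀ w ∈ ball w₀ b', ∀ z ∈ ball (0 : ℂ) ε,
      y (z, ![0, 1, 1], lam w) 0 ^ 2 + y (z, ![0, 1, 1], lam w) 1 ^ 2 = 1 := by
    intro w hw z hz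
    have := gjl_const (F := fun ζ => y (ζ, ![0, 1, 1], lam w) 0 ^ 2
      + y (ζ, ![0, 1, 1], lam w) 1 ^ 2) (ε := ε) (fun t ht => by
        have h := ((hu w hw t ht 0).pow 2).add ((hu w hw t ht 1).pow 2)
        refine h.congr_deriv ?_
        simp only [gjlV, Fin.isValue, Matrix.cons_val_zero, Matrix.cons_val_one]
        push_cast
        ring) z hz
    rw [this, hu0 w hw]
    simp
  have hI2 : ∀ w ∈ ball w₀ b', ∀ z ∈ ball (0 : ℂ) ε,
      lam w * y (z, ![0, 1, 1], lam w) 0 ^ 2 + y (z, ![0, 1, 1], lam w) 2 ^ 2 = 1 := by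
    intro w hw z hz
    have := gjl_const (F := fun ζ => lam w * y (ζ, ![0, 1, 1], lam w) 0 ^ 2
      + y (ζ, ![0, 1, 1], lam w) 2 ^ 2) (ε := ε) (fun t ht => by
        have h := (((hu w hw t ht 0).pow 2).const_mul (lam w)).add ((hu w hw t ht 2).pow 2)
        refine h.congr_deriv ?_
        simp only [gjlV, Fin.isValue, Matrix.cons_val_zero, Matrix.cons_val]
        push_cast
        ring) z hz
    rw [this, hu0 w hw]
    simp
  have hderiv : ∀ w ∈ ball w₀ b', ∀ z ∈ ball (0 : ℂ) ε,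
      deriv (fun ζ : ℂ => φ (w, ζ)) z = ![gjlV (y (z, ![0, 1, 1], lam w), lam w) 0,
        gjlV (y (z, ![0, 1, 1], lam w), lam w) 1, gjlV (y (z, ![0, 1, 1], lam w), lam w) 2, 0] := by
    intro w hw z hz
    refine HasDerivAt.deriv ?_
    rw [hasDerivAt_pi]
    intro i
    fin_cases i
    · exact hu w hw z hz 0
    · exact hu w hw z hz 1
    · exact hu w hw z hz 2
    · exact hasDerivAt_const z (1 : ℂ)
  refine ⟨ε, φ, hε, ⟨?_, ?_, ?_, ?_⟩, ?_⟩
  · have hcomp : DifferentiableOn ℂ (fun x : ℂ × ℂ => y (x.2, ![0, 1, 1], lam x.1))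
        (ball w₀ b' ×ˢ ball (0 : ℂ) ε) := by
      refine hy1.comp (f := fun x : ℂ × ℂ => (x.2, ((![0, 1, 1] : Fin 3 → ℂ), lam x.1))) ?_ ?_
      · refine differentiableOn_snd.prodMk ((differentiableOn_const _).prodMk ?_)
        exact (hlam.mono ((ball_subset_closedBall).trans hsub)).comp differentiableOn_fst
          fun x hx => hx.1
      · exact fun x hx => ⟨hx.2, hx₀, hlamW x.1 hx.1⟩
    have hc := differentiableOn_pi.1 hcomp
    rw [differentiableOn_pi]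
    intro i
    fin_cases i
    · exact hc 0
    · exact hc 1
    · exact hc 2
    · exact differentiableOn_const (1 : ℂ)
  · rintro ⟨w, z⟩ ⟨hw, hz⟩
    refine ⟨fun h0 => ?_, ?_, ?_⟩
    · have := congrFun h0 3
      simp [hφ] at this
    · have := hI1 w hw z hz
      simpa [hφ] using this
    · have := hI2 w hw z hz
      simpa [hφ] using this
  · intro w hw z hz
    rw [hderiv w hw z hz]
    have i1 := hI1 w hw z hz
    have i2 := hI2 w hw z hz
    set u := y (z, ![0, 1, 1], lam w) with hudef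
    constructor <;> simp only [hφ, gjlV, Fin.isValue, Matrix.cons_val_zero, Matrix.cons_val_one,
      Matrix.cons_val, ← hudef]
    · ring
    · ring
    · ring
    · linear_combination (u 2) * i1
    · linear_combination (u 1) * i2
    · linear_combination (- u 0) * i2 + (lam w * u 0) * i1
  · intro w hw
    refine ⟨1, ?_⟩
    rw [one_smul]
    simp only [hφ]
    rw [hu0 w hw]
    simp
  · intro w hw
    simp only [hφ]
    rw [hu0 w hw]
    simp

end Claimed.Agent.R245
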