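/-
Row 245 / S0484, GEO-JAC (sub-architect helper66).   Package GJ-ALG: the algebra of the doubling map.  PROVED (helper66).
-/
import Claimed.Agent.R245.GeoJacDefs

set_option autoImplicit false

namespace Claimed.Agent.R245

open Metric Set Filter Topology

theorem gj_dbl_smul (k t : ℂ) (y : V4) : jdbl k (t • y) = t ^ 4 • jdbl k y := by
  ext i; fin_cases i <;> simp [jdbl] <;> ring

theorem gj_dbl_flip (k : ℂ) (y : V4) : jdbl k (jflip y) = jflip (jdbl k y) := by
  ext i; fin_cases i
  · simp [jdbl, jflip]
  · simp [jdbl, jflip]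
  · simp [jdbl, jflip]
  · simp only [jdbl, jflip]
    simp
    left; ring

theorem gj_dbl_init (k : ℂ) : jdbl k ![0, 1, 1, 1] = ![0, 1, 1, 1] := by
  ext i; fin_cases i <;> simp [jdbl]

/-- the doubling map preserves the punctured cone -/
theorem gj_dbl_cone {k : ℂ} (h0 : k ≠ 0) (h1 : k ≠ 1) {y : V4} (hy : y ∈ JCone k) : jdbl k y ∈ JCone k := by
  obtain ⟨hne, e1, e2⟩ := hy
  refine ⟨?_, ?_, ?_⟩
  · intro h
    have a0 : 2 * y 0 * y 1 * y 2 * y 3 = 0 := by simpa [jdbl] using congrFun h 0
    have a1 : y 1 ^ 2 * y 3 ^ 2 - y 0 ^ 2 * y 2 ^ 2 = 0 := by simpa [jdbl] using congrFun h 1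
    have a2 : y 2 ^ 2 * y 3 ^ 2 - k * y 0 ^ 2 * y 1 ^ 2 = 0 := by simpa [jdbl] using congrFun h 2
    have a3 : y 3 ^ 4 - k * y 0 ^ 4 = 0 := by simpa [jdbl] using congrFun h 3
    have hz : ∀ a : ℂ, a ^ 2 = 0 → a = 0 := fun a ha => by simpa using ha
    have hz4 : ∀ a : ℂ, a ^ 4 = 0 → a = 0 := fun a ha => by simpa using ha
    by_cases hS : y 0 = 0
    · have hW : y 3 = 0 := hz4 _ (by rw [hS] at a3; simpa using a3)
      have hC : y 1 = 0 := hz _ (by rw [hS, hW] at e1; simpa using e1)
      have hD : y 2 = 0 := hz _ (by rw [hS, hW] at e2; simpa using e2)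
      apply hne
      ext i; fin_cases i <;> simp [hS, hW, hC, hD]
    · have hW : y 3 ≠ 0 := by
        intro hW
        rw [hW] at a3
        have : k * y 0 ^ 4 = 0 := by linear_combination -a3
        rcases mul_eq_zero.1 this with h | h
        · exact h0 h
        · exact hS (hz4 _ h)
      have hCD : y 1 * y 2 = 0 := by
        have : (2 * y 0 * y 3) * (y 1 * y 2) = 0 := by linear_combination a0
        rcases mul_eq_zero.1 this with h | h
        · exfalso
          rcases mul_eq_zero.1 h with h | h
          · rcases mul_eq_zero.1 h with h | h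
            · norm_num at h
            · exact hS h
          · exact hW h
        · exact h
      have key : y 1 = 0 ∧ y 2 = 0 := by
        rcases mul_eq_zero.1 hCD with hC | hD
        · refine ⟨hC, ?_⟩
          rw [hC] at a1
          have : y 0 ^ 2 * y 2 ^ 2 = 0 := by linear_combination -a1
          rcases mul_eq_zero.1 this with h | h
          · exact absurd (hz _ h) hS
          · exact hz _ h
        · refine ⟨?_, hD⟩
          rw [hD] at a2
          have : k * (y 0 ^ 2 * y 1 ^ 2) = 0 := by linear_combination -a2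
          rcases mul_eq_zero.1 this with h | h
          · exact absurd h h0
          · rcases mul_eq_zero.1 h with h | h
            · exact absurd (hz _ h) hS
            · exact hz _ h
      rw [key.1] at e1
      rw [key.2] at e2
      have : (k - 1) * y 0 ^ 2 = 0 := by linear_combination e2 - e1
      rcases mul_eq_zero.1 this with h | h
      · exact h1 (by linear_combination h)
      · exact hS (hz _ h)
  · simp [jdbl]; grind
  · simp [jdbl]; grind

theorem gj_flip_cone {k : ℂ} {y : V4} (hy : y ∈ JCone k) : jflip y ∈ JCone k := by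
  obtain ⟨hne, h1, h2⟩ := hy
  refine ⟨?_, by simpa [jflip] using h1, by simpa [jflip] using h2⟩
  intro h
  apply hne
  ext i
  have := congrFun h i
  fin_cases i <;> simpa [jflip] using this

/-- the doubling map multiplies the invariant vector field by `2`: six polynomial identities modulo the two equations of the cone and the six minors. -/
theorem gj_dbl_flow {k : ℂ} {y y' : V4} (h1 : y 0 ^ 2 + y 1 ^ 2 = y 3 ^ 2) (h2 : k * y 0 ^ 2 + y 2 ^ 2 = y 3 ^ 2)
    (hf : JFlowAt k y y') : JFlowAt k (jdbl k y) ((1 / 2 : ℂ) • jdblD k y y') := by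
  obtain ⟨m03, m13, m23, m01, m02, m12⟩ := hf
  constructor <;> simp [jdbl, jdblD] <;> grind

/-- inversion together with time reversal -/
theorem gj_flip_flow {k : ℂ} {y y' : V4} (hf : JFlowAt k y y') : JFlowAt k (jflip y) (- jflip y') := by
  obtain ⟨m03, m13, m23, m01, m02, m12⟩ := hf
  constructor <;> simp [jflip] <;> grind

/-- chain rule for `jdbl` -/
theorem gj_dbl_hasDerivAt (k : ℂ) {f : ℂ → V4} {f' : V4} {z : ℂ} (hf : HasDerivAt f f' z) :
    HasDerivAt (fun ζ => jdbl k (f ζ)) (jdblD k (f z) f') z := by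
  have h := hasDerivAt_pi.1 hf
  have g0 := h 0
  have g1 := h 1
  have g2 := h 2
  have g3 := h 3
  rw [hasDerivAt_pi]
  intro i
  fin_cases i
  · have := (((g0.const_mul 2).fun_mul g1).fun_mul g2).fun_mul g3
    refine this.congr_deriv ?_
    simp [jdblD]; ring
  · have := ((g1.fun_pow 2).fun_mul (g3.fun_pow 2)).fun_sub ((g0.fun_pow 2).fun_mul (g2.fun_pow 2))
    refine this.congr_deriv ?_
    simp [jdblD]; ring
  · have := ((g2.fun_pow 2).fun_mul (g3.fun_pow 2)).fun_sub (((g0.fun_pow 2).const_mul k).fun_mul (g1.fun_pow 2))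
    refine this.congr_deriv ?_
    simp [jdblD]; ring
  · have := (g3.fun_pow 4).fun_sub ((g0.fun_pow 4).const_mul k)
    refine this.congr_deriv ?_
    simp [jdblD]; ring

end Claimed.Agent.R245
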