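/-
Row 245 / S0484, GEO-JAC (sub-architect helper66).   Package GJ-STEP: doubling a Jacobi lift; inversion of a Jacobi lift.
ONE FILE = ONE PACKAGE = ONE OWNER.  Statements FROZEN; helper lemmas: prefix `gjs_`, in this file.   Black boxes: R245/GeoJacAlg.lean.
-/
import Claimed.Agent.R245.GeoJacAlg

set_option autoImplicit false

namespace Claimed.Agent.R245

open Metric Set Filter Topology

/-- a Jacobi lift is differentiable along the slices -/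
theorem gjs_slice {lam : ℂ → ℂ} {w₀ : ℂ} {b ρ : ℝ} {Φ : ℂ × ℂ → V4} (h : JLift lam w₀ b ρ Φ) {w z : ℂ}
    (hw : w ∈ ball w₀ b) (hz : z ∈ ball (0 : ℂ) ρ) : DifferentiableAt ℂ (fun ζ : ℂ => Φ (w, ζ)) z := by
  have hopen : IsOpen (ball w₀ b ×ˢ ball (0 : ℂ) ρ) := isOpen_ball.prod isOpen_ball
  have hΦ : DifferentiableAt ℂ Φ (w, z) := h.hol.differentiableAt (hopen.mem_nhds ⟨hw, hz⟩)
  exact hΦ.comp z ((differentiableAt_const w).prodMk differentiableAt_id)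

/-- **(STEP)** `Φ' (w, z) = jdbl (lam w) (Φ (w, z / 2))` is a Jacobi lift of double length.
* `hol`: each component is a polynomial in `lam x.1` and the components of `Φ (x.1, x.2 / 2)`; `(w, z) ↦ (w, z / 2)` maps `ball w₀ b ×ˢ ball 0 (2 ρ)` into `ball w₀ b ×ˢ ball 0 ρ`.
* `cone`: `gj_dbl_cone`.
* `flow`: for fixed `w`, `f ζ = Φ (w, ζ)` is differentiable at `z / 2` (restriction of `hol` to the slice; the domain is open), so `ζ ↦ f (ζ / 2)` has derivative `(1/2) • f' (z / 2)` at `z`;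
  `gj_dbl_hasDerivAt` gives the derivative `jdblD k (f (z/2)) ((1/2) • f' (z/2)) = (1/2) • jdblD k (f (z/2)) (f' (z/2))` (`jdblD` is linear in the last argument: `ext i; fin_cases i; simp [jdblD]; ring`); `gj_dbl_flow`.
* `init`: `gj_dbl_smul`, `gj_dbl_init`. -/
theorem gj_step {lam : ℂ → ℂ} {w₀ : ℂ} {b ρ : ℝ} {Φ : ℂ × ℂ → V4} (hlam : DifferentiableOn ℂ lam (ball w₀ b))
    (h0 : ∀ w ∈ ball w₀ b, lam w ≠ 0) (h1 : ∀ w ∈ ball w₀ b, lam w ≠ 1) (h : JLift lam w₀ b ρ Φ) :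
    JLift lam w₀ b (2 * ρ) (fun x => jdbl (lam x.1) (Φ (x.1, x.2 / 2))) := by
  have hhalf : ∀ z ∈ ball (0 : ℂ) (2 * ρ), z / 2 ∈ ball (0 : ℂ) ρ := by
    intro z hz
    rw [mem_ball_zero_iff] at hz ⊢
    rw [norm_div]
    have : ‖(2 : ℂ)‖ = 2 := by norm_num
    rw [this]
    linarith
  have hmap : MapsTo (fun x : ℂ × ℂ => (x.1, x.2 / 2)) (ball w₀ b ×ˢ ball (0 : ℂ) (2 * ρ))
      (ball w₀ b ×ˢ ball (0 : ℂ) ρ) := fun x hx => ⟨hx.1, hhalf _ hx.2⟩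
  refine ⟨?_, ?_, ?_, ?_⟩
  · have hΨ : DifferentiableOn ℂ (fun x : ℂ × ℂ => Φ (x.1, x.2 / 2)) (ball w₀ b ×ˢ ball (0 : ℂ) (2 * ρ)) :=
      h.hol.comp (by fun_prop : Differentiable ℂ fun x : ℂ × ℂ => (x.1, x.2 / 2)).differentiableOn hmap
    have hΨi := fun i => differentiableOn_pi.1 hΨ i
    have hl : DifferentiableOn ℂ (fun x : ℂ × ℂ => lam x.1) (ball w₀ b ×ˢ ball (0 : ℂ) (2 * ρ)) :=
      hlam.comp differentiableOn_fst fun x hx => hx.1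
    rw [differentiableOn_pi]
    intro i
    fin_cases i
    · exact ((((differentiableOn_const (2 : ℂ)).mul (hΨi 0)).mul (hΨi 1)).mul (hΨi 2)).mul (hΨi 3)
    · exact (((hΨi 1).pow 2).mul ((hΨi 3).pow 2)).sub (((hΨi 0).pow 2).mul ((hΨi 2).pow 2))
    · exact (((hΨi 2).pow 2).mul ((hΨi 3).pow 2)).sub ((hl.mul ((hΨi 0).pow 2)).mul ((hΨi 1).pow 2))
    · exact ((hΨi 3).pow 4).sub (hl.mul ((hΨi 0).pow 4))
  · exact fun x hx => gj_dbl_cone (h0 x.1 hx.1) (h1 x.1 hx.1) (h.cone _ (hmap hx))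
  · intro w hw z hz
    have hz2 : z / 2 ∈ ball (0 : ℂ) ρ := hhalf z hz
    have hslice := gjs_slice h hw hz2
    have hd0 : HasDerivAt (fun ζ : ℂ => ζ / 2) (1 / 2 : ℂ) z := (hasDerivAt_id z).div_const 2
    have hd1 : HasDerivAt (fun ζ : ℂ => Φ (w, ζ / 2)) ((1 / 2 : ℂ) • deriv (fun ζ : ℂ => Φ (w, ζ)) (z / 2)) z :=
      HasDerivAt.scomp (g₁ := fun ζ : ℂ => Φ (w, ζ)) (h := fun ζ : ℂ => ζ / 2) z hslice.hasDerivAt hd0
    have hd2 := gj_dbl_hasDerivAt (lam w) hd1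
    have hlin : jdblD (lam w) (Φ (w, z / 2)) ((1 / 2 : ℂ) • deriv (fun ζ : ℂ => Φ (w, ζ)) (z / 2))
        = (1 / 2 : ℂ) • jdblD (lam w) (Φ (w, z / 2)) (deriv (fun ζ : ℂ => Φ (w, ζ)) (z / 2)) := by
      ext i
      fin_cases i <;> simp [jdblD] <;> ring
    have hc := h.cone (w, z / 2) ⟨hw, hz2⟩
    have hfl := gj_dbl_flow hc.2.1 hc.2.2 (h.flow w hw (z / 2) hz2)
    rw [← hlin, ← hd2.deriv] at hfl
    exact hfl
  · intro w hw
    obtain ⟨t, ht⟩ := h.init w hw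
    refine ⟨t ^ 4, ?_⟩
    simp only [zero_div]
    rw [ht, gj_dbl_smul, gj_dbl_init]

/-- **(FLIP)** `(w, z) ↦ jflip (Φ (w, -z))` is a Jacobi lift (`gj_flip_cone`, `gj_flip_flow`; `jflip` is linear). -/
theorem gj_flip_lift {lam : ℂ → ℂ} {w₀ : ℂ} {b ρ : ℝ} {Φ : ℂ × ℂ → V4} (h : JLift lam w₀ b ρ Φ) :
    JLift lam w₀ b ρ (fun x => jflip (Φ (x.1, - x.2))) := by
  have hneg : ∀ z ∈ ball (0 : ℂ) ρ, -z ∈ ball (0 : ℂ) ρ := by
    intro z hz
    rw [mem_ball_zero_iff] at hz ⊢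
    rwa [norm_neg]
  have hmap : MapsTo (fun x : ℂ × ℂ => (x.1, - x.2)) (ball w₀ b ×ˢ ball (0 : ℂ) ρ)
      (ball w₀ b ×ˢ ball (0 : ℂ) ρ) := fun x hx => ⟨hx.1, hneg _ hx.2⟩
  refine ⟨?_, ?_, ?_, ?_⟩
  · have hΨ : DifferentiableOn ℂ (fun x : ℂ × ℂ => Φ (x.1, - x.2)) (ball w₀ b ×ˢ ball (0 : ℂ) ρ) :=
      h.hol.comp (differentiable_fst.prodMk differentiable_snd.neg).differentiableOn hmap
    have hΨi := fun i => differentiableOn_pi.1 hΨ i
    rw [differentiableOn_pi]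
    intro i
    fin_cases i
    · exact (hΨi 0).neg
    · exact hΨi 1
    · exact hΨi 2
    · exact hΨi 3
  · exact fun x hx => gj_flip_cone (h.cone _ (hmap hx))
  · intro w hw z hz
    have hz2 : -z ∈ ball (0 : ℂ) ρ := hneg z hz
    have hslice := gjs_slice h hw hz2
    have hd1 : HasDerivAt (fun ζ : ℂ => Φ (w, -ζ)) ((-1 : ℂ) • deriv (fun ζ : ℂ => Φ (w, ζ)) (-z)) z :=
      HasDerivAt.scomp (g₁ := fun ζ : ℂ => Φ (w, ζ)) (h := fun ζ : ℂ => -ζ) z hslice.hasDerivAt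
        (hasDerivAt_neg z)
    have hd2 : HasDerivAt (fun ζ : ℂ => jflip (Φ (w, -ζ)))
        (jflip ((-1 : ℂ) • deriv (fun ζ : ℂ => Φ (w, ζ)) (-z))) z := by
      have hi := hasDerivAt_pi.1 hd1
      rw [hasDerivAt_pi]
      intro i
      fin_cases i
      · exact (hi 0).neg
      · exact hi 1
      · exact hi 2
      · exact hi 3
    have hlin : jflip ((-1 : ℂ) • deriv (fun ζ : ℂ => Φ (w, ζ)) (-z))
        = - jflip (deriv (fun ζ : ℂ => Φ (w, ζ)) (-z)) := by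
      ext i
      fin_cases i <;> simp [jflip]
    have hfl := gj_flip_flow (h.flow w hw (-z) hz2)
    rw [← hlin, ← hd2.deriv] at hfl
    exact hfl
  · intro w hw
    obtain ⟨t, ht⟩ := h.init w hw
    refine ⟨t, ?_⟩
    simp only [neg_zero]
    rw [ht]
    ext i
    fin_cases i <;> simp [jflip]

end Claimed.Agent.R245
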