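/-
Row 245 / S0484, GEO-JAC (sub-architect helper66).   Package GJ-UNIQ: two Jacobi lifts are proportional.
ONE FILE = ONE PACKAGE = ONE OWNER.  Statements FROZEN; helper lemmas: prefix `gju_`, in this file.   Black box: `go_unique` (R245/GeoODE.lean).
-/
import Claimed.Agent.R245.GeoJacDefs
import Claimed.Agent.R245.GeoODE

set_option autoImplicit false

namespace Claimed.Agent.R245

open Metric Set Filter Topology

/-- the affine ODE in the chart `W ≠ 0`.  `f : ℂ → V4` differentiable at `z` with `JFlowAt k (f z) (deriv f z)`, `f z 3 ≠ 0`.  Then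
`u = ![S / W, C / W, D / W]` has derivative `![u 1 * u 2, - (u 0 * u 2), - (k * u 0 * u 1)]` at `z`.
(`HasDerivAt.div` componentwise: `(S / W)' = (S' W - S W') / W² = C D / W²`; `hasDerivAt_pi`.) -/
theorem gj_affine_ode {k : ℂ} {f : ℂ → V4} {z : ℂ} (hf : DifferentiableAt ℂ f z)
    (hfl : JFlowAt k (f z) (deriv f z)) (hW : f z 3 ≠ 0) :
    HasDerivAt (fun ζ => (![f ζ 0 / f ζ 3, f ζ 1 / f ζ 3, f ζ 2 / f ζ 3] : Fin 3 → ℂ))
      ![(f z 1 / f z 3) * (f z 2 / f z 3), - ((f z 0 / f z 3) * (f z 2 / f z 3)),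
        - (k * (f z 0 / f z 3) * (f z 1 / f z 3))] z := by
  have hd : ∀ i, HasDerivAt (fun ζ => f ζ i) (deriv f z i) z := fun i =>
    hasDerivAt_pi.1 hf.hasDerivAt i
  rw [hasDerivAt_pi]
  intro i
  fin_cases i
  · have := (hd 0).div (hd 3) hW
    rw [hfl.m03] at this
    have e : f z 1 / f z 3 * (f z 2 / f z 3) = f z 1 * f z 2 / f z 3 ^ 2 := by field_simp
    show HasDerivAt (fun ζ => f ζ 0 / f ζ 3) (f z 1 / f z 3 * (f z 2 / f z 3)) z
    rw [e]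
    exact this
  · have := (hd 1).div (hd 3) hW
    rw [hfl.m13] at this
    have e : -(f z 0 / f z 3 * (f z 2 / f z 3)) = -(f z 0 * f z 2) / f z 3 ^ 2 := by field_simp
    show HasDerivAt (fun ζ => f ζ 1 / f ζ 3) (-(f z 0 / f z 3 * (f z 2 / f z 3))) z
    rw [e]
    exact this
  · have := (hd 2).div (hd 3) hW
    rw [hfl.m23] at this
    have e : -(k * (f z 0 / f z 3) * (f z 1 / f z 3)) = -(k * f z 0 * f z 1) / f z 3 ^ 2 := by
      field_simp
    show HasDerivAt (fun ζ => f ζ 2 / f ζ 3) (-(k * (f z 0 / f z 3) * (f z 1 / f z 3))) z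
    rw [e]
    exact this

/-- the Jacobi vector field in the affine chart -/
def gjuV (k : ℂ) (u : Fin 3 → ℂ) : Fin 3 → ℂ := ![u 1 * u 2, - (u 0 * u 2), - (k * u 0 * u 1)]

theorem gju_V_differentiable (k : ℂ) : Differentiable ℂ (gjuV k) := by
  rw [differentiable_pi]
  intro i
  fin_cases i <;> simp only [gjuV] <;> simp <;> fun_prop

/-- slices of a lift -/
theorem gju_slice {lam : ℂ → ℂ} {w₀ : ℂ} {b ρ : ℝ} {Φ : ℂ × ℂ → V4} (hΦ : JLift lam w₀ b ρ Φ)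
    {w : ℂ} (hw : w ∈ ball w₀ b) : DifferentiableOn ℂ (fun ζ : ℂ => Φ (w, ζ)) (ball 0 ρ) :=
  hΦ.hol.comp (f := fun ζ : ℂ => (w, ζ)) (by fun_prop) fun _ hζ => ⟨hw, hζ⟩

/-- the value at the centre -/
theorem gju_init {lam : ℂ → ℂ} {w₀ : ℂ} {b ρ : ℝ} {Φ : ℂ × ℂ → V4} (hΦ : JLift lam w₀ b ρ Φ)
    (hρ : 0 < ρ) {w : ℂ} (hw : w ∈ ball w₀ b) :
    Φ (w, 0) 3 ≠ 0 ∧ Φ (w, 0) 0 = 0 ∧ Φ (w, 0) 1 = Φ (w, 0) 3 ∧ Φ (w, 0) 2 = Φ (w, 0) 3 := by
  obtain ⟨t, ht⟩ := hΦ.init w hw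
  have hne := (hΦ.cone (w, 0) ⟨hw, mem_ball_self hρ⟩).1
  have ht0 : t ≠ 0 := by
    rintro rfl
    exact hne (by rw [ht, zero_smul])
  rw [ht]
  simp [ht0]

/-- **(UNIQ)**
Route.  Fix `w`, `k = lam w`, `f ζ = Φ (w, ζ)`, `g ζ = Ψ (w, ζ)`: differentiable on `ball 0 ρ` (slices of `hol`).  `f 0 = t • ![0,1,1,1]` with `t ≠ 0` (`f 0 ≠ 0`), so `f 0 3 ≠ 0`, same for `g`.
By continuity there is `r ≤ ρ` with `f ζ 3 ≠ 0`, `g ζ 3 ≠ 0` on `ball 0 r`.  By `gj_affine_ode` both affine triples solve `u' = V (u)`, `V u = ![u 1 * u 2, - (u 0 * u 2), - (k * u 0 * u 1)]` (entire: `Ω = univ`)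
on `ball 0 r` with the value `![0,1,1]` at `0`: `go_unique`.  Hence the minors `f ζ i * g ζ j - f ζ j * g ζ i` vanish on `ball 0 r` (both vectors are multiples of `(u, 1)`).
They are holomorphic on the connected set `ball 0 ρ`: identity theorem (`AnalyticOnNhd.eqOn_zero_of_preconnected_of_eventuallyEq_zero`, `DifferentiableOn.analyticOnNhd`).
`f z ≠ 0`: choose `i` with `f z i ≠ 0`, `t = g z i / f z i`. -/
theorem gj_unique {lam : ℂ → ℂ} {w₀ : ℂ} {b ρ : ℝ} {Φ Ψ : ℂ × ℂ → V4} (hΦ : JLift lam w₀ b ρ Φ)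
    (hΨ : JLift lam w₀ b ρ Ψ) : ∀ x ∈ ball w₀ b ×ˢ ball (0 : ℂ) ρ, ∃ t : ℂ, Ψ x = t • Φ x := by
  rintro ⟨w, z⟩ ⟨hw, hz⟩
  have hw : w ∈ ball w₀ b := hw
  have hz : z ∈ ball (0 : ℂ) ρ := hz
  have hρ : 0 < ρ := pos_of_mem_ball hz
  have h0 : (0 : ℂ) ∈ ball (0 : ℂ) ρ := mem_ball_self hρ
  set f : ℂ → V4 := fun ζ => Φ (w, ζ) with hf
  set g : ℂ → V4 := fun ζ => Ψ (w, ζ) with hg
  have hfd : DifferentiableOn ℂ f (ball 0 ρ) := gju_slice hΦ hw
  have hgd : DifferentiableOn ℂ g (ball 0 ρ) := gju_slice hΨ hw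
  obtain ⟨f3, f0, f1, f2⟩ := gju_init hΦ hρ hw
  obtain ⟨g3, g0, g1, g2⟩ := gju_init hΨ hρ hw
  have hfc : ∀ i, ContinuousAt (fun ζ => f ζ i) 0 := fun i =>
    (continuous_apply i).continuousAt.comp
      (hfd.differentiableAt (isOpen_ball.mem_nhds h0)).continuousAt
  have hgc : ∀ i, ContinuousAt (fun ζ => g ζ i) 0 := fun i =>
    (continuous_apply i).continuousAt.comp
      (hgd.differentiableAt (isOpen_ball.mem_nhds h0)).continuousAt
  have hev : ∀ᶠ ζ in 𝓝 (0 : ℂ), ζ ∈ ball (0 : ℂ) ρ ∧ f ζ 3 ≠ 0 ∧ g ζ 3 ≠ 0 :=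
    (isOpen_ball.eventually_mem h0).and (((hfc 3).eventually_ne f3).and ((hgc 3).eventually_ne g3))
  obtain ⟨r, hr, hball⟩ := Metric.eventually_nhds_iff_ball.1 hev
  have huniq := go_unique (V := gjuV (lam w)) (Ω := univ) isOpen_univ
    (gju_V_differentiable _).differentiableOn (t₀ := 0) (ρ := r)
    (u₁ := fun ζ => ![f ζ 0 / f ζ 3, f ζ 1 / f ζ 3, f ζ 2 / f ζ 3])
    (u₂ := fun ζ => ![g ζ 0 / g ζ 3, g ζ 1 / g ζ 3, g ζ 2 / g ζ 3])
    (fun t ht => ⟨mem_univ _, gj_affine_ode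
      (hfd.differentiableAt (isOpen_ball.mem_nhds (hball t ht).1))
      (hΦ.flow w hw t (hball t ht).1) (hball t ht).2.1⟩)
    (fun t ht => ⟨mem_univ _, gj_affine_ode
      (hgd.differentiableAt (isOpen_ball.mem_nhds (hball t ht).1))
      (hΨ.flow w hw t (hball t ht).1) (hball t ht).2.2⟩)
    (by
      simp only [hf, hg]
      rw [f0, f1, f2, g0, g1, g2, div_self f3, div_self g3]
      simp)
  -- cross relations with the last coordinate
  have hcross : ∀ ζ ∈ ball (0 : ℂ) r, ∀ i, f ζ i * g ζ 3 = g ζ i * f ζ 3 := by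
    intro ζ hζ i
    have e := huniq hζ
    have hf3 := (hball ζ hζ).2.1
    have hg3 := (hball ζ hζ).2.2
    have e0 := congrFun e 0
    have e1 := congrFun e 1
    have e2 := congrFun e 2
    simp only [Fin.isValue, Matrix.cons_val_zero, Matrix.cons_val_one, Matrix.cons_val] at e0 e1 e2
    rw [div_eq_div_iff hf3 hg3] at e0 e1 e2
    fin_cases i
    · exact e0
    · exact e1
    · exact e2
    · exact mul_comm _ _
  have hminor : ∀ i j, ∀ ζ ∈ ball (0 : ℂ) ρ, f ζ i * g ζ j - f ζ j * g ζ i = 0 := by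
    intro i j
    have han : AnalyticOnNhd ℂ (fun ζ => f ζ i * g ζ j - f ζ j * g ζ i) (ball 0 ρ) := by
      refine DifferentiableOn.analyticOnNhd ?_ isOpen_ball
      have hfi := fun i => differentiableOn_pi.1 hfd i
      have hgi := fun i => differentiableOn_pi.1 hgd i
      exact ((hfi i).mul (hgi j)).sub ((hfi j).mul (hgi i))
    have hz0 : (fun ζ => f ζ i * g ζ j - f ζ j * g ζ i) =ᶠ[𝓝 0] 0 := by
      filter_upwards [ball_mem_nhds (0 : ℂ) hr] with ζ hζ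
      have hf3 := (hball ζ hζ).2.1
      have hg3 := (hball ζ hζ).2.2
      have ci := hcross ζ hζ i
      have cj := hcross ζ hζ j
      have : (f ζ i * g ζ j - f ζ j * g ζ i) * (f ζ 3 * g ζ 3) = 0 := by
        linear_combination (g ζ j * f ζ 3) * ci - (g ζ i * f ζ 3) * cj
      exact (mul_eq_zero.1 this).resolve_right (mul_ne_zero hf3 hg3)
    exact han.eqOn_zero_of_preconnected_of_eventuallyEq_zero (convex_ball _ _).isPreconnected h0 hz0
  have hne : f z ≠ 0 := (hΦ.cone (w, z) ⟨hw, hz⟩).1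
  obtain ⟨i, hi⟩ := Function.ne_iff.1 hne
  have hi : f z i ≠ 0 := hi
  refine ⟨g z i / f z i, ?_⟩
  funext j
  have := hminor i j z hz
  show g z j = (g z i / f z i) • f z j
  rw [smul_eq_mul]
  field_simp
  linear_combination this

end Claimed.Agent.R245
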