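/-
Row 245 / S0484, GEO-JAC (sub-architect helper66).   Package GJ-VAL: a flow invariant subset of the curve `y² = h (x)` projects ONTO the `x`-line.
ONE FILE = ONE PACKAGE = ONE OWNER.  Statement FROZEN; helper lemmas: prefix `gjv_`, in this file.   Black box: `go_flow` (R245/GeoODE.lean).  No elliptic functions here.
-/
import Claimed.Agent.R245.GeoODE

set_option autoImplicit false

namespace Claimed.Agent.R245

open Metric Set Filter Topology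

/-- a local flow line through a given point -/
theorem gjv_line {g : ℂ → ℂ} (hg : Differentiable ℂ g) (a ν : ℂ) :
    ∃ (δ : ℝ) (ψ : ℂ → ℂ × ℂ), 0 < δ ∧ ψ 0 = (a, ν) ∧
      ∀ t ∈ ball (0 : ℂ) δ, HasDerivAt ψ ((ψ t).2, g (ψ t).1) t := by
  set V : (ℂ × ℂ) × ℂ → ℂ × ℂ := fun x => (x.1.2, g x.1.1) with hVdef
  have hVd : Differentiable ℂ V := by
    have h1 : Differentiable ℂ (fun x : (ℂ × ℂ) × ℂ => x.1.2) := by fun_prop
    have h2 : Differentiable ℂ (fun x : (ℂ × ℂ) × ℂ => g x.1.1) :=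
      hg.comp (by fun_prop : Differentiable ℂ (fun x : (ℂ × ℂ) × ℂ => x.1.1))
    exact h1.prodMk h2
  set V₀ : ℂ × ℂ → ℂ × ℂ := fun x => (x.2, g x.1) with hV0
  have hV0c : Continuous V₀ := by
    have : Continuous g := hg.continuous
    fun_prop
  obtain ⟨M, hM⟩ := (isCompact_closedBall ((a, ν) : ℂ × ℂ) (2 * 1)).exists_bound_of_continuousOn
    hV0c.continuousOn
  obtain ⟨ε, y, hε, -, hy0, hy⟩ := go_flow (V := V) (x₀ := ((a, ν) : ℂ × ℂ)) (r := 1) (M := M)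
    (W := (univ : Set ℂ)) one_pos isOpen_univ hVd.differentiableOn
    (fun x hx => hM x.1 (ball_subset_closedBall hx.1))
  refine ⟨ε, fun t => y (t, (a, ν), 0), hε, hy0 _ (mem_ball_self one_pos) 0 (mem_univ _), ?_⟩
  intro t ht
  exact (hy t ht (a, ν) (mem_ball_self one_pos) 0 (mem_univ _)).2

/-- time reversal -/
theorem gjv_rev {g : ℂ → ℂ} {ψ : ℂ → ℂ × ℂ} {δ : ℝ}
    (hψ : ∀ t ∈ ball (0 : ℂ) δ, HasDerivAt ψ ((ψ t).2, g (ψ t).1) t) :
    ∀ t ∈ ball (0 : ℂ) δ, HasDerivAt (fun s => (((ψ (-s)).1, - (ψ (-s)).2) : ℂ × ℂ))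
      (- (ψ (-t)).2, g (ψ (-t)).1) t := by
  intro t ht
  have ht' : -t ∈ ball (0 : ℂ) δ := by simpa using ht
  have h := hψ (-t) ht'
  have hneg : HasDerivAt (fun s : ℂ => -s) (-1) t := (hasDerivAt_id t).neg
  have hc : HasDerivAt (fun s => ψ (-s)) ((-1 : ℂ) • ((ψ (-t)).2, g (ψ (-t)).1)) t :=
    h.scomp t hneg
  have h1 : HasDerivAt (fun s => (ψ (-s)).1) (- (ψ (-t)).2) t := by
    have h : HasDerivAt (fun s => (ψ (-s)).1) ((-1 : ℂ) • ((ψ (-t)).2, g (ψ (-t)).1)).1 t := hc.fst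
    refine h.congr_deriv ?_
    simp
  have h2 : HasDerivAt (fun s => (ψ (-s)).2) (- g (ψ (-t)).1) t := by
    have h : HasDerivAt (fun s => (ψ (-s)).2) ((-1 : ℂ) • ((ψ (-t)).2, g (ψ (-t)).1)).2 t := hc.snd
    refine h.congr_deriv ?_
    simp
  have h3 := h1.prodMk h2.neg
  simpa using h3

/-- the first integral -/
theorem gjv_energy {g h : ℂ → ℂ} (hh : Differentiable ℂ h) (hder : ∀ x, deriv h x = 2 * g x)
    {ψ : ℂ → ℂ × ℂ} {δ : ℝ} (hψ : ∀ t ∈ ball (0 : ℂ) δ, HasDerivAt ψ ((ψ t).2, g (ψ t).1) t)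
    (h0 : (ψ 0).2 ^ 2 = h (ψ 0).1) : ∀ t ∈ ball (0 : ℂ) δ, (ψ t).2 ^ 2 = h (ψ t).1 := by
  intro t ht
  have hδ : 0 < δ := lt_of_le_of_lt (dist_nonneg) (mem_ball.1 ht)
  have hd : ∀ s ∈ ball (0 : ℂ) δ, HasDerivAt (fun s => (ψ s).2 ^ 2 - h (ψ s).1) 0 s := by
    intro s hs
    have h1 : HasDerivAt (fun s => (ψ s).1) (ψ s).2 s := (hψ s hs).fst
    have h2 : HasDerivAt (fun s => (ψ s).2) (g (ψ s).1) s := (hψ s hs).snd
    have h3 : HasDerivAt (fun s => h (ψ s).1) (deriv h (ψ s).1 * (ψ s).2) s :=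
      (hh (ψ s).1).hasDerivAt.comp s h1
    have h4 := (h2.fun_pow 2).fun_sub h3
    refine h4.congr_deriv ?_
    rw [hder]
    simp
    ring
  have hconst := IsOpen.is_const_of_deriv_eq_zero (f := fun s => (ψ s).2 ^ 2 - h (ψ s).1)
    (isOpen_ball (x := (0 : ℂ)) (ε := δ)) (convex_ball (0 : ℂ) δ).isPreconnected
    (fun s hs => (hd s hs).differentiableAt.differentiableWithinAt)
    (fun s hs => (hd s hs).deriv) ht (mem_ball_self hδ)
  have : (ψ t).2 ^ 2 - h (ψ t).1 = 0 := by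
    rw [hconst, h0, sub_self]
  linear_combination this

/-- the abscissa of a flow line through a point of the curve is an open map at `0` -/
theorem gjv_open {g h : ℂ → ℂ} (hsq : ∀ x, h x = 0 → g x ≠ 0)
    {ψ : ℂ → ℂ × ℂ} {δ : ℝ} (hδ : 0 < δ)
    (hψ : ∀ t ∈ ball (0 : ℂ) δ, HasDerivAt ψ ((ψ t).2, g (ψ t).1) t)
    (h0 : (ψ 0).2 ^ 2 = h (ψ 0).1) : (fun t => (ψ t).1) '' ball (0 : ℂ) δ ∈ 𝓝 (ψ 0).1 := by
  have h1 : ∀ s ∈ ball (0 : ℂ) δ, HasDerivAt (fun s => (ψ s).1) (ψ s).2 s := fun s hs => (hψ s hs).fst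
  have h2 : ∀ s ∈ ball (0 : ℂ) δ, HasDerivAt (fun s => (ψ s).2) (g (ψ s).1) s :=
    fun s hs => (hψ s hs).snd
  have hball : ball (0 : ℂ) δ ∈ 𝓝 (0 : ℂ) := ball_mem_nhds _ hδ
  have han : AnalyticAt ℂ (fun s => (ψ s).1) 0 := by
    have : DifferentiableOn ℂ (fun s => (ψ s).1) (ball (0 : ℂ) δ) :=
      fun s hs => (h1 s hs).differentiableAt.differentiableWithinAt
    exact this.analyticAt hball
  rcases han.eventually_constant_or_nhds_le_map_nhds with hc | hc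
  · exfalso
    -- `ψ₂ = 0` near `0`
    have hz : ∀ᶠ s in 𝓝 (0 : ℂ), (ψ s).2 = 0 := by
      have hc' := hc.eventually_nhds
      filter_upwards [hc', hball] with s hs hsb
      have e : (fun s => (ψ s).1) =ᶠ[𝓝 s] fun _ => (ψ 0).1 := hs
      have := e.deriv_eq
      rw [(h1 s hsb).deriv] at this
      simpa using this
    have hν : (ψ 0).2 = 0 := hz.self_of_nhds
    have e : (fun s => (ψ s).2) =ᶠ[𝓝 (0 : ℂ)] fun _ => (0 : ℂ) := hz
    have hg0 : g (ψ 0).1 = 0 := by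
      have := e.deriv_eq
      rw [(h2 0 (mem_ball_self hδ)).deriv] at this
      simpa using this
    have hh0 : h (ψ 0).1 = 0 := by rw [← h0, hν]; simp
    exact hsq _ hh0 hg0
  · exact hc (image_mem_map hball)

/-- **(VAL)**  Newton's equation `x' = y, y' = g (x)` with the first integral `y² - h (x)`, `h' = 2 g`, `h` and `g` without common zero.  `R` is a non empty set of points of the curve `y² = h (x)` which is
invariant under all local flow lines.  Then every `a : ℂ` is the abscissa of a point of `R`.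
Route.  `G = Prod.fst '' R`.  We show that `G` and `Gᶜ` are open; `ℂ` is connected (`isPreconnected_univ`, `IsClopen.eq_univ`), `G ≠ ∅`.
For `a : ℂ` choose `ν` with `ν ^ 2 = h a` (`IsAlgClosed.exists_pow_nat_eq` / `Complex.cpow`), and a flow line `ψ : ball 0 δ → ℂ × ℂ`, `ψ 0 = (a, ν)`, `ψ' = ((ψ).2, g (ψ).1)`:
`go_flow` with `E = ℂ × ℂ`, `P = ℂ` (dummy parameter, `W = univ`), `V (x, π) = (x.2, g x.1)`, `x₀ = (a, ν)`, `r = 1`, `M` = a bound of the continuous `V` on the compact `closedBall x₀ 2`.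
(1) time reversal: `ψ⁻ t = ((ψ (-t)).1, - (ψ (-t)).2)` is a flow line on the same disc, `ψ⁻ 0 = (a, -ν)`.
(2) first integral: `(ψ t).2 ^ 2 - h (ψ t).1` has derivative `0` on the disc, so `(ψ t).2 ^ 2 = h (ψ t).1`.
(3) `ψ₁ = fun t => (ψ t).1` is not constant near `0`: otherwise `ψ₂ = ψ₁' = 0` near `0`, so `ν = 0` and `g a = ψ₂' (0) = 0`, but `h a = ν² = 0` contradicts `hsq`.
    Open mapping (`AnalyticAt.eventually_constant_or_nhds_le_map_nhds`): `ψ₁ '' ball 0 δ ∈ 𝓝 a`.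
(4) if `a ∈ G`: `(a, ν') ∈ R`, `ν' ^ 2 = h a = ν ^ 2`, so `ν' = ν` or `ν' = -ν`; in the first case `ψ t ∈ R` for all `t` (`hinv` with `t₁ = 0`), in the second `ψ⁻ t ∈ R`; in both cases `ψ₁ '' ball 0 δ ⊆ G`.
(5) if `a ∉ G`: `ψ₁ '' ball 0 δ ⊆ Gᶜ`: if `(ψ₁ t, y) ∈ R` then `y ^ 2 = h (ψ₁ t) = (ψ t).2 ^ 2`; if `y = (ψ t).2` then `ψ t ∈ R`, so `ψ 0 ∈ R` by `hinv`; if `y = - (ψ t).2` then `ψ⁻ (-t) ∈ R`, so `ψ⁻ 0 ∈ R`.  Both give `a ∈ G`. -/
theorem gj_values {g h : ℂ → ℂ} (hg : Differentiable ℂ g) (hh : Differentiable ℂ h)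
    (hder : ∀ x, deriv h x = 2 * g x) (hsq : ∀ x, h x = 0 → g x ≠ 0) {R : Set (ℂ × ℂ)}
    (hR : ∀ p ∈ R, p.2 ^ 2 = h p.1) (hne : R.Nonempty)
    (hinv : ∀ (ψ : ℂ → ℂ × ℂ) (δ : ℝ), (∀ t ∈ ball (0 : ℂ) δ, HasDerivAt ψ ((ψ t).2, g (ψ t).1) t) →
      ∀ t₁ ∈ ball (0 : ℂ) δ, ψ t₁ ∈ R → ∀ t ∈ ball (0 : ℂ) δ, ψ t ∈ R) :
    ∀ a : ℂ, ∃ ν : ℂ, (a, ν) ∈ R := by
  set G : Set ℂ := {a | ∃ ν : ℂ, (a, ν) ∈ R} with hG
  -- local constancy of membership in `G`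
  have key : ∀ a : ℂ, ∃ N ∈ 𝓝 a, ∀ a' ∈ N, (a' ∈ G ↔ a ∈ G) := by
    intro a
    obtain ⟨ν, hν⟩ := IsAlgClosed.exists_pow_nat_eq (h a) (n := 2) (by norm_num)
    obtain ⟨δ, ψ, hδ, hψ0, hψ⟩ := gjv_line hg a ν
    have h0 : (ψ 0).2 ^ 2 = h (ψ 0).1 := by rw [hψ0]; exact hν
    have hen := gjv_energy hh hder hψ h0
    have hop := gjv_open hsq hδ hψ h0
    have hrev := gjv_rev hψ
    have tr : ∀ t₁ ∈ ball (0 : ℂ) δ, ∀ t₂ ∈ ball (0 : ℂ) δ, (ψ t₁).1 ∈ G → (ψ t₂).1 ∈ G := by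
      rintro t₁ ht₁ t₂ ht₂ ⟨y, hy⟩
      have hy2 : y ^ 2 = (ψ t₁).2 ^ 2 := by
        rw [hen t₁ ht₁]; exact hR _ hy
      have hcases : y = (ψ t₁).2 ∨ y = - (ψ t₁).2 := sq_eq_sq_iff_eq_or_eq_neg.1 hy2
      rcases hcases with rfl | rfl
      · exact ⟨(ψ t₂).2, hinv ψ δ hψ t₁ ht₁ hy t₂ ht₂⟩
      · have hn1 : -t₁ ∈ ball (0 : ℂ) δ := by simpa using ht₁
        have hn2 : -t₂ ∈ ball (0 : ℂ) δ := by simpa using ht₂
        have := hinv (fun s => ((ψ (-s)).1, - (ψ (-s)).2)) δ (fun t ht => by simpa using hrev t ht)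
          (-t₁) hn1 (by simpa using hy) (-t₂) hn2
        exact ⟨- (ψ t₂).2, by simpa using this⟩
    refine ⟨_, by simpa [hψ0] using hop, ?_⟩
    rintro a' ⟨t, ht, rfl⟩
    have ha : a = (ψ 0).1 := by rw [hψ0]
    rw [ha]
    exact ⟨tr t ht 0 (mem_ball_self hδ), tr 0 (mem_ball_self hδ) t ht⟩
  have hopen : IsOpen G := by
    rw [isOpen_iff_mem_nhds]
    intro a ha
    obtain ⟨N, hN, h⟩ := key a
    exact mem_of_superset hN fun a' ha' => (h a' ha').2 ha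
  have hclosed : IsClosed G := by
    rw [← isOpen_compl_iff, isOpen_iff_mem_nhds]
    intro a ha
    obtain ⟨N, hN, h⟩ := key a
    exact mem_of_superset hN fun a' ha' hh' => ha ((h a' ha').1 hh')
  have hclopen : IsClopen G := ⟨hclosed, hopen⟩
  rcases isClopen_iff.1 hclopen with h | h
  · exfalso
    obtain ⟨p, hp⟩ := hne
    have : p.1 ∈ G := ⟨p.2, hp⟩
    rw [h] at this
    exact this
  · intro a
    have : a ∈ G := by rw [h]; exact mem_univ a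
    exact this

end Claimed.Agent.R245
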