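/-
Row 245 / S0484, GEO-JAC (sub-architect helper66).   Packages GJ-INV (`gj_state_ode`, `gj_reach_inv`) and GJ-SURJ (`gj_reach_curve`, `gj_reach_ne`, `gj_surj`).
TWO OWNERS: touch only your theorems.  Statements FROZEN; helper lemmas: prefix `gji_` (GJ-INV), `gjr_` (GJ-SURJ), in this file.
Black boxes: `go_unique` (GeoODE), `gj_affine_ode`, `gj_unique` (GeoJacUniq), `gj_flip_lift` (GeoJacStep), `gj_values` (GeoJacVal).
-/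
import Claimed.Agent.R245.GeoJacStep
import Claimed.Agent.R245.GeoJacUniq
import Claimed.Agent.R245.GeoJacVal

set_option autoImplicit false

namespace Claimed.Agent.R245

open Metric Set Filter Topology

/-- [GJ-INV] the ODE of the state `(s, s') = (S / W, C D / W²)`:  `s'' = - (1 + k) s + 2 k s³`.
(From `gj_affine_ode`: `(c d)' = - s d² - k s c²`, and `c² = 1 - s²`, `d² = 1 - k s²` from the equations of the cone divided by `W²`.) -/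
theorem gj_state_ode {k : ℂ} {f : ℂ → V4} {z : ℂ} (hf : DifferentiableAt ℂ f z)
    (hfl : JFlowAt k (f z) (deriv f z)) (hc : f z ∈ JCone k) (hW : f z 3 ≠ 0) :
    HasDerivAt (fun ζ => ((f ζ 0 / f ζ 3, f ζ 1 * f ζ 2 / f ζ 3 ^ 2) : ℂ × ℂ))
      (f z 1 * f z 2 / f z 3 ^ 2, - (1 + k) * (f z 0 / f z 3) + 2 * k * (f z 0 / f z 3) ^ 3) z := by
  have h := gj_affine_ode hf hfl hW
  rw [hasDerivAt_pi] at h
  have hs : HasDerivAt (fun ζ => f ζ 0 / f ζ 3) ((f z 1 / f z 3) * (f z 2 / f z 3)) z := h 0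
  have hc' : HasDerivAt (fun ζ => f ζ 1 / f ζ 3) (- ((f z 0 / f z 3) * (f z 2 / f z 3))) z := h 1
  have hd : HasDerivAt (fun ζ => f ζ 2 / f ζ 3) (- (k * (f z 0 / f z 3) * (f z 1 / f z 3))) z := h 2
  have hcd : HasDerivAt (fun ζ => (f ζ 1 / f ζ 3) * (f ζ 2 / f ζ 3))
      (-(f z 0 / f z 3 * (f z 2 / f z 3)) * (f z 2 / f z 3)
        + f z 1 / f z 3 * -(k * (f z 0 / f z 3) * (f z 1 / f z 3))) z := hc'.mul hd
  have e : (fun ζ => ((f ζ 0 / f ζ 3, f ζ 1 * f ζ 2 / f ζ 3 ^ 2) : ℂ × ℂ))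
      = fun ζ => (f ζ 0 / f ζ 3, (f ζ 1 / f ζ 3) * (f ζ 2 / f ζ 3)) := by
    funext ζ
    rw [div_mul_div_comm, sq]
  obtain ⟨_, h1, h2⟩ := hc
  have v1 : f z 1 * f z 2 / f z 3 ^ 2 = (f z 1 / f z 3) * (f z 2 / f z 3) := by
    rw [div_mul_div_comm, sq]
  have v2 : - (1 + k) * (f z 0 / f z 3) + 2 * k * (f z 0 / f z 3) ^ 3
      = -(f z 0 / f z 3 * (f z 2 / f z 3)) * (f z 2 / f z 3)
        + f z 1 / f z 3 * -(k * (f z 0 / f z 3) * (f z 1 / f z 3)) := by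
    field_simp
    linear_combination (f z 0) * h2 + k * (f z 0) * h1
  rw [e, v1, v2]
  exact hs.prodMk hcd

/-- `W ≠ 0` from `S = p W` on the cone -/
theorem gji_W_ne {k p : ℂ} {y : V4} (hy : y ∈ JCone k) (h : y 0 = p * y 3) : y 3 ≠ 0 := by
  intro hW
  obtain ⟨hne, h1, h2⟩ := hy
  have h0 : y 0 = 0 := by rw [h, hW, mul_zero]
  rw [h0, hW] at h1 h2
  have hC : y 1 = 0 := by simpa using h1
  have hD : y 2 = 0 := by simpa using h2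
  apply hne
  ext i
  fin_cases i
  · exact h0
  · exact hC
  · exact hD
  · exact hW

/-- the two defects vanish near `0` -/
theorem gji_near {k : ℂ} {f : ℂ → V4} {ψ : ℂ → ℂ × ℂ} {z₁ t₁ : ℂ} {r : ℝ}
    (hf : ∀ τ ∈ ball (0 : ℂ) r, DifferentiableAt ℂ f (z₁ + τ))
    (hfl : ∀ τ ∈ ball (0 : ℂ) r, JFlowAt k (f (z₁ + τ)) (deriv f (z₁ + τ)))
    (hc : ∀ τ ∈ ball (0 : ℂ) r, f (z₁ + τ) ∈ JCone k)
    (hne : ∀ τ ∈ ball (0 : ℂ) r, f (z₁ + τ) 3 ≠ 0)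
    (hψ : ∀ τ ∈ ball (0 : ℂ) r, HasDerivAt ψ ((ψ (t₁ + τ)).2,
      - (1 + k) * (ψ (t₁ + τ)).1 + 2 * k * (ψ (t₁ + τ)).1 ^ 3) (t₁ + τ))
    (hS : f z₁ 0 = (ψ t₁).1 * f z₁ 3) (hCD : f z₁ 1 * f z₁ 2 = (ψ t₁).2 * f z₁ 3 ^ 2)
    (hW : f z₁ 3 ≠ 0) :
    ∀ τ ∈ ball (0 : ℂ) r, f (z₁ + τ) 0 = (ψ (t₁ + τ)).1 * f (z₁ + τ) 3 ∧
      f (z₁ + τ) 1 * f (z₁ + τ) 2 = (ψ (t₁ + τ)).2 * f (z₁ + τ) 3 ^ 2 := by
  have hV : DifferentiableOn ℂ
      (fun x : ℂ × ℂ => ((x.2, - (1 + k) * x.1 + 2 * k * x.1 ^ 3) : ℂ × ℂ)) univ := by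
    fun_prop
  have key := go_unique (V := fun x : ℂ × ℂ => ((x.2, - (1 + k) * x.1 + 2 * k * x.1 ^ 3) : ℂ × ℂ))
    isOpen_univ hV (t₀ := 0) (ρ := r)
    (u₁ := fun τ => ((f (z₁ + τ) 0 / f (z₁ + τ) 3,
      f (z₁ + τ) 1 * f (z₁ + τ) 2 / f (z₁ + τ) 3 ^ 2) : ℂ × ℂ))
    (u₂ := fun τ => ψ (t₁ + τ))
    (fun τ hτ => ⟨mem_univ _,
      (gj_state_ode (hf τ hτ) (hfl τ hτ) (hc τ hτ) (hne τ hτ)).comp_const_add z₁ τ⟩)
    (fun τ hτ => ⟨mem_univ _, (hψ τ hτ).comp_const_add t₁ τ⟩)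
    (by
      simp only [add_zero]
      refine Prod.ext ?_ ?_
      · show f z₁ 0 / f z₁ 3 = (ψ t₁).1
        rw [hS, mul_div_assoc, div_self hW, mul_one]
      · show f z₁ 1 * f z₁ 2 / f z₁ 3 ^ 2 = (ψ t₁).2
        rw [hCD, mul_div_assoc, div_self (pow_ne_zero 2 hW), mul_one])
  intro τ hτ
  have h := key hτ
  have h1 : f (z₁ + τ) 0 / f (z₁ + τ) 3 = (ψ (t₁ + τ)).1 := congrArg Prod.fst h
  have h2 : f (z₁ + τ) 1 * f (z₁ + τ) 2 / f (z₁ + τ) 3 ^ 2 = (ψ (t₁ + τ)).2 := congrArg Prod.snd h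
  rw [← h1, ← h2, div_mul_cancel₀ _ (hne τ hτ), div_mul_cancel₀ _ (pow_ne_zero 2 (hne τ hτ))]
  exact ⟨rfl, rfl⟩

/-- the geometry of the disc `ball (-t₁) δ` -/
theorem gji_disc {ρ δ : ℝ} {t₁ z₁ τ : ℂ} (ht₁ : t₁ ∈ ball (0 : ℂ) δ) (hz₁ : ‖z₁‖ + 2 * δ < ρ)
    (hτ : τ ∈ ball (-t₁) δ) : t₁ + τ ∈ ball (0 : ℂ) δ ∧ z₁ + τ ∈ ball (0 : ℂ) ρ := by
  rw [mem_ball_zero_iff] at ht₁
  rw [mem_ball, dist_eq_norm, sub_neg_eq_add] at hτ
  rw [mem_ball_zero_iff, mem_ball_zero_iff]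
  refine ⟨by rwa [add_comm], ?_⟩
  have h1 : ‖τ‖ ≤ ‖τ + t₁‖ + ‖t₁‖ := by
    have := norm_sub_le (τ + t₁) t₁
    rwa [add_sub_cancel_right] at this
  have h2 := norm_add_le z₁ τ
  linarith

/-- the core of GJ-INV for one curve `f` -/
theorem gji_local {k : ℂ} {f : ℂ → V4} {ρ δ : ℝ}
    (hf : ∀ ζ ∈ ball (0 : ℂ) ρ, DifferentiableAt ℂ f ζ)
    (hfl : ∀ ζ ∈ ball (0 : ℂ) ρ, JFlowAt k (f ζ) (deriv f ζ))
    (hc : ∀ ζ ∈ ball (0 : ℂ) ρ, f ζ ∈ JCone k) (ψ : ℂ → ℂ × ℂ)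
    (hψ : ∀ t ∈ ball (0 : ℂ) δ,
      HasDerivAt ψ ((ψ t).2, - (1 + k) * (ψ t).1 + 2 * k * (ψ t).1 ^ 3) t)
    {t₁ z₁ : ℂ} (ht₁ : t₁ ∈ ball (0 : ℂ) δ) (hz₁ : ‖z₁‖ + 2 * δ < ρ) (hW : f z₁ 3 ≠ 0)
    (hS : f z₁ 0 = (ψ t₁).1 * f z₁ 3) (hCD : f z₁ 1 * f z₁ 2 = (ψ t₁).2 * f z₁ 3 ^ 2) :
    ∀ τ ∈ ball (-t₁) δ, f (z₁ + τ) 0 = (ψ (t₁ + τ)).1 * f (z₁ + τ) 3 ∧
      f (z₁ + τ) 1 * f (z₁ + τ) 2 = (ψ (t₁ + τ)).2 * f (z₁ + τ) 3 ^ 2 := by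
  have h0B : (0 : ℂ) ∈ ball (-t₁) δ := by
    rw [mem_ball, dist_eq_norm, sub_neg_eq_add, zero_add]
    exact mem_ball_zero_iff.1 ht₁
  have hF : ∀ τ ∈ ball (-t₁) δ, DifferentiableAt ℂ (fun τ => f (z₁ + τ)) τ := fun τ hτ =>
    ((hf _ (gji_disc ht₁ hz₁ hτ).2).hasDerivAt.comp_const_add z₁ τ).differentiableAt
  have hΨ : ∀ τ ∈ ball (-t₁) δ, DifferentiableAt ℂ (fun τ => ψ (t₁ + τ)) τ := fun τ hτ =>
    ((hψ _ (gji_disc ht₁ hz₁ hτ).1).comp_const_add t₁ τ).differentiableAt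
  have hFi : ∀ (i : Fin 4), ∀ τ ∈ ball (-t₁) δ, DifferentiableAt ℂ (fun τ => f (z₁ + τ) i) τ :=
    fun i τ hτ => differentiableAt_pi.1 (hF τ hτ) i
  have he : DifferentiableOn ℂ (fun τ => ((f (z₁ + τ) 0 - (ψ (t₁ + τ)).1 * f (z₁ + τ) 3,
      f (z₁ + τ) 1 * f (z₁ + τ) 2 - (ψ (t₁ + τ)).2 * f (z₁ + τ) 3 ^ 2) : ℂ × ℂ))
      (ball (-t₁) δ) := by
    intro τ hτ
    refine DifferentiableAt.differentiableWithinAt (DifferentiableAt.prodMk ?_ ?_)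
    · exact (hFi 0 τ hτ).sub ((hΨ τ hτ).fst.mul (hFi 3 τ hτ))
    · exact ((hFi 1 τ hτ).mul (hFi 2 τ hτ)).sub ((hΨ τ hτ).snd.mul ((hFi 3 τ hτ).pow 2))
  have hne : ∀ᶠ τ in 𝓝 (0 : ℂ), f (z₁ + τ) 3 ≠ 0 :=
    (hFi 3 0 h0B).continuousAt.eventually_ne (by simpa using hW)
  obtain ⟨r, hr, hball⟩ := Metric.eventually_nhds_iff_ball.1
    (hne.and (isOpen_ball.mem_nhds h0B))
  have hnear := gji_near (k := k) (f := f) (ψ := ψ) (z₁ := z₁) (t₁ := t₁) (r := r)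
    (fun τ hτ => hf _ (gji_disc ht₁ hz₁ (hball τ hτ).2).2)
    (fun τ hτ => hfl _ (gji_disc ht₁ hz₁ (hball τ hτ).2).2)
    (fun τ hτ => hc _ (gji_disc ht₁ hz₁ (hball τ hτ).2).2)
    (fun τ hτ => (hball τ hτ).1)
    (fun τ hτ => hψ _ (gji_disc ht₁ hz₁ (hball τ hτ).2).1) hS hCD hW
  have hev : (fun τ => ((f (z₁ + τ) 0 - (ψ (t₁ + τ)).1 * f (z₁ + τ) 3,
      f (z₁ + τ) 1 * f (z₁ + τ) 2 - (ψ (t₁ + τ)).2 * f (z₁ + τ) 3 ^ 2) : ℂ × ℂ))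
      =ᶠ[𝓝 0] 0 := by
    filter_upwards [ball_mem_nhds (0 : ℂ) hr] with τ hτ
    obtain ⟨h1, h2⟩ := hnear τ hτ
    exact Prod.ext (sub_eq_zero.2 h1) (sub_eq_zero.2 h2)
  have hid := (he.analyticOnNhd isOpen_ball).eqOn_zero_of_preconnected_of_eventuallyEq_zero
    (convex_ball _ _).isPreconnected h0B hev
  intro τ hτ
  have h := hid hτ
  exact ⟨sub_eq_zero.1 (congrArg Prod.fst h), sub_eq_zero.1 (congrArg Prod.snd h)⟩

theorem gji_slice {lam : ℂ → ℂ} {w₀ : ℂ} {b ρ : ℝ} {Φ : ℂ × ℂ → V4} (h : JLift lam w₀ b ρ Φ)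
    {w : ℂ} (hw : w ∈ ball w₀ b) :
    ∀ ζ ∈ ball (0 : ℂ) ρ, DifferentiableAt ℂ (fun ζ => Φ (w, ζ)) ζ := by
  intro ζ hζ
  have h1 : DifferentiableAt ℂ Φ (w, ζ) :=
    h.hol.differentiableAt ((isOpen_ball.prod isOpen_ball).mem_nhds ⟨hw, hζ⟩)
  exact h1.comp ζ ((differentiableAt_const w).prodMk differentiableAt_id)

/-- [GJ-INV] **the reached states are invariant under local flow lines.**
Route.  `ψ t₁ ∈ jReach`: `n, z₁` with `W ≠ 0`, `S = (ψ t₁).1 W`, `C D = (ψ t₁).2 W²` at `Φ n (w, z₁)`.  Choose `m ≥ n` with `‖z₁‖ + 2 δ < 2 ^ m * ε` (`pow_unbounded_of_one_lt`).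
`Φ m (w, z₁) = c • Φ n (w, z₁)` (`gj_unique` for `Φ n` and `(hΦ m).mono`; `2 ^ n ε ≤ 2 ^ m ε`), `c ≠ 0` because `Φ m (w, z₁) ≠ 0`: the three relations hold for `f ζ = Φ m (w, ζ)` at `z₁`.
`f` is differentiable on `ball 0 (2 ^ m ε) ⊇ ball z₁ (2 δ)`.  On the disc `B = ball (- t₁) δ` (it contains `0` and `t - t₁`; `τ ∈ B ⇒ t₁ + τ ∈ ball 0 δ`, `‖τ‖ < 2 δ`) consider the holomorphic functions
   `e₁ τ = f (z₁ + τ) 0 - (ψ (t₁ + τ)).1 * f (z₁ + τ) 3`,     `e₂ τ = f (z₁ + τ) 1 * f (z₁ + τ) 2 - (ψ (t₁ + τ)).2 * f (z₁ + τ) 3 ^ 2`.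
Near `τ = 0`: `f (z₁ + τ) 3 ≠ 0` on a small disc `ball 0 r`; there `τ ↦ (S / W, C D / W²) (z₁ + τ)` (`gj_state_ode`) and `τ ↦ ψ (t₁ + τ)` solve the same ODE `x' = (x.2, g x.1)` (entire right hand side, `Ω = univ`)
with the same value at `0`: `go_unique`; so `e₁ = e₂ = 0` on `ball 0 r`.  Identity theorem on the connected `B`: `e₁ = e₂ = 0` on `B`.
At `τ = t - t₁`: `z = z₁ + τ ∈ ball 0 (2 ^ m ε)`, `S = (ψ t).1 W`, `C D = (ψ t).2 W²`, and `W ≠ 0`: otherwise `S = 0`, then `C² = D² = 0` by the cone, so `f z = 0`: contradiction. -/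
theorem gj_reach_inv {lam : ℂ → ℂ} {w₀ : ℂ} {b ε : ℝ} {Φ : ℕ → ℂ × ℂ → V4} (hε : 0 < ε)
    (hΦ : ∀ n, JLift lam w₀ b (2 ^ n * ε) (Φ n)) {w : ℂ} (hw : w ∈ ball w₀ b) (ψ : ℂ → ℂ × ℂ) (δ : ℝ)
    (hψ : ∀ t ∈ ball (0 : ℂ) δ,
      HasDerivAt ψ ((ψ t).2, - (1 + lam w) * (ψ t).1 + 2 * lam w * (ψ t).1 ^ 3) t) :
    ∀ t₁ ∈ ball (0 : ℂ) δ, ψ t₁ ∈ jReach Φ ε w → ∀ t ∈ ball (0 : ℂ) δ, ψ t ∈ jReach Φ ε w := by
  intro t₁ ht₁ hreach t ht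
  obtain ⟨n, z₁, hz₁, hW, hS, hCD⟩ := hreach
  obtain ⟨m₀, hm₀⟩ := pow_unbounded_of_one_lt ((‖z₁‖ + 2 * δ) / ε) (one_lt_two)
  have h2m : (2 : ℝ) ^ m₀ ≤ 2 ^ (max n m₀) := pow_le_pow_right₀ one_le_two (le_max_right _ _)
  have h2n : (2 : ℝ) ^ n ≤ 2 ^ (max n m₀) := pow_le_pow_right₀ one_le_two (le_max_left _ _)
  generalize max n m₀ = m at h2m h2n
  have hρ : ‖z₁‖ + 2 * δ < 2 ^ m * ε :=
    ((div_lt_iff₀ hε).1 hm₀).trans_le (mul_le_mul_of_nonneg_right h2m hε.le)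
  have hnm : (2 : ℝ) ^ n * ε ≤ 2 ^ m * ε := mul_le_mul_of_nonneg_right h2n hε.le
  obtain ⟨c, hc⟩ := gj_unique (hΦ n) ((hΦ m).mono hnm) (w, z₁) ⟨hw, hz₁⟩
  have hz₁m : z₁ ∈ ball (0 : ℂ) (2 ^ m * ε) := ball_subset_ball hnm hz₁
  have hc0 : c ≠ 0 := by
    rintro rfl
    exact ((hΦ m).cone (w, z₁) ⟨hw, hz₁m⟩).1 (by rw [hc, zero_smul])
  have hci : ∀ i, Φ m (w, z₁) i = c * Φ n (w, z₁) i := fun i => by rw [hc]; rfl
  have hτ : t - t₁ ∈ ball (-t₁) δ := by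
    rw [mem_ball, dist_eq_norm, sub_neg_eq_add, sub_add_cancel]
    exact mem_ball_zero_iff.1 ht
  have key := gji_local (k := lam w) (f := fun ζ => Φ m (w, ζ)) (ρ := 2 ^ m * ε) (δ := δ)
    (gji_slice (hΦ m) hw) (fun ζ hζ => (hΦ m).flow w hw ζ hζ)
    (fun ζ hζ => (hΦ m).cone (w, ζ) ⟨hw, hζ⟩) ψ hψ ht₁ hρ
    (by
      show Φ m (w, z₁) 3 ≠ 0
      rw [hci]
      exact mul_ne_zero hc0 hW)
    (by
      show Φ m (w, z₁) 0 = (ψ t₁).1 * Φ m (w, z₁) 3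
      rw [hci, hci, hS]
      ring)
    (by
      show Φ m (w, z₁) 1 * Φ m (w, z₁) 2 = (ψ t₁).2 * Φ m (w, z₁) 3 ^ 2
      rw [hci, hci, hci]
      linear_combination c ^ 2 * hCD)
    (t - t₁) hτ
  rw [add_sub_cancel] at key
  have hmem := (gji_disc ht₁ hρ hτ).2
  exact ⟨m, z₁ + (t - t₁), hmem, gji_W_ne ((hΦ m).cone (w, z₁ + (t - t₁)) ⟨hw, hmem⟩) key.1,
    key.1, key.2⟩

/-- [GJ-SURJ] (divide the equations of the cone by `W²`.) -/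
theorem gj_reach_curve {lam : ℂ → ℂ} {w₀ : ℂ} {b ε : ℝ} {Φ : ℕ → ℂ × ℂ → V4}
    (hΦ : ∀ n, JLift lam w₀ b (2 ^ n * ε) (Φ n)) {w : ℂ} (hw : w ∈ ball w₀ b) :
    ∀ p ∈ jReach Φ ε w, p.2 ^ 2 = (1 - p.1 ^ 2) * (1 - lam w * p.1 ^ 2) := by
  rintro ⟨a, ν⟩ ⟨n, z, hz, hW, hS, hCD⟩
  obtain ⟨-, e1, e2⟩ := (hΦ n).cone (w, z) ⟨hw, hz⟩
  simp only at hS hCD e1 e2 ⊢
  rw [hS] at e1 e2
  apply mul_left_cancel₀ (pow_ne_zero 4 hW)
  linear_combination (-(Φ n (w, z) 1 * Φ n (w, z) 2 + ν * Φ n (w, z) 3 ^ 2)) * hCD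
    + Φ n (w, z) 2 ^ 2 * e1 + (Φ n (w, z) 3 ^ 2 - a ^ 2 * Φ n (w, z) 3 ^ 2) * e2

/-- [GJ-SURJ] (`n = 0`, `z = 0`: `Φ 0 (w, 0) = t • ![0,1,1,1]`, `t ≠ 0`: the state `(0, 1)`.) -/
theorem gj_reach_ne {lam : ℂ → ℂ} {w₀ : ℂ} {b ε : ℝ} {Φ : ℕ → ℂ × ℂ → V4} (hε : 0 < ε)
    (hΦ : ∀ n, JLift lam w₀ b (2 ^ n * ε) (Φ n)) {w : ℂ} (hw : w ∈ ball w₀ b) :
    (jReach Φ ε w).Nonempty := by
  obtain ⟨t, ht⟩ := (hΦ 0).init w hw
  have h0 : (0 : ℂ) ∈ ball (0 : ℂ) (2 ^ 0 * ε) := mem_ball_self (by simpa using hε)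
  have hne : Φ 0 (w, 0) ≠ 0 := ((hΦ 0).cone (w, 0) ⟨hw, h0⟩).1
  have ht0 : t ≠ 0 := by
    rintro rfl
    exact hne (by rw [ht, zero_smul])
  refine ⟨(0, 1), 0, 0, h0, ?_, ?_, ?_⟩
  · rw [ht]
    simpa using ht0
  · rw [ht]
    simp
  · rw [ht]
    simp
    ring

/-- every finite value of `s = S / W` is attained (glue: `gj_values`). -/
theorem gj_reach_all {lam : ℂ → ℂ} {w₀ : ℂ} {b ε : ℝ} {Φ : ℕ → ℂ × ℂ → V4} (hε : 0 < ε)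
    (hΦ : ∀ n, JLift lam w₀ b (2 ^ n * ε) (Φ n)) {w : ℂ} (hw : w ∈ ball w₀ b) (h0 : lam w ≠ 0)
    (h1 : lam w ≠ 1) (a : ℂ) : ∃ ν : ℂ, (a, ν) ∈ jReach Φ ε w := by
  set k := lam w with hk
  have hg : Differentiable ℂ (fun x : ℂ => - (1 + k) * x + 2 * k * x ^ 3) := by fun_prop
  have hh : Differentiable ℂ (fun x : ℂ => (1 - x ^ 2) * (1 - k * x ^ 2)) := by fun_prop
  refine gj_values hg hh ?_ ?_ (gj_reach_curve hΦ hw) (gj_reach_ne hε hΦ hw)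
    (fun ψ δ hψ => gj_reach_inv hε hΦ hw ψ δ hψ) a
  · intro x
    have h1 : HasDerivAt (fun x : ℂ => (1 - x ^ 2) * (1 - k * x ^ 2))
        ((0 - 2 * x ^ 1 * 1) * (1 - k * x ^ 2) + (1 - x ^ 2) * (0 - k * (2 * x ^ 1 * 1))) x := by
      have hx : HasDerivAt (fun x : ℂ => x ^ 2) (2 * x ^ 1 * 1) x := by
        have := hasDerivAt_pow 2 x
        simpa using this
      exact ((hasDerivAt_const x (1 : ℂ)).sub hx).mul
        ((hasDerivAt_const x (1 : ℂ)).sub (hx.const_mul k))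
    rw [h1.deriv]
    ring
  · intro x hx hgx
    have hx' : (1 - x ^ 2) * (1 - k * x ^ 2) = 0 := hx
    have hgx' : - (1 + k) * x + 2 * k * x ^ 3 = 0 := hgx
    rcases mul_eq_zero.1 hx' with h | h
    · have hx2 : x ^ 2 = 1 := by linear_combination -h
      have hxne : x ≠ 0 := by
        rintro rfl
        norm_num at hx2
      have : x * (k - 1) = 0 := by linear_combination hgx' - 2 * k * x * hx2
      rcases mul_eq_zero.1 this with h' | h'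
      · exact hxne h'
      · exact h1 (by linear_combination h')
    · have hx2 : k * x ^ 2 = 1 := by linear_combination -h
      have hxne : x ≠ 0 := by
        rintro rfl
        norm_num at hx2
      have : x * (1 - k) = 0 := by linear_combination hgx' - 2 * x * hx2
      rcases mul_eq_zero.1 this with h' | h'
      · exact hxne h'
      · exact h1 (by linear_combination -h')

/-- [GJ-SURJ] **(SURJ)** every point of the Legendre curve `N² = T U (T - U) (T - k U)` is reached.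
Route.  `k = lam w`.
CASE `T ≠ 0`.  Choose `a` with `a ^ 2 = U / T`.  `gj_reach_all`: `n, z` with `W ≠ 0`, `S = a W` at `y = Φ n (w, z)`.  `c := W² / T ≠ 0`: `W² = c T`, `S² = a² W² = c U`;
  `(W S C D)² = W² S² (W² - S²) (W² - k S²) = c⁴ T U (T - U) (T - k U) = (c² N)²`, so `W S C D = c² N` (done) or `W S C D = - c² N`.  In the second case use `-z`:
  `gj_flip_lift` + `gj_unique`: `jflip (Φ n (w, - z)) = t • Φ n (w, z)`, `t ≠ 0` (the left side is `≠ 0`); so at `-z`: `(S, C, D, W) = (- t S, t C, t D, t W)`; take `c' = t² c`.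
CASE `T = 0`.  Then `U ≠ 0`, `N = 0`.  Choose `a` with `a ^ 4 = 1 / k` (`IsAlgClosed.exists_pow_nat_eq`), `n, z` with `W ≠ 0`, `S = a W` at `Φ n (w, z)`.  By `hstep`, `Φ (n + 1) (w, 2 z) = jdbl k (Φ n (w, z))`, whose last
  component is `W⁴ - k S⁴ = W⁴ (1 - k a⁴) = 0`; `2 z ∈ ball 0 (2 ^ (n + 1) ε)`.  At `y' = Φ (n + 1) (w, 2 z) ∈ JCone k`: `W' = 0`, and `S' ≠ 0` (else `C'² = D'² = 0`, `y' = 0`).  `c := S'² / U`. -/
theorem gj_surj {lam : ℂ → ℂ} {w₀ : ℂ} {b ε : ℝ} {Φ : ℕ → ℂ × ℂ → V4} (hε : 0 < ε)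
    (hΦ : ∀ n, JLift lam w₀ b (2 ^ n * ε) (Φ n))
    (hstep : ∀ n x, Φ (n + 1) x = jdbl (lam x.1) (Φ n (x.1, x.2 / 2))) {w : ℂ} (hw : w ∈ ball w₀ b)
    (h0 : lam w ≠ 0) (h1 : lam w ≠ 1) (T U N : ℂ) (hTU : T ≠ 0 ∨ U ≠ 0)
    (hN : N ^ 2 = T * U * (T - U) * (T - lam w * U)) :
    ∃ (n : ℕ) (z c : ℂ), z ∈ ball (0 : ℂ) (2 ^ n * ε) ∧ c ≠ 0 ∧ Φ n (w, z) 3 ^ 2 = c * T ∧
      Φ n (w, z) 0 ^ 2 = c * U ∧
      Φ n (w, z) 3 * Φ n (w, z) 0 * Φ n (w, z) 1 * Φ n (w, z) 2 = c ^ 2 * N := by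
  by_cases hT : T = 0
  · -- the point at infinity
    have hU : U ≠ 0 := hTU.resolve_left (fun h => h hT)
    have hN0 : N = 0 := by
      rw [hT] at hN
      have : N ^ 2 = 0 := by rw [hN]; ring
      exact pow_eq_zero_iff (two_ne_zero) |>.1 this
    obtain ⟨a, ha⟩ := IsAlgClosed.exists_pow_nat_eq (1 / lam w) (n := 4) (by norm_num)
    obtain ⟨ν, n, z, hz, hW, hS, -⟩ := gj_reach_all hε hΦ hw h0 h1 a
    simp only at hS
    have h2z : 2 * z ∈ ball (0 : ℂ) (2 ^ (n + 1) * ε) := by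
      rw [mem_ball_zero_iff] at hz ⊢
      rw [norm_mul, pow_succ]
      have : ‖(2 : ℂ)‖ = 2 := by norm_num
      rw [this]
      linarith
    have hy' : Φ (n + 1) (w, 2 * z) = jdbl (lam w) (Φ n (w, z)) := by
      rw [hstep]
      simp
    obtain ⟨hne, e1, e2⟩ := (hΦ (n + 1)).cone (w, 2 * z) ⟨hw, h2z⟩
    simp only at e1 e2
    have hW' : Φ (n + 1) (w, 2 * z) 3 = 0 := by
      rw [hy']
      have h3 : jdbl (lam w) (Φ n (w, z)) 3 = Φ n (w, z) 3 ^ 4 - lam w * Φ n (w, z) 0 ^ 4 := by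
        simp [jdbl]
      rw [h3, hS, mul_pow, ha]
      field_simp
      ring
    have hS' : Φ (n + 1) (w, 2 * z) 0 ≠ 0 := by
      intro hS0
      rw [hS0, hW'] at e1 e2
      have hC : Φ (n + 1) (w, 2 * z) 1 = 0 := by
        have : Φ (n + 1) (w, 2 * z) 1 ^ 2 = 0 := by linear_combination e1
        exact pow_eq_zero_iff (two_ne_zero) |>.1 this
      have hD : Φ (n + 1) (w, 2 * z) 2 = 0 := by
        have : Φ (n + 1) (w, 2 * z) 2 ^ 2 = 0 := by linear_combination e2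
        exact pow_eq_zero_iff (two_ne_zero) |>.1 this
      apply hne
      ext i
      fin_cases i
      · exact hS0
      · exact hC
      · exact hD
      · exact hW'
    refine ⟨n + 1, 2 * z, Φ (n + 1) (w, 2 * z) 0 ^ 2 / U, h2z, div_ne_zero (pow_ne_zero 2 hS') hU, ?_, ?_, ?_⟩
    · rw [hW', hT]
      ring
    · field_simp
    · rw [hW', hN0]
      ring
  · obtain ⟨a, ha⟩ := IsAlgClosed.exists_pow_nat_eq (U / T) (n := 2) (by norm_num)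
    obtain ⟨ν, n, z, hz, hW, hS, -⟩ := gj_reach_all hε hΦ hw h0 h1 a
    simp only at hS
    obtain ⟨-, e1, e2⟩ := (hΦ n).cone (w, z) ⟨hw, hz⟩
    simp only at e1 e2
    set S := Φ n (w, z) 0 with hSdef
    set C := Φ n (w, z) 1 with hCdef
    set D := Φ n (w, z) 2 with hDdef
    set W := Φ n (w, z) 3 with hWdef
    set c : ℂ := W ^ 2 / T with hc
    have hc0 : c ≠ 0 := div_ne_zero (pow_ne_zero 2 hW) hT
    have hcT : W ^ 2 = c * T := by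
      rw [hc]
      field_simp
    have hcU : S ^ 2 = c * U := by
      rw [hS, mul_pow, ha, hc]
      field_simp
    have hsq : (W * S * C * D) ^ 2 = (c ^ 2 * N) ^ 2 := by
      have hC2 : C ^ 2 = c * T - c * U := by linear_combination e1 + hcT - hcU
      have hD2 : D ^ 2 = c * T - lam w * (c * U) := by linear_combination e2 + hcT - lam w * hcU
      calc (W * S * C * D) ^ 2 = W ^ 2 * S ^ 2 * C ^ 2 * D ^ 2 := by ring
        _ = (c * T) * (c * U) * (c * T - c * U) * (c * T - lam w * (c * U)) := by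
            rw [hcT, hcU, hC2, hD2]
        _ = c ^ 4 * (T * U * (T - U) * (T - lam w * U)) := by ring
        _ = (c ^ 2 * N) ^ 2 := by rw [← hN]; ring
    rcases sq_eq_sq_iff_eq_or_eq_neg.1 hsq with hpos | hneg
    · exact ⟨n, z, c, hz, hc0, hcT, hcU, hpos⟩
    · have hflip := gj_flip_lift (hΦ n)
      obtain ⟨t, ht⟩ := gj_unique (hΦ n) hflip (w, z) ⟨hw, hz⟩
      simp only at ht
      have hnz : -z ∈ ball (0 : ℂ) (2 ^ n * ε) := by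
        rw [mem_ball_zero_iff] at hz ⊢
        rwa [norm_neg]
      have ht0 : t ≠ 0 := by
        rintro rfl
        exact (hflip.cone (w, z) ⟨hw, hz⟩).1 (by simp only; rw [ht, zero_smul])
      have g0 : - Φ n (w, -z) 0 = t * S := by
        have := congrFun ht 0
        simpa [jflip] using this
      have g1 : Φ n (w, -z) 1 = t * C := by
        have := congrFun ht 1
        simpa [jflip] using this
      have g2 : Φ n (w, -z) 2 = t * D := by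
        have := congrFun ht 2
        simpa [jflip] using this
      have g3 : Φ n (w, -z) 3 = t * W := by
        have := congrFun ht 3
        simpa [jflip] using this
      have g0' : Φ n (w, -z) 0 = - (t * S) := by linear_combination -g0
      refine ⟨n, -z, t ^ 2 * c, hnz, mul_ne_zero (pow_ne_zero 2 ht0) hc0, ?_, ?_, ?_⟩
      · rw [g3]
        linear_combination t ^ 2 * hcT
      · rw [g0']
        linear_combination t ^ 2 * hcU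
      · rw [g0', g1, g2, g3]
        linear_combination (-t ^ 4) * hneg

end Claimed.Agent.R245
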