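/-
Row 245 / S0484, GEO (architect helper18).   Package GEO-ZERO: persistence of zeros; a holomorphic disc in the zero set of a function of two variables.
ONE FILE = ONE PACKAGE = ONE OWNER.  Statements FROZEN; helper lemmas: prefix `gz_`, in this file.     Tools: Mathlib, R245/SCV.lean.
-/
import Claimed.Agent.R245.SCV

set_option autoImplicit false

namespace Claimed.Agent.R245

open Metric Set Filter Topology

/-- **Persistence of zeros.**  `h (a, b)` continuous near `{a₀} × closedBall b₀ r`, holomorphic in `b`; `h (a₀, b₀) = 0`, `h (a₀, ·) ≠ 0` on the circle.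
Then `h (a, ·)` has a zero in `ball b₀ r` for all `a` near `a₀`.
Route: `2 m = min_{sphere} |h (a₀, ·)| > 0`.  Tube lemma (`generalized_tube_lemma` / `IsCompact` + continuity): for `a` near `a₀`, `|h (a, b)| > m` on the sphere, and
`|h (a, b₀)| < m`.  If `h (a, ·)` had no zero in the closed ball, `1 / h (a, ·)` would be `DiffContOnCl` on the ball and `Complex.norm_le_of_forall_mem_frontier_norm_le`
gives `1 / |h (a, b₀)| ≤ 1 / m`: contradiction.  (A zero on the sphere is excluded.) -/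
theorem gz_persist {X : Type*} [TopologicalSpace X] {h : X × ℂ → ℂ} {a₀ : X} {b₀ : ℂ} {r : ℝ} (hr : 0 < r)
    {N : Set X} (hN : N ∈ 𝓝 a₀) (hc : ContinuousOn h (N ×ˢ closedBall b₀ r))
    (hd : ∀ a ∈ N, DifferentiableOn ℂ (fun b => h (a, b)) (ball b₀ r)) (h0 : h (a₀, b₀) = 0)
    (hs : ∀ b ∈ sphere b₀ r, h (a₀, b) ≠ 0) :
    ∀ᶠ a in 𝓝 a₀, ∃ b ∈ ball b₀ r, h (a, b) = 0 := by
  have ha₀ : a₀ ∈ N := mem_of_mem_nhds hN
  -- the minimum on the sphere
  have hcs : ContinuousOn (fun b => ‖h (a₀, b)‖) (sphere b₀ r) := by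
    refine (hc.comp (f := fun b : ℂ => (a₀, b)) (by fun_prop) ?_).norm
    intro b hb
    exact ⟨ha₀, sphere_subset_closedBall hb⟩
  obtain ⟨b', hb', hmin⟩ := (isCompact_sphere b₀ r).exists_isMinOn
    (NormedSpace.sphere_nonempty.2 hr.le) hcs
  have hm2 : 0 < ‖h (a₀, b')‖ := norm_pos_iff.2 (hs b' hb')
  set m : ℝ := ‖h (a₀, b')‖ / 2 with hm
  have hmpos : 0 < m := by positivity
  -- near `a₀`, `|h| > m` on the sphere
  have e1 : ∀ᶠ a in 𝓝 a₀, ∀ b ∈ sphere b₀ r, (b ∈ closedBall b₀ r → m < ‖h (a, b)‖) := by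
    apply (isCompact_sphere b₀ r).eventually_forall_of_forall_eventually
    intro b hb
    have hmem : (a₀, b) ∈ N ×ˢ closedBall b₀ r := ⟨ha₀, sphere_subset_closedBall hb⟩
    have h1 : m < ‖h (a₀, b)‖ := by
      have : ‖h (a₀, b')‖ ≤ ‖h (a₀, b)‖ := hmin hb
      rw [hm]; linarith
    have h2 : ∀ᶠ z in 𝓝[N ×ˢ closedBall b₀ r] (a₀, b), m < ‖h z‖ :=
      (hc (a₀, b) hmem).norm.eventually (lt_mem_nhds h1)
    rw [eventually_nhdsWithin_iff] at h2
    have h3 : ∀ᶠ z : X × ℂ in 𝓝 (a₀, b), z.1 ∈ N :=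
      (continuous_fst.tendsto (a₀, b)).eventually hN
    filter_upwards [h2, h3] with z hz1 hz2 hz3
    exact hz1 ⟨hz2, hz3⟩
  -- near `a₀`, `|h (a, b₀)| < m`
  have e2 : ∀ᶠ a in 𝓝 a₀, ‖h (a, b₀)‖ < m := by
    have hmem : (a₀, b₀) ∈ N ×ˢ closedBall b₀ r := ⟨ha₀, mem_closedBall_self hr.le⟩
    have h2 : ∀ᶠ z in 𝓝[N ×ˢ closedBall b₀ r] (a₀, b₀), ‖h z‖ < m := by
      apply (hc (a₀, b₀) hmem).norm.eventually (gt_mem_nhds _)
      show ‖h (a₀, b₀)‖ < m
      rw [h0, norm_zero]; exact hmpos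
    rw [eventually_nhdsWithin_iff] at h2
    have ht : Tendsto (fun a : X => (a, b₀)) (𝓝 a₀) (𝓝 (a₀, b₀)) :=
      (Continuous.prodMk_left b₀).tendsto a₀
    filter_upwards [ht.eventually h2, hN] with a ha1 ha2
    exact ha1 ⟨ha2, mem_closedBall_self hr.le⟩
  filter_upwards [e1, e2, hN] with a ha1 ha2 haN
  by_contra hno
  push Not at hno
  have hne : ∀ b ∈ closedBall b₀ r, h (a, b) ≠ 0 := by
    intro b hb
    rcases (mem_closedBall.1 hb).lt_or_eq with hlt | heq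
    · exact hno b (mem_ball.2 hlt)
    · have := ha1 b (mem_sphere.2 heq) hb
      exact norm_pos_iff.1 (hmpos.trans this)
  have hdc : DiffContOnCl ℂ (fun b => (h (a, b))⁻¹) (ball b₀ r) := by
    constructor
    · exact (hd a haN).inv (fun b hb => hne b (ball_subset_closedBall hb))
    · rw [closure_ball b₀ hr.ne']
      refine ContinuousOn.inv₀ ?_ hne
      exact hc.comp (f := fun b : ℂ => (a, b)) (by fun_prop) (fun b hb => ⟨haN, hb⟩)
  have key := Complex.norm_le_of_forall_mem_frontier_norm_le (isBounded_ball) hdc (C := m⁻¹)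
    (by
      intro b hb
      rw [frontier_ball b₀ hr.ne'] at hb
      rw [norm_inv]
      exact inv_anti₀ hmpos (ha1 b hb (sphere_subset_closedBall hb)).le)
    (subset_closure (mem_ball_self hr))
  rw [norm_inv] at key
  have hpos : 0 < ‖h (a, b₀)‖ := norm_pos_iff.2 (hne b₀ (mem_closedBall_self hr.le))
  have := (inv_le_inv₀ hpos hmpos).1 key
  linarith

/-- the partial derivative in the second variable -/
noncomputable def gzD (f : ℂ × ℂ → ℂ) (z : ℂ × ℂ) : ℂ := fderiv ℂ f z (0, 1)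

theorem gz_D_analytic {f : ℂ × ℂ → ℂ} {U : Set (ℂ × ℂ)} (hf : AnalyticOnNhd ℂ f U) :
    AnalyticOnNhd ℂ (gzD f) U := fun z hz =>
  ((ContinuousLinearMap.apply ℂ ℂ ((0, 1) : ℂ × ℂ)).analyticAt _).comp (hf.fderiv z hz)

theorem gz_D_iter_analytic {f : ℂ × ℂ → ℂ} {U : Set (ℂ × ℂ)} (hf : AnalyticOnNhd ℂ f U) (j : ℕ) :
    AnalyticOnNhd ℂ (gzD^[j] f) U := by
  induction j with
  | zero => exact hf
  | succ j ih => rw [Function.iterate_succ_apply']; exact gz_D_analytic ih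

theorem gz_deriv_eq {f : ℂ × ℂ → ℂ} {a b : ℂ} (hf : DifferentiableAt ℂ f (a, b)) :
    HasDerivAt (fun b' => f (a, b')) (gzD f (a, b)) b := by
  have h1 : HasDerivAt (fun x : ℂ => (a, x)) ((0 : ℂ), (1 : ℂ)) b :=
    (hasDerivAt_const b a).prodMk (hasDerivAt_id b)
  have h2 : HasFDerivAt f (fderiv ℂ f (a, b)) ((fun x : ℂ => (a, x)) b) := hf.hasFDerivAt
  exact h2.comp_hasDerivAt b h1

theorem gz_slice_mem {U : Set (ℂ × ℂ)} (hU : IsOpen U) {a b : ℂ} (hz : (a, b) ∈ U) :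
    ∀ᶠ b' in 𝓝 b, (a, b') ∈ U :=
  ((Continuous.prodMk_right a).tendsto b).eventually (hU.mem_nhds hz)

theorem gz_iteratedDeriv {f : ℂ × ℂ → ℂ} {U : Set (ℂ × ℂ)} (hU : IsOpen U) (hf : AnalyticOnNhd ℂ f U)
    (j : ℕ) : ∀ a b : ℂ, (a, b) ∈ U → iteratedDeriv j (fun b' => f (a, b')) b = gzD^[j] f (a, b) := by
  induction j with
  | zero => intro a b _; simp
  | succ j ih =>
    intro a b hz
    rw [iteratedDeriv_succ, Function.iterate_succ_apply']
    have h1 : iteratedDeriv j (fun b' => f (a, b')) =ᶠ[𝓝 b] fun b' => gzD^[j] f (a, b') := by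
      filter_upwards [gz_slice_mem hU hz] with b' hb'
      exact ih a b' hb'
    rw [h1.deriv_eq]
    exact (gz_deriv_eq (gz_D_iter_analytic hf j (a, b) hz).differentiableAt).deriv

/-- analytic implicit function theorem, scalar unknown -/
theorem gz_implicit {Φ : ℂ × ℂ → ℂ} {u : ℂ × ℂ} (hΦ : AnalyticAt ℂ Φ u) (hd : gzD Φ u ≠ 0) :
    ∃ ψ : ℂ → ℂ, AnalyticAt ℂ ψ u.1 ∧ ψ u.1 = u.2 ∧ (∀ᶠ w in 𝓝 u.1, Φ (w, ψ w) = Φ u) ∧
      ∀ᶠ v in 𝓝 u, Φ v = Φ u ↔ ψ v.1 = v.2 := by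
  have cdf : ContDiffAt ℂ ⊤ Φ u := hΦ.contDiffAt
  have inv : (fderiv ℂ Φ u ∘L ContinuousLinearMap.inr ℂ ℂ ℂ).IsInvertible := by
    refine ⟨ContinuousLinearEquiv.unitsEquivAut ℂ (Units.mk0 _ hd), ?_⟩
    ext
    simp [gzD]
  have pn : (⊤ : WithTop ℕ∞) ≠ 0 := by simp
  refine ⟨cdf.implicitFunction pn inv, ?_, cdf.implicitFunction_apply_self pn inv,
    cdf.eventually_apply_implicitFunction pn inv,
    cdf.eventually_apply_eq_iff_implicitFunction pn inv⟩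
  exact (cdf.contDiffAt_implicitFunction pn inv).analyticAt

theorem gz_slice_analyticAt {h : ℂ × ℂ → ℂ} {U : Set (ℂ × ℂ)} (ha : AnalyticOnNhd ℂ h U) {a b : ℂ}
    (hz : (a, b) ∈ U) : AnalyticAt ℂ (fun b' => h (a, b')) b :=
  AnalyticAt.comp₂ (h := h) (f := fun _ : ℂ => a) (g := fun x : ℂ => x) (ha (a, b) hz)
    analyticAt_const analyticAt_id

/-- all vertical derivatives vanish at a point: the function vanishes on a vertical disc -/
theorem gz_vertical {h : ℂ × ℂ → ℂ} {U : Set (ℂ × ℂ)} (hU : IsOpen U) (ha : AnalyticOnNhd ℂ h U) {a b : ℂ}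
    (hz : (a, b) ∈ U) (hj : ∀ j, gzD^[j] h (a, b) = 0) : ∀ᶠ b' in 𝓝 b, h (a, b') = 0 := by
  have htop : analyticOrderAt (fun b' => h (a, b')) b = ⊤ := by
    rw [ENat.eq_top_iff_forall_ge]
    intro n
    rw [natCast_le_analyticOrderAt_iff_iteratedDeriv_eq_zero (gz_slice_analyticAt ha hz)]
    intro i _
    rw [gz_iteratedDeriv hU ha i a b hz]
    exact hj i
  rwa [analyticOrderAt_eq_top] at htop

/-- **A holomorphic branch of the zero set** over a small disc of the first variable, if the zero set is non empty and contains no vertical disc. -/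
theorem gz_branch {h : ℂ × ℂ → ℂ} {U : Set (ℂ × ℂ)} (hU : IsOpen U) (hh : DifferentiableOn ℂ h U)
    (hex0 : ∃ z ∈ U, h z = 0) (hA : ∀ z ∈ U, h z = 0 → ∃ j, gzD^[j] h z ≠ 0) :
    ∃ (a₁ : ℂ) (ρ : ℝ) (ψ : ℂ → ℂ), 0 < ρ ∧ (∀ a ∈ ball a₁ ρ, AnalyticAt ℂ ψ a) ∧
      ∀ a ∈ ball a₁ ρ, (a, ψ a) ∈ U ∧ h (a, ψ a) = 0 := by
  have ha : AnalyticOnNhd ℂ h U := scv_analyticOnNhd hU hh
  -- the minimal order
  have hex : ∃ j, ∃ z ∈ U, h z = 0 ∧ gzD^[j] h z ≠ 0 := by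
    obtain ⟨x₀, hx₀, h0⟩ := hex0
    obtain ⟨j, hj⟩ := hA x₀ hx₀ h0
    exact ⟨j, x₀, hx₀, h0, hj⟩
  classical
  obtain ⟨⟨a₁, b₁⟩, hz₁U, hz₁0, hz₁m⟩ := Nat.find_spec hex
  set m := Nat.find hex with hm
  have hmin : ∀ j < m, ∀ z ∈ U, h z = 0 → gzD^[j] h z = 0 := by
    intro j hj z hzU hz0
    by_contra hne
    exact Nat.find_min hex hj ⟨z, hzU, hz0, hne⟩
  have hm1 : 1 ≤ m := by
    rcases Nat.eq_zero_or_pos m with h0' | h0'
    · rw [h0'] at hz₁m
      exact absurd hz₁0 hz₁m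
    · exact h0'
  obtain ⟨k, hk⟩ : ∃ k, m = k + 1 := ⟨m - 1, by omega⟩
  -- `g = ∂_b^{m-1} h`
  have hg0 : ∀ z ∈ U, h z = 0 → gzD^[k] h z = 0 := hmin k (by omega)
  have hgd : gzD (gzD^[k] h) (a₁, b₁) ≠ 0 := by
    rw [← Function.iterate_succ_apply' gzD k h, Nat.succ_eq_add_one, ← hk]; exact hz₁m
  obtain ⟨ψ, hψa, hψ0, -, hψiff⟩ := gz_implicit (gz_D_iter_analytic ha k (a₁, b₁) hz₁U) hgd
  rw [hg0 _ hz₁U hz₁0] at hψiff
  -- the zero of `h (a₁, ·)` at `b₁` is isolated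
  have hiso : ∀ᶠ b in 𝓝[≠] b₁, h (a₁, b) ≠ 0 := by
    rcases (gz_slice_analyticAt ha hz₁U).eventually_eq_zero_or_eventually_ne_zero with h1 | h1
    · exfalso
      apply hz₁m
      rw [← gz_iteratedDeriv hU ha m a₁ b₁ hz₁U]
      have : (fun b' => h (a₁, b')) =ᶠ[𝓝 b₁] fun _ => (0 : ℂ) := h1
      rw [this.iteratedDeriv_eq]
      simp
    · exact h1
  rw [eventually_nhdsWithin_iff] at hiso
  obtain ⟨N₁, hN₁, N₂, hN₂, hprod⟩ := mem_nhds_prod_iff.1 (hψiff.and (hU.mem_nhds hz₁U))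
  obtain ⟨r, hr, hrball⟩ := Metric.nhds_basis_closedBall.mem_iff.1 (Filter.inter_mem hN₂ hiso)
  have hsub : N₁ ×ˢ closedBall b₁ r ⊆ U := by
    rintro ⟨a, b⟩ ⟨ha', hb'⟩
    exact (hprod ⟨ha', (hrball hb').1⟩).2
  have hper := gz_persist (h := h) hr hN₁ (hh.continuousOn.mono hsub)
    (by
      intro a ha' b hb'
      have hmem : (a, b) ∈ U := hsub ⟨ha', ball_subset_closedBall hb'⟩
      exact (gz_slice_analyticAt ha hmem).differentiableAt.differentiableWithinAt)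
    hz₁0
    (by
      intro b hb
      apply (hrball (sphere_subset_closedBall hb)).2
      intro hbb
      rw [mem_singleton_iff.1 hbb] at hb
      simp at hb
      exact hr.ne hb)
  obtain ⟨ρ, hρ, hρball⟩ := Metric.eventually_nhds_iff_ball.1
    ((hper.and hN₁).and hψa.eventually_analyticAt)
  refine ⟨a₁, ρ, ψ, hρ, fun a ha' => (hρball a ha').2, ?_⟩
  intro a ha'
  obtain ⟨⟨⟨b, hb, hb0⟩, haN⟩, -⟩ := hρball a ha'
  have hmem : (a, b) ∈ N₁ ×ˢ N₂ := ⟨haN, (hrball (ball_subset_closedBall hb)).1⟩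
  obtain ⟨h1, h2⟩ := hprod hmem
  have : ψ a = b := h1.1 (hg0 _ h2 hb0)
  rw [this]
  exact ⟨h2, hb0⟩

/-- **A disc in a zero set** (replaces 'zeros are not isolated' + 'regular points of a hypersurface').  `h` holomorphic on the open set `U ⊆ ℂ²`, `h x₀ = 0`.  Then there is a
holomorphic immersed disc `γ` in `U ∩ {h = 0}`, inside any given neighbourhood of `x₀`.
Route.  If `h ≡ 0` near `x₀`: `γ w = x₀ + (w, 0)`.  Otherwise there is `e ≠ 0` with `t ↦ h (x₀ + t e)` not identically `0` near `0` (pick a point `x₁` near `x₀` with `h x₁ ≠ 0`, `e = x₁ - x₀`; identity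
theorem in one variable).  Linear change of coordinates: WLOG the second axis, i.e. work with `k (a, b) = h (x₀ + a e' + b e)`, `(e', e)` a basis.  `k (0, ·)` has an isolated zero at `0`: choose `r` small with
`k (0, b) ≠ 0` on `0 < |b| ≤ r`; by continuity there is `δ` with `k (a, b) ≠ 0` for `|a| < δ`, `|b| = r`.  For a zero `z = (a, b)` of `k` in `Q = ball 0 δ × ball 0 r` let
`ord z = min {j | ∂_b^j k (z) ≠ 0}` (finite: `k (a, ·)` is not identically zero on the connected disc since it is non zero on the circle; `AnalyticAt.order` / iterated derivatives).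
Choose a zero `z₁ = (a₁, b₁) ∈ Q` with `m = ord z₁` MINIMAL (`m ≥ 1`).  `g = ∂_b^{m-1} k` satisfies `g z₁ = 0`, `∂_b g z₁ ≠ 0`: IFT gives a holomorphic `β` near `a₁`, `{g = 0} = graph β` near `z₁`.
Every zero `z` of `k` near `z₁` has `ord z ≥ m`, so `g z = 0`, so `z ∈ graph β`.  By `gz_persist` (on a small circle around `b₁`), for every `a` near `a₁` there is a zero `(a, b)` of `k` near `z₁`; hence `k (a, β a) = 0`.
`γ w = x₀ + (a₁ + w) e' + β (a₁ + w) e`, `γ' (0) = e' + β' e ≠ 0`. -/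
theorem gz_disc {h : ℂ × ℂ → ℂ} {U : Set (ℂ × ℂ)} (hU : IsOpen U) (hh : DifferentiableOn ℂ h U) {x₀ : ℂ × ℂ}
    (hx₀ : x₀ ∈ U) (h0 : h x₀ = 0) :
    ∃ (γ : ℂ → ℂ × ℂ) (r : ℝ), 0 < r ∧ DifferentiableOn ℂ γ (ball 0 r) ∧
      (∀ w ∈ ball (0 : ℂ) r, γ w ∈ U ∧ h (γ w) = 0) ∧ deriv γ 0 ≠ 0 := by
  have ha : AnalyticOnNhd ℂ h U := scv_analyticOnNhd hU hh
  by_cases hA : ∃ z ∈ U, h z = 0 ∧ ∀ j, gzD^[j] h z = 0
  · -- a vertical disc
    obtain ⟨⟨a, b⟩, hzU, hz0, hj⟩ := hA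
    obtain ⟨r, hr, hball⟩ := Metric.eventually_nhds_iff_ball.1
      ((gz_slice_mem hU hzU).and (gz_vertical hU ha hzU hj))
    have hder : HasDerivAt (fun w : ℂ => (a, b + w)) ((0 : ℂ), (1 : ℂ)) 0 :=
      (hasDerivAt_const 0 a).prodMk ((hasDerivAt_id (0 : ℂ)).const_add b)
    refine ⟨fun w => (a, b + w), r, hr, by fun_prop, fun w hw => hball (b + w) ?_, ?_⟩
    · simpa [dist_eq_norm] using hw
    · rw [hder.deriv]
      simp
  · push Not at hA
    obtain ⟨a₁, ρ, ψ, hρ, hψa, hkey⟩ := gz_branch hU hh ⟨x₀, hx₀, h0⟩ hA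
    have hmemball : ∀ w ∈ ball (0 : ℂ) ρ, a₁ + w ∈ ball a₁ ρ := by
      intro w hw
      simpa [dist_eq_norm] using hw
    refine ⟨fun w => (a₁ + w, ψ (a₁ + w)), ρ, hρ, ?_, fun w hw => hkey _ (hmemball w hw), ?_⟩
    · intro w hw
      have h1 : DifferentiableAt ℂ ψ (a₁ + w) := (hψa _ (hmemball w hw)).differentiableAt
      have h2 : DifferentiableAt ℂ (fun w : ℂ => ψ (a₁ + w)) w :=
        DifferentiableAt.comp w h1 (by fun_prop)
      exact (DifferentiableAt.prodMk (by fun_prop) h2).differentiableWithinAt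
    · have h1 : HasDerivAt ψ (deriv ψ a₁) (a₁ + 0) := by
        rw [add_zero]; exact (hψa a₁ (mem_ball_self hρ)).differentiableAt.hasDerivAt
      have h2 : HasDerivAt (fun w : ℂ => a₁ + w) 1 0 := (hasDerivAt_id (0 : ℂ)).const_add a₁
      have h3 : HasDerivAt (fun w : ℂ => ψ (a₁ + w)) (deriv ψ a₁ * 1) 0 := h1.comp 0 h2
      rw [(h2.prodMk h3).deriv]
      simp

/-- **Cancellation** (the ring of holomorphic functions on a connected open set is a domain). -/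
theorem gz_cancel {E : Type*} [NormedAddCommGroup E] [NormedSpace ℂ E] [FiniteDimensional ℂ E] {Ω : Set E} (hΩ : IsOpen Ω)
    (hc : IsPreconnected Ω) {h k : E → ℂ} (hh : DifferentiableOn ℂ h Ω) (hk : DifferentiableOn ℂ k Ω)
    (hz : ∀ x ∈ Ω, h x * k x = 0) (hne : ∃ x ∈ Ω, h x ≠ 0) : ∀ x ∈ Ω, k x = 0 := by
  obtain ⟨x₁, hx₁, hx₁ne⟩ := hne
  have hka : AnalyticOnNhd ℂ k Ω := scv_analyticOnNhd hΩ hk
  have hcont : ContinuousAt h x₁ := (hh.differentiableAt (hΩ.mem_nhds hx₁)).continuousAt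
  have hev : k =ᶠ[𝓝 x₁] 0 := by
    filter_upwards [hcont.eventually_ne hx₁ne, hΩ.mem_nhds hx₁] with x hx1 hx2
    exact (mul_eq_zero.1 (hz x hx2)).resolve_left hx1
  exact fun x hx => hka.eqOn_zero_of_preconnected_of_eventuallyEq_zero hc hx₁ hev hx

end Claimed.Agent.R245
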