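/-
Row 245 / S0484, GEO (architect helper18; sub-architect of this block: helper66).   BLOCK GEO-JAC: the elliptic engine.
A holomorphic family of elliptic curves in Legendre form `N² = T U (T - U) (T - λ U)`, `λ = lam w`, is uniformised by finite pieces
`Φ n : ball w₀ b' × ball 0 (2^n ε) → ℂ⁴ \ 0` in JACOBI coordinates `(S, C, D, W)` (think `S/W = sn`, `C/W = cn`, `D/W = dn`, `k² = λ`):
        `S² + C² = W²`,  `λ S² + D² = W²`,      `(T, U, N) = (W², S², W S C D)`.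
No periods, no theta functions, no global ODE theory:   `Φ n (w, z) = (doubling map)^n (Φ 0 (w, z / 2^n))`, where `Φ 0 = (sn, cn, dn, 1)` is the LOCAL solution of
`s' = c d, c' = - s d, d' = - λ s c`, `(s, c, d)(0) = (0, 1, 1)` (package GEO-ODE, `go_flow`, parameter `λ`).
The top statement `gj_engine` is FROZEN (consumer: GeoStrip.lean) and PROVED here from the packages
  GJ-ALG  (GeoJacAlg.lean)   algebra of `jdbl`
  GJ-LOC  (GeoJacLoc.lean)   local solution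
  GJ-STEP (GeoJacStep.lean)  doubling / inversion of a Jacobi lift
  GJ-UNIQ (GeoJacUniq.lean)  two Jacobi lifts are proportional
  GJ-VAL  (GeoJacVal.lean)   flow invariant subsets of `y² = h (x)` project onto the `x`-line
  GJ-INV, GJ-SURJ (GeoJacSurj.lean)
Definitions (`JCone`, `jdbl`, `JFlowAt`, `JLift`, `jReach`): GeoJacDefs.lean.
-/
import Claimed.Agent.R245.GeoJacDefs
import Claimed.Agent.R245.GeoJacLoc
import Claimed.Agent.R245.GeoJacStep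
import Claimed.Agent.R245.GeoJacUniq
import Claimed.Agent.R245.GeoJacSurj
import Claimed.Agent.R245.GeoZero

set_option autoImplicit false

namespace Claimed.Agent.R245

open Metric Set Filter Topology

/-- the sequence of lifts generated by the doubling map -/
noncomputable def gjSeq (lam : ℂ → ℂ) (φ : ℂ × ℂ → V4) : ℕ → ℂ × ℂ → V4
  | 0 => φ
  | n + 1 => fun x => jdbl (lam x.1) (gjSeq lam φ n (x.1, x.2 / 2))

theorem gj_seq_lift {lam : ℂ → ℂ} {w₀ : ℂ} {b ε : ℝ} {φ : ℂ × ℂ → V4}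
    (hlam : DifferentiableOn ℂ lam (ball w₀ b)) (h0 : ∀ w ∈ ball w₀ b, lam w ≠ 0)
    (h1 : ∀ w ∈ ball w₀ b, lam w ≠ 1) (h : JLift lam w₀ b ε φ) :
    ∀ n, JLift lam w₀ b (2 ^ n * ε) (gjSeq lam φ n) := by
  intro n
  induction n with
  | zero => simpa [gjSeq] using h
  | succ n ih =>
    have := gj_step hlam h0 h1 ih
    have e : (2 : ℝ) ^ (n + 1) * ε = 2 * (2 ^ n * ε) := by ring
    rw [e]
    exact this

/-- **The elliptic engine.** -/
theorem gj_engine {w₀ : ℂ} {b b' : ℝ} (hb' : 0 < b') (hbb : b' < b) {lam : ℂ → ℂ}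
    (hlam : DifferentiableOn ℂ lam (ball w₀ b)) (h0 : ∀ w ∈ ball w₀ b, lam w ≠ 0)
    (h1 : ∀ w ∈ ball w₀ b, lam w ≠ 1) :
    ∃ (ε : ℝ) (Φ : ℕ → ℂ × ℂ → V4), 0 < ε ∧
      (∀ n, DifferentiableOn ℂ (Φ n) (ball w₀ b' ×ˢ ball (0 : ℂ) (2 ^ n * ε))) ∧
      (∀ n, ∀ x ∈ ball w₀ b' ×ˢ ball (0 : ℂ) (2 ^ n * ε), Φ n x ∈ JCone (lam x.1)) ∧
      (∀ n, ∀ x ∈ ball w₀ b' ×ˢ ball (0 : ℂ) (2 ^ n * ε), ∃ t : ℂ, Φ (n + 1) x = t • Φ n x) ∧
      (∀ n, ∀ w ∈ ball w₀ b', ∀ z ∈ ball (0 : ℂ) (2 ^ n * ε),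
        deriv (fun z => Φ n (w, z) 0) z * Φ n (w, z) 3 - Φ n (w, z) 0 * deriv (fun z => Φ n (w, z) 3) z
          = Φ n (w, z) 1 * Φ n (w, z) 2) ∧
      (∀ w ∈ ball w₀ b', Φ 0 (w, 0) = ![0, 1, 1, 1]) ∧
      (∀ w ∈ ball w₀ b', ∀ T U N : ℂ, (T ≠ 0 ∨ U ≠ 0) → N ^ 2 = T * U * (T - U) * (T - lam w * U) →
        ∃ (n : ℕ) (z c : ℂ), z ∈ ball (0 : ℂ) (2 ^ n * ε) ∧ c ≠ 0 ∧ Φ n (w, z) 3 ^ 2 = c * T ∧
          Φ n (w, z) 0 ^ 2 = c * U ∧
          Φ n (w, z) 3 * Φ n (w, z) 0 * Φ n (w, z) 1 * Φ n (w, z) 2 = c ^ 2 * N) := by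
  have hsub : ball w₀ b' ⊆ ball w₀ b := ball_subset_ball hbb.le
  obtain ⟨ε, φ, hε, hφ, hφ0⟩ := gj_local hb' hbb hlam
  have hL := gj_seq_lift (hlam.mono hsub) (fun w hw => h0 w (hsub hw)) (fun w hw => h1 w (hsub hw)) hφ
  refine ⟨ε, gjSeq lam φ, hε, fun n => (hL n).hol, fun n => (hL n).cone, ?_, ?_, ?_, ?_⟩
  · intro n x hx
    have hle : (2 : ℝ) ^ n * ε ≤ 2 ^ (n + 1) * ε := by
      have : (2 : ℝ) ^ n ≤ 2 ^ (n + 1) := pow_le_pow_right₀ (by norm_num) (Nat.le_succ n)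
      exact mul_le_mul_of_nonneg_right this hε.le
    exact gj_unique (hL n) ((hL (n + 1)).mono hle) x hx
  · intro n w hw z hz
    have hd : DifferentiableAt ℂ (fun ζ : ℂ => gjSeq lam φ n (w, ζ)) z := by
      have hopen : IsOpen (ball w₀ b' ×ˢ ball (0 : ℂ) (2 ^ n * ε)) := isOpen_ball.prod isOpen_ball
      have h1 : DifferentiableAt ℂ (gjSeq lam φ n) (w, z) :=
        ((hL n).hol (w, z) ⟨hw, hz⟩).differentiableAt (hopen.mem_nhds ⟨hw, hz⟩)
      exact h1.comp z (by fun_prop : DifferentiableAt ℂ (fun ζ : ℂ => (w, ζ)) z)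
    have hc : ∀ i : Fin 4, deriv (fun ζ : ℂ => gjSeq lam φ n (w, ζ) i) z
        = deriv (fun ζ : ℂ => gjSeq lam φ n (w, ζ)) z i := by
      intro i
      have := (hasDerivAt_pi.1 hd.hasDerivAt) i
      exact this.deriv
    rw [hc 0, hc 3]
    exact ((hL n).flow w hw z hz).m03
  · intro w hw
    exact hφ0 w hw
  · intro w hw T U N hTU hN
    exact gj_surj hε hL (fun n x => rfl) hw (h0 w (hsub hw)) (h1 w (hsub hw)) T U N hTU hN

end Claimed.Agent.R245
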