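/-
Row 245 / S0484, GEO (architect helper18; block 3: helper129).   GEO-KI part A: `gk_det_swap`, `gk_grad_p`, `gk_ki` (statements of helper18, FROZEN) and the two
special cases `gk_ki_X₁`, `gk_ki_X₂` (`N = X₁`, `X₂`).   Math: see the header of GeoKI.lean.   OWNER OF THIS FILE: helper129.  PROVED (no sorry).
-/
import Claimed.Agent.R245.GeoDefs
import Claimed.Agent.R245.GeoZero
import Claimed.Agent.R245.Spray
import Claimed.Agent.R245.GeoAlg

set_option autoImplicit false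

namespace Claimed.Agent.R245

open MvPolynomial Metric Set Filter Topology Claims.C0412

theorem gk_det4_eq (a b c d : V4) : det4 a b c d =
    a 0 * (b 1 * (c 2 * d 3 - c 3 * d 2) - b 2 * (c 1 * d 3 - c 3 * d 1) + b 3 * (c 1 * d 2 - c 2 * d 1))
    - a 1 * (b 0 * (c 2 * d 3 - c 3 * d 2) - b 2 * (c 0 * d 3 - c 3 * d 0) + b 3 * (c 0 * d 2 - c 2 * d 0))
    + a 2 * (b 0 * (c 1 * d 3 - c 3 * d 1) - b 1 * (c 0 * d 3 - c 3 * d 0) + b 3 * (c 0 * d 1 - c 1 * d 0))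
    - a 3 * (b 0 * (c 1 * d 2 - c 2 * d 1) - b 1 * (c 0 * d 2 - c 2 * d 0) + b 2 * (c 0 * d 1 - c 1 * d 0)) := by
  unfold det4
  rw [Matrix.det_succ_row_zero]
  simp [Fin.sum_univ_succ, Matrix.det_fin_three, Fin.succAbove, Matrix.submatrix]
  ring

theorem gk_det_swap (g a b c d m : V4) (ha : dot g a = 0) (hb : dot g b = 0) (hc : dot g c = 0) :
    det4 a b c d * dot g m = det4 a b c m * dot g d := by
  have key : det4 a b c d * dot g m - det4 a b c m * dot g d + det4 a b d m * dot g c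
      - det4 a c d m * dot g b + det4 b c d m * dot g a = 0 := by
    simp only [gk_det4_eq, dot, Fin.sum_univ_four]
    ring
  rw [ha, hb, hc] at key
  linear_combination key

theorem gk_dot_add (g a b : V4) : dot g (a + b) = dot g a + dot g b := by
  simp only [dot, Pi.add_apply, mul_add, Finset.sum_add_distrib]

theorem gk_dot_smul (g a : V4) (c : ℂ) : dot g (c • a) = c * dot g a := by
  simp only [dot, Pi.smul_apply, smul_eq_mul, Finset.mul_sum]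
  exact Finset.sum_congr rfl fun i _ => by ring

theorem gk_dot_neg (g a : V4) : dot g (-a) = - dot g a := by
  simp only [dot, Pi.neg_apply, mul_neg, Finset.sum_neg_distrib]

theorem gk_dot_sub (g a b : V4) : dot g (a - b) = dot g a - dot g b := by
  rw [sub_eq_add_neg, gk_dot_add, gk_dot_neg, sub_eq_add_neg]

/-- product rule for `dot` -/
theorem gk_hasDerivAt_dot {a b : ℂ → V4} {a' b' : V4} {s : ℂ} (ha : HasDerivAt a a' s) (hb : HasDerivAt b b' s) :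
    HasDerivAt (fun s => dot (a s) (b s)) (dot a' (b s) + dot (a s) b') s := by
  have h : HasDerivAt (fun s => ∑ i, a s i * b s i) (∑ i, (a' i * b s i + a s i * b' i)) s :=
    HasDerivAt.fun_sum fun i _ => ((hasDerivAt_pi.1 ha) i).mul ((hasDerivAt_pi.1 hb) i)
  simp only [dot]
  rw [← Finset.sum_add_distrib]
  exact h

/-- `grad F (s p + l v) · p = ∂/∂s` of the expansion -/
theorem gk_grad_p {F : MvPolynomial (Fin 4) ℂ} {S : Set ℂ} (D : FrameData F S) {w : ℂ} (hw : w ∈ S)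
    (T U s l : ℂ) :
    dot (grad F (s • D.p w + l • D.dir w T U)) (D.p w)
      = l ^ 2 * D.κ w T U * (2 * D.A w T U * s + D.B w T U * l) := by
  have h1 := ga_hasDerivAt_s F (D.p w) (l • D.dir w T U) s
  have h2 : HasDerivAt (fun s : ℂ => eval (s • D.p w + l • D.dir w T U) F)
      (l ^ 2 * D.κ w T U * (2 * D.A w T U * s + D.B w T U * l)) s := by
    have e : (fun s : ℂ => eval (s • D.p w + l • D.dir w T U) F)
        = fun s : ℂ => l ^ 2 * D.κ w T U * (D.A w T U * s ^ 2 + D.B w T U * s * l + D.C w T U * l ^ 2) := by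
      funext s
      exact D.expand w hw T U s l
    rw [e]
    have e2 : HasDerivAt (fun s : ℂ => s ^ 2) (2 * s) s := by simpa using hasDerivAt_pow 2 s
    have h3 := ((((e2.const_mul (D.A w T U)).add (((hasDerivAt_id s).const_mul (D.B w T U)).mul_const l)).add_const
      (D.C w T U * l ^ 2)).const_mul (l ^ 2 * D.κ w T U))
    exact h3.congr_deriv (by ring)
  exact h1.unique h2

theorem gk_dot_p_p {F : MvPolynomial (Fin 4) ℂ} {S : Set ℂ} (D : FrameData F S) {w : ℂ} (hw : w ∈ S) :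
    dot (grad F (D.p w)) (D.p w) = 0 := by
  have h := gk_grad_p D hw 0 0 1 0
  simpa using h

theorem gk_dot_dir {F : MvPolynomial (Fin 4) ℂ} {S : Set ℂ} (D : FrameData F S) {w : ℂ} (hw : w ∈ S) (T U : ℂ) :
    dot (grad F (D.p w)) (D.dir w T U) = 0 := by
  unfold FrameData.dir
  rw [gk_dot_add, gk_dot_smul, gk_dot_smul, D.tang₁ w hw, D.tang₂ w hw]
  ring

theorem gk_X₁_cone {F : MvPolynomial (Fin 4) ℂ} {S : Set ℂ} (D : FrameData F S) {w : ℂ} (hw : w ∈ S) {T U μ : ℂ}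
    (hμ : μ ^ 2 = D.disc w T U) : eval (D.X₁ w T U μ) F = 0 := by
  unfold FrameData.X₁ FrameData.dir
  rw [D.expand w hw]
  unfold FrameData.disc at hμ
  linear_combination ((2 * D.A w T U) ^ 2 * D.κ w T U * D.A w T U) * hμ

theorem gk_X₂_cone {F : MvPolynomial (Fin 4) ℂ} {S : Set ℂ} (D : FrameData F S) {w : ℂ} (hw : w ∈ S) {T U μ : ℂ}
    (hμ : μ ^ 2 = D.disc w T U) : eval (D.X₂ w T U μ) F = 0 := by
  unfold FrameData.X₂ FrameData.dir
  rw [sub_eq_add_neg, ← neg_smul, D.expand w hw]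
  unfold FrameData.disc at hμ
  linear_combination ((-(D.B w T U + μ)) ^ 2 * D.κ w T U * D.C w T U) * hμ

theorem gk_det_frame_ne {F : MvPolynomial (Fin 4) ℂ} {S : Set ℂ} (D : FrameData F S) {w : ℂ} (hw : w ∈ S) {m : V4}
    (hm : dot (grad F (D.p w)) m ≠ 0) : det4 (D.v₁ w) (D.v₂ w) (D.p w) m ≠ 0 := by
  intro h0
  unfold det4 at h0
  obtain ⟨c, hc, hc0⟩ := Matrix.exists_vecMul_eq_zero_iff.2 h0
  have h1 : c 0 • D.v₁ w + c 1 • D.v₂ w + c 2 • D.p w + c 3 • m = 0 := by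
    funext j
    have := congrFun hc0 j
    simp only [Matrix.vecMul, dotProduct, Fin.sum_univ_four, Matrix.of_apply] at this
    simpa [Matrix.cons_val_zero, Matrix.cons_val_one] using this
  have h2 : c 3 = 0 := by
    have := congrArg (dot (grad F (D.p w))) h1
    rw [gk_dot_add, gk_dot_add, gk_dot_add, gk_dot_smul, gk_dot_smul, gk_dot_smul, gk_dot_smul, D.tang₁ w hw,
      D.tang₂ w hw, gk_dot_p_p D hw] at this
    have h3 : dot (grad F (D.p w)) (0 : V4) = 0 := by simp [dot]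
    rw [h3] at this
    have h4 : c 3 * dot (grad F (D.p w)) m = 0 := by linear_combination this
    exact (mul_eq_zero.1 h4).resolve_right hm
  have h3 := Fintype.linearIndependent_iff.1 (D.indep w hw) ![c 2, c 0, c 1] (by
    rw [Fin.sum_univ_three]
    simp only [Matrix.cons_val_zero, Matrix.cons_val_one, Matrix.cons_val_two, Matrix.head_cons, Matrix.tail_cons]
    rw [h2, zero_smul, add_zero] at h1
    rw [← h1]; abel)
  apply hc
  funext j
  fin_cases j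
  · simpa using h3 1
  · simpa using h3 2
  · simpa using h3 0
  · simpa using h2

theorem gk_det_red (p v₁ v₂ X : V4) (α β a b U T u t : ℂ) :
    det4 (α • p + β • (U • v₁ + T • v₂)) (a • p + b • (U • v₁ + T • v₂) + β • (u • v₁ + t • v₂)) X p
      = β ^ 2 * (U * t - T * u) * det4 v₁ v₂ X p := by
  simp only [gk_det4_eq, Pi.add_apply, Pi.smul_apply, smul_eq_mul]
  ring

theorem gk_det_swap34 (a b c d : V4) : det4 a b c d = - det4 a b d c := by
  simp only [gk_det4_eq]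
  ring

/-- the derivative of `N = α p + β (U v₁ + T v₂)` -/
theorem gk_N_fderiv {p v₁ v₂ : ℂ → V4} {α β T U : ℂ × ℂ → ℂ} {x : ℂ × ℂ} (hp : DifferentiableAt ℂ p x.1)
    (hv₁ : DifferentiableAt ℂ v₁ x.1) (hv₂ : DifferentiableAt ℂ v₂ x.1) (hα : DifferentiableAt ℂ α x)
    (hβ : DifferentiableAt ℂ β x) (hT : DifferentiableAt ℂ T x) (hU : DifferentiableAt ℂ U x) :
    DifferentiableAt ℂ (fun y : ℂ × ℂ => α y • p y.1 + β y • (U y • v₁ y.1 + T y • v₂ y.1)) x ∧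
    fderiv ℂ (fun y : ℂ × ℂ => α y • p y.1 + β y • (U y • v₁ y.1 + T y • v₂ y.1)) x (0, 1)
      = fderiv ℂ α x (0, 1) • p x.1 + fderiv ℂ β x (0, 1) • (U x • v₁ x.1 + T x • v₂ x.1)
        + β x • (fderiv ℂ U x (0, 1) • v₁ x.1 + fderiv ℂ T x (0, 1) • v₂ x.1) ∧
    fderiv ℂ (fun y : ℂ × ℂ => α y • p y.1 + β y • (U y • v₁ y.1 + T y • v₂ y.1)) x (1, 0)
      = α x • deriv p x.1 + fderiv ℂ α x (1, 0) • p x.1 + fderiv ℂ β x (1, 0) • (U x • v₁ x.1 + T x • v₂ x.1)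
        + β x • (U x • deriv v₁ x.1 + fderiv ℂ U x (1, 0) • v₁ x.1 + T x • deriv v₂ x.1
          + fderiv ℂ T x (1, 0) • v₂ x.1) := by
  have hP : HasFDerivAt (fun y : ℂ × ℂ => p y.1) _ x := hp.hasDerivAt.hasFDerivAt.comp x hasFDerivAt_fst
  have hV₁ : HasFDerivAt (fun y : ℂ × ℂ => v₁ y.1) _ x := hv₁.hasDerivAt.hasFDerivAt.comp x hasFDerivAt_fst
  have hV₂ : HasFDerivAt (fun y : ℂ × ℂ => v₂ y.1) _ x := hv₂.hasDerivAt.hasFDerivAt.comp x hasFDerivAt_fst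
  have h : HasFDerivAt (fun y : ℂ × ℂ => α y • p y.1 + β y • (U y • v₁ y.1 + T y • v₂ y.1)) _ x :=
    (hα.hasFDerivAt.smul hP).add (hβ.hasFDerivAt.smul ((hU.hasFDerivAt.smul hV₁).add (hT.hasFDerivAt.smul hV₂)))
  refine ⟨h.differentiableAt, ?_, ?_⟩
  · rw [h.fderiv]
    simp
    module
  · rw [h.fderiv]
    simp
    module


theorem gk_dot_fderiv_zero {F : MvPolynomial (Fin 4) ℂ} {Ω : Set (ℂ × ℂ)} (hΩ : IsOpen Ω) {N : ℂ × ℂ → V4} {x : ℂ × ℂ}
    (hx : x ∈ Ω) (hNd : DifferentiableAt ℂ N x) (hN0 : ∀ y ∈ Ω, eval (N y) F = 0) (e : ℂ × ℂ) :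
    dot (grad F (N x)) (fderiv ℂ N x e) = 0 := by
  have h1 := (spr_hasFDerivAt_eval F (N x)).comp x hNd.hasFDerivAt
  have h2 : HasFDerivAt ((fun y : V4 => eval y F) ∘ N) (0 : ℂ × ℂ →L[ℂ] ℂ) x := by
    refine (hasFDerivAt_const (0 : ℂ) x).congr_of_eventuallyEq ?_
    filter_upwards [hΩ.mem_nhds hx] with y hy
    exact hN0 y hy
  have h3 := h1.unique h2
  have h4 := congrArg (fun L : ℂ × ℂ →L[ℂ] ℂ => L e) h3
  simpa [dot] using h4

theorem gk_dot_deriv_p {F : MvPolynomial (Fin 4) ℂ} {S : Set ℂ} (hS : IsOpen S) (D : FrameData F S) {w : ℂ} (hw : w ∈ S) :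
    dot (grad F (D.p w)) (deriv D.p w) = 0 := by
  have hp : HasDerivAt D.p (deriv D.p w) w := ((D.hp w hw).differentiableAt (hS.mem_nhds hw)).hasDerivAt
  have h1 := (spr_hasFDerivAt_eval F (D.p w)).comp_hasDerivAt w hp
  have h2 : HasDerivAt ((fun y : V4 => eval y F) ∘ D.p) 0 w := by
    refine (hasDerivAt_const w (0 : ℂ)).congr_of_eventuallyEq ?_
    filter_upwards [hS.mem_nhds hw] with y hy
    exact (D.cone y hy).2
  have h3 := h1.unique h2
  simpa [dot] using h3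

theorem gk_hasDerivAt_g {F : MvPolynomial (Fin 4) ℂ} {S : Set ℂ} (hS : IsOpen S) (D : FrameData F S) {w : ℂ} (hw : w ∈ S) :
    HasDerivAt (fun w => grad F (D.p w)) (deriv (fun w => grad F (D.p w)) w) w := by
  have hp : DifferentiableAt ℂ D.p w := (D.hp w hw).differentiableAt (hS.mem_nhds hw)
  exact (((spr_differentiable_grad F) (D.p w)).comp w hp).hasDerivAt

theorem gk_dot_deriv_v {F : MvPolynomial (Fin 4) ℂ} {S : Set ℂ} (hS : IsOpen S) (D : FrameData F S) {w : ℂ} (hw : w ∈ S)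
    {v : ℂ → V4} (hv : DifferentiableOn ℂ v S) (ht : ∀ w ∈ S, dot (grad F (D.p w)) (v w) = 0) :
    dot (grad F (D.p w)) (deriv v w) = - dot (deriv (fun w => grad F (D.p w)) w) (v w) := by
  have hv' : HasDerivAt v (deriv v w) w := ((hv w hw).differentiableAt (hS.mem_nhds hw)).hasDerivAt
  have h1 := gk_hasDerivAt_dot (gk_hasDerivAt_g hS D hw) hv'
  have h2 : HasDerivAt (fun w => dot (grad F (D.p w)) (v w)) 0 w := by
    refine (hasDerivAt_const w (0 : ℂ)).congr_of_eventuallyEq ?_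
    filter_upwards [hS.mem_nhds hw] with y hy
    exact ht y hy
  have h3 := h1.unique h2
  linear_combination h3

/-- **The key identity**, general form: `N = α p + β (U v₁ + T v₂)` any holomorphic map of `x = (w, t)` into `{F = 0}`. -/
theorem gk_ki {F : MvPolynomial (Fin 4) ℂ} (hF : F.IsHomogeneous 4) {S : Set ℂ} (hS : IsOpen S) (D : FrameData F S)
    {Ω : Set (ℂ × ℂ)} (hΩ : IsOpen Ω) (hΩS : ∀ x ∈ Ω, x.1 ∈ S) {T U α β : ℂ × ℂ → ℂ}
    (hT : DifferentiableOn ℂ T Ω) (hU : DifferentiableOn ℂ U Ω) (hα : DifferentiableOn ℂ α Ω)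
    (hβ : DifferentiableOn ℂ β Ω) {N : ℂ × ℂ → V4}
    (hN : ∀ x, N x = α x • D.p x.1 + β x • D.dir x.1 (T x) (U x)) (hN0 : ∀ x ∈ Ω, eval (N x) F = 0) :
    ∀ x ∈ Ω, ∀ m n : V4,
      dot (grad F (N x)) (D.p x.1) * det4 (N x) (fderiv ℂ N x (0, 1)) (fderiv ℂ N x (1, 0)) n
          * dot (grad F (D.p x.1)) m
        = β x ^ 3 * (U x * fderiv ℂ T x (0, 1) - T x * fderiv ℂ U x (0, 1)) * D.gaussL x.1 (T x) (U x)
          * det4 (D.v₁ x.1) (D.v₂ x.1) (D.p x.1) m * dot (grad F (N x)) n := by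
  intro x hx m n
  have hw : x.1 ∈ S := hΩS x hx
  have hNe : N = fun y : ℂ × ℂ => α y • D.p y.1 + β y • (U y • D.v₁ y.1 + T y • D.v₂ y.1) := by
    funext y
    exact hN y
  obtain ⟨hd, ht, hw'⟩ := gk_N_fderiv (x := x) ((D.hp _ hw).differentiableAt (hS.mem_nhds hw))
    ((D.hv₁ _ hw).differentiableAt (hS.mem_nhds hw)) ((D.hv₂ _ hw).differentiableAt (hS.mem_nhds hw))
    ((hα x hx).differentiableAt (hΩ.mem_nhds hx)) ((hβ x hx).differentiableAt (hΩ.mem_nhds hx))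
    ((hT x hx).differentiableAt (hΩ.mem_nhds hx)) ((hU x hx).differentiableAt (hΩ.mem_nhds hx))
  rw [← hNe] at hd ht hw'
  have k0 : dot (grad F (N x)) (N x) = 0 := by rw [ga_euler hF, hN0 x hx, mul_zero]
  have k1 := gk_dot_fderiv_zero hΩ hx hd hN0 (0, 1)
  have k2 := gk_dot_fderiv_zero hΩ hx hd hN0 (1, 0)
  have s1 := gk_det_swap (grad F (N x)) (N x) (fderiv ℂ N x (0, 1)) (fderiv ℂ N x (1, 0)) n (D.p x.1) k0 k1 k2
  have s2 : det4 (N x) (fderiv ℂ N x (0, 1)) (fderiv ℂ N x (1, 0)) (D.p x.1)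
      = β x ^ 2 * (U x * fderiv ℂ T x (0, 1) - T x * fderiv ℂ U x (0, 1))
        * det4 (D.v₁ x.1) (D.v₂ x.1) (fderiv ℂ N x (1, 0)) (D.p x.1) := by
    rw [ht, hN x]
    exact gk_det_red _ _ _ _ _ _ _ _ _ _ _ _
  have s3 := gk_det_swap (grad F (D.p x.1)) (D.v₁ x.1) (D.v₂ x.1) (D.p x.1) (fderiv ℂ N x (1, 0)) m (D.tang₁ _ hw)
    (D.tang₂ _ hw) (gk_dot_p_p D hw)
  have s4 : dot (grad F (D.p x.1)) (fderiv ℂ N x (1, 0)) = - β x * D.gaussL x.1 (T x) (U x) := by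
    rw [hw']
    simp only [gk_dot_add, gk_dot_smul, D.tang₁ _ hw, D.tang₂ _ hw, gk_dot_p_p D hw, gk_dot_deriv_p hS D hw,
      gk_dot_deriv_v hS D hw D.hv₁ D.tang₁, gk_dot_deriv_v hS D hw D.hv₂ D.tang₂, FrameData.gaussL, FrameData.dir]
    ring
  have s5 := gk_det_swap34 (D.v₁ x.1) (D.v₂ x.1) (fderiv ℂ N x (1, 0)) (D.p x.1)
  rw [s5] at s2
  rw [s4] at s3
  rw [s2] at s1
  linear_combination (dot (grad F (D.p x.1)) m) * s1 - (β x ^ 2 * (U x * fderiv ℂ T x (0, 1) - T x * fderiv ℂ U x (0, 1)) * dot (grad F (N x)) n) * s3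

theorem gk_differentiableOn_comp {S : Set ℂ} {A : ℂ → ℂ → ℂ → ℂ}
    (hA : DifferentiableOn ℂ (fun x : ℂ × ℂ × ℂ => A x.1 x.2.1 x.2.2) (S ×ˢ univ)) {Ω : Set (ℂ × ℂ)}
    (hΩS : ∀ x ∈ Ω, x.1 ∈ S) {T U : ℂ × ℂ → ℂ} (hT : DifferentiableOn ℂ T Ω) (hU : DifferentiableOn ℂ U Ω) :
    DifferentiableOn ℂ (fun x : ℂ × ℂ => A x.1 (T x) (U x)) Ω := by
  have h : DifferentiableOn ℂ (fun x : ℂ × ℂ => (x.1, T x, U x)) Ω :=
    differentiable_fst.differentiableOn.prodMk (hT.prodMk hU)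
  exact hA.comp h fun x hx => ⟨hΩS x hx, mem_univ _⟩

/-- (KI) for `N = X₁`, `β = 2 A` -/
theorem gk_ki_X₁ {F : MvPolynomial (Fin 4) ℂ} (hF : F.IsHomogeneous 4) {S : Set ℂ} (hS : IsOpen S) (D : FrameData F S)
    {Ω : Set (ℂ × ℂ)} (hΩ : IsOpen Ω) (hΩS : ∀ x ∈ Ω, x.1 ∈ S) {T U μ : ℂ × ℂ → ℂ}
    (hT : DifferentiableOn ℂ T Ω) (hU : DifferentiableOn ℂ U Ω) (hμ : DifferentiableOn ℂ μ Ω)
    (hμ2 : ∀ x ∈ Ω, μ x ^ 2 = D.disc x.1 (T x) (U x)) {N : ℂ × ℂ → V4}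
    (hN : ∀ x, N x = D.X₁ x.1 (T x) (U x) (μ x)) :
    ∀ x ∈ Ω, ∀ m n : V4,
      (2 * D.A x.1 (T x) (U x)) ^ 3 * (D.κ x.1 (T x) (U x) * μ x
          * det4 (N x) (fderiv ℂ N x (0, 1)) (fderiv ℂ N x (1, 0)) n * dot (grad F (D.p x.1)) m
        - (U x * fderiv ℂ T x (0, 1) - T x * fderiv ℂ U x (0, 1)) * D.gaussL x.1 (T x) (U x)
          * det4 (D.v₁ x.1) (D.v₂ x.1) (D.p x.1) m * dot (grad F (N x)) n) = 0 := by
  intro x hx m n
  have h := gk_ki hF hS D hΩ hΩS hT hU (α := fun x => μ x - D.B x.1 (T x) (U x))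
    (β := fun x => 2 * D.A x.1 (T x) (U x)) (hμ.sub (gk_differentiableOn_comp D.hB hΩS hT hU))
    ((gk_differentiableOn_comp D.hA hΩS hT hU).const_mul 2) (N := N) hN
    (fun y hy => by rw [hN y]; exact gk_X₁_cone D (hΩS y hy) (hμ2 y hy)) x hx m n
  have h2 : dot (grad F (N x)) (D.p x.1) = (2 * D.A x.1 (T x) (U x)) ^ 3 * (D.κ x.1 (T x) (U x) * μ x) := by
    rw [hN x]
    unfold FrameData.X₁
    rw [gk_grad_p D (hΩS x hx)]
    ring
  rw [h2] at h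
  linear_combination h

/-- (KI) for `N = X₂`, `β = - (B + μ)` -/
theorem gk_ki_X₂ {F : MvPolynomial (Fin 4) ℂ} (hF : F.IsHomogeneous 4) {S : Set ℂ} (hS : IsOpen S) (D : FrameData F S)
    {Ω : Set (ℂ × ℂ)} (hΩ : IsOpen Ω) (hΩS : ∀ x ∈ Ω, x.1 ∈ S) {T U μ : ℂ × ℂ → ℂ}
    (hT : DifferentiableOn ℂ T Ω) (hU : DifferentiableOn ℂ U Ω) (hμ : DifferentiableOn ℂ μ Ω)
    (hμ2 : ∀ x ∈ Ω, μ x ^ 2 = D.disc x.1 (T x) (U x)) {N : ℂ × ℂ → V4}
    (hN : ∀ x, N x = D.X₂ x.1 (T x) (U x) (μ x)) :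
    ∀ x ∈ Ω, ∀ m n : V4,
      (-(D.B x.1 (T x) (U x) + μ x)) ^ 3 * (D.κ x.1 (T x) (U x) * μ x
          * det4 (N x) (fderiv ℂ N x (0, 1)) (fderiv ℂ N x (1, 0)) n * dot (grad F (D.p x.1)) m
        - (U x * fderiv ℂ T x (0, 1) - T x * fderiv ℂ U x (0, 1)) * D.gaussL x.1 (T x) (U x)
          * det4 (D.v₁ x.1) (D.v₂ x.1) (D.p x.1) m * dot (grad F (N x)) n) = 0 := by
  intro x hx m n
  have hN' : ∀ x, N x = (2 * D.C x.1 (T x) (U x)) • D.p x.1 + (-(D.B x.1 (T x) (U x) + μ x)) • D.dir x.1 (T x) (U x) := by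
    intro y
    rw [hN y]
    unfold FrameData.X₂
    rw [sub_eq_add_neg, neg_smul]
  have h := gk_ki hF hS D hΩ hΩS hT hU (α := fun x => 2 * D.C x.1 (T x) (U x))
    (β := fun x => -(D.B x.1 (T x) (U x) + μ x)) ((gk_differentiableOn_comp D.hC hΩS hT hU).const_mul 2)
    ((gk_differentiableOn_comp D.hB hΩS hT hU).add hμ).neg (N := N) hN'
    (fun y hy => by rw [hN y]; exact gk_X₂_cone D (hΩS y hy) (hμ2 y hy)) x hx m n
  have h2 : dot (grad F (N x)) (D.p x.1) = (-(D.B x.1 (T x) (U x) + μ x)) ^ 3 * (D.κ x.1 (T x) (U x) * μ x) := by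
    rw [hN' x, gk_grad_p D (hΩS x hx)]
    have := hμ2 x hx
    unfold FrameData.disc at this
    linear_combination ((D.B x.1 (T x) (U x) + μ x) ^ 2 * D.κ x.1 (T x) (U x)) * this
  rw [h2] at h
  linear_combination h

end Claimed.Agent.R245
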