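/-
Row 245 / S0484, GEO (architect helper18; block 3: helper129).   GEO-KI part B: the divisibility lemmas `gk_div`, `gk_div_zero` (statements of helper18, FROZEN).
TWO LEAVES: GK-DIV (`gk_sqrt` + `gk_div`), GK-DIV0 (`gk_div_zero`).   Two owners: touch only your theorems; helper lemmas: prefix `gkd_` (GK-DIV), `gkz_` (GK-DIV0), in this file.
BLACK BOXES (GeoKIa.lean): `gk_ki_X₁`, `gk_ki_X₂` (the key identity for `N = X₁`, `X₂`, already multiplied out: `β³ (κ μ det(N,N_t,N_w,n) (g·m) - (U T_t - T U_t) gaussL det(v₁,v₂,p,m) (g_N·n)) = 0`),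
`gk_X₁_cone`, `gk_X₂_cone`, `gk_det_frame_ne`;  `gz_cancel` (GeoZero.lean);  smoothness: `grad F y ≠ 0` for `y ≠ 0` (`hF.2`).

ROUTE for `gk_div` (= (5) of the header of GeoKI.lean).  Fix `w₁ ∈ S`.  Choose a bidisc `Ω = ball w₁ ε ×ˢ ball 0 ε` (open, preconnected: product of convex sets), `ball w₁ ε ⊆ S`, on which the square root
`r` of `x ↦ k x.1 (ρ x.1 + x.2 ^ 2)` exists (`gk_sqrt` at `(w₁, 0)`).   `T x = ρ x.1 + x.2 ^ 2`, `U x = 1`, `μ x = x.2 ^ m * r x` (or `- x.2 ^ m * r x`): `μ² = disc` by `hfac`;  `U T_t - T U_t = 2 x.2`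
(`fderiv ℂ T x (0,1) = 2 x.2`, `fderiv ℂ U x (0,1) = 0`).
CASE `A w₁ (ρ w₁) 1 ≠ 0`: `N = X₁`; shrink `ε` so that `A ≠ 0` on `Ω` along `(x.1, T x, 1)`; `N (w₁, 0) = - B p + 2 A dir ≠ 0` (`indep`).
CASE `A = 0` at `(w₁, ρ w₁, 1)`: `disc = 0` there (`m ≥ 1`), so `B = 0`, so `C ≠ 0` (`nz`); `N = X₂`, `N (w₁, 0) = 2 C p ≠ 0`; `β = - (B + μ)` is not identically `0` on `Ω` for at least one of the two signs of `μ`
(otherwise `μ ≡ 0` on `Ω`, but `μ x = ± x.2 ^ m r x ≠ 0` for `x.2 ≠ 0`).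
In both cases, for fixed `m', n`, `gz_cancel` three times (factors `β³`, `κ x.1 (T x) 1` [not identically `0`: `hκ` at `w₁`, infinitely many values `ρ w₁ + t²`], `x.2`), after inserting `hG`:
      `x.2 ^ (m - 1) * r x * det4 (N x) N_t N_w n * (g · m') = 2 * (G₀ + (ρ + x.2 ^ 2) G₁) * det4 v₁ v₂ p m' * (g_N · n)`     on `Ω`.      (*)
(all functions are `DifferentiableOn ℂ · Ω`: `N` by `D.hA ..`, `fderiv ℂ N · e` because `N` is analytic (`scv_analyticOnNhd`, `AnalyticOnNhd.fderiv`), `det4` is a polynomial in the entries, `grad F` by `spr_differentiable_grad`, `G₀ ∘ fst` ...)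
Choose `m'` with `g (w₁) · m' ≠ 0` (`grad F (p w₁) ≠ 0`; take `m' = Pi.single i 1`), `n` with `grad F (N (w₁, 0)) · n ≠ 0`.   `gk_det_frame_ne`.
`2 ≤ m`: (*) at `(w₁, 0)`: left side `0`.   `4 ≤ m`: first part on all of `ball w₁ ε` gives `G₀ + ρ G₁ = 0` there, so (*) reads `x.2 ^ (m-1) (..) = 2 x.2 ^ 2 G₁ (..)`; cancel `x.2 ^ 2` (`gz_cancel`), evaluate at `(w₁, 0)`: `G₁ w₁ = 0`.
ROUTE for `gk_div_zero`: (6) of the header of GeoKI.lean: `w₁ ∈ S`, `τ₁` with `A w₁ τ₁ 1 ≠ 0`; `Ω` = small bidisc around `(w₁, τ₁)` with `A ≠ 0`; `T x = x.2`, `U = 1`, `μ = 0`, `N = X₁ ≠ 0`; `gk_ki_X₁` gives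
`gaussL * det4 v₁ v₂ p m' * (g_N · n) = 0` on `Ω`; with `hG`, `hκ`: `G₀ w₁ + τ G₁ w₁ = 0` for infinitely many `τ` (near `τ₁`, where `g_N · n ≠ 0` by continuity and `κ ≠ 0`): two different values of `τ` give `G₁ = 0 = G₀`.
-/
import Claimed.Agent.R245.GeoKIa

set_option autoImplicit false

namespace Claimed.Agent.R245

open MvPolynomial Metric Set Filter Topology Claims.C0412

/-- local holomorphic square root -/
theorem gk_sqrt {h : ℂ × ℂ → ℂ} {x₀ : ℂ × ℂ} {Ω₀ : Set (ℂ × ℂ)} (hΩ₀ : Ω₀ ∈ 𝓝 x₀) (hh : DifferentiableOn ℂ h Ω₀)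
    (h0 : h x₀ ≠ 0) :
    ∃ (ε : ℝ) (r : ℂ × ℂ → ℂ), 0 < ε ∧ ball x₀ ε ⊆ Ω₀ ∧ DifferentiableOn ℂ r (ball x₀ ε) ∧
      ∀ x ∈ ball x₀ ε, r x ^ 2 = h x := by
  have hcont : ContinuousAt h x₀ := (hh.differentiableAt hΩ₀).continuousAt
  have h1 : ∀ᶠ x in 𝓝 x₀, h x / h x₀ ∈ Complex.slitPlane := by
    have h2 : ContinuousAt (fun x => h x / h x₀) x₀ := hcont.div_const (h x₀)
    apply h2.eventually_mem
    rw [div_self h0]
    exact Complex.isOpen_slitPlane.mem_nhds Complex.one_mem_slitPlane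
  obtain ⟨ε, hε, hball⟩ := Metric.mem_nhds_iff.1 (Filter.inter_mem hΩ₀ h1)
  refine ⟨ε, fun x => Complex.exp (Complex.log (h x / h x₀) / 2 + Complex.log (h x₀) / 2), hε,
    fun x hx => (hball hx).1, ?_, ?_⟩
  · have hd : DifferentiableOn ℂ (fun x => h x / h x₀) (ball x₀ ε) :=
      by
        simp only [div_eq_mul_inv]
        exact (hh.mono fun x hx => (hball hx).1).mul_const _
    have h3 : DifferentiableOn ℂ (fun x => Complex.log (h x / h x₀)) (ball x₀ ε) :=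
      hd.clog fun x hx => (hball hx).2
    simp only [div_eq_mul_inv] at h3 ⊢
    exact ((h3.mul_const _).add_const _).cexp
  · intro x hx
    have hne : h x / h x₀ ≠ 0 := Complex.slitPlane_ne_zero (hball hx).2
    have e : Complex.exp (Complex.log (h x / h x₀) / 2 + Complex.log (h x₀) / 2) ^ 2
        = Complex.exp (Complex.log (h x / h x₀) + Complex.log (h x₀)) := by
      rw [← Complex.exp_nat_mul]
      congr 1
      push_cast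
      ring
    change Complex.exp (Complex.log (h x / h x₀) / 2 + Complex.log (h x₀) / 2) ^ 2 = h x
    rw [e, Complex.exp_add, Complex.exp_log hne, Complex.exp_log h0]
    field_simp

theorem gkd_det4_diff {E : Type*} [NormedAddCommGroup E] [NormedSpace ℂ E] {S : Set E} {a b c d : E → V4}
    (ha : DifferentiableOn ℂ a S) (hb : DifferentiableOn ℂ b S) (hc : DifferentiableOn ℂ c S)
    (hd : DifferentiableOn ℂ d S) : DifferentiableOn ℂ (fun x => det4 (a x) (b x) (c x) (d x)) S := by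
  unfold det4
  simp only [Matrix.det_apply]
  apply DifferentiableOn.fun_sum
  intro σ _
  apply DifferentiableOn.const_smul
  have key : ∀ j i : Fin 4, DifferentiableOn ℂ (fun y => Matrix.of ![a y, b y, c y, d y] j i) S := by
    intro j i
    rw [differentiableOn_pi] at ha hb hc hd
    fin_cases j
    · exact ha i
    · exact hb i
    · exact hc i
    · exact hd i
  simp only [Fin.prod_univ_four]
  exact (((key _ _).mul (key _ _)).mul (key _ _)).mul (key _ _)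

theorem gkd_dot_diff {E : Type*} [NormedAddCommGroup E] [NormedSpace ℂ E] {S : Set E} {a b : E → V4}
    (ha : DifferentiableOn ℂ a S) (hb : DifferentiableOn ℂ b S) :
    DifferentiableOn ℂ (fun x => dot (a x) (b x)) S := by
  unfold dot
  rw [differentiableOn_pi] at ha hb
  exact DifferentiableOn.fun_sum fun i _ => (ha i).mul (hb i)

theorem gkd_fderiv_diff {Ω : Set (ℂ × ℂ)} (hΩ : IsOpen Ω) {N : ℂ × ℂ → V4} (hN : DifferentiableOn ℂ N Ω)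
    (e : ℂ × ℂ) : DifferentiableOn ℂ (fun x => fderiv ℂ N x e) Ω := by
  have ha : AnalyticOnNhd ℂ N Ω := scv_analyticOnNhd hΩ hN
  have h1 : AnalyticOnNhd ℂ (fderiv ℂ N) Ω := ha.fderiv
  exact fun x hx =>
    ((h1 x hx).differentiableAt.clm_apply (differentiableAt_const e)).differentiableWithinAt

/-- a nonzero vector pairs nontrivially with a unit vector -/
theorem gkd_exists_dot {g : V4} (hg : g ≠ 0) : ∃ n : V4, dot g n ≠ 0 := by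
  obtain ⟨i, hi⟩ := Function.ne_iff.1 hg
  refine ⟨Pi.single i 1, ?_⟩
  simpa [dot, Pi.single_apply] using hi

/-- infinitely many values `a + t²` -/
theorem gkd_exists_ne {Z : Set ℂ} (hZ : Z.Finite) (a : ℂ) {ε : ℝ} (hε : 0 < ε) :
    ∃ t : ℂ, ‖t‖ < ε ∧ t ≠ 0 ∧ a + t ^ 2 ∉ Z := by
  have hinf : (Set.Ioo (0 : ℝ) ε).Infinite := Set.Ioo_infinite hε
  have hinj : Set.InjOn (fun t : ℝ => a + (t : ℂ) ^ 2) (Set.Ioo 0 ε) := by
    intro t ht t' ht' h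
    have h1 : ((t ^ 2 : ℝ) : ℂ) = ((t' ^ 2 : ℝ) : ℂ) := by
      push_cast
      exact add_left_cancel h
    have h2 : t ^ 2 = t' ^ 2 := Complex.ofReal_injective h1
    exact (pow_left_inj₀ ht.1.le ht'.1.le two_ne_zero).1 h2
  obtain ⟨z, hz, hzZ⟩ := (hinf.image hinj).exists_notMem_finite hZ
  obtain ⟨t, ht, rfl⟩ := hz
  refine ⟨t, ?_, ?_, hzZ⟩
  · rw [Complex.norm_real, Real.norm_eq_abs, abs_of_pos ht.1]
    exact ht.2
  · exact_mod_cast ht.1.ne'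

theorem gkd_mem_ball (w₁ : ℂ) {t : ℂ} {ε : ℝ} (ht : ‖t‖ < ε) :
    ((w₁, t) : ℂ × ℂ) ∈ ball ((w₁, 0) : ℂ × ℂ) ε := by
  rw [mem_ball, Prod.dist_eq]
  simp [ht]

theorem gkd_core {F : MvPolynomial (Fin 4) ℂ} (hF : IsSmoothQuarticForm F) {S : Set ℂ}
    (D : FrameData F S) {G₀ G₁ : ℂ → ℂ} (hG₀ : DifferentiableOn ℂ G₀ S) (hG₁ : DifferentiableOn ℂ G₁ S)
    (hG : ∀ w ∈ S, ∀ τ : ℂ, D.gaussL w τ 1 = D.κ w τ 1 * (G₀ w + τ * G₁ w))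
    (hκ : ∀ w ∈ S, {τ : ℂ | D.κ w τ 1 = 0}.Finite) {ρ : ℂ → ℂ} (hρ : DifferentiableOn ℂ ρ S)
    {w₁ : ℂ} (hw₁ : w₁ ∈ S) {ε : ℝ} (hε : 0 < ε) (hΩS : ∀ x ∈ ball ((w₁, 0) : ℂ × ℂ) ε, x.1 ∈ S)
    {r β : ℂ × ℂ → ℂ} {N : ℂ × ℂ → V4} (hr : DifferentiableOn ℂ r (ball ((w₁, 0) : ℂ × ℂ) ε))
    (hβ : DifferentiableOn ℂ β (ball ((w₁, 0) : ℂ × ℂ) ε))
    (hN : DifferentiableOn ℂ N (ball ((w₁, 0) : ℂ × ℂ) ε))
    (hβne : ∃ x ∈ ball ((w₁, 0) : ℂ × ℂ) ε, β x ≠ 0) (hN0 : N (w₁, 0) ≠ 0) (m₀ : ℕ)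
    (hKI : ∀ x ∈ ball ((w₁, 0) : ℂ × ℂ) ε, ∀ m n : V4,
      β x ^ 3 * (D.κ x.1 (ρ x.1 + x.2 ^ 2) 1 * (x.2 ^ (m₀ + 1) * r x)
          * det4 (N x) (fderiv ℂ N x (0, 1)) (fderiv ℂ N x (1, 0)) n * dot (grad F (D.p x.1)) m
        - (2 * x.2) * D.gaussL x.1 (ρ x.1 + x.2 ^ 2) 1
          * det4 (D.v₁ x.1) (D.v₂ x.1) (D.p x.1) m * dot (grad F (N x)) n) = 0) :
    ∃ P Q : ℂ × ℂ → ℂ, DifferentiableOn ℂ P (ball ((w₁, 0) : ℂ × ℂ) ε) ∧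
      DifferentiableOn ℂ Q (ball ((w₁, 0) : ℂ × ℂ) ε) ∧ Q (w₁, 0) ≠ 0 ∧
      ∀ x ∈ ball ((w₁, 0) : ℂ × ℂ) ε,
        x.2 ^ m₀ * P x = (G₀ x.1 + (ρ x.1 + x.2 ^ 2) * G₁ x.1) * Q x := by
  set Ω : Set (ℂ × ℂ) := ball ((w₁, 0) : ℂ × ℂ) ε with hΩdef
  have hΩo : IsOpen Ω := isOpen_ball
  have hΩc : IsPreconnected Ω := (convex_ball _ _).isPreconnected
  have hgne : ∀ y : V4, y ≠ 0 → grad F y ≠ 0 := fun y hy h => hy (hF.2 y fun i => congrFun h i)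
  obtain ⟨m', hm'⟩ := gkd_exists_dot (hgne _ (D.cone w₁ hw₁).1)
  obtain ⟨n, hn⟩ := gkd_exists_dot (hgne _ hN0)
  have hdet := gk_det_frame_ne D hw₁ hm'
  have hfst : DifferentiableOn ℂ (fun x : ℂ × ℂ => x.1) Ω := differentiable_fst.differentiableOn
  have hsnd : DifferentiableOn ℂ (fun x : ℂ × ℂ => x.2) Ω := differentiable_snd.differentiableOn
  have hmaps : MapsTo (fun x : ℂ × ℂ => x.1) Ω S := hΩS
  have hT : DifferentiableOn ℂ (fun x : ℂ × ℂ => ρ x.1 + x.2 ^ 2) Ω :=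
    (hρ.comp hfst hmaps).add (hsnd.pow 2)
  have hκ' : DifferentiableOn ℂ (fun x : ℂ × ℂ => D.κ x.1 (ρ x.1 + x.2 ^ 2) 1) Ω :=
    D.hκ.comp (hfst.prodMk (hT.prodMk (differentiableOn_const 1))) (fun x hx => ⟨hΩS x hx, mem_univ _⟩)
  have hp' : DifferentiableOn ℂ (fun x : ℂ × ℂ => D.p x.1) Ω := D.hp.comp hfst hmaps
  have hv₁' : DifferentiableOn ℂ (fun x : ℂ × ℂ => D.v₁ x.1) Ω := D.hv₁.comp hfst hmaps
  have hv₂' : DifferentiableOn ℂ (fun x : ℂ × ℂ => D.v₂ x.1) Ω := D.hv₂.comp hfst hmaps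
  have hG₀' : DifferentiableOn ℂ (fun x : ℂ × ℂ => G₀ x.1) Ω := hG₀.comp hfst hmaps
  have hG₁' : DifferentiableOn ℂ (fun x : ℂ × ℂ => G₁ x.1) Ω := hG₁.comp hfst hmaps
  have hgp : DifferentiableOn ℂ (fun x : ℂ × ℂ => grad F (D.p x.1)) Ω :=
    (spr_differentiable_grad F).comp_differentiableOn hp'
  have hgN : DifferentiableOn ℂ (fun x : ℂ × ℂ => grad F (N x)) Ω :=
    (spr_differentiable_grad F).comp_differentiableOn hN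
  have hP : DifferentiableOn ℂ (fun x : ℂ × ℂ => r x
      * det4 (N x) (fderiv ℂ N x (0, 1)) (fderiv ℂ N x (1, 0)) n * dot (grad F (D.p x.1)) m') Ω :=
    (hr.mul (gkd_det4_diff hN (gkd_fderiv_diff hΩo hN _) (gkd_fderiv_diff hΩo hN _)
      (differentiableOn_const n))).mul (gkd_dot_diff hgp (differentiableOn_const m'))
  have hQ : DifferentiableOn ℂ (fun x : ℂ × ℂ => 2 * det4 (D.v₁ x.1) (D.v₂ x.1) (D.p x.1) m'
      * dot (grad F (N x)) n) Ω :=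
    ((gkd_det4_diff hv₁' hv₂' hp' (differentiableOn_const m')).const_mul 2).mul
      (gkd_dot_diff hgN (differentiableOn_const n))
  refine ⟨_, _, hP, hQ, mul_ne_zero (mul_ne_zero two_ne_zero hdet) hn, ?_⟩
  have hK : DifferentiableOn ℂ (fun x : ℂ × ℂ => x.2 ^ m₀ * (r x
      * det4 (N x) (fderiv ℂ N x (0, 1)) (fderiv ℂ N x (1, 0)) n * dot (grad F (D.p x.1)) m')
      - (G₀ x.1 + (ρ x.1 + x.2 ^ 2) * G₁ x.1) * (2 * det4 (D.v₁ x.1) (D.v₂ x.1) (D.p x.1) m'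
      * dot (grad F (N x)) n)) Ω :=
    ((hsnd.pow m₀).mul hP).sub ((hG₀'.add (hT.mul hG₁')).mul hQ)
  obtain ⟨t, ht, ht0, htZ⟩ := gkd_exists_ne (hκ w₁ hw₁) (ρ w₁) hε
  have hxt : ((w₁, t) : ℂ × ℂ) ∈ Ω := gkd_mem_ball w₁ ht
  have s1 := gz_cancel hΩo hΩc (hβ.pow 3) (hκ'.mul (hsnd.mul hK)) (by
    intro x hx
    have := hKI x hx m' n
    rw [hG x.1 (hΩS x hx)] at this
    simp only [Pi.pow_apply, Pi.mul_apply]
    linear_combination this) (by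
    obtain ⟨x, hx, hne⟩ := hβne
    exact ⟨x, hx, pow_ne_zero 3 hne⟩)
  have s2 := gz_cancel hΩo hΩc hκ' (hsnd.mul hK) s1 ⟨(w₁, t), hxt, htZ⟩
  have s3 := gz_cancel hΩo hΩc hsnd hK s2 ⟨(w₁, t), hxt, ht0⟩
  intro x hx
  exact sub_eq_zero.1 (s3 x hx)

theorem gkd_fderiv_T {ρ : ℂ → ℂ} {x : ℂ × ℂ} (hρ : DifferentiableAt ℂ ρ x.1) :
    fderiv ℂ (fun x : ℂ × ℂ => ρ x.1 + x.2 ^ 2) x (0, 1) = 2 * x.2 := by
  have hd : DifferentiableAt ℂ (fun x : ℂ × ℂ => ρ x.1 + x.2 ^ 2) (x.1, x.2) :=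
    (DifferentiableAt.comp (x.1, x.2) (g := ρ) (f := fun x : ℂ × ℂ => x.1) hρ differentiableAt_fst).add
      (differentiableAt_snd.pow 2)
  have h1 := gz_deriv_eq hd
  have h2 : HasDerivAt (fun b : ℂ => ρ x.1 + b ^ 2) (2 * x.2) x.2 := by
    have := (hasDerivAt_pow 2 x.2).const_add (ρ x.1)
    simpa using this
  exact h1.unique h2

theorem gkd_local {F : MvPolynomial (Fin 4) ℂ} (hF : IsSmoothQuarticForm F) {S : Set ℂ} (hS : IsOpen S)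
    (D : FrameData F S) {G₀ G₁ : ℂ → ℂ} (hG₀ : DifferentiableOn ℂ G₀ S) (hG₁ : DifferentiableOn ℂ G₁ S)
    (hG : ∀ w ∈ S, ∀ τ : ℂ, D.gaussL w τ 1 = D.κ w τ 1 * (G₀ w + τ * G₁ w))
    (hκ : ∀ w ∈ S, {τ : ℂ | D.κ w τ 1 = 0}.Finite) {ρ : ℂ → ℂ} (hρ : DifferentiableOn ℂ ρ S) {k : ℂ → ℂ → ℂ}
    (hk : DifferentiableOn ℂ (fun x : ℂ × ℂ => k x.1 x.2) (S ×ˢ univ)) {m₀ : ℕ}
    (hfac : ∀ w ∈ S, ∀ τ : ℂ, D.disc w τ 1 = (τ - ρ w) ^ (m₀ + 1) * k w τ) (hk0 : ∀ w ∈ S, k w (ρ w) ≠ 0)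
    {w₁ : ℂ} (hw₁ : w₁ ∈ S) :
    ∃ ε : ℝ, 0 < ε ∧ (∀ x ∈ ball ((w₁, 0) : ℂ × ℂ) ε, x.1 ∈ S) ∧
    ∃ P Q : ℂ × ℂ → ℂ, DifferentiableOn ℂ P (ball ((w₁, 0) : ℂ × ℂ) ε) ∧
      DifferentiableOn ℂ Q (ball ((w₁, 0) : ℂ × ℂ) ε) ∧ Q (w₁, 0) ≠ 0 ∧
      ∀ x ∈ ball ((w₁, 0) : ℂ × ℂ) ε,
        x.2 ^ m₀ * P x = (G₀ x.1 + (ρ x.1 + x.2 ^ 2) * G₁ x.1) * Q x := by
  -- the square root
  have hΩ₀o : IsOpen {x : ℂ × ℂ | x.1 ∈ S} := hS.preimage continuous_fst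
  have hfst₀ : DifferentiableOn ℂ (fun x : ℂ × ℂ => x.1) {x : ℂ × ℂ | x.1 ∈ S} :=
    differentiable_fst.differentiableOn
  have hsnd₀ : DifferentiableOn ℂ (fun x : ℂ × ℂ => x.2) {x : ℂ × ℂ | x.1 ∈ S} :=
    differentiable_snd.differentiableOn
  have hmaps₀ : MapsTo (fun x : ℂ × ℂ => x.1) {x : ℂ × ℂ | x.1 ∈ S} S := fun x hx => hx
  have hT₀ : DifferentiableOn ℂ (fun x : ℂ × ℂ => ρ x.1 + x.2 ^ 2) {x : ℂ × ℂ | x.1 ∈ S} :=
    (hρ.comp hfst₀ hmaps₀).add (hsnd₀.pow 2)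
  have hh : DifferentiableOn ℂ (fun x : ℂ × ℂ => k x.1 (ρ x.1 + x.2 ^ 2)) {x : ℂ × ℂ | x.1 ∈ S} :=
    hk.comp (hfst₀.prodMk hT₀) (fun x hx => ⟨hx, mem_univ _⟩)
  have h0 : (fun x : ℂ × ℂ => k x.1 (ρ x.1 + x.2 ^ 2)) (w₁, 0) ≠ 0 := by
    simpa using hk0 w₁ hw₁
  have hx₀ : ((w₁, 0) : ℂ × ℂ) ∈ {x : ℂ × ℂ | x.1 ∈ S} := hw₁
  have hnhds : {x : ℂ × ℂ | x.1 ∈ S} ∩ {x : ℂ × ℂ | k x.1 (ρ x.1 + x.2 ^ 2) ≠ 0} ∈ 𝓝 ((w₁, 0) : ℂ × ℂ) :=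
    Filter.inter_mem (hΩ₀o.mem_nhds hx₀)
      ((hh.differentiableAt (hΩ₀o.mem_nhds hx₀)).continuousAt.eventually_ne h0)
  obtain ⟨ε, r, hε, hsub, hr, hr2⟩ := gk_sqrt hnhds (hh.mono inter_subset_left) h0
  have hΩS : ∀ x ∈ ball ((w₁, 0) : ℂ × ℂ) ε, x.1 ∈ S := fun x hx => (hsub hx).1
  refine ⟨ε, hε, hΩS, ?_⟩
  set Ω : Set (ℂ × ℂ) := ball ((w₁, 0) : ℂ × ℂ) ε with hΩdef
  have hΩo : IsOpen Ω := isOpen_ball
  have hfst : DifferentiableOn ℂ (fun x : ℂ × ℂ => x.1) Ω := differentiable_fst.differentiableOn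
  have hsnd : DifferentiableOn ℂ (fun x : ℂ × ℂ => x.2) Ω := differentiable_snd.differentiableOn
  have hmaps : MapsTo (fun x : ℂ × ℂ => x.1) Ω S := hΩS
  have hT : DifferentiableOn ℂ (fun x : ℂ × ℂ => ρ x.1 + x.2 ^ 2) Ω := hT₀.mono hΩS
  have hU : DifferentiableOn ℂ (fun _ : ℂ × ℂ => (1 : ℂ)) Ω := differentiableOn_const 1
  have htrip : DifferentiableOn ℂ (fun x : ℂ × ℂ => ((x.1, ρ x.1 + x.2 ^ 2, 1) : ℂ × ℂ × ℂ)) Ω :=
    hfst.prodMk (hT.prodMk hU)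
  have htm : MapsTo (fun x : ℂ × ℂ => ((x.1, ρ x.1 + x.2 ^ 2, 1) : ℂ × ℂ × ℂ)) Ω (S ×ˢ univ) :=
    fun x hx => ⟨hΩS x hx, mem_univ _⟩
  have hA' : DifferentiableOn ℂ (fun x : ℂ × ℂ => D.A x.1 (ρ x.1 + x.2 ^ 2) 1) Ω := D.hA.comp htrip htm
  have hB' : DifferentiableOn ℂ (fun x : ℂ × ℂ => D.B x.1 (ρ x.1 + x.2 ^ 2) 1) Ω := D.hB.comp htrip htm
  have hC' : DifferentiableOn ℂ (fun x : ℂ × ℂ => D.C x.1 (ρ x.1 + x.2 ^ 2) 1) Ω := D.hC.comp htrip htm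
  have hp' : DifferentiableOn ℂ (fun x : ℂ × ℂ => D.p x.1) Ω := D.hp.comp hfst hmaps
  have hv₁' : DifferentiableOn ℂ (fun x : ℂ × ℂ => D.v₁ x.1) Ω := D.hv₁.comp hfst hmaps
  have hv₂' : DifferentiableOn ℂ (fun x : ℂ × ℂ => D.v₂ x.1) Ω := D.hv₂.comp hfst hmaps
  have hdir : DifferentiableOn ℂ (fun x : ℂ × ℂ => D.dir x.1 (ρ x.1 + x.2 ^ 2) 1) Ω := by
    unfold FrameData.dir
    exact (hv₁'.const_smul (1 : ℂ)).add (hT.smul hv₂')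
  have hTd : ∀ x ∈ Ω, fderiv ℂ (fun x : ℂ × ℂ => ρ x.1 + x.2 ^ 2) x (0, 1) = 2 * x.2 := fun x hx =>
    gkd_fderiv_T (hρ.differentiableAt (hS.mem_nhds (hΩS x hx)))
  have hUd : ∀ x : ℂ × ℂ, fderiv ℂ (fun _ : ℂ × ℂ => (1 : ℂ)) x (0, 1) = 0 := fun x => by simp
  -- every square root gives a `μ`
  have hμ2 : ∀ r' : ℂ × ℂ → ℂ, (∀ x ∈ Ω, r' x ^ 2 = k x.1 (ρ x.1 + x.2 ^ 2)) → ∀ x ∈ Ω,
      (x.2 ^ (m₀ + 1) * r' x) ^ 2 = D.disc x.1 (ρ x.1 + x.2 ^ 2) 1 := by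
    intro r' hr' x hx
    rw [hfac x.1 (hΩS x hx), mul_pow, hr' x hx]
    congr 1
    rw [add_sub_cancel_left, ← pow_mul, ← pow_mul, mul_comm]
  by_cases hA1 : D.A w₁ (ρ w₁) 1 = 0
  · -- second formula
    have hdisc0 : D.disc w₁ (ρ w₁) 1 = 0 := by
      rw [hfac w₁ hw₁, sub_self, zero_pow (Nat.succ_ne_zero m₀), zero_mul]
    have hB1 : D.B w₁ (ρ w₁) 1 = 0 := by
      unfold FrameData.disc at hdisc0
      rw [hA1] at hdisc0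
      simpa using hdisc0
    have hC1 : D.C w₁ (ρ w₁) 1 ≠ 0 := by
      rcases D.nz w₁ hw₁ (ρ w₁) 1 (Or.inr one_ne_zero) with h | h | h
      · exact absurd hA1 h
      · exact absurd hB1 h
      · exact h
    -- the sign
    obtain ⟨r', hr', hr'2, hne⟩ : ∃ r' : ℂ × ℂ → ℂ, DifferentiableOn ℂ r' Ω ∧
        (∀ x ∈ Ω, r' x ^ 2 = k x.1 (ρ x.1 + x.2 ^ 2)) ∧
        ∃ x ∈ Ω, -(D.B x.1 (ρ x.1 + x.2 ^ 2) 1 + x.2 ^ (m₀ + 1) * r' x) ≠ 0 := by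
      have ht : ‖((ε / 2 : ℝ) : ℂ)‖ < ε := by
        rw [Complex.norm_real, Real.norm_eq_abs, abs_of_pos (by positivity)]
        linarith
      have hx : ((w₁, ((ε / 2 : ℝ) : ℂ)) : ℂ × ℂ) ∈ Ω := gkd_mem_ball w₁ ht
      have hrne : r (w₁, ((ε / 2 : ℝ) : ℂ)) ≠ 0 := by
        intro h
        have h1 := hr2 _ hx
        rw [h] at h1
        exact (hsub hx).2 (by simpa using h1.symm)
      have hμne : (((ε / 2 : ℝ) : ℂ)) ^ (m₀ + 1) * r (w₁, ((ε / 2 : ℝ) : ℂ)) ≠ 0 :=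
        mul_ne_zero (pow_ne_zero _ (by exact_mod_cast (by positivity : ε / 2 ≠ 0))) hrne
      by_cases hs : D.B w₁ (ρ w₁ + (((ε / 2 : ℝ) : ℂ)) ^ 2) 1
          + (((ε / 2 : ℝ) : ℂ)) ^ (m₀ + 1) * r (w₁, ((ε / 2 : ℝ) : ℂ)) = 0
      · refine ⟨fun x => - r x, hr.neg, fun x hx => by rw [neg_pow_two]; exact hr2 x hx, _, hx, ?_⟩
        intro h
        apply hμne
        simp only at h
        linear_combination (1 / 2 : ℂ) * hs + (1 / 2 : ℂ) * h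
      · exact ⟨r, hr, hr2, _, hx, neg_ne_zero.2 hs⟩
    have hμ : DifferentiableOn ℂ (fun x : ℂ × ℂ => x.2 ^ (m₀ + 1) * r' x) Ω := (hsnd.pow _).mul hr'
    have hN : DifferentiableOn ℂ (fun x : ℂ × ℂ =>
        D.X₂ x.1 (ρ x.1 + x.2 ^ 2) 1 (x.2 ^ (m₀ + 1) * r' x)) Ω := by
      unfold FrameData.X₂
      exact ((hC'.const_mul 2).smul hp').sub ((hB'.add hμ).smul hdir)
    refine gkd_core hF D hG₀ hG₁ hG hκ hρ hw₁ hε hΩS hr' (hB'.add hμ).neg hN hne ?_ m₀ ?_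
    · simp only [FrameData.X₂]
      simp only [ne_eq, OfNat.ofNat_ne_zero, not_false_eq_true, zero_pow, add_zero, hB1,
        Nat.succ_ne_zero, zero_mul, zero_smul, sub_zero]
      exact smul_ne_zero (mul_ne_zero two_ne_zero hC1) (D.cone w₁ hw₁).1
    · intro x hx m n
      have := gk_ki_X₂ hF.1 hS D hΩo hΩS hT hU hμ (hμ2 r' hr'2) (fun x => rfl) x hx m n
      rw [hTd x hx, hUd x] at this
      simp only [Pi.neg_apply, Pi.add_apply]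
      linear_combination this
  · -- first formula
    have hμ : DifferentiableOn ℂ (fun x : ℂ × ℂ => x.2 ^ (m₀ + 1) * r x) Ω := (hsnd.pow _).mul hr
    have hN : DifferentiableOn ℂ (fun x : ℂ × ℂ =>
        D.X₁ x.1 (ρ x.1 + x.2 ^ 2) 1 (x.2 ^ (m₀ + 1) * r x)) Ω := by
      unfold FrameData.X₁
      exact ((hμ.sub hB').smul hp').add ((hA'.const_mul 2).smul hdir)
    refine gkd_core hF D hG₀ hG₁ hG hκ hρ hw₁ hε hΩS hr (hA'.const_mul 2) hN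
      ⟨(w₁, 0), mem_ball_self hε, ?_⟩ ?_ m₀ ?_
    · simpa using hA1
    · intro h
      simp only [FrameData.X₁, FrameData.dir] at h
      simp only [ne_eq, OfNat.ofNat_ne_zero, not_false_eq_true, zero_pow, add_zero,
        Nat.succ_ne_zero, zero_mul, zero_sub, one_smul] at h
      have h1 := Fintype.linearIndependent_iff.1 (D.indep w₁ hw₁)
        ![- D.B w₁ (ρ w₁) 1, 2 * D.A w₁ (ρ w₁) 1, 2 * D.A w₁ (ρ w₁) 1 * ρ w₁] (by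
          simp only [Fin.sum_univ_three]
          simp only [Matrix.cons_val_zero, Matrix.cons_val_one, Matrix.cons_val_two, Matrix.head_cons,
            Matrix.tail_cons]
          rw [← h, smul_add, smul_smul, add_assoc]) 1
      simp only [Matrix.cons_val_one] at h1
      exact hA1 (by simpa using h1)
    · intro x hx m n
      have := gk_ki_X₁ hF.1 hS D hΩo hΩS hT hU hμ (hμ2 r hr2) (fun x => rfl) x hx m n
      rw [hTd x hx, hUd x] at this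
      linear_combination this

/-- **(DIV)**  A persistent root `ρ (w)` of multiplicity `m` of the discriminant (affine chart `U = 1`, `T = τ`), `ġ · v = κ (G₀ + τ G₁)`.
`m ≥ 2`: `G₀ + ρ G₁ = 0`.    `m ≥ 4`: `G₀ = G₁ = 0`. -/
theorem gk_div {F : MvPolynomial (Fin 4) ℂ} (hF : IsSmoothQuarticForm F) {S : Set ℂ} (hS : IsOpen S)
    (D : FrameData F S) {G₀ G₁ : ℂ → ℂ} (hG₀ : DifferentiableOn ℂ G₀ S) (hG₁ : DifferentiableOn ℂ G₁ S)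
    (hG : ∀ w ∈ S, ∀ τ : ℂ, D.gaussL w τ 1 = D.κ w τ 1 * (G₀ w + τ * G₁ w))
    (hκ : ∀ w ∈ S, {τ : ℂ | D.κ w τ 1 = 0}.Finite) {ρ : ℂ → ℂ} (hρ : DifferentiableOn ℂ ρ S) {k : ℂ → ℂ → ℂ}
    (hk : DifferentiableOn ℂ (fun x : ℂ × ℂ => k x.1 x.2) (S ×ˢ univ)) {m : ℕ}
    (hfac : ∀ w ∈ S, ∀ τ : ℂ, D.disc w τ 1 = (τ - ρ w) ^ m * k w τ) (hk0 : ∀ w ∈ S, k w (ρ w) ≠ 0) :
    (2 ≤ m → ∀ w ∈ S, G₀ w + ρ w * G₁ w = 0) ∧ (4 ≤ m → ∀ w ∈ S, G₀ w = 0 ∧ G₁ w = 0) := by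
  have first : 2 ≤ m → ∀ w ∈ S, G₀ w + ρ w * G₁ w = 0 := by
    intro hm w₁ hw₁
    obtain ⟨m₀, rfl⟩ : ∃ m₀, m = m₀ + 1 := ⟨m - 1, by omega⟩
    obtain ⟨ε, hε, hΩS, P, Q, hP, hQ, hQ0, hPQ⟩ :=
      gkd_local hF hS D hG₀ hG₁ hG hκ hρ hk hfac hk0 hw₁
    have := hPQ (w₁, 0) (mem_ball_self hε)
    simp only at this
    rw [zero_pow (by omega), zero_mul, zero_pow two_ne_zero, add_zero] at this
    exact (mul_eq_zero.1 this.symm).resolve_right hQ0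
  refine ⟨first, ?_⟩
  intro hm w₁ hw₁
  have h1 := first (by omega)
  obtain ⟨m₁, rfl⟩ : ∃ m₁, m = (m₁ + 3) + 1 := ⟨m - 4, by omega⟩
  obtain ⟨ε, hε, hΩS, P, Q, hP, hQ, hQ0, hPQ⟩ :=
    gkd_local hF hS D hG₀ hG₁ hG hκ hρ hk hfac hk0 hw₁
  have hfst : DifferentiableOn ℂ (fun x : ℂ × ℂ => x.1) (ball ((w₁, 0) : ℂ × ℂ) ε) :=
    differentiable_fst.differentiableOn
  have hsnd : DifferentiableOn ℂ (fun x : ℂ × ℂ => x.2) (ball ((w₁, 0) : ℂ × ℂ) ε) :=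
    differentiable_snd.differentiableOn
  have hmaps : MapsTo (fun x : ℂ × ℂ => x.1) (ball ((w₁, 0) : ℂ × ℂ) ε) S := hΩS
  have hG₁' : DifferentiableOn ℂ (fun x : ℂ × ℂ => G₁ x.1) (ball ((w₁, 0) : ℂ × ℂ) ε) :=
    hG₁.comp hfst hmaps
  have ht : ‖((ε / 2 : ℝ) : ℂ)‖ < ε := by
    rw [Complex.norm_real, Real.norm_eq_abs, abs_of_pos (by positivity)]
    linarith
  have hε2 : ((ε / 2 : ℝ) : ℂ) ≠ 0 := by exact_mod_cast (by positivity : ε / 2 ≠ 0)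
  have s := gz_cancel isOpen_ball (convex_ball _ _).isPreconnected (hsnd.pow 2)
    (((hsnd.pow (m₁ + 1)).mul hP).sub (hG₁'.mul hQ)) (by
      intro x hx
      have e1 := hPQ x hx
      have e2 := h1 x.1 (hΩS x hx)
      simp only [Pi.pow_apply, Pi.sub_apply, Pi.mul_apply]
      linear_combination e1 + Q x * e2)
    ⟨(w₁, ((ε / 2 : ℝ) : ℂ)), gkd_mem_ball w₁ ht, pow_ne_zero 2 hε2⟩
  have h2 := s (w₁, 0) (mem_ball_self hε)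
  simp only [Pi.pow_apply, Pi.sub_apply, Pi.mul_apply] at h2
  rw [zero_pow (Nat.succ_ne_zero m₁), zero_mul, zero_sub, neg_eq_zero] at h2
  have h3 : G₁ w₁ = 0 := (mul_eq_zero.1 h2).resolve_right hQ0
  have h4 := h1 w₁ hw₁
  rw [h3, mul_zero, add_zero] at h4
  exact ⟨h4, h3⟩

theorem gkz_X₁_ne {F : MvPolynomial (Fin 4) ℂ} {S : Set ℂ} (D : FrameData F S) {w : ℂ} (hw : w ∈ S)
    (T μ : ℂ) (hA : D.A w T 1 ≠ 0) : D.X₁ w T 1 μ ≠ 0 := by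
  intro h
  simp only [FrameData.X₁, FrameData.dir, one_smul] at h
  have h1 := Fintype.linearIndependent_iff.1 (D.indep w hw)
    ![μ - D.B w T 1, 2 * D.A w T 1, 2 * D.A w T 1 * T] (by
      simp only [Fin.sum_univ_three]
      simp only [Matrix.cons_val_zero, Matrix.cons_val_one, Matrix.cons_val_two, Matrix.head_cons,
        Matrix.tail_cons]
      rw [← h, smul_add, smul_smul, add_assoc]) 1
  simp only [Matrix.cons_val_one] at h1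
  exact hA (by simpa using h1)

/-- (DIV) for an identically vanishing discriminant. -/
theorem gk_div_zero {F : MvPolynomial (Fin 4) ℂ} (hF : IsSmoothQuarticForm F) {S : Set ℂ} (hS : IsOpen S)
    (D : FrameData F S) {G₀ G₁ : ℂ → ℂ} (hG₀ : DifferentiableOn ℂ G₀ S) (hG₁ : DifferentiableOn ℂ G₁ S)
    (hG : ∀ w ∈ S, ∀ τ : ℂ, D.gaussL w τ 1 = D.κ w τ 1 * (G₀ w + τ * G₁ w))
    (hκ : ∀ w ∈ S, {τ : ℂ | D.κ w τ 1 = 0}.Finite) (hA : ∀ w ∈ S, ∃ τ : ℂ, D.A w τ 1 ≠ 0)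
    (hzero : ∀ w ∈ S, ∀ τ : ℂ, D.disc w τ 1 = 0) :
    ∀ w ∈ S, G₀ w = 0 ∧ G₁ w = 0 := by
  intro w₁ hw₁
  obtain ⟨τ₁, hτ₁⟩ := hA w₁ hw₁
  have hΩ₀o : IsOpen {x : ℂ × ℂ | x.1 ∈ S} := hS.preimage continuous_fst
  have hx₀ : ((w₁, τ₁) : ℂ × ℂ) ∈ {x : ℂ × ℂ | x.1 ∈ S} := hw₁
  obtain ⟨ε, hε, hΩS⟩ := Metric.isOpen_iff.1 hΩ₀o _ hx₀
  set Ω : Set (ℂ × ℂ) := ball ((w₁, τ₁) : ℂ × ℂ) ε with hΩdef
  have hΩo : IsOpen Ω := isOpen_ball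
  have hΩc : IsPreconnected Ω := (convex_ball _ _).isPreconnected
  have hmem : ∀ t : ℂ, t ∈ ball τ₁ ε → ((w₁, t) : ℂ × ℂ) ∈ Ω := by
    intro t ht
    rw [hΩdef, mem_ball, Prod.dist_eq]
    simpa [hε] using ht
  have hfst : DifferentiableOn ℂ (fun x : ℂ × ℂ => x.1) Ω := differentiable_fst.differentiableOn
  have hsnd : DifferentiableOn ℂ (fun x : ℂ × ℂ => x.2) Ω := differentiable_snd.differentiableOn
  have hmaps : MapsTo (fun x : ℂ × ℂ => x.1) Ω S := hΩS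
  have hU : DifferentiableOn ℂ (fun _ : ℂ × ℂ => (1 : ℂ)) Ω := differentiableOn_const 1
  have hμ : DifferentiableOn ℂ (fun _ : ℂ × ℂ => (0 : ℂ)) Ω := differentiableOn_const 0
  have htrip : DifferentiableOn ℂ (fun x : ℂ × ℂ => ((x.1, x.2, 1) : ℂ × ℂ × ℂ)) Ω :=
    hfst.prodMk (hsnd.prodMk hU)
  have htm : MapsTo (fun x : ℂ × ℂ => ((x.1, x.2, 1) : ℂ × ℂ × ℂ)) Ω (S ×ˢ univ) :=
    fun x hx => ⟨hΩS hx, mem_univ _⟩
  have hA' : DifferentiableOn ℂ (fun x : ℂ × ℂ => D.A x.1 x.2 1) Ω := D.hA.comp htrip htm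
  have hB' : DifferentiableOn ℂ (fun x : ℂ × ℂ => D.B x.1 x.2 1) Ω := D.hB.comp htrip htm
  have hκ' : DifferentiableOn ℂ (fun x : ℂ × ℂ => D.κ x.1 x.2 1) Ω := D.hκ.comp htrip htm
  have hp' : DifferentiableOn ℂ (fun x : ℂ × ℂ => D.p x.1) Ω := D.hp.comp hfst hmaps
  have hv₁' : DifferentiableOn ℂ (fun x : ℂ × ℂ => D.v₁ x.1) Ω := D.hv₁.comp hfst hmaps
  have hv₂' : DifferentiableOn ℂ (fun x : ℂ × ℂ => D.v₂ x.1) Ω := D.hv₂.comp hfst hmaps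
  have hG₀' : DifferentiableOn ℂ (fun x : ℂ × ℂ => G₀ x.1) Ω := hG₀.comp hfst hmaps
  have hG₁' : DifferentiableOn ℂ (fun x : ℂ × ℂ => G₁ x.1) Ω := hG₁.comp hfst hmaps
  have hdir : DifferentiableOn ℂ (fun x : ℂ × ℂ => D.dir x.1 x.2 1) Ω := by
    unfold FrameData.dir
    exact (hv₁'.const_smul (1 : ℂ)).add (hsnd.smul hv₂')
  have hN : DifferentiableOn ℂ (fun x : ℂ × ℂ => D.X₁ x.1 x.2 1 0) Ω := by
    unfold FrameData.X₁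
    exact ((hμ.sub hB').smul hp').add ((hA'.const_mul 2).smul hdir)
  have hgne : ∀ y : V4, y ≠ 0 → grad F y ≠ 0 := fun y hy h => hy (hF.2 y fun i => congrFun h i)
  obtain ⟨m', hm'⟩ := gkd_exists_dot (hgne _ (D.cone w₁ hw₁).1)
  obtain ⟨n, hn⟩ := gkd_exists_dot (hgne _ (gkz_X₁_ne D hw₁ τ₁ 0 hτ₁))
  have hdet := gk_det_frame_ne D hw₁ hm'
  have hgN : DifferentiableOn ℂ (fun x : ℂ × ℂ => grad F (D.X₁ x.1 x.2 1 0)) Ω :=
    (spr_differentiable_grad F).comp_differentiableOn hN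
  have hQ : DifferentiableOn ℂ (fun x : ℂ × ℂ => det4 (D.v₁ x.1) (D.v₂ x.1) (D.p x.1) m'
      * dot (grad F (D.X₁ x.1 x.2 1 0)) n) Ω :=
    (gkd_det4_diff hv₁' hv₂' hp' (differentiableOn_const m')).mul
      (gkd_dot_diff hgN (differentiableOn_const n))
  have hK : DifferentiableOn ℂ (fun x : ℂ × ℂ => G₀ x.1 + x.2 * G₁ x.1) Ω := hG₀'.add (hsnd.mul hG₁')
  have hTd : ∀ x : ℂ × ℂ, fderiv ℂ (fun x : ℂ × ℂ => x.2) x (0, 1) = 1 := fun x => by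
    rw [fderiv_snd]
    rfl
  have hUd : ∀ x : ℂ × ℂ, fderiv ℂ (fun _ : ℂ × ℂ => (1 : ℂ)) x (0, 1) = 0 := fun x => by simp
  obtain ⟨t, ht, htZ⟩ := (infinite_of_mem_nhds τ₁ (ball_mem_nhds τ₁ hε)).exists_notMem_finite
    (hκ w₁ hw₁)
  have s1 := gz_cancel hΩo hΩc ((hA'.const_mul 2).pow 3) (hκ'.mul (hQ.mul hK)) (by
    intro x hx
    have := gk_ki_X₁ hF.1 hS D hΩo (fun x hx => hΩS hx) hsnd hU hμ
      (fun x hx => by rw [hzero x.1 (hΩS hx)]; simp) (fun x => rfl) x hx m' n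
    rw [hTd x, hUd x, hG x.1 (hΩS hx)] at this
    simp only [Pi.pow_apply, Pi.mul_apply]
    linear_combination -this) ⟨(w₁, τ₁), mem_ball_self hε, pow_ne_zero 3 (mul_ne_zero two_ne_zero hτ₁)⟩
  have s2 := gz_cancel hΩo hΩc hκ' (hQ.mul hK) s1 ⟨(w₁, t), hmem t ht, htZ⟩
  have s3 := gz_cancel hΩo hΩc hQ hK s2 ⟨(w₁, τ₁), mem_ball_self hε, mul_ne_zero hdet hn⟩
  have e1 := s3 (w₁, τ₁) (mem_ball_self hε)
  have e2 := s3 (w₁, τ₁ + ((ε / 2 : ℝ) : ℂ)) (hmem _ (by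
    rw [mem_ball, dist_eq_norm, add_sub_cancel_left, Complex.norm_real, Real.norm_eq_abs,
      abs_of_pos (by positivity)]
    linarith))
  simp only at e1 e2
  have hε2 : ((ε / 2 : ℝ) : ℂ) ≠ 0 := by exact_mod_cast (by positivity : ε / 2 ≠ 0)
  have h3 : G₁ w₁ = 0 := by
    have : ((ε / 2 : ℝ) : ℂ) * G₁ w₁ = 0 := by linear_combination e2 - e1
    exact (mul_eq_zero.1 this).resolve_left hε2
  rw [h3, mul_zero, add_zero] at e1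
  exact ⟨e1, h3⟩

end Claimed.Agent.R245
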