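/-
Row 245 / S0484, GEO, BLOCK 7 = GEO-L (the surface contains a line).   Architect of the block: helper187.   Prefix `gll` / `Gll`.      DEFINITIONS.

Geometry.  `y 0, y 1` span a line `ℓ ⊆ X`, `y` is a basis of `ℂ⁴`.  `p w = y 0 + w y 1` runs through `ℓ`.   `α = g (p) · y 2`, `β = g (p) · y 3` (`g = grad F`), `n w = β y 2 - α y 3`, so `(p, y 1, n)` is a frame of the tangent
plane `H_w = T_{p w} X ⊇ ℓ`, and
      `F (s p + a y 1 + c n) = c · G_w (s, a, c)`,   `G_w = s² (A₁ a + A₂ c) + s (B₁ a² + B₂ a c + B₃ c²) + (C₁ a³ + C₂ a² c + C₃ a c² + C₄ c³)`: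
`X ∩ H_w = ℓ ∪ (residual cubic G_w = 0)`, the cubic passes through `p w`, and the projection from `p w` is the double cover `μ² = Δ_w = B² - 4 A C` (a binary quartic in the direction `(a : c)`).
-/
import Mathlib
import Claimed.Agent.R245.GeoDefs

set_option autoImplicit false

namespace Claimed.Agent.R245

open MvPolynomial Metric Set

/-- the restriction of `F` to the span of three vectors, as a polynomial in three variables -/
noncomputable def gllTri (F : MvPolynomial (Fin 4) ℂ) (e₀ e₁ e₂ : V4) : MvPolynomial (Fin 3) ℂ :=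
  aeval (fun i : Fin 4 => C (e₀ i) * X 0 + C (e₁ i) * X 1 + C (e₂ i) * X 2) F

/-- the coefficient of `s ^ i * a ^ j * c ^ k` in `F (s e₀ + a e₁ + c e₂)` -/
noncomputable def gllK (F : MvPolynomial (Fin 4) ℂ) (i j k : ℕ) (e₀ e₁ e₂ : V4) : ℂ :=
  coeff (Finsupp.single 0 i + Finsupp.single 1 j + Finsupp.single 2 k) (gllTri F e₀ e₁ e₂)

/-- a basis of `ℂ⁴` whose first two vectors span a line of the surface -/
structure GllLine (F : MvPolynomial (Fin 4) ℂ) (y : Fin 4 → V4) : Prop where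
  indep : LinearIndependent ℂ y
  line : ∀ s t : ℂ, eval (s • y 0 + t • y 1) F = 0

/-- the point of the line -/
def gllP (y : Fin 4 → V4) (w : ℂ) : V4 := y 0 + w • y 1

noncomputable def gllAl (F : MvPolynomial (Fin 4) ℂ) (y : Fin 4 → V4) (w : ℂ) : ℂ := dot (grad F (gllP y w)) (y 2)

noncomputable def gllBe (F : MvPolynomial (Fin 4) ℂ) (y : Fin 4 → V4) (w : ℂ) : ℂ := dot (grad F (gllP y w)) (y 3)

/-- the third vector of the frame of the tangent plane -/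
noncomputable def gllN (F : MvPolynomial (Fin 4) ℂ) (y : Fin 4 → V4) (w : ℂ) : V4 :=
  gllBe F y w • y 2 - gllAl F y w • y 3

/-- nine coefficient functions = a family of plane cubics through the point `(1 : 0 : 0)` -/
structure GllCub where
  A₁ : ℂ → ℂ
  A₂ : ℂ → ℂ
  B₁ : ℂ → ℂ
  B₂ : ℂ → ℂ
  B₃ : ℂ → ℂ
  C₁ : ℂ → ℂ
  C₂ : ℂ → ℂ
  C₃ : ℂ → ℂ
  C₄ : ℂ → ℂ

namespace GllCub

variable (K : GllCub)

def hA (w a c : ℂ) : ℂ := K.A₁ w * a + K.A₂ w * c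

def hB (w a c : ℂ) : ℂ := K.B₁ w * a ^ 2 + K.B₂ w * a * c + K.B₃ w * c ^ 2

def hC (w a c : ℂ) : ℂ := K.C₁ w * a ^ 3 + K.C₂ w * a ^ 2 * c + K.C₃ w * a * c ^ 2 + K.C₄ w * c ^ 3

/-- the cubic -/
def G (w s a c : ℂ) : ℂ := s ^ 2 * K.hA w a c + s * K.hB w a c + K.hC w a c

/-- the discriminant quartic -/
def disc (w a c : ℂ) : ℂ := K.hB w a c ^ 2 - 4 * K.hA w a c * K.hC w a c

/-- the value of the discriminant quartic in the direction of the line = the leading coefficient of `τ ↦ disc w τ 1` -/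
def lead (w : ℂ) : ℂ := K.B₁ w ^ 2 - 4 * K.A₁ w * K.C₁ w

/-- the derivative of the family with respect to the parameter -/
noncomputable def dw : GllCub :=
  ⟨deriv K.A₁, deriv K.A₂, deriv K.B₁, deriv K.B₂, deriv K.B₃, deriv K.C₁, deriv K.C₂, deriv K.C₃, deriv K.C₄⟩

/-- all coefficient functions are entire -/
structure Hol : Prop where
  A₁ : Differentiable ℂ K.A₁
  A₂ : Differentiable ℂ K.A₂
  B₁ : Differentiable ℂ K.B₁
  B₂ : Differentiable ℂ K.B₂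
  B₃ : Differentiable ℂ K.B₃
  C₁ : Differentiable ℂ K.C₁
  C₂ : Differentiable ℂ K.C₂
  C₃ : Differentiable ℂ K.C₃
  C₄ : Differentiable ℂ K.C₄

/-- the function `(w, τ, s, l) ↦ A s² + B s l + C l²` (`A = hA w τ 1`, …) has no critical point with `l ≠ 0`, `A₁ w ≠ 0` -/
def NoCrit : Prop := ∀ w τ s l : ℂ, K.A₁ w ≠ 0 → l ≠ 0 →
  2 * K.hA w τ 1 * s + K.hB w τ 1 * l = 0 → K.hB w τ 1 * s + 2 * K.hC w τ 1 * l = 0 →
  K.A₁ w * s ^ 2 + (2 * K.B₁ w * τ + K.B₂ w) * s * l + (3 * K.C₁ w * τ ^ 2 + 2 * K.C₂ w * τ + K.C₃ w) * l ^ 2 = 0 →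
  K.dw.hA w τ 1 * s ^ 2 + K.dw.hB w τ 1 * s * l + K.dw.hC w τ 1 * l ^ 2 = 0 → False

/-- `lead` has only simple zeros where `A₁ ≠ 0` -/
def NoLead : Prop := ∀ w : ℂ, K.A₁ w ≠ 0 → K.lead w = 0 → deriv K.lead w = 0 → False

end GllCub

/-- the family of residual cubics of the tangent planes along the line -/
noncomputable def gllCub (F : MvPolynomial (Fin 4) ℂ) (y : Fin 4 → V4) : GllCub where
  A₁ w := gllK F 2 1 1 (gllP y w) (y 1) (gllN F y w)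
  A₂ w := gllK F 2 0 2 (gllP y w) (y 1) (gllN F y w)
  B₁ w := gllK F 1 2 1 (gllP y w) (y 1) (gllN F y w)
  B₂ w := gllK F 1 1 2 (gllP y w) (y 1) (gllN F y w)
  B₃ w := gllK F 1 0 3 (gllP y w) (y 1) (gllN F y w)
  C₁ w := gllK F 0 3 1 (gllP y w) (y 1) (gllN F y w)
  C₂ w := gllK F 0 2 2 (gllP y w) (y 1) (gllN F y w)
  C₃ w := gllK F 0 1 3 (gllP y w) (y 1) (gllN F y w)
  C₄ w := gllK F 0 0 4 (gllP y w) (y 1) (gllN F y w)

/-- four simple holomorphic roots of the discriminant quartic over a disc, and a square root of the leading coefficient of the Legendre form -/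
structure GllRoots (K : GllCub) (w₀ : ℂ) (b : ℝ) (ρ : Fin 4 → ℂ → ℂ) (q : ℂ → ℂ) : Prop where
  b_pos : 0 < b
  hρ : ∀ i, DifferentiableOn ℂ (ρ i) (ball w₀ b)
  hq : DifferentiableOn ℂ q (ball w₀ b)
  A₁_ne : ∀ w ∈ ball w₀ b, K.A₁ w ≠ 0
  lead_ne : ∀ w ∈ ball w₀ b, K.lead w ≠ 0
  inj : ∀ w ∈ ball w₀ b, ∀ i j, i ≠ j → ρ i w ≠ ρ j w
  fact : ∀ w ∈ ball w₀ b, ∀ τ : ℂ,
    K.disc w τ 1 = K.lead w * ((τ - ρ 0 w) * (τ - ρ 1 w) * (τ - ρ 2 w) * (τ - ρ 3 w))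
  q_sq : ∀ w ∈ ball w₀ b, q w ^ 2 = K.lead w * (ρ 2 w - ρ 1 w) ^ 2 * (ρ 0 w - ρ 2 w) ^ 3 * (ρ 0 w - ρ 1 w) ^ 2 *
    (ρ 1 w - ρ 3 w)

end Claimed.Agent.R245
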