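/-
Row 245 / S0484, GEO-L (architect helper187).   Package GLL-TRI: the restriction of a quartic form to the span of three vectors.
ONE FILE = ONE PACKAGE = ONE OWNER.  Statements FROZEN; helper lemmas: prefix `gllt_`, in this file.   Mathlib only (+ GeoLDefs).
-/
import Claimed.Agent.R245.GeoLDefs

set_option autoImplicit false

namespace Claimed.Agent.R245

open MvPolynomial Metric Set

theorem gllt_coeff_diff (F : MvPolynomial (Fin 4) ℂ) : ∀ m : Fin 3 →₀ ℕ,
    Differentiable ℂ fun e : V4 × V4 × V4 => coeff m (gllTri F e.1 e.2.1 e.2.2) := by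
  induction F using MvPolynomial.induction_on with
  | C a =>
    intro m
    simp only [gllTri, aeval_C, algebraMap_eq]
    exact differentiable_const _
  | add p q hp hq =>
    intro m
    simp only [gllTri, map_add, coeff_add]
    exact (hp m).add (hq m)
  | mul_X p i hp =>
    intro m
    have key : ∀ (j : Fin 3) (x : V4 × V4 × V4 → ℂ), Differentiable ℂ x →
        Differentiable ℂ fun e : V4 × V4 × V4 =>
          coeff m (gllTri p e.1 e.2.1 e.2.2 * (C (x e) * X j)) := by
      intro j x hx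
      have e1 : ∀ e : V4 × V4 × V4, coeff m (gllTri p e.1 e.2.1 e.2.2 * (C (x e) * X j))
          = x e * (if j ∈ m.support then coeff (m - Finsupp.single j 1) (gllTri p e.1 e.2.1 e.2.2)
              else 0) := by
        intro e
        rw [show gllTri p e.1 e.2.1 e.2.2 * (C (x e) * X j)
          = C (x e) * (gllTri p e.1 e.2.1 e.2.2 * X j) by ring, coeff_C_mul, coeff_mul_X']
      simp only [e1]
      by_cases hj : j ∈ m.support
      · simp only [if_pos hj]
        exact hx.mul (hp _)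
      · simp only [if_neg hj, mul_zero]
        exact differentiable_const _
    have e2 : ∀ e : V4 × V4 × V4, coeff m (gllTri (p * X i) e.1 e.2.1 e.2.2)
        = coeff m (gllTri p e.1 e.2.1 e.2.2 * (C (e.1 i) * X 0))
          + coeff m (gllTri p e.1 e.2.1 e.2.2 * (C (e.2.1 i) * X 1))
          + coeff m (gllTri p e.1 e.2.1 e.2.2 * (C (e.2.2 i) * X 2)) := by
      intro e
      simp only [gllTri, map_mul, aeval_X, mul_add, coeff_add]
    simp only [e2]
    exact ((key 0 _ (by fun_prop)).add (key 1 _ (by fun_prop))).add (key 2 _ (by fun_prop))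

/-- The coefficients are polynomial, hence holomorphic, in the three vectors.
Route: prove `∀ m : Fin 3 →₀ ℕ, Differentiable ℂ fun e : V4 × V4 × V4 => coeff m (gllTri F e.1 e.2.1 e.2.2)` by `MvPolynomial.induction_on F` (generalising `m`):
`C a`: `aeval _ (C a) = C a`, constant.  `p + q`: `coeff_add`.  `p * X i`: `aeval _ (p * X i) = aeval _ p * (C (e₀ i) * X 0 + C (e₁ i) * X 1 + C (e₂ i) * X 2)`; `mul_add`, `coeff_add`, reorder to `(C _ * P) * X j`,
`MvPolynomial.coeff_mul_X'` (an `if`), `coeff_C_mul`; `e ↦ e.1 i` etc. are differentiable (`fun_prop` / `differentiable_pi`). -/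
theorem gll_tri_diff (F : MvPolynomial (Fin 4) ℂ) (i j k : ℕ) :
    Differentiable ℂ (fun e : V4 × V4 × V4 => gllK F i j k e.1 e.2.1 e.2.2) := by
  exact gllt_coeff_diff F _

theorem gllt_eval (F : MvPolynomial (Fin 4) ℂ) (e₀ e₁ e₂ : V4) (s a c : ℂ) :
    eval ![s, a, c] (gllTri F e₀ e₁ e₂) = eval (s • e₀ + a • e₁ + c • e₂) F := by
  induction F using MvPolynomial.induction_on with
  | C x => simp [gllTri]
  | add p q hp hq =>
    simp only [gllTri, map_add] at hp hq ⊢
    rw [hp, hq]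
  | mul_X p i hp =>
    simp only [gllTri, map_mul, aeval_X] at hp ⊢
    rw [hp]
    simp
    left
    ring

theorem gllt_homog {F : MvPolynomial (Fin 4) ℂ} (hF : F.IsHomogeneous 4) (e₀ e₁ e₂ : V4) :
    (gllTri F e₀ e₁ e₂).IsHomogeneous 4 := by
  have := hF.aeval (n := 1) (fun i : Fin 4 => C (e₀ i) * X 0 + C (e₁ i) * X 1 + C (e₂ i) * X (2 : Fin 3))
    (fun i => ((isHomogeneous_C_mul_X _ _).add (isHomogeneous_C_mul_X _ _)).add
      (isHomogeneous_C_mul_X _ _))
  rw [one_mul] at this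
  exact this

theorem gllt_eval_homog (f : MvPolynomial (Fin 3) ℂ) (hf : f.IsHomogeneous 4) (s a c : ℂ) :
    eval ![s, a, c] f = ∑ p ∈ (Finset.range 5 ×ˢ Finset.range 5).filter (fun p => p.1 + p.2 ≤ 4),
      coeff (Finsupp.single 0 (4 - p.1 - p.2) + Finsupp.single 1 p.1 + Finsupp.single 2 p.2) f *
        (s ^ (4 - p.1 - p.2) * a ^ p.1 * c ^ p.2) := by
  classical
  rw [eval_eq']
  have hinj : Set.InjOn (fun p : ℕ × ℕ => (Finsupp.single 0 (4 - p.1 - p.2) + Finsupp.single 1 p.1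
      + Finsupp.single 2 p.2 : Fin 3 →₀ ℕ))
      ((Finset.range 5 ×ˢ Finset.range 5).filter (fun p => p.1 + p.2 ≤ 4) : Finset (ℕ × ℕ)) := by
    intro p _ q _ hpq
    have h1 := DFunLike.congr_fun hpq 1
    have h2 := DFunLike.congr_fun hpq 2
    simp at h1 h2
    exact Prod.ext h1 h2
  have hsub : f.support ⊆ ((Finset.range 5 ×ˢ Finset.range 5).filter (fun p => p.1 + p.2 ≤ 4)).image
      (fun p : ℕ × ℕ => (Finsupp.single 0 (4 - p.1 - p.2) + Finsupp.single 1 p.1
      + Finsupp.single 2 p.2 : Fin 3 →₀ ℕ)) := by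
    intro d hd
    have hdeg : d.degree = 4 := by
      by_contra hne
      exact (mem_support_iff.1 hd) (hf.coeff_eq_zero hne)
    rw [Finsupp.degree_eq_sum, Fin.sum_univ_three] at hdeg
    refine Finset.mem_image.2 ⟨(d 1, d 2), ?_, ?_⟩
    · simp only [Finset.mem_filter, Finset.mem_product, Finset.mem_range]
      omega
    · ext i
      fin_cases i
      · simp; omega
      · simp
      · simp
  rw [Finset.sum_subset hsub (fun d _ hd => by simp [notMem_support_iff.1 hd]),
    Finset.sum_image hinj]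
  apply Finset.sum_congr rfl
  intro p _
  simp [Fin.prod_univ_three, Finsupp.single_apply]

/-- **The expansion.**
Route: (1) `eval ![s, a, c] (gllTri F e₀ e₁ e₂) = eval (s • e₀ + a • e₁ + c • e₂) F` (`MvPolynomial.eval`/`aeval` composition: `eval₂Hom`/`MvPolynomial.aeval_def`, `eval₂_comp_left`, or `induction_on F`).
(2) `gllTri F e₀ e₁ e₂` is homogeneous of degree `4` (`MvPolynomial.IsHomogeneous.aeval` with linear forms: `isHomogeneous_C_mul_X`, `IsHomogeneous.add`; `1 * 4 = 4`).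
(3) a homogeneous polynomial `f` of degree `4` in three variables: `eval x f = ∑ d ∈ f.support, coeff d f * ∏ i, x i ^ d i` (`eval_eq'`); enlarge the support to the `15` exponents of degree `4`
(`Finset.sum_subset`; e.g. the image of `Finset.Nat.antidiagonalTuple 3 4` or of `(Finset.range 5 ×ˢ Finset.range 5).filter …` under `(j, k) ↦ single 0 (4 - j - k) + single 1 j + single 2 k`; every `d` with `d 0 + d 1 + d 2 = 4` is of this form: `Finsupp.ext`, `Fin.forall_fin_succ`). -/
theorem gll_tri_expand {F : MvPolynomial (Fin 4) ℂ} (hF : F.IsHomogeneous 4) (e₀ e₁ e₂ : V4) (s a c : ℂ) :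
    eval (s • e₀ + a • e₁ + c • e₂) F =
      gllK F 4 0 0 e₀ e₁ e₂ * s ^ 4 + gllK F 3 1 0 e₀ e₁ e₂ * s ^ 3 * a + gllK F 2 2 0 e₀ e₁ e₂ * s ^ 2 * a ^ 2 +
      gllK F 1 3 0 e₀ e₁ e₂ * s * a ^ 3 + gllK F 0 4 0 e₀ e₁ e₂ * a ^ 4 +
      c * (gllK F 3 0 1 e₀ e₁ e₂ * s ^ 3 + gllK F 2 1 1 e₀ e₁ e₂ * s ^ 2 * a + gllK F 1 2 1 e₀ e₁ e₂ * s * a ^ 2 +
        gllK F 0 3 1 e₀ e₁ e₂ * a ^ 3 +
        c * (gllK F 2 0 2 e₀ e₁ e₂ * s ^ 2 + gllK F 1 1 2 e₀ e₁ e₂ * s * a + gllK F 0 2 2 e₀ e₁ e₂ * a ^ 2 +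
          c * (gllK F 1 0 3 e₀ e₁ e₂ * s + gllK F 0 1 3 e₀ e₁ e₂ * a + c * gllK F 0 0 4 e₀ e₁ e₂))) := by
  rw [← gllt_eval, gllt_eval_homog _ (gllt_homog hF e₀ e₁ e₂)]
  simp only [gllK, Finset.sum_filter, Finset.sum_product, Finset.sum_range_succ, Finset.sum_range_zero]
  norm_num
  ring

end Claimed.Agent.R245
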