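/-
Row 245 / S0484, GEO-L (architect helper187).   Package GLL-EXP: the equation of the plane sections `X ∩ T_{p w} X = ℓ ∪ cubic`.
ONE FILE = ONE PACKAGE = ONE OWNER.  Statements FROZEN; helper lemmas: prefix `glle_`, in this file.   Black boxes: GeoLTri.lean, L2Poly.lean (`l2_hasFDerivAt_eval`, `l2dotL_apply`, `l2_differentiable_grad`, `l2_euler`).
-/
import Claimed.Agent.R245.GeoLTri
import Claimed.Agent.R245.L2Poly

set_option autoImplicit false

namespace Claimed.Agent.R245

open MvPolynomial Metric Set Claims.C0412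

variable {F : MvPolynomial (Fin 4) ℂ} {y : Fin 4 → V4}

/-- bilinearity of `dot` in the second argument (for the users) -/
theorem gll_dot_add (g u v : V4) : dot g (u + v) = dot g u + dot g v := by
  simp [dot, mul_add, Finset.sum_add_distrib]

theorem gll_dot_smul (g v : V4) (t : ℂ) : dot g (t • v) = t * dot g v := by
  simp only [dot, Pi.smul_apply, smul_eq_mul, Finset.mul_sum]
  exact Finset.sum_congr rfl fun i _ => by ring

theorem gll_dot_sub (g u v : V4) : dot g (u - v) = dot g u - dot g v := by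
  simp [dot, mul_sub, Finset.sum_sub_distrib]

/-- chain rule: the derivative of `F` along a curve.  (`l2_hasFDerivAt_eval`, `HasFDerivAt.comp_hasDerivAt`, `l2dotL_apply`.) -/
theorem gll_hasDerivAt_eval (F : MvPolynomial (Fin 4) ℂ) {γ : ℂ → V4} {γ' : V4} {t : ℂ} (h : HasDerivAt γ γ' t) :
    HasDerivAt (fun t => eval (γ t) F) (dot (grad F (γ t)) γ') t := by
  have := (l2_hasFDerivAt_eval F (γ t)).comp_hasDerivAt t h
  rwa [l2dotL_apply] at this

/-- the gradient along the line kills the line.  (Derivative at `0` of `t ↦ F ((s + t) y 0 + t' y 1) = 0`, `gll_hasDerivAt_eval`, uniqueness of derivatives.) -/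
theorem gll_grad_line (h : GllLine F y) (s t : ℂ) :
    dot (grad F (s • y 0 + t • y 1)) (y 0) = 0 ∧ dot (grad F (s • y 0 + t • y 1)) (y 1) = 0 := by
  constructor
  · have h1 : HasDerivAt (fun τ : ℂ => (s + τ) • y 0 + t • y 1) (y 0) 0 := by
      have h2 : HasDerivAt (fun τ : ℂ => (s + τ) • y 0) ((1 : ℂ) • y 0) 0 :=
        ((hasDerivAt_id (0 : ℂ)).const_add s).smul_const (y 0)
      rw [one_smul] at h2
      exact h2.add_const (t • y 1)
    have h3 := gll_hasDerivAt_eval F h1
    have h4 : (fun τ : ℂ => eval ((s + τ) • y 0 + t • y 1) F) = fun _ => 0 := by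
      funext τ
      exact h.line (s + τ) t
    rw [h4] at h3
    have h5 := h3.unique (hasDerivAt_const (0 : ℂ) (0 : ℂ))
    rwa [add_zero] at h5
  · have h1 : HasDerivAt (fun τ : ℂ => s • y 0 + (t + τ) • y 1) (y 1) 0 := by
      have h2 : HasDerivAt (fun τ : ℂ => (t + τ) • y 1) ((1 : ℂ) • y 1) 0 :=
        ((hasDerivAt_id (0 : ℂ)).const_add t).smul_const (y 1)
      rw [one_smul] at h2
      exact h2.const_add (s • y 0)
    have h3 := gll_hasDerivAt_eval F h1
    have h4 : (fun τ : ℂ => eval (s • y 0 + (t + τ) • y 1) F) = fun _ => 0 := by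
      funext τ
      exact h.line s (t + τ)
    rw [h4] at h3
    have h5 := h3.unique (hasDerivAt_const (0 : ℂ) (0 : ℂ))
    rwa [add_zero] at h5

/-- (`y 0 + w y 1 ≠ 0` by independence.) -/
theorem gll_P_cone (h : GllLine F y) (w : ℂ) : gllP y w ∈ Cone F := by
  constructor
  · intro h0
    have h1 := Fintype.linearIndependent_iff.1 h.indep ![1, w, 0, 0] (by
      simp only [Fin.sum_univ_four]
      simpa [gllP] using h0) 0
    simp at h1
  · have := h.line 1 w
    rwa [one_smul] at this

theorem gll_diff_P (y : Fin 4 → V4) : Differentiable ℂ (gllP y) := by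
  unfold gllP
  fun_prop

theorem gll_hasDerivAt_P (y : Fin 4 → V4) (w : ℂ) : HasDerivAt (gllP y) (y 1) w := by
  have h : HasDerivAt (fun w : ℂ => w • y 1) ((1 : ℂ) • y 1) w := (hasDerivAt_id w).smul_const (y 1)
  rw [one_smul] at h
  exact h.const_add (y 0)

/-- (`l2_differentiable_grad`, `dot` is a finite sum of products.) -/
theorem gll_diff_al (F : MvPolynomial (Fin 4) ℂ) (y : Fin 4 → V4) : Differentiable ℂ (gllAl F y) := by
  unfold gllAl dot
  have h1 : Differentiable ℂ (fun w => grad F (gllP y w)) :=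
    (l2_differentiable_grad F).comp (gll_diff_P y)
  rw [differentiable_pi] at h1
  exact Differentiable.fun_sum fun i _ => (h1 i).mul_const _

theorem gll_diff_be (F : MvPolynomial (Fin 4) ℂ) (y : Fin 4 → V4) : Differentiable ℂ (gllBe F y) := by
  unfold gllBe dot
  have h1 : Differentiable ℂ (fun w => grad F (gllP y w)) :=
    (l2_differentiable_grad F).comp (gll_diff_P y)
  rw [differentiable_pi] at h1
  exact Differentiable.fun_sum fun i _ => (h1 i).mul_const _

theorem gll_diff_N (F : MvPolynomial (Fin 4) ℂ) (y : Fin 4 → V4) : Differentiable ℂ (gllN F y) := by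
  unfold gllN
  exact ((gll_diff_be F y).smul_const _).sub ((gll_diff_al F y).smul_const _)

theorem gll_deriv_N (F : MvPolynomial (Fin 4) ℂ) (y : Fin 4 → V4) (w : ℂ) :
    deriv (gllN F y) w = deriv (gllBe F y) w • y 2 - deriv (gllAl F y) w • y 3 := by
  have h1 : HasDerivAt (gllBe F y) (deriv (gllBe F y) w) w := (gll_diff_be F y w).hasDerivAt
  have h2 : HasDerivAt (gllAl F y) (deriv (gllAl F y) w) w := (gll_diff_al F y w).hasDerivAt
  exact ((h1.smul_const (y 2)).sub (h2.smul_const (y 3))).deriv

/-- (`gll_tri_diff` composed with `w ↦ (gllP y w, y 1, gllN F y w)`.) -/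
theorem gll_hol (F : MvPolynomial (Fin 4) ℂ) (y : Fin 4 → V4) : (gllCub F y).Hol := by
  have hc : Differentiable ℂ (fun w : ℂ => ((gllP y w, y 1, gllN F y w) : V4 × V4 × V4)) :=
    (gll_diff_P y).prodMk ((differentiable_const _).prodMk (gll_diff_N F y))
  have key : ∀ i j k : ℕ, Differentiable ℂ (fun w : ℂ => gllK F i j k (gllP y w) (y 1) (gllN F y w)) := by
    intro i j k
    have h1 := gll_tri_diff F i j k
    have h2 := h1.comp hc
    simp only [Function.comp_def] at h2
    exact h2
  constructor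
  · exact key 2 1 1
  · exact key 2 0 2
  · exact key 1 2 1
  · exact key 1 1 2
  · exact key 1 0 3
  · exact key 0 3 1
  · exact key 0 2 2
  · exact key 0 1 3
  · exact key 0 0 4

/-- `n w` is tangent at `p w`.  (`β α - α β = 0`.) -/
theorem gll_tang_N (F : MvPolynomial (Fin 4) ℂ) (y : Fin 4 → V4) (w : ℂ) :
    dot (grad F (gllP y w)) (gllN F y w) = 0 := by
  simp only [gllN, gll_dot_sub, gll_dot_smul]
  simp only [gllAl, gllBe]
  ring

/-- the derivative of `c ↦ c * g c` at `0` -/
theorem glle_hasDerivAt_mul {g : ℂ → ℂ} (hg : Differentiable ℂ g) :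
    HasDerivAt (fun c : ℂ => c * g c) (g 0) 0 := by
  have h := (hasDerivAt_id' (0 : ℂ)).fun_mul (hg 0).hasDerivAt
  simpa using h

/-- **The equation of the plane section.**
Route: `gll_tri_expand` with `e₀ = gllP y w`, `e₁ = y 1`, `e₂ = gllN F y w`.  Six coefficients vanish:
(a) `c = 0`: `s • p + a • y 1 = s • y 0 + (s w + a) • y 1` lies on the line, so `k₄₀₀ s⁴ + k₃₁₀ s³ a + k₂₂₀ s² a² + k₁₃₀ s a³ + k₀₄₀ a⁴ = 0` for all `s, a`: it suffices to use this identity (no need to show that each coefficient vanishes):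
subtract it from the expansion.
(b) `k₃₀₁ = 0`: the derivative at `c = 0` of `c ↦ F (p + c n)` is `dot (grad F p) n = 0` (`gll_hasDerivAt_eval`, `gll_tang_N`), and by the expansion (`s = 1, a = 0`) it is `k₃₀₁`.
Then `ring` after unfolding `GllCub.G, hA, hB, hC, gllCub`. -/
theorem gll_expand (hF : F.IsHomogeneous 4) (h : GllLine F y) (w s a c : ℂ) :
    eval (s • gllP y w + a • y 1 + c • gllN F y w) F = c * (gllCub F y).G w s a c := by
  have hE := gll_tri_expand hF (gllP y w) (y 1) (gllN F y w)
  -- (a) the part `c = 0`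
  have ha : ∀ s a : ℂ, gllK F 4 0 0 (gllP y w) (y 1) (gllN F y w) * s ^ 4
      + gllK F 3 1 0 (gllP y w) (y 1) (gllN F y w) * s ^ 3 * a
      + gllK F 2 2 0 (gllP y w) (y 1) (gllN F y w) * s ^ 2 * a ^ 2
      + gllK F 1 3 0 (gllP y w) (y 1) (gllN F y w) * s * a ^ 3
      + gllK F 0 4 0 (gllP y w) (y 1) (gllN F y w) * a ^ 4 = 0 := by
    intro s a
    have h1 := hE s a 0
    have h2 : s • gllP y w + a • y 1 + (0 : ℂ) • gllN F y w = s • y 0 + (s * w + a) • y 1 := by
      simp only [gllP, zero_smul, add_zero, smul_add, smul_smul, add_smul, add_assoc]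
    rw [h2, h.line] at h1
    rw [h1]
    ring
  -- (b) the coefficient `k₃₀₁`
  have hb : gllK F 3 0 1 (gllP y w) (y 1) (gllN F y w) = 0 := by
    have h1 : HasDerivAt (fun c : ℂ => gllP y w + c • gllN F y w) (gllN F y w) 0 := by
      have h2 : HasDerivAt (fun c : ℂ => c • gllN F y w) ((1 : ℂ) • gllN F y w) 0 :=
        (hasDerivAt_id (0 : ℂ)).smul_const _
      rw [one_smul] at h2
      exact h2.const_add _
    have h3 := gll_hasDerivAt_eval F h1
    rw [zero_smul, add_zero, gll_tang_N] at h3
    have h4 : (fun c : ℂ => eval (gllP y w + c • gllN F y w) F) = fun c : ℂ =>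
        c * (gllK F 3 0 1 (gllP y w) (y 1) (gllN F y w) +
          c * (gllK F 2 0 2 (gllP y w) (y 1) (gllN F y w) +
            c * (gllK F 1 0 3 (gllP y w) (y 1) (gllN F y w)
              + c * gllK F 0 0 4 (gllP y w) (y 1) (gllN F y w)))) := by
      funext c
      have h5 := hE 1 0 c
      have h6 := ha 1 0
      rw [one_smul, zero_smul, add_zero] at h5
      rw [h5]
      linear_combination h6
    rw [h4] at h3
    have h7 : HasDerivAt (fun c : ℂ =>
        c * (gllK F 3 0 1 (gllP y w) (y 1) (gllN F y w) +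
          c * (gllK F 2 0 2 (gllP y w) (y 1) (gllN F y w) +
            c * (gllK F 1 0 3 (gllP y w) (y 1) (gllN F y w)
              + c * gllK F 0 0 4 (gllP y w) (y 1) (gllN F y w)))))
        (gllK F 3 0 1 (gllP y w) (y 1) (gllN F y w)) 0 := by
      have h8 := glle_hasDerivAt_mul (g := fun c : ℂ =>
        (gllK F 3 0 1 (gllP y w) (y 1) (gllN F y w) +
          c * (gllK F 2 0 2 (gllP y w) (y 1) (gllN F y w) +
            c * (gllK F 1 0 3 (gllP y w) (y 1) (gllN F y w)
              + c * gllK F 0 0 4 (gllP y w) (y 1) (gllN F y w))))) (by fun_prop)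
      simpa using h8
    exact h7.unique h3
  rw [hE s a c]
  simp only [GllCub.G, GllCub.hA, GllCub.hB, GllCub.hC, gllCub]
  rw [hb]
  linear_combination ha s a

/-- the derivative of the expansion with respect to `c` at `c = 0`.   (`gll_hasDerivAt_eval` for `c ↦ s • p + a • y 1 + c • n`, `gll_expand`, uniqueness of the derivative: the derivative of `c ↦ c * G w s a c` at `0` is `G w s a 0`.) -/
theorem gll_dc (hF : F.IsHomogeneous 4) (h : GllLine F y) (w s a : ℂ) :
    dot (grad F (s • gllP y w + a • y 1)) (gllN F y w) = (gllCub F y).G w s a 0 := by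
  have h1 : HasDerivAt (fun c : ℂ => s • gllP y w + a • y 1 + c • gllN F y w) (gllN F y w) 0 := by
    have h2 : HasDerivAt (fun c : ℂ => c • gllN F y w) ((1 : ℂ) • gllN F y w) 0 :=
      (hasDerivAt_id (0 : ℂ)).smul_const _
    rw [one_smul] at h2
    exact h2.const_add _
  have h3 := gll_hasDerivAt_eval F h1
  rw [zero_smul, add_zero] at h3
  have h4 : (fun c : ℂ => eval (s • gllP y w + a • y 1 + c • gllN F y w) F)
      = fun c : ℂ => c * (gllCub F y).G w s a c := by
    funext c
    exact gll_expand hF h w s a c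
  rw [h4] at h3
  have h5 : Differentiable ℂ (fun c : ℂ => (gllCub F y).G w s a c) := by
    simp only [GllCub.G, GllCub.hA, GllCub.hB, GllCub.hC]
    fun_prop
  exact h3.unique (glle_hasDerivAt_mul h5)

end Claimed.Agent.R245
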