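/-
Row 245 / S0484, GEO-L (architect helper187).   Package GLL-WRON: the Gauss map along the line.  `A₁ = β α' - α β'` is the Wronskian of the Gauss map `(α : β)` of the line; it does not vanish identically.
ONE FILE = ONE PACKAGE = ONE OWNER.  Statements FROZEN; helper lemmas: prefix `gllw_`, in this file.   Black boxes: GeoLExp.lean, GeoGauss.lean (`gg_gauss_inf`), L2Poly.lean.
-/
import Claimed.Agent.R245.GeoLExp
import Claimed.Agent.R245.GeoGauss

set_option autoImplicit false

namespace Claimed.Agent.R245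

open MvPolynomial Metric Set Claims.C0412

variable {F : MvPolynomial (Fin 4) ℂ} {y : Fin 4 → V4}

theorem gllw_dot_comm (a b : V4) : dot a b = dot b a := by
  simp [dot, mul_comm]

theorem gllw_dot_sub_smul (g g' v : V4) (μ : ℂ) : dot (g' - μ • g) v = dot g' v - μ * dot g v := by
  rw [gllw_dot_comm, gll_dot_sub, gll_dot_smul, gllw_dot_comm v g', gllw_dot_comm v g]

theorem gllw_diff_G (F : MvPolynomial (Fin 4) ℂ) (y : Fin 4 → V4) :
    Differentiable ℂ (fun w => grad F (gllP y w)) :=
  (l2_differentiable_grad F).comp (gll_diff_P y)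

theorem gllw_hasDerivAt_dot (F : MvPolynomial (Fin 4) ℂ) (y : Fin 4 → V4) (v : V4) (w : ℂ) :
    HasDerivAt (fun w => dot (grad F (gllP y w)) v) (dot (deriv (fun w => grad F (gllP y w)) w) v) w := by
  have h1 := (gllw_diff_G F y w).hasDerivAt
  have h2 := (l2dotL v).hasFDerivAt.comp_hasDerivAt w h1
  have e : (fun w => dot (grad F (gllP y w)) v) = (⇑(l2dotL v) ∘ fun w => grad F (gllP y w)) := by
    funext w
    simp only [Function.comp, l2dotL_apply]
    exact gllw_dot_comm _ _
  rw [e, gllw_dot_comm, ← l2dotL_apply]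
  exact h2

theorem gllw_P_eq (y : Fin 4 → V4) (w : ℂ) : gllP y w = (1 : ℂ) • y 0 + w • y 1 := by
  simp [gllP]

theorem gllw_d0 (h : GllLine F y) (w : ℂ) : dot (deriv (fun w => grad F (gllP y w)) w) (y 0) = 0 := by
  refine (gllw_hasDerivAt_dot F y (y 0) w).unique ?_
  have e : (fun w => dot (grad F (gllP y w)) (y 0)) = fun _ => 0 := by
    funext w
    rw [gllw_P_eq]
    exact (gll_grad_line h 1 w).1
  rw [e]
  exact hasDerivAt_const _ _

theorem gllw_d1 (h : GllLine F y) (w : ℂ) : dot (deriv (fun w => grad F (gllP y w)) w) (y 1) = 0 := by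
  refine (gllw_hasDerivAt_dot F y (y 1) w).unique ?_
  have e : (fun w => dot (grad F (gllP y w)) (y 1)) = fun _ => 0 := by
    funext w
    rw [gllw_P_eq]
    exact (gll_grad_line h 1 w).2
  rw [e]
  exact hasDerivAt_const _ _

theorem gllw_d2 (F : MvPolynomial (Fin 4) ℂ) (y : Fin 4 → V4) (w : ℂ) :
    dot (deriv (fun w => grad F (gllP y w)) w) (y 2) = deriv (gllAl F y) w :=
  (gllw_hasDerivAt_dot F y (y 2) w).deriv.symm

theorem gllw_d3 (F : MvPolynomial (Fin 4) ℂ) (y : Fin 4 → V4) (w : ℂ) :
    dot (deriv (fun w => grad F (gllP y w)) w) (y 3) = deriv (gllBe F y) w :=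
  (gllw_hasDerivAt_dot F y (y 3) w).deriv.symm

/-- a vector which is `dot`-orthogonal to a basis vanishes.
(`v ↦ dot g v` is linear (`l2dotL g`), it vanishes on a basis (`LinearIndependent` of `4 = finrank` vectors spans: `basisOfLinearIndependentOfCardEqFinrank`, `Basis.ext`), so `dot g (Pi.single i 1) = g i = 0`.) -/
theorem gll_dot_basis (hy : LinearIndependent ℂ y) {g : V4} (h : ∀ i, dot g (y i) = 0) : g = 0 := by
  have hcard : Fintype.card (Fin 4) = Module.finrank ℂ V4 := by simp
  have hL : (l2dotL g : V4 →ₗ[ℂ] ℂ) = 0 := by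
    refine (basisOfLinearIndependentOfCardEqFinrank hy hcard).ext fun i => ?_
    simp [l2dotL_apply, h]
  funext i
  have h1 := congrArg (fun f : V4 →ₗ[ℂ] ℂ => f (Pi.single i 1)) hL
  simpa [l2dotL_apply, dot, Pi.single_apply] using h1

/-- `α, β` have no common zero.  (`gll_grad_line` with `s = 1, t = w`, `gll_dot_basis`, `l2_grad_ne_zero`, `gll_P_cone`.) -/
theorem gll_albe_ne (hF : IsSmoothQuarticForm F) (h : GllLine F y) (w : ℂ) : gllAl F y w ≠ 0 ∨ gllBe F y w ≠ 0 := by
  by_contra hno
  push Not at hno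
  obtain ⟨ha, hb⟩ := hno
  have hl := gll_grad_line h 1 w
  rw [← gllw_P_eq] at hl
  refine l2_grad_ne_zero hF (gll_P_cone h w) (gll_dot_basis h.indep ?_)
  intro i
  fin_cases i
  · exact hl.1
  · exact hl.2
  · exact ha
  · exact hb

/-- the same in the form which is used most often -/
theorem gllw_frame_eq_zero (hF : IsSmoothQuarticForm F) (h : GllLine F y) {w s a c : ℂ}
    (h0 : s • gllP y w + a • y 1 + c • gllN F y w = 0) : s = 0 ∧ a = 0 ∧ c = 0 := by
  have hli := Fintype.linearIndependent_iff.1 h.indep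
    ![s, s * w + a, c * gllBe F y w, -(c * gllAl F y w)] (by
      simp only [Fin.sum_univ_four, Matrix.cons_val_zero, Matrix.cons_val_one, Matrix.cons_val]
      rw [← h0]
      simp only [gllP, gllN]
      module)
  have e0 : s = 0 := by simpa using hli 0
  have e1 : s * w + a = 0 := by simpa using hli 1
  have e2 : c * gllBe F y w = 0 := by simpa using hli 2
  have e3 : c * gllAl F y w = 0 := by simpa using hli 3
  refine ⟨e0, by simpa [e0] using e1, ?_⟩
  rcases gll_albe_ne hF h w with ha | hb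
  · exact (mul_eq_zero.1 e3).resolve_right ha
  · exact (mul_eq_zero.1 e2).resolve_right hb

/-- the frame of the tangent plane.   (`s p + a y 1 + c n = s y 0 + (s w + a) y 1 + c β y 2 - c α y 3`; `LinearIndependent.pair_iff`-style: `Fintype.linearIndependent_iff`, `Fin.sum_univ_succ`.) -/
theorem gll_frame (hF : IsSmoothQuarticForm F) (h : GllLine F y) (w : ℂ) :
    LinearIndependent ℂ ![gllP y w, y 1, gllN F y w] := by
  rw [Fintype.linearIndependent_iff]
  intro g hg
  simp only [Fin.sum_univ_three, Matrix.cons_val_zero, Matrix.cons_val_one, Matrix.cons_val] at hg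
  obtain ⟨e0, e1, e2⟩ := gllw_frame_eq_zero hF h hg
  intro i
  fin_cases i
  · exact e0
  · exact e1
  · exact e2

/-- the same in the form which is used most often -/
theorem gll_frame_eq_zero (hF : IsSmoothQuarticForm F) (h : GllLine F y) {w s a c : ℂ}
    (h0 : s • gllP y w + a • y 1 + c • gllN F y w = 0) : s = 0 ∧ a = 0 ∧ c = 0 :=
  gllw_frame_eq_zero hF h h0

/-- **`A₁` is the Wronskian.**   Route: `gll_dc` with `s = 1`: `p w + a y 1 = p (w + a)`, so `β (w) α (w + a) - α (w) β (w + a) = A₁ a + B₁ a² + C₁ a³` for all `a`; take the derivative at `a = 0`. -/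
theorem gll_A1 (hF : F.IsHomogeneous 4) (h : GllLine F y) (w : ℂ) :
    (gllCub F y).A₁ w = gllBe F y w * deriv (gllAl F y) w - gllAl F y w * deriv (gllBe F y) w := by
  have key : ∀ a : ℂ, gllBe F y w * gllAl F y (w + a) - gllAl F y w * gllBe F y (w + a) =
      (gllCub F y).A₁ w * a + (gllCub F y).B₁ w * a ^ 2 + (gllCub F y).C₁ w * a ^ 3 := by
    intro a
    have h1 := gll_dc hF h w 1 a
    have e : (1 : ℂ) • gllP y w + a • y 1 = gllP y (w + a) := by
      simp [gllP, add_smul, add_assoc]
    rw [e] at h1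
    simp only [gllN, gll_dot_sub, gll_dot_smul, GllCub.G, GllCub.hA, GllCub.hB, GllCub.hC] at h1
    have e2 : dot (grad F (gllP y (w + a))) (y 2) = gllAl F y (w + a) := rfl
    have e3 : dot (grad F (gllP y (w + a))) (y 3) = gllBe F y (w + a) := rfl
    rw [e2, e3] at h1
    linear_combination h1
  have hα : HasDerivAt (fun a => gllAl F y (w + a)) (deriv (gllAl F y) w) 0 := by
    have h1 : HasDerivAt (gllAl F y) (deriv (gllAl F y) w) (w + 0) := by
      rw [add_zero]
      exact (gll_diff_al F y w).hasDerivAt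
    exact h1.comp_const_add w 0
  have hβ : HasDerivAt (fun a => gllBe F y (w + a)) (deriv (gllBe F y) w) 0 := by
    have h1 : HasDerivAt (gllBe F y) (deriv (gllBe F y) w) (w + 0) := by
      rw [add_zero]
      exact (gll_diff_be F y w).hasDerivAt
    exact h1.comp_const_add w 0
  have d1 : HasDerivAt (fun a => gllBe F y w * gllAl F y (w + a) - gllAl F y w * gllBe F y (w + a))
      (gllBe F y w * deriv (gllAl F y) w - gllAl F y w * deriv (gllBe F y) w) 0 :=
    (hα.const_mul _).sub (hβ.const_mul _)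
  have d2 : HasDerivAt (fun a : ℂ => (gllCub F y).A₁ w * a + (gllCub F y).B₁ w * a ^ 2 + (gllCub F y).C₁ w * a ^ 3)
      ((gllCub F y).A₁ w * 1 + (gllCub F y).B₁ w * ((2 : ℕ) * (0 : ℂ) ^ (2 - 1) * 1)
        + (gllCub F y).C₁ w * ((3 : ℕ) * (0 : ℂ) ^ (3 - 1) * 1)) 0 :=
    (((hasDerivAt_id (0 : ℂ)).const_mul _).add (((hasDerivAt_id (0 : ℂ)).pow 2).const_mul _)).add
      (((hasDerivAt_id (0 : ℂ)).pow 3).const_mul _)
  have e : (fun a => gllBe F y w * gllAl F y (w + a) - gllAl F y w * gllBe F y (w + a)) =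
      fun a : ℂ => (gllCub F y).A₁ w * a + (gllCub F y).B₁ w * a ^ 2 + (gllCub F y).C₁ w * a ^ 3 := funext key
  rw [e] at d1
  have := d2.unique d1
  simpa using this

/-- the derivative of the Gauss map along the line, paired with the tangent plane.
Route: `G w := grad F (p w)` is differentiable; `dot (deriv G w) v = deriv (fun w => dot (G w) v) w` for a constant `v`; `dot (G w) (y 1) = 0` for all `w` (`gll_grad_line`), `dot (G w) (y 2) = α w`, `dot (G w) (y 3) = β w`;
`dot (G' w) (n w) = β α' - α β' = A₁ w` (`gll_A1`). -/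
theorem gll_gauss (hF : F.IsHomogeneous 4) (h : GllLine F y) (w a c : ℂ) :
    dot (deriv (fun w => grad F (gllP y w)) w) (a • y 1 + c • gllN F y w) = c * (gllCub F y).A₁ w := by
  rw [gll_A1 hF h, gll_dot_add, gll_dot_smul, gll_dot_smul, gllN, gll_dot_sub, gll_dot_smul, gll_dot_smul,
    gllw_d1 h, gllw_d2, gllw_d3]
  ring

/-- **The Wronskian does not vanish identically.**
Route: otherwise for every `w`: `G' w` kills `y 0, y 1` (differentiate `gll_grad_line`), and `(α', β')` is proportional to `(α, β) ≠ 0` (`gll_albe_ne`, `gll_A1`): `(α', β') = μ (α, β)`; so `G' w - μ G w` kills the basis: `G' w = μ • G w` (`gll_dot_basis`).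
`gg_gauss_inf F hF isOpen_univ isPreconnected_univ` (arc `gllP y`) gives `p 1 = c • p 0`, i.e. `y 0 + y 1 = c • y 0`, against the independence of `y 0, y 1`. -/
theorem gll_A1_ne (hF : IsSmoothQuarticForm F) (h : GllLine F y) : ∃ w, (gllCub F y).A₁ w ≠ 0 := by
  by_contra hno
  push Not at hno
  have hprop : ∀ w : ℂ, ∃ μ : ℂ, deriv (gllAl F y) w = μ * gllAl F y w ∧ deriv (gllBe F y) w = μ * gllBe F y w := by
    intro w
    have hA := gll_A1 hF.1 h w
    rw [hno w] at hA
    rcases gll_albe_ne hF h w with ha | hb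
    · refine ⟨deriv (gllAl F y) w / gllAl F y w, by field_simp, ?_⟩
      field_simp
      linear_combination hA
    · refine ⟨deriv (gllBe F y) w / gllBe F y w, ?_, by field_simp⟩
      field_simp
      linear_combination -hA
  have hg : ∀ w ∈ (univ : Set ℂ), ∃ a : ℂ, deriv (fun w => grad F (gllP y w)) w = a • grad F (gllP y w) := by
    intro w _
    obtain ⟨μ, h2, h3⟩ := hprop w
    refine ⟨μ, sub_eq_zero.1 (gll_dot_basis h.indep ?_)⟩
    have hl := gll_grad_line h 1 w
    rw [← gllw_P_eq] at hl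
    intro i
    rw [gllw_dot_sub_smul]
    fin_cases i
    · show dot _ (y 0) - μ * dot _ (y 0) = 0
      rw [gllw_d0 h, hl.1]
      ring
    · show dot _ (y 1) - μ * dot _ (y 1) = 0
      rw [gllw_d1 h, hl.2]
      ring
    · show dot _ (y 2) - μ * gllAl F y w = 0
      rw [gllw_d2, h2]
      ring
    · show dot _ (y 3) - μ * gllBe F y w = 0
      rw [gllw_d3, h3]
      ring
  obtain ⟨c, hc⟩ := gg_gauss_inf F hF isOpen_univ isPreconnected_univ (gll_diff_P y).differentiableOn
    (fun w _ => gll_P_cone h w) hg 0 (mem_univ _) 1 (mem_univ _)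
  have hli := Fintype.linearIndependent_iff.1 h.indep ![1 - c, 1, 0, 0] (by
      simp only [Fin.sum_univ_four, Matrix.cons_val_zero, Matrix.cons_val_one, Matrix.cons_val]
      simp only [gllP, zero_smul, add_zero, one_smul] at hc
      rw [sub_smul, one_smul, ← hc]
      simp)
  have e1 : (1 : ℂ) = 0 := by simpa using hli 1
  exact one_ne_zero e1

/-- **KILL.**  If `grad F x` kills `p w, y 1, n w, n' w` and `A₁ w ≠ 0`, then `x = 0`.
Route: `g = grad F x`.  `g · y 0 = g · p - w g · y 1 = 0`.  `β g₂ - α g₃ = 0`, `β' g₂ - α' g₃ = 0` (`gll_deriv_N`), determinant `- β α' + α β' = - A₁ ≠ 0` (`gll_A1`), so `g₂ = g₃ = 0`; `gll_dot_basis`; `hF.2`. -/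
theorem gll_kill (hF : IsSmoothQuarticForm F) (h : GllLine F y) {w : ℂ} {x : V4} (hA : (gllCub F y).A₁ w ≠ 0)
    (h0 : dot (grad F x) (gllP y w) = 0) (h1 : dot (grad F x) (y 1) = 0) (h2 : dot (grad F x) (gllN F y w) = 0)
    (h3 : dot (grad F x) (deriv (gllN F y) w) = 0) : x = 0 := by
  have hA1 := gll_A1 hF.1 h w
  rw [gllP, gll_dot_add, gll_dot_smul, h1, mul_zero, add_zero] at h0
  rw [gllN, gll_dot_sub, gll_dot_smul, gll_dot_smul] at h2
  rw [gll_deriv_N, gll_dot_sub, gll_dot_smul, gll_dot_smul] at h3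
  have g2 : dot (grad F x) (y 2) = 0 := by
    have : dot (grad F x) (y 2) * (gllCub F y).A₁ w = 0 := by
      rw [hA1]
      linear_combination (deriv (gllAl F y) w) * h2 - (gllAl F y w) * h3
    exact (mul_eq_zero.1 this).resolve_right hA
  have g3 : dot (grad F x) (y 3) = 0 := by
    have : dot (grad F x) (y 3) * (gllCub F y).A₁ w = 0 := by
      rw [hA1]
      linear_combination (deriv (gllBe F y) w) * h2 - (gllBe F y w) * h3
    exact (mul_eq_zero.1 this).resolve_right hA
  have hg : grad F x = 0 := by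
    refine gll_dot_basis h.indep fun i => ?_
    fin_cases i
    · exact h0
    · exact h1
    · exact g2
    · exact g3
  exact hF.2 x fun i => congrFun hg i

end Claimed.Agent.R245
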