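/-
Row 245 / S0484, GEO-L (architect helper187).   Packages GLL-CRIT (`gll_noCrit`) and GLL-LEAD (`gll_noLead`): the two places where smoothness of the quartic enters.
TWO PACKAGES, TWO OWNERS: touch only your theorem.  Statements FROZEN; helper lemmas: prefix `gllc_` resp. `glld_`, directly above your theorem.   Black boxes: GeoLExp.lean, GeoLWron.lean.
-/
import Claimed.Agent.R245.GeoLWron

set_option autoImplicit false

namespace Claimed.Agent.R245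

open MvPolynomial Metric Set Claims.C0412

variable {F : MvPolynomial (Fin 4) ℂ} {y : Fin 4 → V4}

theorem gllc_poly4 (c0 c1 c2 c3 c4 t : ℂ) :
    HasDerivAt (fun t : ℂ => c0 + c1 * t + c2 * t ^ 2 + c3 * t ^ 3 + c4 * t ^ 4)
      (c1 + 2 * c2 * t + 3 * c3 * t ^ 2 + 4 * c4 * t ^ 3) t := by
  have h1 : HasDerivAt (fun t : ℂ => c1 * t) (c1 * 1) t := (hasDerivAt_id t).const_mul c1
  have h2 := (hasDerivAt_pow 2 t).const_mul c2
  have h3 := (hasDerivAt_pow 3 t).const_mul c3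
  have h4 := (hasDerivAt_pow 4 t).const_mul c4
  refine ((((h1.const_add c0).add h2).add h3).add h4).congr_deriv ?_
  push_cast
  ring

theorem gllc_hasDerivAt_G (K : GllCub) (hK : K.Hol) (w s a c : ℂ) :
    HasDerivAt (fun t => K.G t s a c) (K.dw.G w s a c) w := by
  unfold GllCub.G GllCub.hA GllCub.hB GllCub.hC GllCub.dw
  have a1 := (hK.A₁ w).hasDerivAt
  have a2 := (hK.A₂ w).hasDerivAt
  have b1 := (hK.B₁ w).hasDerivAt
  have b2 := (hK.B₂ w).hasDerivAt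
  have b3 := (hK.B₃ w).hasDerivAt
  have c1 := (hK.C₁ w).hasDerivAt
  have c2 := (hK.C₂ w).hasDerivAt
  have c3 := (hK.C₃ w).hasDerivAt
  have c4 := (hK.C₄ w).hasDerivAt
  exact ((((a1.mul_const a).add (a2.mul_const c)).const_mul (s ^ 2)).add
    ((((b1.mul_const (a ^ 2)).add ((b2.mul_const a).mul_const c)).add (b3.mul_const (c ^ 2))).const_mul s)).add
    ((((c1.mul_const (a ^ 3)).add ((c2.mul_const (a ^ 2)).mul_const c)).add ((c3.mul_const a).mul_const (c ^ 2))).add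
      (c4.mul_const (c ^ 3)))

/-- **GLL-CRIT.**   Put `K = gllCub F y`, `Θ (w, τ, s, l) = F (s p w + l (τ y 1 + n w)) = l² (A s² + B s l + C l²)`, `A = K.hA w τ 1`, `B = K.hB w τ 1`, `C = K.hC w τ 1`   (`gll_expand` with `a = l τ`, `c = l`; `ring`).
Fix the point `(w, τ, s, l)` of the statement, `x = s p w + l (τ y 1 + n w)`, `g = grad F x`.  Compute the four partial derivatives of `Θ` twice: by `gll_hasDerivAt_eval` and from the explicit right-hand side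
(`HasDerivAt` of polynomials in one variable; in the variable `w` the coefficient functions are differentiable by `gll_hol`, `(K.dw).A₁ = deriv K.A₁` etc. by definition), and compare (`HasDerivAt.unique`):
  `∂_s`: `g · p = l² (2 A s + B l) = 0`;
  `∂_l`: `g · (τ y 1 + n) = 2 l Q + l² (B s + 2 C l) = 0`, where `2 Q = s (2 A s + B l) + l (B s + 2 C l) = 0`;
  `∂_τ`: `l g · y 1 = l² (A₁ s² + (2 B₁ τ + B₂) s l + (3 C₁ τ² + 2 C₂ τ + C₃) l²) = 0`, so `g · y 1 = 0`, and then `g · n = 0`;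
  `∂_w`: `g · (s y 1 + l n') = l² (A_w s² + B_w s l + C_w l²) = 0`, so `g · n' = 0`   (`gll_hasDerivAt_P`, `(gll_diff_N F y w).hasDerivAt`).
`gll_kill` gives `x = 0`; `gll_frame_eq_zero` (`x = s p + (l τ) y 1 + l n`) gives `l = 0`: contradiction. -/
theorem gll_noCrit (hF : IsSmoothQuarticForm F) (h : GllLine F y) : (gllCub F y).NoCrit := by
  intro w τ s l hA1 hl e1 e2 e3 e4
  obtain ⟨K, hK⟩ : ∃ K, K = gllCub F y := ⟨_, rfl⟩
  rw [← hK] at hA1 e1 e2 e3 e4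
  have hol : K.Hol := hK ▸ gll_hol F y
  obtain ⟨x, hx⟩ : ∃ x : V4, x = s • gllP y w + (l * τ) • y 1 + l • gllN F y w := ⟨_, rfl⟩
  obtain ⟨g, hg⟩ : ∃ g : V4, g = grad F x := ⟨_, rfl⟩
  -- the derivative in `s`
  have d1 : dot g (gllP y w) = 0 := by
    have hγ : HasDerivAt (fun t : ℂ => t • gllP y w + (l * τ) • y 1 + l • gllN F y w) (gllP y w) s := by
      have h0 : HasDerivAt (fun t : ℂ => t • gllP y w) ((1 : ℂ) • gllP y w) s := (hasDerivAt_id s).smul_const _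
      rw [one_smul] at h0
      exact (h0.add_const _).add_const _
    have h1 := gll_hasDerivAt_eval F hγ
    have h2 : (fun t : ℂ => eval (t • gllP y w + (l * τ) • y 1 + l • gllN F y w) F) =
        fun t : ℂ => l * K.hC w (l * τ) l + l * K.hB w (l * τ) l * t + l * K.hA w (l * τ) l * t ^ 2 + 0 * t ^ 3 +
          0 * t ^ 4 := by
      funext t
      rw [gll_expand hF.1 h, ← hK]
      unfold GllCub.G
      ring
    rw [h2] at h1
    have h3 := h1.unique (gllc_poly4 _ _ _ _ _ s)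
    rw [← hx, ← hg] at h3
    rw [h3]
    unfold GllCub.hA GllCub.hB at e1 ⊢
    linear_combination l ^ 2 * e1
  -- the derivative in `l`
  have d2 : dot g (τ • y 1 + gllN F y w) = 0 := by
    have hγ : HasDerivAt (fun t : ℂ => s • gllP y w + (t * τ) • y 1 + t • gllN F y w) (τ • y 1 + gllN F y w) l := by
      have h0 : HasDerivAt (fun t : ℂ => t • gllN F y w) ((1 : ℂ) • gllN F y w) l := (hasDerivAt_id l).smul_const _
      rw [one_smul] at h0
      have h00 : HasDerivAt (fun t : ℂ => (t * τ) • y 1) ((1 * τ) • y 1) l :=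
        ((hasDerivAt_id l).mul_const τ).smul_const _
      rw [one_mul] at h00
      exact (h00.const_add _).add h0
    have h1 := gll_hasDerivAt_eval F hγ
    have h2 : (fun t : ℂ => eval (s • gllP y w + (t * τ) • y 1 + t • gllN F y w) F) =
        fun t : ℂ => 0 + 0 * t + s ^ 2 * K.hA w τ 1 * t ^ 2 + s * K.hB w τ 1 * t ^ 3 + K.hC w τ 1 * t ^ 4 := by
      funext t
      rw [gll_expand hF.1 h, ← hK]
      unfold GllCub.G GllCub.hA GllCub.hB GllCub.hC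
      ring
    rw [h2] at h1
    have h3 := h1.unique (gllc_poly4 _ _ _ _ _ l)
    rw [← hx, ← hg] at h3
    rw [h3]
    linear_combination l * s * e1 + 2 * l ^ 2 * e2
  -- the derivative in `τ`
  have d3 : dot g (y 1) = 0 := by
    have hγ : HasDerivAt (fun t : ℂ => s • gllP y w + (l * t) • y 1 + l • gllN F y w) (l • y 1) τ := by
      have h00 : HasDerivAt (fun t : ℂ => (l * t) • y 1) ((l * 1) • y 1) τ :=
        ((hasDerivAt_id τ).const_mul l).smul_const _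
      rw [mul_one] at h00
      exact (h00.const_add _).add_const _
    have h1 := gll_hasDerivAt_eval F hγ
    have h2 : (fun t : ℂ => eval (s • gllP y w + (l * t) • y 1 + l • gllN F y w) F) =
        fun t : ℂ => l ^ 2 * (s ^ 2 * K.A₂ w + s * l * K.B₃ w + l ^ 2 * K.C₄ w) +
          l ^ 2 * (s ^ 2 * K.A₁ w + s * l * K.B₂ w + l ^ 2 * K.C₃ w) * t +
          l ^ 2 * (s * l * K.B₁ w + l ^ 2 * K.C₂ w) * t ^ 2 + l ^ 2 * (l ^ 2 * K.C₁ w) * t ^ 3 + 0 * t ^ 4 := by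
      funext t
      rw [gll_expand hF.1 h, ← hK]
      unfold GllCub.G GllCub.hA GllCub.hB GllCub.hC
      ring
    rw [h2] at h1
    have h3 := h1.unique (gllc_poly4 _ _ _ _ _ τ)
    rw [← hx, ← hg, gll_dot_smul] at h3
    have h4 : l * dot g (y 1) = 0 := by
      rw [h3]
      linear_combination l ^ 2 * e3
    exact (mul_eq_zero.1 h4).resolve_left hl
  -- the derivative in `w`
  have d4 : dot g (s • y 1 + l • deriv (gllN F y) w) = 0 := by
    have hγ : HasDerivAt (fun t : ℂ => s • gllP y t + (l * τ) • y 1 + l • gllN F y t)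
        (s • y 1 + l • deriv (gllN F y) w) w :=
      (((gll_hasDerivAt_P y w).const_smul s).add_const _).add ((gll_diff_N F y w).hasDerivAt.const_smul l)
    have h1 := gll_hasDerivAt_eval F hγ
    have h2 : (fun t : ℂ => eval (s • gllP y t + (l * τ) • y 1 + l • gllN F y t) F) =
        fun t : ℂ => l * K.G t s (l * τ) l := by
      funext t
      rw [gll_expand hF.1 h, ← hK]
    rw [h2] at h1
    have h3 := h1.unique ((gllc_hasDerivAt_G K hol w s (l * τ) l).const_mul l)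
    rw [← hx, ← hg] at h3
    rw [h3]
    unfold GllCub.G
    unfold GllCub.hA GllCub.hB GllCub.hC at e4 ⊢
    linear_combination l ^ 2 * e4
  have d5 : dot g (gllN F y w) = 0 := by
    rw [gll_dot_add, gll_dot_smul, d3] at d2
    simpa using d2
  have d6 : dot g (deriv (gllN F y) w) = 0 := by
    rw [gll_dot_add, gll_dot_smul, gll_dot_smul, d3] at d4
    have h4 : l * dot g (deriv (gllN F y) w) = 0 := by simpa using d4
    exact (mul_eq_zero.1 h4).resolve_left hl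
  rw [hg] at d1 d3 d5 d6
  rw [hK] at hA1
  have hx0 := gll_kill hF h hA1 d1 d3 d5 d6
  rw [hx] at hx0
  exact hl (gll_frame_eq_zero hF h hx0).2.2

/-- **GLL-LEAD.**   `K = gllCub F y`, `δ = K.lead = B₁² - 4 A₁ C₁`.  Suppose `A₁ w₁ ≠ 0`, `δ w₁ = 0`, `δ' w₁ = 0`.  Put `s₁ = - B₁ w₁`, `a₁ = 2 A₁ w₁`, `x₁ = s₁ p w₁ + a₁ y 1`, `g₁ = grad F x₁`.
For every `w`:  `x₁ = s₁ p w + a (w) y 1` with `a (w) = a₁ - s₁ (w - w₁)`, so by `gll_dc`
      `g₁ · n w = K.G w s₁ (a w) 0 = a (w) Q₀ (w)`,   `Q₀ (w) = A₁ (w) s₁² + B₁ (w) s₁ a (w) + C₁ (w) a (w)²`.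
At `w₁`: `Q₀ = - A₁ δ = 0`, so `g₁ · n w₁ = 0`.   Derivative at `w₁` (left: `dot g₁ (deriv (gllN F y) w₁)`, `dot g₁ ·` is linear; right: product rule):
      `g₁ · n' w₁ = a' Q₀ + a₁ Q₀'`,   `Q₀' (w₁) = A₁' B₁² - 2 A₁ B₁ B₁' + 4 A₁² C₁' + (B₁ s₁ + 2 C₁ a₁) a' = (- A₁ δ' + A₁' δ) - δ a' = 0`   (`δ' = 2 B₁ B₁' - 4 A₁' C₁ - 4 A₁ C₁'`).
`g₁` kills `y 0, y 1` (`gll_grad_line`; `x₁ = s₁ y 0 + (s₁ w₁ + a₁) y 1`), hence `p w₁`.   `gll_kill` gives `x₁ = 0`, `gll_frame_eq_zero` (with `c = 0`) gives `a₁ = 0`: contradiction. -/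
theorem gll_noLead (hF : IsSmoothQuarticForm F) (h : GllLine F y) : (gllCub F y).NoLead := by
  intro w₁ hA1 hδ hδ'
  obtain ⟨K, hK⟩ : ∃ K, K = gllCub F y := ⟨_, rfl⟩
  rw [← hK] at hA1 hδ hδ'
  have hol : K.Hol := hK ▸ gll_hol F y
  have a1 := (hol.A₁ w₁).hasDerivAt
  have b1 := (hol.B₁ w₁).hasDerivAt
  have c1 := (hol.C₁ w₁).hasDerivAt
  -- the derivative of `lead`
  have hlead : deriv K.lead w₁ = 2 * K.B₁ w₁ * deriv K.B₁ w₁ -
      (4 * deriv K.A₁ w₁ * K.C₁ w₁ + 4 * K.A₁ w₁ * deriv K.C₁ w₁) := by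
    have h0 : HasDerivAt K.lead (((2 : ℕ) : ℂ) * K.B₁ w₁ ^ (2 - 1) * deriv K.B₁ w₁ -
        ((4 * deriv K.A₁ w₁) * K.C₁ w₁ + (4 * K.A₁ w₁) * deriv K.C₁ w₁)) w₁ :=
      (b1.pow 2).sub ((a1.const_mul 4).mul c1)
    rw [h0.deriv]
    push_cast
    ring
  rw [hlead] at hδ'
  unfold GllCub.lead at hδ
  obtain ⟨s₁, hs₁⟩ : ∃ s₁ : ℂ, s₁ = -K.B₁ w₁ := ⟨_, rfl⟩
  obtain ⟨a₁, ha₁⟩ : ∃ a₁ : ℂ, a₁ = 2 * K.A₁ w₁ := ⟨_, rfl⟩
  obtain ⟨x₁, hx₁⟩ : ∃ x₁ : V4, x₁ = s₁ • gllP y w₁ + a₁ • y 1 := ⟨_, rfl⟩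
  obtain ⟨g, hg⟩ : ∃ g : V4, g = grad F x₁ := ⟨_, rfl⟩
  have hxw : ∀ w : ℂ, x₁ = s₁ • gllP y w + (a₁ - s₁ * (w - w₁)) • y 1 := by
    intro w
    rw [hx₁]
    unfold gllP
    module
  have hgn : ∀ w : ℂ, dot g (gllN F y w) = K.G w s₁ (a₁ - s₁ * (w - w₁)) 0 := by
    intro w
    rw [hg, hK, ← gll_dc hF.1 h, ← hxw w]
  have hline := gll_grad_line h s₁ (s₁ * w₁ + a₁)
  have hx₁' : s₁ • y 0 + (s₁ * w₁ + a₁) • y 1 = x₁ := by
    rw [hx₁]
    unfold gllP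
    module
  rw [hx₁', ← hg] at hline
  have d0 : dot g (gllP y w₁) = 0 := by
    unfold gllP
    rw [gll_dot_add, gll_dot_smul, hline.1, hline.2]
    ring
  have d2 : dot g (gllN F y w₁) = 0 := by
    rw [hgn w₁]
    unfold GllCub.G GllCub.hA GllCub.hB GllCub.hC
    rw [hs₁, ha₁]
    linear_combination (-2 * K.A₁ w₁ ^ 2) * hδ
  have d3 : dot g (deriv (gllN F y) w₁) = 0 := by
    have hl : HasDerivAt (fun w => dot g (gllN F y w)) (dot g (deriv (gllN F y) w₁)) w₁ := by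
      have := (l2dotL g).hasFDerivAt.comp_hasDerivAt w₁ (gll_diff_N F y w₁).hasDerivAt
      simp only [l2dotL_apply] at this
      refine this.congr_of_eventuallyEq (Filter.Eventually.of_forall fun w => ?_)
      simp only [Function.comp, l2dotL_apply]
    have ha : HasDerivAt (fun w : ℂ => a₁ - s₁ * (w - w₁)) (-(s₁ * 1)) w₁ :=
      (((hasDerivAt_id w₁).sub_const w₁).const_mul s₁).const_sub a₁
    have hr : HasDerivAt (fun w => s₁ ^ 2 * (K.A₁ w * (a₁ - s₁ * (w - w₁))) + s₁ * (K.B₁ w * (a₁ - s₁ * (w - w₁)) ^ 2) +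
        K.C₁ w * (a₁ - s₁ * (w - w₁)) ^ 3)
        (s₁ ^ 2 * (deriv K.A₁ w₁ * (a₁ - s₁ * (w₁ - w₁)) + K.A₁ w₁ * (-(s₁ * 1))) +
          s₁ * (deriv K.B₁ w₁ * (a₁ - s₁ * (w₁ - w₁)) ^ 2 +
            K.B₁ w₁ * (((2 : ℕ) : ℂ) * (a₁ - s₁ * (w₁ - w₁)) ^ (2 - 1) * (-(s₁ * 1)))) +
          (deriv K.C₁ w₁ * (a₁ - s₁ * (w₁ - w₁)) ^ 3 +
            K.C₁ w₁ * (((3 : ℕ) : ℂ) * (a₁ - s₁ * (w₁ - w₁)) ^ (3 - 1) * (-(s₁ * 1))))) w₁ :=
      (((a1.mul ha).const_mul (s₁ ^ 2)).add ((b1.mul (ha.pow 2)).const_mul s₁)).add (c1.mul (ha.pow 3))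
    have hfun : (fun w => dot g (gllN F y w)) = fun w => s₁ ^ 2 * (K.A₁ w * (a₁ - s₁ * (w - w₁))) +
        s₁ * (K.B₁ w * (a₁ - s₁ * (w - w₁)) ^ 2) + K.C₁ w * (a₁ - s₁ * (w - w₁)) ^ 3 := by
      funext w
      rw [hgn w]
      unfold GllCub.G GllCub.hA GllCub.hB GllCub.hC
      ring
    rw [hfun] at hl
    rw [hl.unique hr, hs₁, ha₁]
    push_cast
    linear_combination (-2 * K.A₁ w₁ ^ 2) * hδ' + (2 * K.A₁ w₁ * deriv K.A₁ w₁ - 3 * K.A₁ w₁ * K.B₁ w₁) * hδ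
  rw [hg] at d0 d2 d3 hline
  rw [hK] at hA1
  have hx0 := gll_kill hF h hA1 d0 hline.2 d2 d3
  have hx0' : s₁ • gllP y w₁ + a₁ • y 1 + (0 : ℂ) • gllN F y w₁ = 0 := by
    rw [zero_smul, add_zero, ← hx₁, hx0]
  have := (gll_frame_eq_zero hF h hx0').2.1
  rw [ha₁, hK] at this
  exact hA1 (by simpa using this)

end Claimed.Agent.R245
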