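/-
Row 245 / S0484, GEO (architect helper18).   Package GEO-ROOTS: the roots of a holomorphic family of polynomials are holomorphic with
constant multiplicities on a subdisc.        ONE FILE = ONE PACKAGE = ONE OWNER.  Statement FROZEN; helper lemmas: prefix `gr_`, in this file.   Mathlib only.
-/
import Mathlib
import Claimed.Agent.R245.GeoZero

set_option autoImplicit false

namespace Claimed.Agent.R245

open Metric Set Filter Topology

open Polynomial in
/-- the statement for families of polynomials, by induction on the degree: split off one holomorphic root branch (`gz_branch`). -/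
theorem gr_main (n : ℕ) : ∀ (S : Set ℂ), IsOpen S → S.Nonempty → ∀ P : ℂ → Polynomial ℂ,
    (∀ i, DifferentiableOn ℂ (fun w => (P w).coeff i) S) → (∀ w ∈ S, (P w).natDegree = n) →
    ∃ (w₁ : ℂ) (r : ℝ) (k : ℕ) (ρ : Fin k → ℂ → ℂ) (m : Fin k → ℕ), 0 < r ∧ ball w₁ r ⊆ S ∧
      (∀ i, DifferentiableOn ℂ (ρ i) (ball w₁ r)) ∧ (∀ i, 1 ≤ m i) ∧ ∑ i, m i = n ∧
      (∀ w ∈ ball w₁ r, Function.Injective fun i => ρ i w) ∧
      ∀ w ∈ ball w₁ r, P w = C (P w).leadingCoeff * ∏ i, (X - C (ρ i w)) ^ m i := by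
  induction n with
  | zero =>
    intro S hS hne P hP hdeg
    obtain ⟨w₀, hw₀⟩ := hne
    obtain ⟨r, hr, hball⟩ := Metric.isOpen_iff.1 hS w₀ hw₀
    refine ⟨w₀, r, 0, fun i => i.elim0, fun i => i.elim0, hr, hball, fun i => i.elim0,
      fun i => i.elim0, by simp, fun w _ i => i.elim0, ?_⟩
    intro w hw
    have h0 := hdeg w (hball hw)
    have h1 := Polynomial.eq_C_of_natDegree_eq_zero h0
    have h2 : (P w).leadingCoeff = (P w).coeff 0 := by rw [Polynomial.leadingCoeff, h0]
    rw [h2]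
    simpa using h1
  | succ n ih =>
    intro S hS hne P hP hdeg
    set H : ℂ × ℂ → ℂ := fun z => (P z.1).eval z.2 with hH
    have hU : IsOpen (S ×ˢ (univ : Set ℂ)) := hS.prod isOpen_univ
    have hHd : DifferentiableOn ℂ H (S ×ˢ univ) := by
      have h1 : DifferentiableOn ℂ
          (fun z : ℂ × ℂ => ∑ i ∈ Finset.range (n + 1 + 1), (P z.1).coeff i * z.2 ^ i) (S ×ˢ univ) := by
        apply DifferentiableOn.fun_sum
        intro i _
        apply DifferentiableOn.mul
        · exact (hP i).comp differentiableOn_fst (fun z hz => hz.1)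
        · fun_prop
      refine h1.congr (fun z hz => ?_)
      simp only [hH]
      rw [Polynomial.eval_eq_sum_range, hdeg z.1 hz.1]
    have hPne : ∀ w ∈ S, P w ≠ 0 := by
      intro w hw h0
      have := hdeg w hw
      rw [h0] at this
      simp at this
    have hPdeg : ∀ w ∈ S, (P w).degree ≠ 0 := by
      intro w hw
      rw [Polynomial.degree_eq_natDegree (hPne w hw), hdeg w hw]
      norm_cast
    obtain ⟨w₀, hw₀⟩ := hne
    obtain ⟨τ₀, hτ₀⟩ := IsAlgClosed.exists_root (P w₀) (hPdeg w₀ hw₀)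
    have hA : ∀ z ∈ S ×ˢ (univ : Set ℂ), H z = 0 → ∃ j, gzD^[j] H z ≠ 0 := by
      rintro ⟨a, b⟩ hz _
      by_contra hcon
      push Not at hcon
      have hv := gz_vertical hU (scv_analyticOnNhd hU hHd) hz hcon
      apply hPne a hz.1
      apply Polynomial.eq_zero_of_infinite_isRoot
      exact infinite_of_mem_nhds b hv
    obtain ⟨a₁, ρ₀, ψ, hρ₀, hψa, hψ⟩ := gz_branch hU hHd ⟨(w₀, τ₀), ⟨hw₀, mem_univ _⟩, hτ₀⟩ hA
    have hsub : ball a₁ ρ₀ ⊆ S := fun a ha => (hψ a ha).1.1
    have hroot : ∀ a ∈ ball a₁ ρ₀, (P a).IsRoot (ψ a) := fun a ha => (hψ a ha).2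
    have hψd : DifferentiableOn ℂ ψ (ball a₁ ρ₀) :=
      fun a ha => (hψa a ha).differentiableAt.differentiableWithinAt
    set Q : ℂ → Polynomial ℂ := fun w => P w /ₘ (X - C (ψ w)) with hQ
    have hQP : ∀ a ∈ ball a₁ ρ₀, (X - C (ψ a)) * Q a = P a :=
      fun a ha => Polynomial.mul_divByMonic_eq_iff_isRoot.2 (hroot a ha)
    have hQc : ∀ i, DifferentiableOn ℂ (fun w => (Q w).coeff i) (ball a₁ ρ₀) := by
      intro i
      have h1 : DifferentiableOn ℂ
          (fun w => ∑ j ∈ Finset.Icc (i + 1) (n + 1), ψ w ^ (j - (i + 1)) * (P w).coeff j)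
          (ball a₁ ρ₀) := by
        apply DifferentiableOn.fun_sum
        intro j _
        exact (hψd.pow _).mul ((hP j).mono hsub)
      refine h1.congr (fun w hw => ?_)
      simp only [hQ]
      rw [Polynomial.coeff_divByMonic_X_sub_C, hdeg w (hsub hw)]
    have hQdeg : ∀ w ∈ ball a₁ ρ₀, (Q w).natDegree = n := by
      intro w hw
      simp only [hQ]
      rw [Polynomial.natDegree_divByMonic _ (Polynomial.monic_X_sub_C _), hdeg w (hsub hw),
        Polynomial.natDegree_X_sub_C]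
      rfl
    have hQlead : ∀ w ∈ ball a₁ ρ₀, (Q w).leadingCoeff = (P w).leadingCoeff := by
      intro w hw
      exact Polynomial.leadingCoeff_divByMonic_X_sub_C (P w) (hPdeg w (hsub hw)) (ψ w)
    obtain ⟨w₂, r, k, ρ, m, hr, hball, hρd, hm1, hmsum, hinj, hfac⟩ :=
      ih (ball a₁ ρ₀) isOpen_ball ⟨a₁, mem_ball_self hρ₀⟩ Q hQc hQdeg
    by_cases hcase : ∃ i₀, ∀ w ∈ ball w₂ r, ψ w = ρ i₀ w
    · obtain ⟨i₀, hi₀⟩ := hcase
      refine ⟨w₂, r, k, ρ, fun i => m i + if i = i₀ then 1 else 0, hr, hball.trans hsub, hρd,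
        fun i => (hm1 i).trans (Nat.le_add_right _ _), ?_, hinj, ?_⟩
      · rw [Finset.sum_add_distrib, hmsum]
        simp
      · intro w hw
        have e1 : ∏ i, (X - C (ρ i w)) ^ (m i + if i = i₀ then 1 else 0)
            = (∏ i, (X - C (ρ i w)) ^ m i) * (X - C (ρ i₀ w)) := by
          simp only [pow_add, Finset.prod_mul_distrib, pow_ite, pow_one, pow_zero,
            Finset.prod_ite_eq', Finset.mem_univ, if_true]
        rw [e1]
        calc P w = (X - C (ψ w)) * Q w := (hQP w (hball hw)).symm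
          _ = (X - C (ρ i₀ w)) * (C (P w).leadingCoeff * ∏ i, (X - C (ρ i w)) ^ m i) := by
              rw [hi₀ w hw, ← hQlead w (hball hw), ← hfac w hw]
          _ = _ := by ring
    · push Not at hcase
      have hev : ∀ i, ∀ᶠ z in 𝓝[≠] w₂, ψ z - ρ i z ≠ 0 := by
        intro i
        have han : AnalyticOnNhd ℂ (fun z => ψ z - ρ i z) (ball w₂ r) :=
          DifferentiableOn.analyticOnNhd ((hψd.mono hball).sub (hρd i)) isOpen_ball
        rcases (han w₂ (mem_ball_self hr)).eventually_eq_zero_or_eventually_ne_zero with h1 | h1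
        · exfalso
          obtain ⟨w, hw, hne⟩ := hcase i
          have h2 := han.eqOn_zero_of_preconnected_of_eventuallyEq_zero
            (convex_ball w₂ r).isPreconnected (mem_ball_self hr) h1
          exact hne (sub_eq_zero.1 (h2 hw))
        · exact h1
      have hev2 : ∀ᶠ z in 𝓝[≠] w₂, (∀ i, ψ z - ρ i z ≠ 0) ∧ z ∈ ball w₂ r :=
        (Filter.eventually_all.2 hev).and (mem_nhdsWithin_of_mem_nhds (ball_mem_nhds w₂ hr))
      obtain ⟨w₃, hw₃ne, hw₃⟩ := hev2.exists
      have hev3 : ∀ᶠ z in 𝓝 w₃, (∀ i, ψ z - ρ i z ≠ 0) ∧ z ∈ ball w₂ r := by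
        refine (Filter.eventually_all.2 (fun i => ?_)).and (isOpen_ball.mem_nhds hw₃)
        have hc : ContinuousAt (fun z => ψ z - ρ i z) w₃ :=
          (((hψd.mono hball).sub (hρd i)).differentiableAt (isOpen_ball.mem_nhds hw₃)).continuousAt
        exact hc.eventually_ne (hw₃ne i)
      obtain ⟨r₃, hr₃, hball₃⟩ := Metric.eventually_nhds_iff_ball.1 hev3
      have hsub₃ : ball w₃ r₃ ⊆ ball w₂ r := fun z hz => (hball₃ z hz).2
      refine ⟨w₃, r₃, k + 1, Fin.cons ψ ρ, Fin.cons 1 m, hr₃, (hsub₃.trans hball).trans hsub,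
        ?_, ?_, ?_, ?_, ?_⟩
      · intro i
        refine Fin.cases ?_ (fun i => ?_) i
        · simpa using hψd.mono (hsub₃.trans hball)
        · simpa using (hρd i).mono hsub₃
      · intro i
        refine Fin.cases ?_ (fun i => ?_) i
        · simp
        · simpa using hm1 i
      · rw [Fin.sum_univ_succ]
        simp only [Fin.cons_zero, Fin.cons_succ, hmsum]
        ring
      · intro w hw
        have e : (fun i => (Fin.cons ψ ρ : Fin (k + 1) → ℂ → ℂ) i w)
            = Fin.cons (ψ w) (fun i => ρ i w) := by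
          funext i
          refine Fin.cases ?_ (fun i => ?_) i <;> simp
        rw [e, Fin.cons_injective_iff]
        refine ⟨?_, hinj w (hsub₃ hw)⟩
        rintro ⟨i, hi⟩
        exact (hball₃ w hw).1 i (by rw [← hi]; simp)
      · intro w hw
        rw [Fin.prod_univ_succ]
        simp only [Fin.cons_zero, Fin.cons_succ, pow_one]
        calc P w = (X - C (ψ w)) * Q w := (hQP w (hball (hsub₃ hw))).symm
          _ = (X - C (ψ w)) * (C (P w).leadingCoeff * ∏ i, (X - C (ρ i w)) ^ m i) := by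
              rw [← hQlead w (hball (hsub₃ hw)), ← hfac w (hsub₃ hw)]
          _ = _ := by ring

/-- **(RT)**  `f_w (τ) = ∑ c_i (w) τ^i` of degree exactly `n` for all `w ∈ S` (`S` open, non empty).  There is a disc `ball w₁ r ⊆ S` on which
`f_w (τ) = c_n (w) ∏_i (τ - ρ_i (w)) ^ (m_i)` with `ρ_i` holomorphic, pairwise distinct at every point, `m_i ≥ 1` constant.
Route.  `P w : Polynomial ℂ := ∑ i, C (c i w) * X ^ i`, `natDegree = n`.  `N w := (P w).roots.toFinset.card ≤ n`.  Choose `w₁ ∈ S` where `N` is MAXIMAL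
(a bounded set of naturals).  Let `r_1 … r_k` be the distinct roots of `P w₁`, `m_i = rootMultiplicity`.  `∑ m_i = n` (`ℂ` algebraically closed: `IsAlgClosed.splits`, `card_roots`).
(a) IFT: `h_i (w, τ) = ∂_τ^{m_i - 1} f_w (τ)` vanishes at `(w₁, r_i)`, `∂_τ h_i (w₁, r_i) ≠ 0` (`Polynomial.lt_rootMultiplicity_iff_isRoot_iterate_derivative` and friends), so
there are a disc `Δ_i ∋ r_i` (pairwise disjoint discs), a neighbourhood of `w₁` and a holomorphic `ρ_i` with: `h_i (w, τ) = 0, τ ∈ Δ_i ⇔ τ = ρ_i (w)` (implicit function theorem over `ℂ`: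
`HasStrictFDerivAt.implicitFunction` or `ContDiffAt`-IFT for `(w, τ) ↦ (w, h_i (w, τ))`), and `∂_τ^{m_i} f_w ≠ 0` on `Δ_i` (continuity), so every root of `P w` in `Δ_i` has multiplicity `≤ m_i`.
(b) persistence: for `w` near `w₁`, `P w` has a root in each `Δ_i` (otherwise `1 / f_w` is holomorphic on the closed disc; maximum modulus: `|1 / f_w (r_i)| ≤ max_{∂Δ_i} |1 / f_w|`, but
`f_w (r_i) → 0` while `min_{∂Δ_i} |f_w| → min_{∂Δ_i} |f_{w₁}| > 0`; `Complex.norm_le_of_forall_mem_frontier_norm_le`).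
(c) counting: `N w ≥ k = N w₁`, and `N w ≤ N w₁` by maximality, so `P w` has exactly one root `ρ'_i` in each `Δ_i` and no other root; multiplicities `m'_i ≤ m_i`, `∑ m'_i = n = ∑ m_i`, so `m'_i = m_i`;
then `∂_τ^{m_i - 1} f_w (ρ'_i) = 0`, so `ρ'_i = ρ_i (w)`.  Factorisation: `Polynomial.eq_prod_roots_of_splits` / `C_leadingCoeff_mul_prod_multiset_X_sub_C`. -/
theorem gr_roots {S : Set ℂ} (hS : IsOpen S) (hne : S.Nonempty) (n : ℕ) (c : Fin (n + 1) → ℂ → ℂ)
    (hc : ∀ i, DifferentiableOn ℂ (c i) S) (hlead : ∀ w ∈ S, c (Fin.last n) w ≠ 0) :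
    ∃ (w₁ : ℂ) (r : ℝ) (k : ℕ) (ρ : Fin k → ℂ → ℂ) (m : Fin k → ℕ), 0 < r ∧ ball w₁ r ⊆ S ∧
      (∀ i, DifferentiableOn ℂ (ρ i) (ball w₁ r)) ∧ (∀ i, 1 ≤ m i) ∧ ∑ i, m i = n ∧
      (∀ w ∈ ball w₁ r, Function.Injective fun i => ρ i w) ∧
      ∀ w ∈ ball w₁ r, ∀ τ : ℂ,
        ∑ i : Fin (n + 1), c i w * τ ^ (i : ℕ) = c (Fin.last n) w * ∏ i, (τ - ρ i w) ^ m i := by
  set P : ℂ → Polynomial ℂ :=
    fun w => ∑ i : Fin (n + 1), Polynomial.C (c i w) * Polynomial.X ^ (i : ℕ) with hP
  have hcoeff : ∀ w j, (P w).coeff j = ∑ i : Fin (n + 1), if j = (i : ℕ) then c i w else 0 := by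
    intro w j
    simp only [hP, Polynomial.finsetSum_coeff, Polynomial.coeff_C_mul_X_pow]
  have hcn : ∀ w, (P w).coeff n = c (Fin.last n) w := by
    intro w
    rw [hcoeff, Finset.sum_eq_single (Fin.last n)]
    · simp
    · intro i _ hi
      rw [if_neg]
      intro h
      exact hi (Fin.ext (by simpa using h.symm))
    · simp
  have hdeg : ∀ w ∈ S, (P w).natDegree = n := by
    intro w hw
    apply Polynomial.natDegree_eq_of_le_of_coeff_ne_zero
    · apply Polynomial.natDegree_sum_le_of_forall_le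
      intro i _
      exact (Polynomial.natDegree_C_mul_X_pow_le _ _).trans (Nat.lt_succ_iff.1 i.2)
    · rw [hcn]; exact hlead w hw
  have hdiff : ∀ j, DifferentiableOn ℂ (fun w => (P w).coeff j) S := by
    intro j
    simp only [hcoeff]
    apply DifferentiableOn.fun_sum
    intro i _
    by_cases h : j = (i : ℕ)
    · simpa [h] using hc i
    · simp only [if_neg h]
      exact differentiableOn_const 0
  obtain ⟨w₁, r, k, ρ, m, hr, hball, hρd, hm1, hmsum, hinj, hfac⟩ := gr_main n S hS hne P hdiff hdeg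
  refine ⟨w₁, r, k, ρ, m, hr, hball, hρd, hm1, hmsum, hinj, ?_⟩
  intro w hw τ
  have h1 := congrArg (Polynomial.eval τ) (hfac w hw)
  have h2 : (P w).leadingCoeff = c (Fin.last n) w := by
    rw [Polynomial.leadingCoeff, hdeg w (hball hw), hcn]
  rw [h2] at h1
  simpa [hP, Polynomial.eval_finsetSum, Polynomial.eval_prod] using h1

end Claimed.Agent.R245
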