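/-
Row 245 / S0484, GEO-L (architect helper187).   The discriminant quartic of the family of cubics is squarefree over a small disc.   ABSTRACT: only nine entire functions and the two properties `NoCrit`, `NoLead`; no geometry.
Packages (one owner each, touch only your theorem; helper lemmas directly above it, prefix `gllq_`):
  GLL-SQ-OPEN  gll_sq_open, gll_sqrt      (~80 lines)
  GLL-SQ-MULT  gll_sq_mult                (~200 lines)
  GLL-SQ-ROOTS gll_sq_roots               (~150 lines; black boxes `gr_roots`, `gll_sq_mult`)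
The glue `gll_sqfree` is proved.
-/
import Claimed.Agent.R245.GeoLDefs
import Claimed.Agent.R245.GeoRoots

set_option autoImplicit false

namespace Claimed.Agent.R245

open Metric Set Filter Topology

/-- a point where `A₁` and `lead` do not vanish.
Route: `A₁ w_a ≠ 0`.  If `lead w_a ≠ 0` done.  Otherwise `deriv lead w_a ≠ 0` (`hL`), so `lead` is not eventually `0` near `w_a` (an eventually zero function has derivative `0`: `Filter.EventuallyEq.deriv_eq`); `A₁ ≠ 0` near `w_a` by continuity;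
`Filter.Eventually`/`Frequently` give the point. -/
theorem gll_sq_open (K : GllCub) (hK : K.Hol) (hA : ∃ w, K.A₁ w ≠ 0) (hL : K.NoLead) :
    ∃ w, K.A₁ w ≠ 0 ∧ K.lead w ≠ 0 := by
  obtain ⟨wa, hwa⟩ := hA
  by_cases h0 : K.lead wa = 0
  · by_contra hcon
    push Not at hcon
    have h1 : ∀ᶠ w in 𝓝 wa, K.A₁ w ≠ 0 := hK.A₁.continuous.continuousAt.eventually_ne hwa
    have h2 : K.lead =ᶠ[𝓝 wa] fun _ => 0 := h1.mono fun w hw => hcon w hw
    have h3 : deriv K.lead wa = 0 := by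
      rw [h2.deriv_eq]
      simp
    exact hL wa hwa h0 h3
  · exact ⟨wa, hwa, h0⟩

/-- a holomorphic square root near a point where the function does not vanish.
Route: `e` with `e ^ 2 = f w₁` (`IsAlgClosed.exists_pow_nat_eq` or `Complex.cpow`); `f w / f w₁ ∈ Complex.slitPlane` for `w` near `w₁` (continuity, value `1`); `q w = e * Complex.exp (Complex.log (f w / f w₁) / 2)`;
`DifferentiableAt.clog`, `Complex.exp_log`. -/
theorem gll_sqrt {f : ℂ → ℂ} {w₁ : ℂ} {r : ℝ} (hr : 0 < r) (hf : DifferentiableOn ℂ f (ball w₁ r)) (hne : f w₁ ≠ 0) :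
    ∃ (b : ℝ) (q : ℂ → ℂ), 0 < b ∧ b ≤ r ∧ DifferentiableOn ℂ q (ball w₁ b) ∧ ∀ w ∈ ball w₁ b, q w ^ 2 = f w := by
  obtain ⟨e, he⟩ := IsAlgClosed.exists_pow_nat_eq (f w₁) (n := 2) (by norm_num)
  have hfa : ∀ w ∈ ball w₁ r, DifferentiableAt ℂ f w := fun w hw =>
    (hf w hw).differentiableAt (isOpen_ball.mem_nhds hw)
  have hc : ContinuousAt (fun w => f w / f w₁) w₁ :=
    ((hfa w₁ (mem_ball_self hr)).continuousAt).div_const _
  have h1 : ∀ᶠ w in 𝓝 w₁, f w / f w₁ ∈ Complex.slitPlane := by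
    refine hc.eventually_mem (Complex.isOpen_slitPlane.mem_nhds ?_)
    rw [div_self hne]
    exact Complex.one_mem_slitPlane
  obtain ⟨b', hb', hsub⟩ := Metric.eventually_nhds_iff_ball.1 h1
  refine ⟨min b' r, fun w => e * Complex.exp (Complex.log (f w / f w₁) / 2), lt_min hb' hr,
    min_le_right _ _, fun w hw => ?_, fun w hw => ?_⟩
  · have hw1 : w ∈ ball w₁ b' := ball_subset_ball (min_le_left _ _) hw
    have hw2 : w ∈ ball w₁ r := ball_subset_ball (min_le_right _ _) hw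
    have d1 : DifferentiableAt ℂ (fun w => f w / f w₁) w := (hfa w hw2).div_const _
    have d2 : DifferentiableAt ℂ (fun w => Complex.log (f w / f w₁)) w := d1.clog (hsub w hw1)
    exact (((d2.div_const 2).cexp).const_mul e).differentiableWithinAt
  · have hw1 : w ∈ ball w₁ b' := ball_subset_ball (min_le_left _ _) hw
    have hn : f w / f w₁ ≠ 0 := Complex.slitPlane_ne_zero (hsub w hw1)
    show (e * Complex.exp (Complex.log (f w / f w₁) / 2)) ^ 2 = f w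
    rw [mul_pow, he, ← Complex.exp_nat_mul]
    have e2 : ((2 : ℕ) : ℂ) * (Complex.log (f w / f w₁) / 2) = Complex.log (f w / f w₁) := by
      push_cast
      ring
    rw [e2, Complex.exp_log hn, mul_div_cancel₀ _ hne]

/-- `u² h` has derivative `0` at a zero of `u` -/
theorem gllq_hasDerivAt_sq_mul {u h : ℂ → ℂ} {x : ℂ} (hu : DifferentiableAt ℂ u x)
    (hh : DifferentiableAt ℂ h x) (h0 : u x = 0) : HasDerivAt (fun y => u y ^ 2 * h y) 0 x := by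
  have h1 := (hu.hasDerivAt.pow 2).mul hh.hasDerivAt
  have e : (0 : ℂ) = ((2 : ℕ) : ℂ) * u x ^ (2 - 1) * deriv u x * h x + u x ^ 2 * deriv h x := by
    rw [h0]
    simp
  rw [e]
  exact h1

theorem gllq_dA {a₁ a₂ T : ℂ → ℂ} {a₁' a₂' T' x : ℂ} (h₁ : HasDerivAt a₁ a₁' x) (h₂ : HasDerivAt a₂ a₂' x)
    (hT : HasDerivAt T T' x) :
    HasDerivAt (fun x => a₁ x * T x + a₂ x * 1) ((a₁' * T x + a₂' * 1) + a₁ x * T') x := by
  have h := (h₁.mul hT).add (h₂.mul_const 1)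
  refine h.congr_deriv ?_
  ring

theorem gllq_dB {b₁ b₂ b₃ T : ℂ → ℂ} {b₁' b₂' b₃' T' x : ℂ} (h₁ : HasDerivAt b₁ b₁' x)
    (h₂ : HasDerivAt b₂ b₂' x) (h₃ : HasDerivAt b₃ b₃' x) (hT : HasDerivAt T T' x) :
    HasDerivAt (fun x => b₁ x * T x ^ 2 + b₂ x * T x * 1 + b₃ x * 1 ^ 2)
      ((b₁' * T x ^ 2 + b₂' * T x * 1 + b₃' * 1 ^ 2) + (2 * b₁ x * T x + b₂ x) * T') x := by
  have h := ((h₁.mul (hT.pow 2)).add ((h₂.mul hT).mul_const 1)).add (h₃.mul_const (1 ^ 2))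
  refine h.congr_deriv ?_
  simp only [Pi.pow_apply]
  push_cast
  ring

theorem gllq_dC {c₁ c₂ c₃ c₄ T : ℂ → ℂ} {c₁' c₂' c₃' c₄' T' x : ℂ} (h₁ : HasDerivAt c₁ c₁' x)
    (h₂ : HasDerivAt c₂ c₂' x) (h₃ : HasDerivAt c₃ c₃' x) (h₄ : HasDerivAt c₄ c₄' x)
    (hT : HasDerivAt T T' x) :
    HasDerivAt (fun x => c₁ x * T x ^ 3 + c₂ x * T x ^ 2 * 1 + c₃ x * T x * 1 ^ 2 + c₄ x * 1 ^ 3)
      ((c₁' * T x ^ 3 + c₂' * T x ^ 2 * 1 + c₃' * T x * 1 ^ 2 + c₄' * 1 ^ 3)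
        + (3 * c₁ x * T x ^ 2 + 2 * c₂ x * T x + c₃ x) * T') x := by
  have h := (((h₁.mul (hT.pow 3)).add ((h₂.mul (hT.pow 2)).mul_const 1)).add
    ((h₃.mul hT).mul_const (1 ^ 2))).add (h₄.mul_const (1 ^ 3))
  refine h.congr_deriv ?_
  simp only [Pi.pow_apply]
  push_cast
  ring

theorem gllq_dD {A B C : ℂ → ℂ} {A' B' C' x : ℂ} (hA : HasDerivAt A A' x) (hB : HasDerivAt B B' x)
    (hC : HasDerivAt C C' x) :
    HasDerivAt (fun x => B x ^ 2 - 4 * A x * C x) (2 * B x * B' - 4 * A' * C x - 4 * A x * C') x := by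
  have h := (hB.pow 2).sub ((hA.const_mul 4).mul hC)
  refine h.congr_deriv ?_
  push_cast
  ring

/-- the three forms along a curve `τ = T w` -/
theorem gllq_curve (K : GllCub) (hK : K.Hol) {T : ℂ → ℂ} {T' w : ℂ} (hT : HasDerivAt T T' w) :
    HasDerivAt (fun w => K.hA w (T w) 1) (K.dw.hA w (T w) 1 + K.A₁ w * T') w ∧
    HasDerivAt (fun w => K.hB w (T w) 1) (K.dw.hB w (T w) 1 + (2 * K.B₁ w * T w + K.B₂ w) * T') w ∧
    HasDerivAt (fun w => K.hC w (T w) 1)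
      (K.dw.hC w (T w) 1 + (3 * K.C₁ w * T w ^ 2 + 2 * K.C₂ w * T w + K.C₃ w) * T') w :=
  ⟨gllq_dA (hK.A₁ w).hasDerivAt (hK.A₂ w).hasDerivAt hT,
    gllq_dB (hK.B₁ w).hasDerivAt (hK.B₂ w).hasDerivAt (hK.B₃ w).hasDerivAt hT,
    gllq_dC (hK.C₁ w).hasDerivAt (hK.C₂ w).hasDerivAt (hK.C₃ w).hasDerivAt (hK.C₄ w).hasDerivAt hT⟩

/-- the derivative of the discriminant in the direction `τ` -/
theorem gllq_disc_τ (K : GllCub) (w τ : ℂ) :
    HasDerivAt (fun t => K.disc w t 1)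
      (2 * K.hB w τ 1 * (2 * K.B₁ w * τ + K.B₂ w) - 4 * K.A₁ w * K.hC w τ 1
        - 4 * K.hA w τ 1 * (3 * K.C₁ w * τ ^ 2 + 2 * K.C₂ w * τ + K.C₃ w)) τ := by
  have hT := hasDerivAt_id τ
  have hA := gllq_dA (hasDerivAt_const τ (K.A₁ w)) (hasDerivAt_const τ (K.A₂ w)) hT
  have hB := gllq_dB (hasDerivAt_const τ (K.B₁ w)) (hasDerivAt_const τ (K.B₂ w))
    (hasDerivAt_const τ (K.B₃ w)) hT
  have hC := gllq_dC (hasDerivAt_const τ (K.C₁ w)) (hasDerivAt_const τ (K.C₂ w))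
    (hasDerivAt_const τ (K.C₃ w)) (hasDerivAt_const τ (K.C₄ w)) hT
  have h := gllq_dD hA hB hC
  refine HasDerivAt.congr_deriv (f := fun t => K.disc w t 1) h ?_
  simp only [id, GllCub.hA, GllCub.hB, GllCub.hC]
  ring

/-- the derivative of the discriminant in the direction `w` -/
theorem gllq_disc_w (K : GllCub) (hK : K.Hol) (w τ : ℂ) :
    HasDerivAt (fun w => K.disc w τ 1)
      (2 * K.hB w τ 1 * K.dw.hB w τ 1 - 4 * K.dw.hA w τ 1 * K.hC w τ 1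
        - 4 * K.hA w τ 1 * K.dw.hC w τ 1) w := by
  obtain ⟨hA, hB, hC⟩ := gllq_curve K hK (hasDerivAt_const w τ)
  have h := gllq_dD hA hB hC
  refine HasDerivAt.congr_deriv (f := fun w => K.disc w τ 1) h ?_
  ring

/-- **No holomorphic multiple root.**    Notation at a point `(w, τ)`: `A = K.hA w τ 1`, `B = K.hB w τ 1`, `C = K.hC w τ 1`, `D = K.disc w τ 1 = B² - 4 A C`;
`A_τ = A₁`, `B_τ = 2 B₁ τ + B₂`, `C_τ = 3 C₁ τ² + 2 C₂ τ + C₃`;  `A_w = K.dw.hA w τ 1`, … (`K.dw.A₁ = deriv K.A₁` by definition).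
(0) From `hfact` (general fact: `u² h` has derivative `0` where `u = 0`; `HasDerivAt.unique` against the explicit derivative): for every `w₂` in the disc, at `(w₂, ρ w₂)`:
   `D = 0`,  `D_τ = 2 B B_τ - 4 A_τ C - 4 A C_τ = 0`  (derivative of `τ ↦ D (w₂, τ)` at `ρ w₂`),  `D_w = 2 B B_w - 4 A_w C - 4 A C_w = 0`  (derivative of `w ↦ D (w, ρ w₂)` at `w₂`; here `u (w) = ρ w₂ - ρ w`).
(1) If `A ≠ 0` at `(w₂, ρ w₂)` for some `w₂`:  `hC w₂ (ρ w₂) (- B) (2 A)`:   `2 A (- B) + B (2 A) = 0`;  `B (- B) + 2 C (2 A) = - D`;  `A_τ B² - 2 A B B_τ + 4 A² C_τ = - A D_τ + A_τ D`;  the same with `w`.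
(2) Otherwise `A (w, ρ w) = 0` on the disc; `B² = D + 4 A C = 0`; `D_τ = - 4 A₁ C`, so `C (w, ρ w) = 0` too.  Differentiate the three identities at `w₁` (chain rule): `A_w + A_τ ρ' = 0`, `B_w + B_τ ρ' = 0`, `C_w + C_τ ρ' = 0`.
   Choose `s` with `A₁ s² + B_τ s + C_τ = 0` (`exists_quadratic_eq_zero`, every complex number is a square: `IsAlgClosed.exists_pow_nat_eq` / `Complex.cpow`), `l = 1`:   `hC w₁ (ρ w₁) s 1`; the last equation is `- ρ'` times the third. -/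
theorem gll_sq_mult (K : GllCub) (hK : K.Hol) (hC : K.NoCrit) {w₁ : ℂ} {r : ℝ} (hr : 0 < r) {ρ : ℂ → ℂ}
    {E : ℂ → ℂ → ℂ} (hA₁ : ∀ w ∈ ball w₁ r, K.A₁ w ≠ 0) (hρ : DifferentiableOn ℂ ρ (ball w₁ r))
    (hE1 : ∀ τ, DifferentiableOn ℂ (fun w => E w τ) (ball w₁ r)) (hE2 : ∀ w ∈ ball w₁ r, Differentiable ℂ (E w))
    (hfact : ∀ w ∈ ball w₁ r, ∀ τ : ℂ, K.disc w τ 1 = (τ - ρ w) ^ 2 * E w τ) : False := by
  have hρa : ∀ w ∈ ball w₁ r, DifferentiableAt ℂ ρ w := fun w hw =>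
    (hρ w hw).differentiableAt (isOpen_ball.mem_nhds hw)
  -- (0)
  have hD : ∀ w ∈ ball w₁ r, K.hB w (ρ w) 1 ^ 2 - 4 * K.hA w (ρ w) 1 * K.hC w (ρ w) 1 = 0 := fun w hw => by
    have h := hfact w hw (ρ w)
    rw [sub_self] at h
    simpa [GllCub.disc] using h
  have hDτ : ∀ w ∈ ball w₁ r,
      2 * K.hB w (ρ w) 1 * (2 * K.B₁ w * ρ w + K.B₂ w) - 4 * K.A₁ w * K.hC w (ρ w) 1
        - 4 * K.hA w (ρ w) 1 * (3 * K.C₁ w * ρ w ^ 2 + 2 * K.C₂ w * ρ w + K.C₃ w) = 0 := fun w hw => by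
    have h1 := gllq_disc_τ K w (ρ w)
    have e : (fun t => K.disc w t 1) = fun t => (t - ρ w) ^ 2 * E w t := funext (hfact w hw)
    rw [e] at h1
    exact h1.unique (gllq_hasDerivAt_sq_mul (u := fun t => t - ρ w) (by fun_prop) (hE2 w hw _)
      (sub_self _))
  have hDw : ∀ w ∈ ball w₁ r,
      2 * K.hB w (ρ w) 1 * K.dw.hB w (ρ w) 1 - 4 * K.dw.hA w (ρ w) 1 * K.hC w (ρ w) 1
        - 4 * K.hA w (ρ w) 1 * K.dw.hC w (ρ w) 1 = 0 := fun w hw => by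
    have h1 := gllq_disc_w K hK w (ρ w)
    have e : (fun v => (ρ w - ρ v) ^ 2 * E v (ρ w)) =ᶠ[𝓝 w] fun v => K.disc v (ρ w) 1 := by
      filter_upwards [isOpen_ball.mem_nhds hw] with v hv
      exact (hfact v hv (ρ w)).symm
    have h2 := h1.congr_of_eventuallyEq e
    exact h2.unique (gllq_hasDerivAt_sq_mul (u := fun v => ρ w - ρ v)
      ((differentiableAt_const _).sub (hρa w hw))
      ((hE1 (ρ w) w hw).differentiableAt (isOpen_ball.mem_nhds hw)) (sub_self _))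
  by_cases hcase : ∃ w ∈ ball w₁ r, K.hA w (ρ w) 1 ≠ 0
  · -- (1)
    obtain ⟨w, hw, hAne⟩ := hcase
    have d := hD w hw
    have dτ := hDτ w hw
    have dw := hDw w hw
    exact hC w (ρ w) (-K.hB w (ρ w) 1) (2 * K.hA w (ρ w) 1) (hA₁ w hw) (mul_ne_zero two_ne_zero hAne)
      (by ring) (by linear_combination -d)
      (by linear_combination (-K.hA w (ρ w) 1) * dτ + K.A₁ w * d)
      (by linear_combination (-K.hA w (ρ w) 1) * dw + K.dw.hA w (ρ w) 1 * d)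
  · -- (2)
    push Not at hcase
    have hB0 : ∀ w ∈ ball w₁ r, K.hB w (ρ w) 1 = 0 := fun w hw => by
      have d := hD w hw
      rw [hcase w hw] at d
      have : K.hB w (ρ w) 1 ^ 2 = 0 := by linear_combination d
      exact pow_eq_zero_iff (two_ne_zero) |>.1 this
    have hC0 : ∀ w ∈ ball w₁ r, K.hC w (ρ w) 1 = 0 := fun w hw => by
      have dτ := hDτ w hw
      rw [hcase w hw, hB0 w hw] at dτ
      have : K.A₁ w * K.hC w (ρ w) 1 = 0 := by linear_combination (-1 / 4 : ℂ) * dτ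
      exact (mul_eq_zero.1 this).resolve_left (hA₁ w hw)
    have hw₁ : w₁ ∈ ball w₁ r := mem_ball_self hr
    obtain ⟨cA, cB, cC⟩ := gllq_curve K hK (hρa w₁ hw₁).hasDerivAt
    have hz : ∀ {g : ℂ → ℂ} {g' : ℂ}, HasDerivAt g g' w₁ → (∀ w ∈ ball w₁ r, g w = 0) → g' = 0 := by
      intro g g' hg h0
      have e : (fun _ => (0 : ℂ)) =ᶠ[𝓝 w₁] g := by
        filter_upwards [isOpen_ball.mem_nhds hw₁] with v hv
        exact (h0 v hv).symm
      exact (hg.congr_of_eventuallyEq e).unique (hasDerivAt_const w₁ 0)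
    have eA := hz cA hcase
    have eB := hz cB hB0
    have eC := hz cC hC0
    obtain ⟨s, hs⟩ : ∃ s : ℂ, K.A₁ w₁ * (s * s) + (2 * K.B₁ w₁ * ρ w₁ + K.B₂ w₁) * s
        + (3 * K.C₁ w₁ * ρ w₁ ^ 2 + 2 * K.C₂ w₁ * ρ w₁ + K.C₃ w₁) = 0 := by
      refine exists_quadratic_eq_zero (hA₁ w₁ hw₁) ?_
      obtain ⟨z, hz⟩ := IsAlgClosed.exists_pow_nat_eq (discrim (K.A₁ w₁) (2 * K.B₁ w₁ * ρ w₁ + K.B₂ w₁)
        (3 * K.C₁ w₁ * ρ w₁ ^ 2 + 2 * K.C₂ w₁ * ρ w₁ + K.C₃ w₁)) (n := 2) (by norm_num)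
      exact ⟨z, by rw [← hz]; ring⟩
    exact hC w₁ (ρ w₁) s 1 (hA₁ w₁ hw₁) one_ne_zero
      (by rw [hcase w₁ hw₁, hB0 w₁ hw₁]; ring) (by rw [hB0 w₁ hw₁, hC0 w₁ hw₁]; ring)
      (by linear_combination hs)
      (by linear_combination s ^ 2 * eA + s * eB + eC - deriv ρ w₁ * hs)

/-- **Four simple holomorphic roots.**
Route: `K.disc w τ 1 = ∑ i : Fin 5, c i w * τ ^ i` with `c = ![B₃² - 4 A₂ C₄, 2 B₂ B₃ - 4 (A₁ C₄ + A₂ C₃), B₂² + 2 B₁ B₃ - 4 (A₁ C₃ + A₂ C₂), 2 B₁ B₂ - 4 (A₁ C₂ + A₂ C₁), B₁² - 4 A₁ C₁]` (`Fin.sum_univ_succ`, `ring`), `c (Fin.last 4) = K.lead`.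
`gr_roots hS hne 4 c` gives `w₁, r, k, ρ, m`.  If `2 ≤ m i` for some `i`: `gll_sq_mult` with `ρ i` and `E w τ = lead w * (τ - ρ i w) ^ (m i - 2) * ∏ j ∈ univ.erase i, (τ - ρ j w) ^ m j` (`Finset.mul_prod_erase`, `pow_add`): contradiction.
So `m i = 1` for all `i`, `k = ∑ m i = 4`; `subst`; `Fin.prod_univ_four`. -/
theorem gll_sq_roots (K : GllCub) (hK : K.Hol) (hC : K.NoCrit) {S : Set ℂ} (hS : IsOpen S) (hne : S.Nonempty)
    (hA₁ : ∀ w ∈ S, K.A₁ w ≠ 0) (hlead : ∀ w ∈ S, K.lead w ≠ 0) :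
    ∃ (w₁ : ℂ) (r : ℝ) (ρ : Fin 4 → ℂ → ℂ), 0 < r ∧ ball w₁ r ⊆ S ∧ (∀ i, DifferentiableOn ℂ (ρ i) (ball w₁ r)) ∧
      (∀ w ∈ ball w₁ r, ∀ i j, i ≠ j → ρ i w ≠ ρ j w) ∧
      ∀ w ∈ ball w₁ r, ∀ τ : ℂ,
        K.disc w τ 1 = K.lead w * ((τ - ρ 0 w) * (τ - ρ 1 w) * (τ - ρ 2 w) * (τ - ρ 3 w)) := by
  have a1 := hK.A₁
  have a2 := hK.A₂
  have b1 := hK.B₁
  have b2 := hK.B₂
  have b3 := hK.B₃
  have c1 := hK.C₁
  have c2 := hK.C₂
  have c3 := hK.C₃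
  have c4 := hK.C₄
  have hleadd : Differentiable ℂ K.lead := by
    unfold GllCub.lead
    fun_prop
  obtain ⟨c, hc0, hc1, hc2, hc3, hc4⟩ : ∃ c : Fin 5 → ℂ → ℂ,
      (c 0 = fun w => K.B₃ w ^ 2 - 4 * K.A₂ w * K.C₄ w) ∧
      (c 1 = fun w => 2 * K.B₂ w * K.B₃ w - 4 * (K.A₁ w * K.C₄ w + K.A₂ w * K.C₃ w)) ∧
      (c 2 = fun w => K.B₂ w ^ 2 + 2 * K.B₁ w * K.B₃ w - 4 * (K.A₁ w * K.C₃ w + K.A₂ w * K.C₂ w)) ∧
      (c 3 = fun w => 2 * K.B₁ w * K.B₂ w - 4 * (K.A₁ w * K.C₂ w + K.A₂ w * K.C₁ w)) ∧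
      (c 4 = K.lead) :=
    ⟨![fun w => K.B₃ w ^ 2 - 4 * K.A₂ w * K.C₄ w,
      fun w => 2 * K.B₂ w * K.B₃ w - 4 * (K.A₁ w * K.C₄ w + K.A₂ w * K.C₃ w),
      fun w => K.B₂ w ^ 2 + 2 * K.B₁ w * K.B₃ w - 4 * (K.A₁ w * K.C₃ w + K.A₂ w * K.C₂ w),
      fun w => 2 * K.B₁ w * K.B₂ w - 4 * (K.A₁ w * K.C₂ w + K.A₂ w * K.C₁ w), K.lead],
      rfl, rfl, rfl, rfl, rfl⟩
  have hlast : c (Fin.last 4) = K.lead := hc4
  have hdisc : ∀ w τ, K.disc w τ 1 = ∑ i : Fin (4 + 1), c i w * τ ^ (i : ℕ) := by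
    intro w τ
    rw [Fin.sum_univ_five, hc0, hc1, hc2, hc3, hc4]
    simp only [GllCub.disc, GllCub.hA, GllCub.hB, GllCub.hC, GllCub.lead]
    simp
    ring
  have hcd : ∀ i, DifferentiableOn ℂ (c i) S := by
    intro i
    apply Differentiable.differentiableOn
    fin_cases i
    · show Differentiable ℂ (c 0); rw [hc0]; fun_prop
    · show Differentiable ℂ (c 1); rw [hc1]; fun_prop
    · show Differentiable ℂ (c 2); rw [hc2]; fun_prop
    · show Differentiable ℂ (c 3); rw [hc3]; fun_prop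
    · show Differentiable ℂ (c 4); rw [hc4]; exact hleadd
  obtain ⟨w₁, r, k, ρ, m, hr, hball, hρd, hm1, hmsum, hinj, hfac⟩ := gr_roots hS hne 4 c hcd
    (by intro w hw; rw [hlast]; exact hlead w hw)
  have hm : ∀ i, m i = 1 := by
    intro i
    by_contra hne1
    have h2 : 2 ≤ m i := by have := hm1 i; omega
    refine gll_sq_mult K hK hC hr (ρ := ρ i)
      (E := fun w τ => K.lead w * (τ - ρ i w) ^ (m i - 2) *
        ∏ j ∈ Finset.univ.erase i, (τ - ρ j w) ^ m j)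
      (fun w hw => hA₁ w (hball hw)) (hρd i) ?_ ?_ ?_
    · intro τ
      refine (hleadd.differentiableOn.mul (((differentiableOn_const τ).sub (hρd i)).pow _)).mul ?_
      exact DifferentiableOn.fun_finsetProd
        (fun j _ => ((differentiableOn_const τ).sub (hρd j)).pow _)
    · intro w _
      refine ((differentiable_const _).mul ((differentiable_id.sub_const _).pow _)).mul ?_
      exact Differentiable.fun_finsetProd (fun j _ => (differentiable_id.sub_const _).pow _)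
    · intro w hw τ
      rw [hdisc, hfac w hw τ, ← Finset.mul_prod_erase Finset.univ _ (Finset.mem_univ i), hlast]
      have : (τ - ρ i w) ^ m i = (τ - ρ i w) ^ 2 * (τ - ρ i w) ^ (m i - 2) := by
        rw [← pow_add]
        congr 1
        omega
      rw [this]
      ring
  have hk : k = 4 := by simpa [hm] using hmsum
  subst hk
  refine ⟨w₁, r, ρ, hr, hball, hρd, fun w hw i j hij h => hij (hinj w hw h), ?_⟩
  intro w hw τ
  rw [hdisc, hfac w hw τ, hlast]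
  simp [hm, Fin.prod_univ_four]

theorem GllCub.Hol.lead {K : GllCub} (hK : K.Hol) : Differentiable ℂ K.lead := by
  have h1 := hK.A₁
  have h2 := hK.B₁
  have h3 := hK.C₁
  unfold GllCub.lead
  fun_prop

/-- **The discriminant quartic is squarefree over a disc** (glue). -/
theorem gll_sqfree (K : GllCub) (hK : K.Hol) (hA : ∃ w, K.A₁ w ≠ 0) (hC : K.NoCrit) (hL : K.NoLead) :
    ∃ (w₀ : ℂ) (b : ℝ) (ρ : Fin 4 → ℂ → ℂ) (q : ℂ → ℂ), GllRoots K w₀ b ρ q := by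
  obtain ⟨wa, hwa1, hwa2⟩ := gll_sq_open K hK hA hL
  have hS : IsOpen {w | K.A₁ w ≠ 0 ∧ K.lead w ≠ 0} :=
    (isOpen_ne_fun hK.A₁.continuous continuous_const).inter (isOpen_ne_fun hK.lead.continuous continuous_const)
  obtain ⟨w₁, r, ρ, hr, hsub, hρ, hinj, hfact⟩ := gll_sq_roots K hK hC hS ⟨wa, hwa1, hwa2⟩
    (fun w hw => hw.1) (fun w hw => hw.2)
  have hw₁ : w₁ ∈ ball w₁ r := mem_ball_self hr
  have hf : DifferentiableOn ℂ (fun w => K.lead w * (ρ 2 w - ρ 1 w) ^ 2 * (ρ 0 w - ρ 2 w) ^ 3 * (ρ 0 w - ρ 1 w) ^ 2 *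
      (ρ 1 w - ρ 3 w)) (ball w₁ r) := by
    have h0 := hρ 0
    have h1 := hρ 1
    have h2 := hρ 2
    have h3 := hρ 3
    have h4 : DifferentiableOn ℂ K.lead (ball w₁ r) := hK.lead.differentiableOn
    fun_prop
  have hne : K.lead w₁ * (ρ 2 w₁ - ρ 1 w₁) ^ 2 * (ρ 0 w₁ - ρ 2 w₁) ^ 3 * (ρ 0 w₁ - ρ 1 w₁) ^ 2 *
      (ρ 1 w₁ - ρ 3 w₁) ≠ 0 := by
    have a1 := sub_ne_zero.2 (hinj w₁ hw₁ 2 1 (by decide))
    have a2 := sub_ne_zero.2 (hinj w₁ hw₁ 0 2 (by decide))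
    have a3 := sub_ne_zero.2 (hinj w₁ hw₁ 0 1 (by decide))
    have a4 := sub_ne_zero.2 (hinj w₁ hw₁ 1 3 (by decide))
    have a5 := (hsub hw₁).2
    positivity
  obtain ⟨b, q, hb, hbr, hq, hq2⟩ := gll_sqrt hr hf hne
  have hbb : ball w₁ b ⊆ ball w₁ r := ball_subset_ball hbr
  exact ⟨w₁, b, ρ, q, hb, fun i => (hρ i).mono hbb, hq, fun w hw => (hsub (hbb hw)).1,
    fun w hw => (hsub (hbb hw)).2, fun w hw => hinj w (hbb hw), fun w hw => hfact w (hbb hw), hq2⟩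

end Claimed.Agent.R245
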