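/-
Row 245 / S0484, GEO-L (architect helper187).   ASSEMBLY: from four simple roots of the discriminant quartic (`GllRoots`) to `LeafData` with `d = 1` (explicit Legendre frame), and the description of the leaves as cones over the residual cubics.
Legendre frame:  `d_i = ρ_i y 1 + n`,  `ξ = ρ₂ - ρ₁`, `η = ρ₀ - ρ₂`,  `v₁ = ξ d₀`, `v₂ = η d₁`;   `U v₁ + T v₂ = a y 1 + c n` with `a = U ξ ρ₀ + T η ρ₁`, `c = U ξ + T η`;
   `a - ρ₀ c = T η (ρ₁ - ρ₀)`, `a - ρ₁ c = U ξ (ρ₀ - ρ₁)`, `a - ρ₂ c = ξ η (U - T)`, `a - ρ₃ c = η (ρ₁ - ρ₃) (T - λ U)`.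
Packages (one owner each; touch only your theorems; helper lemmas directly above, prefix `glla_`):
  GLL-AS-ALG   gll_disc_hom, gll_nz, gll_inv                       (abstract algebra of `GllRoots`)
  GLL-AS-DIFF  gll_diffOn_a, gll_diffOn_c, gll_diffOn_hA, gll_diffOn_hB, gll_diffOn_hC, gll_diffOn_lam   (differentiability)
  GLL-AS-GEO   gll_basis, gll_plane, gll_not_germ
-/
import Claimed.Agent.R245.GeoLCrit
import Claimed.Agent.R245.GeoLSq

set_option autoImplicit false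

namespace Claimed.Agent.R245

open MvPolynomial Metric Set Filter Topology Claims.C0412

/-- the `y 1`-coordinate of the direction `U v₁ + T v₂` -/
def gllA (ρ : Fin 4 → ℂ → ℂ) (w T U : ℂ) : ℂ := U * (ρ 2 w - ρ 1 w) * ρ 0 w + T * (ρ 0 w - ρ 2 w) * ρ 1 w

/-- the `n`-coordinate of the direction `U v₁ + T v₂` -/
def gllC (ρ : Fin 4 → ℂ → ℂ) (w T U : ℂ) : ℂ := U * (ρ 2 w - ρ 1 w) + T * (ρ 0 w - ρ 2 w)

/-- the cross ratio -/
noncomputable def gllLam (ρ : Fin 4 → ℂ → ℂ) (w : ℂ) : ℂ :=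
  (ρ 1 w - ρ 2 w) * (ρ 0 w - ρ 3 w) / ((ρ 0 w - ρ 2 w) * (ρ 1 w - ρ 3 w))

section abstract

variable {K : GllCub} {w₀ : ℂ} {b : ℝ} {ρ : Fin 4 → ℂ → ℂ} {q : ℂ → ℂ}

/-! ### GLL-AS-ALG -/

/-- the factorisation of the discriminant as a binary quartic.  (`c = 0`: both sides are `lead * a ^ 4` by `ring` after unfolding.   `c ≠ 0`: `disc w a c = c ^ 4 * disc w (a / c) 1` (`field_simp`), `R.fact`.) -/
theorem gll_disc_hom (R : GllRoots K w₀ b ρ q) {w : ℂ} (hw : w ∈ ball w₀ b) (a c : ℂ) :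
    K.disc w a c = K.lead w * ((a - ρ 0 w * c) * (a - ρ 1 w * c) * (a - ρ 2 w * c) * (a - ρ 3 w * c)) := by
  by_cases hc : c = 0
  · subst hc
    unfold GllCub.disc GllCub.lead GllCub.hA GllCub.hB GllCub.hC
    ring
  · have h1 : K.disc w a c = c ^ 4 * K.disc w (a / c) 1 := by
      unfold GllCub.disc GllCub.hA GllCub.hB GllCub.hC
      field_simp
    rw [h1, R.fact w hw]
    field_simp

theorem glla_hom (K : GllCub) (w a c : ℂ) (hc : c ≠ 0) :
    K.hA w a c = c * K.hA w (a / c) 1 ∧ K.hB w a c = c ^ 2 * K.hB w (a / c) 1 ∧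
      K.hC w a c = c ^ 3 * K.hC w (a / c) 1 := by
  unfold GllCub.hA GllCub.hB GllCub.hC
  refine ⟨?_, ?_, ?_⟩ <;> field_simp

theorem glla_deriv_disc (K : GllCub) (w τ : ℂ) (hA : K.hA w τ 1 = 0) (hB : K.hB w τ 1 = 0) (hC : K.hC w τ 1 = 0) :
    HasDerivAt (fun t => K.disc w t 1) 0 τ := by
  have dA : HasDerivAt (fun t => K.hA w t 1) (K.A₁ w) τ := by
    unfold GllCub.hA
    have := ((hasDerivAt_id τ).const_mul (K.A₁ w)).add_const (K.A₂ w * 1)
    simpa using this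
  have dB : HasDerivAt (fun t => K.hB w t 1) (K.B₁ w * (2 * τ) + K.B₂ w) τ := by
    unfold GllCub.hB
    have := ((((hasDerivAt_id τ).pow 2).const_mul (K.B₁ w)).add
      (((hasDerivAt_id τ).const_mul (K.B₂ w)).mul_const 1)).add_const (K.B₃ w * 1 ^ 2)
    simpa using this
  have dC : HasDerivAt (fun t => K.hC w t 1) (K.C₁ w * (3 * τ ^ 2) + K.C₂ w * (2 * τ) + K.C₃ w) τ := by
    unfold GllCub.hC
    have := (((((hasDerivAt_id τ).pow 3).const_mul (K.C₁ w)).add
      ((((hasDerivAt_id τ).pow 2).const_mul (K.C₂ w)).mul_const 1)).add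
      (((hasDerivAt_id τ).const_mul (K.C₃ w)).mul_const (1 ^ 2))).add_const (K.C₄ w * 1 ^ 3)
    simpa using this
  have h := (dB.pow 2).sub ((dA.const_mul 4).mul dC)
  unfold GllCub.disc
  refine h.congr_deriv ?_
  simp only [hA, hB, hC]
  ring

theorem glla_deriv_prod (L r0 r1 r2 r3 τ : ℂ) :
    HasDerivAt (fun t => L * ((t - r0) * (t - r1) * (t - r2) * (t - r3)))
      (L * ((τ - r1) * (τ - r2) * (τ - r3) + (τ - r0) * (τ - r2) * (τ - r3) + (τ - r0) * (τ - r1) * (τ - r3)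
        + (τ - r0) * (τ - r1) * (τ - r2))) τ := by
  have d : ∀ r : ℂ, HasDerivAt (fun t => t - r) 1 τ := fun r => (hasDerivAt_id τ).sub_const r
  have h := (((((d r0).mul (d r1)).mul (d r2)).mul (d r3))).const_mul L
  refine HasDerivAt.congr_deriv (f := fun t => L * ((t - r0) * (t - r1) * (t - r2) * (t - r3))) h ?_
  simp only [Pi.mul_apply]
  ring

/-- **`nz`**: the three forms have no common zero.
Route: `c = 0`: `hA w a 0 = A₁ a ≠ 0`.   `c ≠ 0`: by homogeneity `hA w τ 1 = hB w τ 1 = hC w τ 1 = 0` with `τ = a / c`.   The derivative of `t ↦ disc w t 1 = hB² - 4 hA hC` at `τ` is `2 hB hB' - 4 hA' hC - 4 hA hC' = 0`, and `disc w τ 1 = 0`.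
By `R.fact`, `τ = ρ i w` for some `i`, and the derivative of `lead * ∏ (t - ρ_j)` at `ρ_i` is `lead * ∏_{j ≠ i} (ρ_i - ρ_j) ≠ 0` (`R.inj`, `R.lead_ne`): contradiction (`HasDerivAt.unique`; four cases). -/
theorem gll_nz (R : GllRoots K w₀ b ρ q) {w : ℂ} (hw : w ∈ ball w₀ b) {a c : ℂ} (hac : a ≠ 0 ∨ c ≠ 0) :
    K.hA w a c ≠ 0 ∨ K.hB w a c ≠ 0 ∨ K.hC w a c ≠ 0 := by
  by_cases hc : c = 0
  · subst hc
    left
    have ha : a ≠ 0 := by tauto
    unfold GllCub.hA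
    simpa using mul_ne_zero (R.A₁_ne w hw) ha
  · by_contra hno
    push Not at hno
    obtain ⟨hA, hB, hC⟩ := hno
    obtain ⟨eA, eB, eC⟩ := glla_hom K w a c hc
    have hA' : K.hA w (a / c) 1 = 0 := by
      rw [eA] at hA
      exact (mul_eq_zero.mp hA).resolve_left hc
    have hB' : K.hB w (a / c) 1 = 0 := by
      rw [eB] at hB
      exact (mul_eq_zero.mp hB).resolve_left (pow_ne_zero 2 hc)
    have hC' : K.hC w (a / c) 1 = 0 := by
      rw [eC] at hC
      exact (mul_eq_zero.mp hC).resolve_left (pow_ne_zero 3 hc)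
    set τ := a / c with hτ
    have d1 := glla_deriv_disc K w τ hA' hB' hC'
    have hfun : (fun t => K.disc w t 1) = fun t => K.lead w * ((t - ρ 0 w) * (t - ρ 1 w) * (t - ρ 2 w) * (t - ρ 3 w)) :=
      funext fun t => R.fact w hw t
    rw [hfun] at d1
    have d2 := glla_deriv_prod (K.lead w) (ρ 0 w) (ρ 1 w) (ρ 2 w) (ρ 3 w) τ
    have e := d1.unique d2
    have hz : K.disc w τ 1 = 0 := by
      unfold GllCub.disc
      rw [hA', hB']
      ring
    rw [R.fact w hw] at hz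
    have hL := R.lead_ne w hw
    have hne : ∀ i j : Fin 4, i ≠ j → ρ i w - ρ j w ≠ 0 := fun i j h => sub_ne_zero.2 (R.inj w hw i j h)
    have hz' := (mul_eq_zero.mp hz).resolve_left hL
    have e' := (mul_eq_zero.mp e.symm).resolve_left hL
    rcases mul_eq_zero.mp hz' with h3 | h3
    · rcases mul_eq_zero.mp h3 with h2 | h2
      · rcases mul_eq_zero.mp h2 with h1 | h1
        · have t : τ = ρ 0 w := sub_eq_zero.mp h1
          rw [t] at e'
          have := mul_ne_zero (mul_ne_zero (hne 0 1 (by decide)) (hne 0 2 (by decide))) (hne 0 3 (by decide))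
          exact this (by linear_combination e')
        · have t : τ = ρ 1 w := sub_eq_zero.mp h1
          rw [t] at e'
          have := mul_ne_zero (mul_ne_zero (hne 1 0 (by decide)) (hne 1 2 (by decide))) (hne 1 3 (by decide))
          exact this (by linear_combination e')
      · have t : τ = ρ 2 w := sub_eq_zero.mp h2
        rw [t] at e'
        have := mul_ne_zero (mul_ne_zero (hne 2 0 (by decide)) (hne 2 1 (by decide))) (hne 2 3 (by decide))
        exact this (by linear_combination e')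
    · have t : τ = ρ 3 w := sub_eq_zero.mp h3
      rw [t] at e'
      have := mul_ne_zero (mul_ne_zero (hne 3 0 (by decide)) (hne 3 1 (by decide))) (hne 3 2 (by decide))
      exact this (by linear_combination e')

/-- the change of frame is invertible.   (`T = (a - ρ₀ c) / (η (ρ₁ - ρ₀))`, `U = (a - ρ₁ c) / (ξ (ρ₀ - ρ₁))`; `field_simp`, `ring`.   If `T = U = 0` then `a = c = 0`.) -/
theorem gll_inv (R : GllRoots K w₀ b ρ q) {w : ℂ} (hw : w ∈ ball w₀ b) (a c : ℂ) :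
    ∃ T U : ℂ, gllA ρ w T U = a ∧ gllC ρ w T U = c := by
  have hne : ∀ i j : Fin 4, i ≠ j → ρ i w - ρ j w ≠ 0 := fun i j h => sub_ne_zero.2 (R.inj w hw i j h)
  have a1 := hne 0 2 (by decide)
  have a2 := hne 1 0 (by decide)
  have a3 := hne 2 1 (by decide)
  have a4 := hne 0 1 (by decide)
  refine ⟨(a - ρ 0 w * c) / ((ρ 0 w - ρ 2 w) * (ρ 1 w - ρ 0 w)), (a - ρ 1 w * c) / ((ρ 2 w - ρ 1 w) * (ρ 0 w - ρ 1 w)), ?_, ?_⟩
  · unfold gllA
    have e : ρ 1 w - ρ 0 w = -(ρ 0 w - ρ 1 w) := by ring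
    rw [e]
    field_simp
    ring
  · unfold gllC
    have e : ρ 1 w - ρ 0 w = -(ρ 0 w - ρ 1 w) := by ring
    rw [e]
    field_simp
    ring

/-- (determinant `ξ η (ρ₁ - ρ₀) ≠ 0`.) -/
theorem gll_inv_ne (R : GllRoots K w₀ b ρ q) {w : ℂ} (hw : w ∈ ball w₀ b) {T U : ℂ} (h : T ≠ 0 ∨ U ≠ 0) :
    gllA ρ w T U ≠ 0 ∨ gllC ρ w T U ≠ 0 := by
  have hne : ∀ i j : Fin 4, i ≠ j → ρ i w - ρ j w ≠ 0 := fun i j h => sub_ne_zero.2 (R.inj w hw i j h)
  have a1 := hne 0 2 (by decide)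
  have a2 := hne 1 0 (by decide)
  have a3 := hne 2 1 (by decide)
  have a4 := hne 0 1 (by decide)
  by_contra hno
  push Not at hno
  obtain ⟨hA, hC⟩ := hno
  unfold gllA at hA
  unfold gllC at hC
  have hT : T * ((ρ 0 w - ρ 2 w) * (ρ 1 w - ρ 0 w)) = 0 := by linear_combination hA - ρ 0 w * hC
  have hU : U * ((ρ 2 w - ρ 1 w) * (ρ 0 w - ρ 1 w)) = 0 := by linear_combination hA - ρ 1 w * hC
  have hT0 := (mul_eq_zero.mp hT).resolve_right (mul_ne_zero a1 a2)
  have hU0 := (mul_eq_zero.mp hU).resolve_right (mul_ne_zero a3 a4)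
  tauto

/-! ### GLL-AS-DIFF      (all by `fun_prop`-style composition: `(R.hρ i).comp differentiableOn_fst …`, `hK.A₁.comp …`; the denominators of `gllLam` do not vanish by `R.inj`) -/

theorem glla_fst {f : ℂ → ℂ} (hf : DifferentiableOn ℂ f (ball w₀ b)) :
    DifferentiableOn ℂ (fun x : ℂ × ℂ × ℂ => f x.1) (ball w₀ b ×ˢ univ) :=
  hf.comp differentiableOn_fst (fun _ hx => hx.1)

theorem glla_T : DifferentiableOn ℂ (fun x : ℂ × ℂ × ℂ => x.2.1) (ball w₀ b ×ˢ univ) :=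
  (differentiable_fst.comp differentiable_snd).differentiableOn

theorem glla_U : DifferentiableOn ℂ (fun x : ℂ × ℂ × ℂ => x.2.2) (ball w₀ b ×ˢ univ) :=
  (differentiable_snd.comp differentiable_snd).differentiableOn

theorem gll_diffOn_a (R : GllRoots K w₀ b ρ q) :
    DifferentiableOn ℂ (fun x : ℂ × ℂ × ℂ => gllA ρ x.1 x.2.1 x.2.2) (ball w₀ b ×ˢ univ) := by
  unfold gllA
  exact ((glla_U.mul ((glla_fst (R.hρ 2)).sub (glla_fst (R.hρ 1)))).mul (glla_fst (R.hρ 0))).add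
    ((glla_T.mul ((glla_fst (R.hρ 0)).sub (glla_fst (R.hρ 2)))).mul (glla_fst (R.hρ 1)))

theorem gll_diffOn_c (R : GllRoots K w₀ b ρ q) :
    DifferentiableOn ℂ (fun x : ℂ × ℂ × ℂ => gllC ρ x.1 x.2.1 x.2.2) (ball w₀ b ×ˢ univ) := by
  unfold gllC
  exact (glla_U.mul ((glla_fst (R.hρ 2)).sub (glla_fst (R.hρ 1)))).add
    (glla_T.mul ((glla_fst (R.hρ 0)).sub (glla_fst (R.hρ 2))))

theorem gll_diffOn_hA (hK : K.Hol) (R : GllRoots K w₀ b ρ q) :
    DifferentiableOn ℂ (fun x : ℂ × ℂ × ℂ => K.hA x.1 (gllA ρ x.1 x.2.1 x.2.2) (gllC ρ x.1 x.2.1 x.2.2))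
      (ball w₀ b ×ˢ univ) := by
  have a := gll_diffOn_a R
  have c := gll_diffOn_c R
  unfold GllCub.hA
  exact ((glla_fst hK.A₁.differentiableOn).mul a).add ((glla_fst hK.A₂.differentiableOn).mul c)

theorem gll_diffOn_hB (hK : K.Hol) (R : GllRoots K w₀ b ρ q) :
    DifferentiableOn ℂ (fun x : ℂ × ℂ × ℂ => K.hB x.1 (gllA ρ x.1 x.2.1 x.2.2) (gllC ρ x.1 x.2.1 x.2.2))
      (ball w₀ b ×ˢ univ) := by
  have a := gll_diffOn_a R
  have c := gll_diffOn_c R
  unfold GllCub.hB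
  exact (((glla_fst hK.B₁.differentiableOn).mul (a.pow 2)).add (((glla_fst hK.B₂.differentiableOn).mul a).mul c)).add
    ((glla_fst hK.B₃.differentiableOn).mul (c.pow 2))

theorem gll_diffOn_hC (hK : K.Hol) (R : GllRoots K w₀ b ρ q) :
    DifferentiableOn ℂ (fun x : ℂ × ℂ × ℂ => K.hC x.1 (gllA ρ x.1 x.2.1 x.2.2) (gllC ρ x.1 x.2.1 x.2.2))
      (ball w₀ b ×ˢ univ) := by
  have a := gll_diffOn_a R
  have c := gll_diffOn_c R
  unfold GllCub.hC
  exact ((((glla_fst hK.C₁.differentiableOn).mul (a.pow 3)).add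
    (((glla_fst hK.C₂.differentiableOn).mul (a.pow 2)).mul c)).add
    (((glla_fst hK.C₃.differentiableOn).mul a).mul (c.pow 2))).add
    ((glla_fst hK.C₄.differentiableOn).mul (c.pow 3))

theorem gll_diffOn_q (R : GllRoots K w₀ b ρ q) :
    DifferentiableOn ℂ (fun x : ℂ × ℂ × ℂ => q x.1) (ball w₀ b ×ˢ univ) :=
  glla_fst R.hq

theorem gll_diffOn_lam (R : GllRoots K w₀ b ρ q) : DifferentiableOn ℂ (gllLam ρ) (ball w₀ b) := by
  unfold gllLam
  exact (((R.hρ 1).sub (R.hρ 2)).mul ((R.hρ 0).sub (R.hρ 3))).div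
    (((R.hρ 0).sub (R.hρ 2)).mul ((R.hρ 1).sub (R.hρ 3)))
    (fun w hw => mul_ne_zero (sub_ne_zero.2 (R.inj w hw 0 2 (by decide))) (sub_ne_zero.2 (R.inj w hw 1 3 (by decide))))

/-! ### proved glue (abstract part) -/

theorem GllRoots.sub_ne (R : GllRoots K w₀ b ρ q) {w : ℂ} (hw : w ∈ ball w₀ b) {i j : Fin 4} (h : i ≠ j) :
    ρ i w - ρ j w ≠ 0 := sub_ne_zero.2 (R.inj w hw i j h)

theorem GllRoots.q_ne (R : GllRoots K w₀ b ρ q) {w : ℂ} (hw : w ∈ ball w₀ b) : q w ≠ 0 := by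
  intro h
  have h1 := R.q_sq w hw
  rw [h] at h1
  have a1 := R.sub_ne hw (i := 2) (j := 1) (by decide)
  have a2 := R.sub_ne hw (i := 0) (j := 2) (by decide)
  have a3 := R.sub_ne hw (i := 0) (j := 1) (by decide)
  have a4 := R.sub_ne hw (i := 1) (j := 3) (by decide)
  have a5 := R.lead_ne w hw
  have : K.lead w * (ρ 2 w - ρ 1 w) ^ 2 * (ρ 0 w - ρ 2 w) ^ 3 * (ρ 0 w - ρ 1 w) ^ 2 * (ρ 1 w - ρ 3 w) ≠ 0 := by
    positivity
  exact this (by rw [← h1]; ring)

theorem gll_lam_ne0 (R : GllRoots K w₀ b ρ q) {w : ℂ} (hw : w ∈ ball w₀ b) : gllLam ρ w ≠ 0 := by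
  have a1 := R.sub_ne hw (i := 1) (j := 2) (by decide)
  have a2 := R.sub_ne hw (i := 0) (j := 3) (by decide)
  have a3 := R.sub_ne hw (i := 0) (j := 2) (by decide)
  have a4 := R.sub_ne hw (i := 1) (j := 3) (by decide)
  unfold gllLam
  positivity

theorem gll_lam_ne1 (R : GllRoots K w₀ b ρ q) {w : ℂ} (hw : w ∈ ball w₀ b) : gllLam ρ w ≠ 1 := by
  have a1 := R.sub_ne hw (i := 0) (j := 1) (by decide)
  have a2 := R.sub_ne hw (i := 3) (j := 2) (by decide)
  have a3 := R.sub_ne hw (i := 0) (j := 2) (by decide)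
  have a4 := R.sub_ne hw (i := 1) (j := 3) (by decide)
  unfold gllLam
  intro h
  rw [div_eq_one_iff_eq (mul_ne_zero a3 a4)] at h
  have : (ρ 0 w - ρ 1 w) * (ρ 3 w - ρ 2 w) = 0 := by linear_combination h
  exact mul_ne_zero a1 a2 this

/-- the Legendre form -/
theorem gll_legendre (R : GllRoots K w₀ b ρ q) {w : ℂ} (hw : w ∈ ball w₀ b) (T U : ℂ) :
    K.hB w (gllA ρ w T U) (gllC ρ w T U) ^ 2 - 4 * K.hA w (gllA ρ w T U) (gllC ρ w T U) * K.hC w (gllA ρ w T U) (gllC ρ w T U)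
      = q w ^ 2 * (T * U * (T - U) * (T - gllLam ρ w * U)) := by
  have h := gll_disc_hom R hw (gllA ρ w T U) (gllC ρ w T U)
  unfold GllCub.disc at h
  rw [h, R.q_sq w hw]
  have a3 := R.sub_ne hw (i := 0) (j := 2) (by decide)
  have a4 := R.sub_ne hw (i := 1) (j := 3) (by decide)
  unfold gllLam gllA gllC
  field_simp
  ring

end abstract

section geometric

variable {F : MvPolynomial (Fin 4) ℂ} {y : Fin 4 → V4} {w₀ : ℂ} {b : ℝ} {ρ : Fin 4 → ℂ → ℂ} {q : ℂ → ℂ}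

/-! ### GLL-AS-GEO -/

/-- completion of a basis.   (`LinearIndependent.extend` / `exists_linearIndependent_cons_of_lt_finrank` twice (`finrank ℂ V4 = 4`), or `Basis.extend`; `Fin.cons`/`Matrix.vecCons` bookkeeping.) -/
theorem gll_basis {y₀ y₁ : V4} (hind : LinearIndependent ℂ ![y₀, y₁]) :
    ∃ y₂ y₃ : V4, LinearIndependent ℂ ![y₀, y₁, y₂, y₃] := by
  have hfr : Module.finrank ℂ V4 = 4 := by simp [V4]
  obtain ⟨y₂, h2⟩ := exists_linearIndependent_snoc_of_lt_finrank (n := 2) hind (by rw [hfr]; norm_num)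
  obtain ⟨y₃, h3⟩ := exists_linearIndependent_snoc_of_lt_finrank (n := 3) h2 (by rw [hfr]; norm_num)
  refine ⟨y₂, y₃, ?_⟩
  have e : ![y₀, y₁, y₂, y₃] = Fin.snoc (Fin.snoc ![y₀, y₁] y₂) y₃ := by
    funext i
    fin_cases i <;> rfl
  rw [e]
  exact h3

/-- the tangent plane at `p w` is spanned by the frame.
Route: `x = ∑ i, x_i • y i` (the independent family `y` of `4 = finrank` vectors spans: `basisOfLinearIndependentOfCardEqFinrank`, `Basis.sum_repr`, `Fin.sum_univ_four`).   `dot g x = x₂ α + x₃ β = 0` (`gll_grad_line` with `s = 1, t = w`; `gll_dot_add`, `gll_dot_smul`).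
`(α, β) ≠ 0` (`gll_albe_ne`): `c = x₂ / β` if `β ≠ 0`, `c = - x₃ / α` otherwise; then `x₂ = c β`, `x₃ = - c α`.   `s = x₀`, `a = x₁ - x₀ w`. -/
theorem gll_plane (hF : IsSmoothQuarticForm F) (h : GllLine F y) (w : ℂ) {x : V4}
    (hx : dot (grad F (gllP y w)) x = 0) : ∃ s a c : ℂ, x = s • gllP y w + a • y 1 + c • gllN F y w := by
  have hfr : Module.finrank ℂ V4 = 4 := by simp [V4]
  let B := basisOfLinearIndependentOfCardEqFinrank h.indep (by rw [hfr]; simp)
  have hB : ∀ i, B i = y i := fun i => by simp [B]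
  have hsum : x = B.repr x 0 • y 0 + B.repr x 1 • y 1 + B.repr x 2 • y 2 + B.repr x 3 • y 3 := by
    have := (B.sum_repr x).symm
    rw [Fin.sum_univ_four] at this
    simpa only [hB] using this
  set x0 := B.repr x 0
  set x1 := B.repr x 1
  set x2 := B.repr x 2
  set x3 := B.repr x 3
  have hl := gll_grad_line h 1 w
  rw [one_smul] at hl
  have hl0 : dot (grad F (gllP y w)) (y 0) = 0 := hl.1
  have hl1 : dot (grad F (gllP y w)) (y 1) = 0 := hl.2
  have hrel : x2 * gllAl F y w + x3 * gllBe F y w = 0 := by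
    rw [hsum, gll_dot_add, gll_dot_add, gll_dot_add, gll_dot_smul, gll_dot_smul, gll_dot_smul, gll_dot_smul,
      hl0, hl1] at hx
    unfold gllAl gllBe
    linear_combination hx
  by_cases hβ : gllBe F y w = 0
  · have hα : gllAl F y w ≠ 0 := (gll_albe_ne hF h w).resolve_right (not_not.mpr hβ)
    have hx2 : x2 = 0 := by
      rw [hβ, mul_zero, add_zero] at hrel
      exact (mul_eq_zero.mp hrel).resolve_right hα
    refine ⟨x0, x1 - x0 * w, -x3 / gllAl F y w, ?_⟩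
    have e : (-x3 / gllAl F y w) * gllAl F y w = -x3 := by field_simp
    rw [hsum, hx2]
    unfold gllP gllN
    rw [hβ]
    have : (-x3 / gllAl F y w) • ((0 : ℂ) • y 2 - gllAl F y w • y 3) = x3 • y 3 := by
      rw [zero_smul, zero_sub, smul_neg, smul_smul, e, neg_smul, neg_neg]
    rw [this]
    module
  · refine ⟨x0, x1 - x0 * w, x2 / gllBe F y w, ?_⟩
    have e1 : (x2 / gllBe F y w) * gllBe F y w = x2 := by field_simp
    have e2 : (x2 / gllBe F y w) * gllAl F y w = -x3 := by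
      field_simp
      linear_combination hrel
    have : (x2 / gllBe F y w) • (gllBe F y w • y 2 - gllAl F y w • y 3) = x2 • y 2 + x3 • y 3 := by
      rw [smul_sub, smul_smul, smul_smul, e1, e2, neg_smul, sub_neg_eq_add]
    conv_lhs => rw [hsum]
    unfold gllP gllN
    rw [this]
    module

/-- the cubic does not contain a germ of the line.    (`G w 1 u 0 = u (A₁ + B₁ u + C₁ u²)`; if it vanishes for all `u` near `0`, its derivative `A₁` at `0` vanishes.) -/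
theorem gll_not_germ (K : GllCub) {w : ℂ} (hA : K.A₁ w ≠ 0) : ¬ ∀ᶠ ζ in 𝓝 w, K.G w 1 (ζ - w) 0 = 0 := by
  intro h
  have hd : HasDerivAt (fun ζ => K.G w 1 (ζ - w) 0) (K.A₁ w) w := by
    have d : HasDerivAt (fun ζ : ℂ => ζ - w) 1 w := (hasDerivAt_id w).sub_const w
    have h1 := ((d.const_mul (K.A₁ w)).add ((d.pow 2).const_mul (K.B₁ w))).add ((d.pow 3).const_mul (K.C₁ w))
    have hf : (fun ζ => K.G w 1 (ζ - w) 0) = fun ζ => K.A₁ w * (ζ - w) + K.B₁ w * (ζ - w) ^ 2 + K.C₁ w * (ζ - w) ^ 3 := by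
      funext ζ
      unfold GllCub.G GllCub.hA GllCub.hB GllCub.hC
      ring
    rw [hf]
    refine HasDerivAt.congr_deriv (f := fun ζ => K.A₁ w * (ζ - w) + K.B₁ w * (ζ - w) ^ 2 + K.C₁ w * (ζ - w) ^ 3) h1 ?_
    simp
  have h0 : HasDerivAt (fun ζ => K.G w 1 (ζ - w) 0) 0 w :=
    (hasDerivAt_const w (0 : ℂ)).congr_of_eventuallyEq h
  exact hA (hd.unique h0)

/-! ### the frame (proved glue) -/

theorem gll_dir (F : MvPolynomial (Fin 4) ℂ) (y : Fin 4 → V4) (ρ : Fin 4 → ℂ → ℂ) (w T U : ℂ) :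
    U • ((ρ 2 w - ρ 1 w) • (ρ 0 w • y 1 + gllN F y w)) + T • ((ρ 0 w - ρ 2 w) • (ρ 1 w • y 1 + gllN F y w))
      = gllA ρ w T U • y 1 + gllC ρ w T U • gllN F y w := by
  unfold gllA gllC
  module

theorem gll_tang_y1 (h : GllLine F y) (w : ℂ) : dot (grad F (gllP y w)) (y 1) = 0 := by
  have := (gll_grad_line h 1 w).2
  rwa [one_smul] at this

theorem gll_tang_dir (h : GllLine F y) (w a c : ℂ) :
    dot (grad F (gllP y w)) (a • y 1 + c • gllN F y w) = 0 := by
  rw [gll_dot_add, gll_dot_smul, gll_dot_smul, gll_tang_y1 h, gll_tang_N]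
  ring

/-- the frame data -/
noncomputable def gllFrame (hF : IsSmoothQuarticForm F) (h : GllLine F y) (R : GllRoots (gllCub F y) w₀ b ρ q) :
    FrameData F (ball w₀ b) where
  p := gllP y
  v₁ w := (ρ 2 w - ρ 1 w) • (ρ 0 w • y 1 + gllN F y w)
  v₂ w := (ρ 0 w - ρ 2 w) • (ρ 1 w • y 1 + gllN F y w)
  A w T U := (gllCub F y).hA w (gllA ρ w T U) (gllC ρ w T U)
  B w T U := (gllCub F y).hB w (gllA ρ w T U) (gllC ρ w T U)
  C w T U := (gllCub F y).hC w (gllA ρ w T U) (gllC ρ w T U)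
  κ w T U := gllC ρ w T U
  hp := (gll_diff_P y).differentiableOn
  hv₁ := ((R.hρ 2).sub (R.hρ 1)).smul (((R.hρ 0).smul_const (y 1)).add (gll_diff_N F y).differentiableOn)
  hv₂ := ((R.hρ 0).sub (R.hρ 2)).smul (((R.hρ 1).smul_const (y 1)).add (gll_diff_N F y).differentiableOn)
  hA := gll_diffOn_hA (gll_hol F y) R
  hB := gll_diffOn_hB (gll_hol F y) R
  hC := gll_diffOn_hC (gll_hol F y) R
  hκ := gll_diffOn_c R
  cone w _ := gll_P_cone h w
  indep w hw := by
    rw [Fintype.linearIndependent_iff]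
    intro g hg
    simp only [Fin.sum_univ_three, Matrix.cons_val_zero, Matrix.cons_val_one, Matrix.cons_val] at hg
    have e : g 0 • gllP y w + g 1 • ((ρ 2 w - ρ 1 w) • (ρ 0 w • y 1 + gllN F y w)) +
        g 2 • ((ρ 0 w - ρ 2 w) • (ρ 1 w • y 1 + gllN F y w))
        = g 0 • gllP y w + gllA ρ w (g 2) (g 1) • y 1 + gllC ρ w (g 2) (g 1) • gllN F y w := by
      rw [add_assoc, gll_dir, ← add_assoc]
    rw [e] at hg
    obtain ⟨h0, h1, h2⟩ := gll_frame_eq_zero hF h hg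
    have h3 : ¬ (g 2 ≠ 0 ∨ g 1 ≠ 0) := fun hne => by
      rcases gll_inv_ne R hw hne with h' | h'
      · exact h' h1
      · exact h' h2
    push Not at h3
    intro i
    fin_cases i
    · exact h0
    · exact h3.2
    · exact h3.1
  tang₁ w _ := by
    have := gll_tang_dir h w (gllA ρ w 0 1) (gllC ρ w 0 1)
    rw [← gll_dir] at this
    simpa using this
  tang₂ w _ := by
    have := gll_tang_dir h w (gllA ρ w 1 0) (gllC ρ w 1 0)
    rw [← gll_dir] at this
    simpa using this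
  expand w _ T U s l := by
    rw [gll_dir]
    have e : s • gllP y w + l • (gllA ρ w T U • y 1 + gllC ρ w T U • gllN F y w)
        = s • gllP y w + (l * gllA ρ w T U) • y 1 + (l * gllC ρ w T U) • gllN F y w := by
      module
    rw [e, gll_expand hF.1 h]
    unfold GllCub.G GllCub.hA GllCub.hB GllCub.hC
    ring
  nz w hw T U hTU := gll_nz R hw (gll_inv_ne R hw hTU)

end geometric

end Claimed.Agent.R245
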