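/-
Row 245 / S0484, GEO, block GEO-LIFT (sub-architect helper278).   DEFINITIONS: cover data, lifts.
Plan of the block (top statement `gl_lift` in GeoLift.lean):
  GeoLiftA : tools (RATIO `gl_ratio`, LOG `gl_log`, `gl_shrink`, transition `gl_trans`)
  GeoLiftB : GLUE `gl_glue` (two lifts on the two halves of `A ×ˢ S`, `A` cut by a real hyperplane)
  GeoLiftC : induction (`gl_interval_ind`, `gl_slab`, `gl_column`, `gl_swap`, `gl_box`)
  GeoLiftD : exhaustion (`gl_limit`, `gl_step`)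
-/
import Mathlib
import Claimed.Agent.R245.Defs

set_option autoImplicit false

namespace Claimed.Agent.R245

open Metric Set Filter Topology

variable {ι : Type*}

/-- cover data: local lifts `φ i` on the open sets `U i`, pairwise proportional -/
structure GlCover (U : ι → Set (ℂ × ℂ)) (φ : ι → ℂ × ℂ → V4) : Prop where
  isOpen : ∀ i, IsOpen (U i)
  hol : ∀ i, DifferentiableOn ℂ (φ i) (U i)
  ne : ∀ i, ∀ x ∈ U i, φ i x ≠ 0
  prop : ∀ i j, ∀ x ∈ U i ∩ U j, ∃ t : ℂ, φ i x = t • φ j x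

/-- `σ` is a lift on the open set `N` -/
structure GlIsLift (U : ι → Set (ℂ × ℂ)) (φ : ι → ℂ × ℂ → V4) (N : Set (ℂ × ℂ)) (σ : ℂ × ℂ → V4) :
    Prop where
  isOpen : IsOpen N
  sub : N ⊆ ⋃ i, U i
  hol : DifferentiableOn ℂ σ N
  ne : ∀ x ∈ N, σ x ≠ 0
  prop : ∀ x ∈ N, ∀ i, x ∈ U i → ∃ t : ℂ, σ x = t • φ i x

/-- there is a lift on a neighbourhood of `K` -/
def GlLift (U : ι → Set (ℂ × ℂ)) (φ : ι → ℂ × ℂ → V4) (K : Set (ℂ × ℂ)) : Prop :=
  ∃ (N : Set (ℂ × ℂ)) (σ : ℂ × ℂ → V4), K ⊆ N ∧ GlIsLift U φ N σ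

variable {U : ι → Set (ℂ × ℂ)} {φ : ι → ℂ × ℂ → V4}

theorem GlLift.mono {K K' : Set (ℂ × ℂ)} (h : GlLift U φ K') (hK : K ⊆ K') : GlLift U φ K := by
  obtain ⟨N, σ, hN, hl⟩ := h
  exact ⟨N, σ, hK.trans hN, hl⟩

theorem gl_lift_empty : GlLift U φ ∅ :=
  ⟨∅, fun _ => 0, Subset.rfl, isOpen_empty, empty_subset _, differentiableOn_empty,
    fun _ hx => hx.elim, fun _ hx => hx.elim⟩

theorem GlCover.isLift (h : GlCover U φ) (i : ι) : GlIsLift U φ (U i) (φ i) :=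
  ⟨h.isOpen i, subset_iUnion U i, h.hol i, h.ne i, fun x hx j hj => h.prop i j x ⟨hx, hj⟩⟩

theorem GlCover.lift_point (h : GlCover U φ) {x : ℂ × ℂ} (hx : x ∈ ⋃ i, U i) : GlLift U φ {x} := by
  obtain ⟨i, hi⟩ := mem_iUnion.1 hx
  exact ⟨U i, φ i, singleton_subset_iff.2 hi, h.isLift i⟩

/-- the cover data in swapped coordinates -/
theorem GlCover.swap (h : GlCover U φ) :
    GlCover (fun i => Prod.swap ⁻¹' U i) (fun i x => φ i x.swap) where
  isOpen := fun i => (h.isOpen i).preimage continuous_swap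
  hol := fun i => (h.hol i).comp (f := fun x : ℂ × ℂ => (x.2, x.1))
    (differentiableOn_snd.prodMk differentiableOn_fst) (fun _ hx => hx)
  ne := fun i x hx => h.ne i x.swap hx
  prop := fun i j x hx => h.prop i j x.swap hx

/-- two lifts are proportional on the intersection of their domains -/
theorem GlIsLift.prop_of {N N' : Set (ℂ × ℂ)} {σ σ' : ℂ × ℂ → V4} (h : GlIsLift U φ N σ)
    (h' : GlIsLift U φ N' σ') {x : ℂ × ℂ} (hx : x ∈ N) (hx' : x ∈ N') : ∃ t : ℂ, σ' x = t • σ x := by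
  obtain ⟨i, hi⟩ := mem_iUnion.1 (h.sub hx)
  obtain ⟨t, ht⟩ := h.prop x hx i hi
  obtain ⟨t', ht'⟩ := h'.prop x hx' i hi
  have ht0 : t ≠ 0 := by
    rintro rfl
    exact h.ne x hx (by rw [ht, zero_smul])
  exact ⟨t' / t, by rw [ht, ht', smul_smul, div_mul_cancel₀ _ ht0]⟩

end Claimed.Agent.R245
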