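/-
Row 245 / S0484, GEO, block GEO-LIFT (sub-architect helper278).   TOOLS: RATIO, LOG, SHRINK, TRANS.   Mathlib only (+ GeoLiftDefs).
Statements FROZEN; helper lemmas: prefix `gla_`, in this file.
-/
import Claimed.Agent.R245.GeoLiftDefs

set_option autoImplicit false

namespace Claimed.Agent.R245

open Metric Set Filter Topology

/-- **RATIO.**  Two holomorphic maps into `ℂ⁴ \ 0` on an open set, pointwise proportional: the factor is holomorphic without zeros.
Route: `c x := Classical.choose (hp x hx)` (`0` outside `N`).  `c x ≠ 0` since `f x ≠ 0`.  At `x₀ ∈ N` pick `k` with `g x₀ k ≠ 0` (`Function.ne_iff`); `g x k ≠ 0` near `x₀` (continuity), there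
`c x = f x k / g x k` (evaluate `f x = c x • g x` at `k`), which is differentiable (`differentiableAt_pi`, `DifferentiableAt.div`); `DifferentiableAt.congr_of_eventuallyEq`. -/
theorem gl_ratio {N : Set (ℂ × ℂ)} (hN : IsOpen N) {f g : ℂ × ℂ → V4} (hf : DifferentiableOn ℂ f N)
    (hg : DifferentiableOn ℂ g N) (hf0 : ∀ x ∈ N, f x ≠ 0) (hg0 : ∀ x ∈ N, g x ≠ 0)
    (hp : ∀ x ∈ N, ∃ t : ℂ, f x = t • g x) :
    ∃ c : ℂ × ℂ → ℂ, DifferentiableOn ℂ c N ∧ ∀ x ∈ N, c x ≠ 0 ∧ f x = c x • g x := by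
  classical
  have hp' : ∀ x, ∃ t : ℂ, x ∈ N → f x = t • g x := fun x => by
    by_cases hx : x ∈ N
    · obtain ⟨t, ht⟩ := hp x hx
      exact ⟨t, fun _ => ht⟩
    · exact ⟨0, fun h => (hx h).elim⟩
  choose c hc using hp'
  refine ⟨c, fun x₀ hx₀ => ?_, fun x hx => ⟨?_, hc x hx⟩⟩
  · obtain ⟨k, hk⟩ := Function.ne_iff.1 (hg0 x₀ hx₀)
    have hfa : DifferentiableAt ℂ f x₀ := hf.differentiableAt (hN.mem_nhds hx₀)
    have hga : DifferentiableAt ℂ g x₀ := hg.differentiableAt (hN.mem_nhds hx₀)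
    have hfk : DifferentiableAt ℂ (fun x => f x k) x₀ := differentiableAt_pi.1 hfa k
    have hgk : DifferentiableAt ℂ (fun x => g x k) x₀ := differentiableAt_pi.1 hga k
    have hk' : g x₀ k ≠ 0 := hk
    have hev : ∀ᶠ x in 𝓝 x₀, g x k ≠ 0 := hgk.continuousAt.eventually_ne hk'
    have hdiv : DifferentiableAt ℂ (fun x => f x k / g x k) x₀ := by
      simp only [div_eq_mul_inv]
      exact hfk.mul (hgk.fun_inv hk')
    refine (hdiv.congr_of_eventuallyEq ?_).differentiableWithinAt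
    filter_upwards [hev, hN.mem_nhds hx₀] with x hx hxN
    have := congrFun (hc x hxN) k
    simp only [Pi.smul_apply, smul_eq_mul] at this
    rw [this, mul_div_cancel_right₀ _ hx]
  · intro h0
    exact hf0 x hx (by rw [hc x hx, h0, zero_smul])

/-- **LOG.**  A holomorphic function without zeros on a convex open set is `exp l`.
Route: `N = ∅` trivial.  Otherwise `IsSimplyConnected N` (`Convex.contractibleSpace`, `SimplyConnectedSpace.ofContractible`; `IsSimplyConnected s` is by definition `SimplyConnectedSpace s`);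
`Complex.exists_continuousOn_eqOn_exp_comp` gives a CONTINUOUS `l` on `N` with `exp (l x) = c x`.  Holomorphy at `x₁ ∈ N`: for `x` near `x₁`, `‖l x - l x₁‖ < π` so `l x - l x₁ = Complex.log (exp (l x - l x₁)) = Complex.log (c x / c x₁)`
(`Complex.log_exp`, `Complex.exp_sub`), and `c x / c x₁ → 1 ∈ slitPlane`: `DifferentiableAt.clog`; `DifferentiableAt.congr_of_eventuallyEq`. -/
theorem gl_log {N : Set (ℂ × ℂ)} (hN : IsOpen N) (hc : Convex ℝ N) {c : ℂ × ℂ → ℂ}
    (hd : DifferentiableOn ℂ c N) (h0 : ∀ x ∈ N, c x ≠ 0) :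
    ∃ l : ℂ × ℂ → ℂ, DifferentiableOn ℂ l N ∧ ∀ x ∈ N, c x = Complex.exp (l x) := by
  rcases N.eq_empty_or_nonempty with rfl | hne
  · exact ⟨fun _ => 0, differentiableOn_empty, fun x hx => hx.elim⟩
  have hsc : IsSimplyConnected N := by
    have := hc.contractibleSpace hne
    exact SimplyConnectedSpace.ofContractible N
  obtain ⟨l, hlc, hl⟩ := Complex.exists_continuousOn_eqOn_exp_comp hsc hN hd.continuousOn
    (by
      rintro ⟨x, hx, hx0⟩
      exact h0 x hx hx0)
  have hl' : ∀ x ∈ N, Complex.exp (l x) = c x := fun x hx => hl hx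
  refine ⟨l, fun x₁ hx₁ => ?_, fun x hx => (hl' x hx).symm⟩
  have hNn := hN.mem_nhds hx₁
  have hla : ContinuousAt l x₁ := hlc.continuousAt hNn
  have hca : DifferentiableAt ℂ c x₁ := hd.differentiableAt hNn
  have hq : DifferentiableAt ℂ (fun x => c x / c x₁) x₁ := by
    simp only [div_eq_mul_inv]
    exact hca.mul_const _
  have hq1 : c x₁ / c x₁ ∈ Complex.slitPlane := by
    rw [div_self (h0 x₁ hx₁)]
    exact Complex.one_mem_slitPlane
  have hlog : DifferentiableAt ℂ (fun x => l x₁ + Complex.log (c x / c x₁)) x₁ :=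
    (hq.clog hq1).const_add _
  refine (hlog.congr_of_eventuallyEq ?_).differentiableWithinAt
  have hnear : ∀ᶠ x in 𝓝 x₁, dist (l x) (l x₁) < Real.pi :=
    hla.tendsto.eventually (ball_mem_nhds _ Real.pi_pos)
  filter_upwards [hnear, hNn] with x hx hxN
  rw [dist_eq_norm] at hx
  have him : |(l x - l x₁).im| < Real.pi := (Complex.abs_im_le_norm _).trans_lt hx
  rw [abs_lt] at him
  have : Complex.log (Complex.exp (l x - l x₁)) = l x - l x₁ := Complex.log_exp him.1 him.2.le
  rw [Complex.exp_sub, hl' x hxN, hl' x₁ hx₁] at this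
  rw [this]
  ring

/-- **SHRINK.**  Route: `K \ O` is compact and `f > m` on it; so there is `η > 0` with `f > m + η` on `K \ O` (`IsCompact.exists_isMinOn`, or `K \ O = ∅`).  `K ⊆ O ∪ {f > m + η}`, open:
`IsCompact.exists_thickening_subset_open` gives `δ₀`; `δ = min δ₀ η`. -/
theorem gl_shrink {X : Type*} [PseudoMetricSpace X] {K O : Set X} (hK : IsCompact K) (hO : IsOpen O)
    {f : X → ℝ} (hf : Continuous f) {m : ℝ} (h : K ∩ {x | f x ≤ m} ⊆ O) :
    ∃ δ : ℝ, 0 < δ ∧ thickening δ K ∩ {x | f x < m + δ} ⊆ O := by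
  have hK' : IsCompact (K \ O) := hK.diff hO
  obtain ⟨η, hη, hη'⟩ : ∃ η : ℝ, 0 < η ∧ ∀ x ∈ K \ O, m + η < f x := by
    rcases (K \ O).eq_empty_or_nonempty with he | hne
    · exact ⟨1, one_pos, fun x hx => by rw [he] at hx; exact hx.elim⟩
    · obtain ⟨x₀, hx₀, hmin⟩ := hK'.exists_isMinOn hne hf.continuousOn
      have h1 : m < f x₀ := by
        by_contra hle
        have hle' : f x₀ ≤ m := not_lt.1 hle
        exact hx₀.2 (h ⟨hx₀.1, hle'⟩)
      refine ⟨(f x₀ - m) / 2, by linarith, fun x hx => ?_⟩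
      have : f x₀ ≤ f x := hmin hx
      linarith
  have hO' : IsOpen (O ∪ {x | m + η < f x}) := hO.union (isOpen_lt continuous_const hf)
  have hsub : K ⊆ O ∪ {x | m + η < f x} := fun x hx => by
    by_cases hxO : x ∈ O
    · exact Or.inl hxO
    · exact Or.inr (hη' x ⟨hx, hxO⟩)
  obtain ⟨δ₀, hδ₀, hth⟩ := hK.exists_thickening_subset_open hO' hsub
  refine ⟨min δ₀ η, lt_min hδ₀ hη, fun x hx => ?_⟩
  rcases hth (thickening_mono (min_le_left _ _) _ hx.1) with h1 | h1
  · exact h1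
  · exfalso
    have h2 : f x < m + min δ₀ η := hx.2
    have h3 : m + η < f x := h1
    have := min_le_right δ₀ η
    linarith

variable {ι : Type*} {U : ι → Set (ℂ × ℂ)} {φ : ι → ℂ × ℂ → V4}

/-- **TRANS.**  Two lifts near a compact convex set differ by `exp l`, `l` holomorphic and bounded on a thickening.
Route: `IsCompact.exists_thickening_subset_open` for the open set `N ∩ N'`: `δ₁`.  `gl_ratio` on `N ∩ N'` (`GlIsLift.prop_of`), `gl_log` on the convex (`Convex.thickening`) open (`isOpen_thickening`) set `thickening δ₁ K`.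
`δ = δ₁ / 2`: `thickening δ K ⊆ cthickening δ K ⊆ thickening δ₁ K` (`cthickening_subset_thickening'`), `cthickening δ K` compact (`IsCompact.cthickening`), `l` continuous on it: `IsCompact.exists_bound_of_continuousOn`. -/
theorem gl_trans {K N N' : Set (ℂ × ℂ)} {σ σ' : ℂ × ℂ → V4} (hK : IsCompact K) (hKc : Convex ℝ K)
    (h : GlIsLift U φ N σ) (h' : GlIsLift U φ N' σ') (hKN : K ⊆ N) (hKN' : K ⊆ N') :
    ∃ (δ B : ℝ) (l : ℂ × ℂ → ℂ), 0 < δ ∧ thickening δ K ⊆ N ∩ N' ∧
      DifferentiableOn ℂ l (thickening δ K) ∧ (∀ x ∈ thickening δ K, ‖l x‖ ≤ B) ∧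
      ∀ x ∈ thickening δ K, σ' x = Complex.exp (l x) • σ x := by
  have hNN : IsOpen (N ∩ N') := h.isOpen.inter h'.isOpen
  obtain ⟨δ₁, hδ₁, hth⟩ := hK.exists_thickening_subset_open hNN (subset_inter hKN hKN')
  obtain ⟨c, hcd, hc⟩ := gl_ratio hNN (h'.hol.mono inter_subset_right) (h.hol.mono inter_subset_left)
    (fun x hx => h'.ne x hx.2) (fun x hx => h.ne x hx.1) (fun x hx => h.prop_of h' hx.1 hx.2)
  obtain ⟨l, hld, hl⟩ := gl_log (isOpen_thickening (δ := δ₁) (E := K)) (hKc.thickening δ₁)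
    (hcd.mono hth) (fun x hx => (hc x (hth hx)).1)
  have hsub : cthickening (δ₁ / 2) K ⊆ thickening δ₁ K :=
    cthickening_subset_thickening' hδ₁ (by linarith) K
  have hsub' : thickening (δ₁ / 2) K ⊆ thickening δ₁ K :=
    (thickening_subset_cthickening _ _).trans hsub
  obtain ⟨B, hB⟩ := (hK.cthickening (r := δ₁ / 2)).exists_bound_of_continuousOn
    (hld.continuousOn.mono hsub)
  refine ⟨δ₁ / 2, B, l, by linarith, hsub'.trans hth, hld.mono hsub',
    fun x hx => hB x (thickening_subset_cthickening _ _ hx), fun x hx => ?_⟩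
  rw [← hl x (hsub' hx)]
  exact (hc x (hth (hsub' hx))).2

end Claimed.Agent.R245
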