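/-
Row 245 / S0484.  TOOL `Split` (architect helper292): formal properties of `L2Splits` (additive Cousin splitting WITH BOUNDS and WITHOUT LOSS OF DOMAIN,
def in L2Defs.lean).  ONE FILE = ONE PACKAGE = ONE OWNER.  Statements FROZEN; helper lemmas: prefix `sp_`, in this file.
-/
import Claimed.Agent.R245.L2Defs

set_option autoImplicit false

namespace Claimed.Agent.R245

open Set Metric

section general

variable {X : Type*} [NormedAddCommGroup X] [NormedSpace ℂ X]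

theorem L2Splits.mono {UA UB : Set X} {κ κ' : ℝ} (h : L2Splits UA UB κ) (hκ : κ ≤ κ') : L2Splits UA UB κ' := by
  intro u B hB hu hub
  obtain ⟨a, b, ha, hb, hab, hbb, heq⟩ := h u B hB hu hub
  exact ⟨a, b, ha, hb, fun x hx => (hab x hx).trans (mul_le_mul_of_nonneg_right hκ hB),
    fun x hx => (hbb x hx).trans (mul_le_mul_of_nonneg_right hκ hB), heq⟩

/-- a cell contained in `A`: take `(a, b) = (0, -u)`. -/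
theorem sp_base_left {A B S : Set X} (h : S ⊆ A) : L2Splits (A ∩ S) (B ∩ S) 1 := by
  intro u M hM hu hub
  have hsub : B ∩ S ⊆ (A ∩ S) ∩ (B ∩ S) := fun x hx => ⟨⟨h hx.2, hx.2⟩, hx⟩
  refine ⟨fun _ => 0, fun x => - u x, differentiableOn_const _, (hu.mono hsub).neg, ?_, ?_, ?_⟩
  · intro x _
    simpa using hM
  · intro x hx
    simpa using hub x (hsub hx)
  · intro x _
    simp

/-- a cell contained in `B`: take `(a, b) = (u, 0)`. -/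
theorem sp_base_right {A B S : Set X} (h : S ⊆ B) : L2Splits (A ∩ S) (B ∩ S) 1 := by
  intro u M hM hu hub
  have hsub : A ∩ S ⊆ (A ∩ S) ∩ (B ∩ S) := fun x hx => ⟨hx, ⟨h hx.2, hx.2⟩⟩
  refine ⟨u, fun _ => 0, hu.mono hsub, differentiableOn_const _, ?_, ?_, ?_⟩
  · intro x hx
    simpa using hub x (hsub hx)
  · intro x _
    simpa using hM
  · intro x _
    simp

/-- two holomorphic functions on open sets which agree on the overlap. -/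
theorem sp_glue_fun {Y : Type*} [NormedAddCommGroup Y] [NormedSpace ℂ Y] {U₁ U₂ : Set X} (h₁ : IsOpen U₁) (h₂ : IsOpen U₂)
    {g₁ g₂ : X → Y} (hg₁ : DifferentiableOn ℂ g₁ U₁) (hg₂ : DifferentiableOn ℂ g₂ U₂)
    (h : ∀ x ∈ U₁ ∩ U₂, g₁ x = g₂ x) :
    ∃ g : X → Y, DifferentiableOn ℂ g (U₁ ∪ U₂) ∧ (∀ x ∈ U₁, g x = g₁ x) ∧ ∀ x ∈ U₂, g x = g₂ x := by
  classical
  have e₁ : ∀ x ∈ U₁, (if x ∈ U₁ then g₁ x else g₂ x) = g₁ x := fun x hx => if_pos hx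
  have e₂ : ∀ x ∈ U₂, (if x ∈ U₁ then g₁ x else g₂ x) = g₂ x := by
    intro x hx
    by_cases hx1 : x ∈ U₁
    · rw [if_pos hx1]; exact h x ⟨hx1, hx⟩
    · rw [if_neg hx1]
  refine ⟨fun x => if x ∈ U₁ then g₁ x else g₂ x, ?_, e₁, e₂⟩
  rintro x (hx | hx)
  · have hd : DifferentiableAt ℂ g₁ x := hg₁.differentiableAt (h₁.mem_nhds hx)
    refine (hd.congr_of_eventuallyEq ?_).differentiableWithinAt
    filter_upwards [h₁.mem_nhds hx] with y hy using e₁ y hy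
  · have hd : DifferentiableAt ℂ g₂ x := hg₂.differentiableAt (h₂.mem_nhds hx)
    refine (hd.congr_of_eventuallyEq ?_).differentiableWithinAt
    filter_upwards [h₂.mem_nhds hx] with y hy using e₂ y hy

/-- **Cousin's patching step.**  Solutions `(a_i, b_i)` on `S_i`; `w = a₁ - a₂` on `A ∩ S₁ ∩ S₂`, `= b₁ - b₂` on `B ∩ S₁ ∩ S₂` is ONE
holomorphic function on `S₁ ∩ S₂` (`sp_glue_fun`), bounded by `(K₁ + K₂) M`; split `w = w₁ - w₂`; `(a_i - w_i, b_i - w_i)` agree on the overlaps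
(`sp_glue_fun` twice). -/
theorem sp_patch {A B S₁ S₂ : Set X} {K₁ K₂ κ : ℝ} (hA : IsOpen A) (hB : IsOpen B) (hS₁ : IsOpen S₁) (hS₂ : IsOpen S₂)
    (hcov : S₁ ∩ S₂ ⊆ A ∪ B) (hK₁ : 0 ≤ K₁) (hK₂ : 0 ≤ K₂) (hκ : 0 ≤ κ)
    (h₁ : L2Splits (A ∩ S₁) (B ∩ S₁) K₁) (h₂ : L2Splits (A ∩ S₂) (B ∩ S₂) K₂) (h₁₂ : L2Splits S₁ S₂ κ) :
    L2Splits (A ∩ (S₁ ∪ S₂)) (B ∩ (S₁ ∪ S₂)) (max K₁ K₂ + κ * (K₁ + K₂)) := by
  intro u M hM hu hub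
  have s₁ : (A ∩ S₁) ∩ (B ∩ S₁) ⊆ (A ∩ (S₁ ∪ S₂)) ∩ (B ∩ (S₁ ∪ S₂)) :=
    fun x hx => ⟨⟨hx.1.1, Or.inl hx.1.2⟩, ⟨hx.2.1, Or.inl hx.1.2⟩⟩
  have s₂ : (A ∩ S₂) ∩ (B ∩ S₂) ⊆ (A ∩ (S₁ ∪ S₂)) ∩ (B ∩ (S₁ ∪ S₂)) :=
    fun x hx => ⟨⟨hx.1.1, Or.inr hx.1.2⟩, ⟨hx.2.1, Or.inr hx.1.2⟩⟩
  obtain ⟨a₁, b₁, ha₁, hb₁, ha₁b, hb₁b, e₁⟩ := h₁ u M hM (hu.mono s₁) fun x hx => hub x (s₁ hx)
  obtain ⟨a₂, b₂, ha₂, hb₂, ha₂b, hb₂b, e₂⟩ := h₂ u M hM (hu.mono s₂) fun x hx => hub x (s₂ hx)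
  -- the difference cocycle
  obtain ⟨w, hw, hwA, hwB⟩ := sp_glue_fun (U₁ := A ∩ (S₁ ∩ S₂)) (U₂ := B ∩ (S₁ ∩ S₂))
    (hA.inter (hS₁.inter hS₂)) (hB.inter (hS₁.inter hS₂))
    (g₁ := fun x => a₁ x - a₂ x) (g₂ := fun x => b₁ x - b₂ x)
    ((ha₁.mono fun x hx => ⟨hx.1, hx.2.1⟩).sub (ha₂.mono fun x hx => ⟨hx.1, hx.2.2⟩))
    ((hb₁.mono fun x hx => ⟨hx.1, hx.2.1⟩).sub (hb₂.mono fun x hx => ⟨hx.1, hx.2.2⟩))
    (by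
      intro x hx
      have q₁ := e₁ x ⟨⟨hx.1.1, hx.1.2.1⟩, ⟨hx.2.1, hx.1.2.1⟩⟩
      have q₂ := e₂ x ⟨⟨hx.1.1, hx.1.2.2⟩, ⟨hx.2.1, hx.1.2.2⟩⟩
      have : a₁ x - b₁ x = a₂ x - b₂ x := q₁.trans q₂.symm
      have h3 : a₁ x - a₂ x - (b₁ x - b₂ x) = 0 := by
        have : a₁ x - a₂ x - (b₁ x - b₂ x) = (a₁ x - b₁ x) - (a₂ x - b₂ x) := by abel
        rw [this, q₁, q₂, sub_self]
      exact sub_eq_zero.1 h3)
  have hsub : S₁ ∩ S₂ ⊆ A ∩ (S₁ ∩ S₂) ∪ B ∩ (S₁ ∩ S₂) := by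
    intro x hx
    rcases hcov hx with h | h
    · exact Or.inl ⟨h, hx⟩
    · exact Or.inr ⟨h, hx⟩
  have hwb : ∀ x ∈ S₁ ∩ S₂, ‖w x‖ ≤ (K₁ + K₂) * M := by
    intro x hx
    rcases hcov hx with h | h
    · rw [hwA x ⟨h, hx⟩]
      calc ‖a₁ x - a₂ x‖ ≤ ‖a₁ x‖ + ‖a₂ x‖ := norm_sub_le _ _
        _ ≤ K₁ * M + K₂ * M := add_le_add (ha₁b x ⟨h, hx.1⟩) (ha₂b x ⟨h, hx.2⟩)
        _ = (K₁ + K₂) * M := by ring
    · rw [hwB x ⟨h, hx⟩]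
      calc ‖b₁ x - b₂ x‖ ≤ ‖b₁ x‖ + ‖b₂ x‖ := norm_sub_le _ _
        _ ≤ K₁ * M + K₂ * M := add_le_add (hb₁b x ⟨h, hx.1⟩) (hb₂b x ⟨h, hx.2⟩)
        _ = (K₁ + K₂) * M := by ring
  obtain ⟨w₁, w₂, hw₁, hw₂, hw₁b, hw₂b, ew⟩ :=
    h₁₂ w ((K₁ + K₂) * M) (by positivity) (hw.mono hsub) hwb
  obtain ⟨a, ha, haA₁, haA₂⟩ := sp_glue_fun (U₁ := A ∩ S₁) (U₂ := A ∩ S₂)
    (hA.inter hS₁) (hA.inter hS₂)
    (g₁ := fun x => a₁ x - w₁ x) (g₂ := fun x => a₂ x - w₂ x)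
    (ha₁.sub (hw₁.mono inter_subset_right)) (ha₂.sub (hw₂.mono inter_subset_right))
    (by
      intro x hx
      have q := ew x ⟨hx.1.2, hx.2.2⟩
      rw [hwA x ⟨hx.1.1, hx.1.2, hx.2.2⟩] at q
      have h3 : a₁ x - w₁ x - (a₂ x - w₂ x) = 0 := by
        have : a₁ x - w₁ x - (a₂ x - w₂ x) = (a₁ x - a₂ x) - (w₁ x - w₂ x) := by abel
        rw [this, q, sub_self]
      exact sub_eq_zero.1 h3)
  obtain ⟨b, hb, hbB₁, hbB₂⟩ := sp_glue_fun (U₁ := B ∩ S₁) (U₂ := B ∩ S₂)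
    (hB.inter hS₁) (hB.inter hS₂)
    (g₁ := fun x => b₁ x - w₁ x) (g₂ := fun x => b₂ x - w₂ x)
    (hb₁.sub (hw₁.mono inter_subset_right)) (hb₂.sub (hw₂.mono inter_subset_right))
    (by
      intro x hx
      have q := ew x ⟨hx.1.2, hx.2.2⟩
      rw [hwB x ⟨hx.1.1, hx.1.2, hx.2.2⟩] at q
      have h3 : b₁ x - w₁ x - (b₂ x - w₂ x) = 0 := by
        have : b₁ x - w₁ x - (b₂ x - w₂ x) = (b₁ x - b₂ x) - (w₁ x - w₂ x) := by abel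
        rw [this, q, sub_self]
      exact sub_eq_zero.1 h3)
  have bd : ∀ (p q : V4) (K : ℝ), K ≤ max K₁ K₂ → ‖p‖ ≤ K * M → ‖q‖ ≤ κ * ((K₁ + K₂) * M) →
      ‖p - q‖ ≤ (max K₁ K₂ + κ * (K₁ + K₂)) * M := by
    intro p q K hK hp hq
    calc ‖p - q‖ ≤ ‖p‖ + ‖q‖ := norm_sub_le _ _
      _ ≤ K * M + κ * ((K₁ + K₂) * M) := add_le_add hp hq
      _ ≤ max K₁ K₂ * M + κ * ((K₁ + K₂) * M) := by gcongr
      _ = _ := by ring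
  refine ⟨a, b, ?_, ?_, ?_, ?_, ?_⟩
  · rw [inter_union_distrib_left]; exact ha
  · rw [inter_union_distrib_left]; exact hb
  · rintro x ⟨hxA, hx | hx⟩
    · rw [haA₁ x ⟨hxA, hx⟩]
      exact bd _ _ K₁ (le_max_left _ _) (ha₁b x ⟨hxA, hx⟩) (hw₁b x hx)
    · rw [haA₂ x ⟨hxA, hx⟩]
      exact bd _ _ K₂ (le_max_right _ _) (ha₂b x ⟨hxA, hx⟩) (hw₂b x hx)
  · rintro x ⟨hxB, hx | hx⟩
    · rw [hbB₁ x ⟨hxB, hx⟩]
      exact bd _ _ K₁ (le_max_left _ _) (hb₁b x ⟨hxB, hx⟩) (hw₁b x hx)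
    · rw [hbB₂ x ⟨hxB, hx⟩]
      exact bd _ _ K₂ (le_max_right _ _) (hb₂b x ⟨hxB, hx⟩) (hw₂b x hx)
  · rintro x ⟨⟨hxA, hx | hx⟩, hxB, _⟩
    · rw [haA₁ x ⟨hxA, hx⟩, hbB₁ x ⟨hxB, hx⟩, ← e₁ x ⟨⟨hxA, hx⟩, ⟨hxB, hx⟩⟩]
      abel
    · rw [haA₂ x ⟨hxA, hx⟩, hbB₂ x ⟨hxB, hx⟩, ← e₂ x ⟨⟨hxA, hx⟩, ⟨hxB, hx⟩⟩]
      abel

/-- transport: `ι` a linear section of the linear map `π` (`u' = u ∘ π`, `a = a' ∘ ι`). -/
theorem L2Splits.comap {X' : Type*} [NormedAddCommGroup X'] [NormedSpace ℂ X'] (ι : X →L[ℂ] X') (π : X' →L[ℂ] X)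
    (hπι : ∀ x, π (ι x) = x) {UA UB : Set X} {UA' UB' : Set X'} {κ : ℝ} (hA : MapsTo ι UA UA') (hB : MapsTo ι UB UB')
    (hπ : MapsTo π (UA' ∩ UB') (UA ∩ UB)) (h : L2Splits UA' UB' κ) : L2Splits UA UB κ := by
  intro u M hM hu hub
  obtain ⟨a, b, ha, hb, hab, hbb, heq⟩ := h (fun y => u (π y)) M hM
    (hu.comp π.differentiable.differentiableOn hπ) (fun y hy => hub _ (hπ hy))
  refine ⟨fun x => a (ι x), fun x => b (ι x), ha.comp ι.differentiable.differentiableOn hA,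
    hb.comp ι.differentiable.differentiableOn hB, fun x hx => hab _ (hA hx),
    fun x hx => hbb _ (hB hx), ?_⟩
  intro x hx
  have := heq (ι x) ⟨hA hx.1, hB hx.2⟩
  simpa [hπι] using this

end general

end Claimed.Agent.R245
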