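/-
Row 245 / S0484, GEO, block GEO-LIFT (sub-architect helper278).   GLUE.
Statement FROZEN; helper lemmas: prefix `glb_`, in this file.   Tools: GeoLiftA, L2Cut.lean (`l2_cut_exists`), L2Split.lean (`l2_split`), Split.lean (`sp_glue_fun`): all sorry-free.
-/
import Claimed.Agent.R245.GeoLiftA
import Claimed.Agent.R245.L2Split
import Claimed.Agent.R245.Split

set_option autoImplicit false

namespace Claimed.Agent.R245

open Metric Set Filter Topology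

variable {ι : Type*} {U : ι → Set (ℂ × ℂ)} {φ : ι → ℂ × ℂ → V4}

theorem glb_thickening_prod {A S : Set ℂ} {δ : ℝ} :
    thickening δ A ×ˢ thickening δ S ⊆ thickening δ (A ×ˢ S) := by
  rintro ⟨x, y⟩ ⟨hx, hy⟩
  rw [mem_thickening_iff] at hx hy ⊢
  obtain ⟨a, ha, hxa⟩ := hx
  obtain ⟨s, hs, hys⟩ := hy
  exact ⟨(a, s), ⟨ha, hs⟩, by rw [Prod.dist_eq]; exact max_lt hxa hys⟩

/-- **GLUE.**  `A` (planar, compact convex) is cut by the real line `ℓ = m`; `S` passive.  Lifts near the two halves give a lift near `A ×ˢ S`.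
Route.  `(N', σ')`, `(N'', σ'')` the two lifts, `K = A ×ˢ S`, `f x = ℓ x.1`, face `Fc = (A ∩ {ℓ = m}) ×ˢ S`: compact, convex, `⊆ N' ∩ N''`.
(1) `gl_trans` for `Fc`, lifts `σ''` and `σ'`: `δ₁, B, l` with `σ' = exp l • σ''` on `thickening δ₁ Fc`, `‖l‖ ≤ B` there.
(2) `gl_shrink` three times in `X = ℂ × ℂ`, compact set `K`:  `f`, level `m`, `O = N'`;  `-f`, level `-m`, `O = N''`;  `|f - m|`, level `0`, `O = thickening δ₁ Fc`.  `δ` = the minimum of the three.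
(3) `UA = thickening δ A ∩ {ℓ < m + δ}`, `UB = thickening δ A ∩ {m - δ < ℓ}`, `W = thickening δ S`.  `thickening δ A ×ˢ thickening δ S ⊆ thickening δ (A ×ˢ S)` (sup metric: `Prod.dist_eq`, `mem_thickening_iff`).  So
   `UA ×ˢ W ⊆ N'`, `UB ×ˢ W ⊆ N''`, `(UA ∩ UB) ×ˢ W ⊆ thickening δ₁ Fc`.   `UA, UB` open, bounded (`IsCompact.isBounded`, `Bornology.IsBounded.thickening`);
   `closure (UA \ UB) ⊆ {ℓ ≤ m - δ}`, `closure (UB \ UA) ⊆ {m + δ ≤ ℓ}` (`closure_minimal`): disjoint.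
(4) `l2_cut_exists`, `l2_split` (`T = ℂ`, `G = ℂ`, `u = l`): `a` on `UA ×ˢ W`, `b` on `UB ×ˢ W`, `a - b = l` on the overlap.
(5) `sp_glue_fun` for `exp (-a) • σ'` on `UA ×ˢ W` and `exp (-b) • σ''` on `UB ×ˢ W`: they agree on the overlap (`exp (-a) * exp l = exp (-b)`).  `N = UA ×ˢ W ∪ UB ×ˢ W ⊇ A ×ˢ S` (`self_subset_thickening`, `le_total (ℓ z) m`).
   Non vanishing and proportionality to `φ i`: from `σ'`, `σ''` (`smul_smul`, `Complex.exp_ne_zero`). -/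
theorem gl_glue {A S : Set ℂ} (hA : IsCompact A) (hAc : Convex ℝ A) (hS : IsCompact S)
    (hSc : Convex ℝ S) (ℓ : ℂ →L[ℝ] ℝ) (m : ℝ) (h1 : GlLift U φ ((A ∩ {z | ℓ z ≤ m}) ×ˢ S))
    (h2 : GlLift U φ ((A ∩ {z | m ≤ ℓ z}) ×ˢ S)) : GlLift U φ (A ×ˢ S) := by
  obtain ⟨N', σ', hN', hl'⟩ := h1
  obtain ⟨N'', σ'', hN'', hl''⟩ := h2
  have hK : IsCompact (A ×ˢ S) := hA.prod hS
  obtain ⟨Fc, hFc⟩ : ∃ Fc : Set (ℂ × ℂ), Fc = (A ∩ {z | ℓ z = m}) ×ˢ S := ⟨_, rfl⟩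
  have hFcK : IsCompact Fc := by
    rw [hFc]
    exact (hA.inter_right (isClosed_eq ℓ.continuous continuous_const)).prod hS
  have hFcc : Convex ℝ Fc := by
    rw [hFc]
    exact (hAc.inter (convex_hyperplane ℓ.toLinearMap.isLinear m)).prod hSc
  have hF' : Fc ⊆ N' := fun x hx => by
    rw [hFc] at hx
    exact hN' ⟨⟨hx.1.1, le_of_eq hx.1.2⟩, hx.2⟩
  have hF'' : Fc ⊆ N'' := fun x hx => by
    rw [hFc] at hx
    exact hN'' ⟨⟨hx.1.1, ge_of_eq hx.1.2⟩, hx.2⟩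
  obtain ⟨δ₁, B, l, hδ₁, hsub₁, hld, hlB, hrel⟩ := gl_trans hFcK hFcc hl'' hl' hF'' hF'
  have hfc : Continuous (fun p : ℂ × ℂ => ℓ p.1) := ℓ.continuous.comp continuous_fst
  obtain ⟨d1, hd1, hs1⟩ := gl_shrink hK hl'.isOpen hfc (m := m)
    (fun x hx => hN' ⟨⟨hx.1.1, hx.2⟩, hx.1.2⟩)
  obtain ⟨d2, hd2, hs2⟩ := gl_shrink hK hl''.isOpen hfc.neg (m := -m)
    (fun x hx => by
      have h2 : -ℓ x.1 ≤ -m := hx.2
      have h3 : m ≤ ℓ x.1 := neg_le_neg_iff.1 h2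
      exact hN'' ⟨⟨hx.1.1, h3⟩, hx.1.2⟩)
  obtain ⟨d3, hd3, hs3⟩ := gl_shrink hK (isOpen_thickening (δ := δ₁) (E := Fc))
    (f := fun p => |ℓ p.1 - m|) (hfc.sub continuous_const).abs (m := 0)
    (fun x hx => self_subset_thickening hδ₁ _ (by
      rw [hFc]
      exact ⟨⟨hx.1.1, sub_eq_zero.1 (abs_nonpos_iff.1 hx.2)⟩, hx.1.2⟩))
  obtain ⟨δ, hδ, hδ1, hδ2, hδ3⟩ : ∃ δ : ℝ, 0 < δ ∧ δ ≤ d1 ∧ δ ≤ d2 ∧ δ ≤ d3 :=
    ⟨min d1 (min d2 d3), lt_min hd1 (lt_min hd2 hd3), min_le_left _ _,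
      (min_le_right _ _).trans (min_le_left _ _), (min_le_right _ _).trans (min_le_right _ _)⟩
  obtain ⟨UA, hUA⟩ : ∃ UA : Set ℂ, UA = thickening δ A ∩ {z | ℓ z < m + δ} := ⟨_, rfl⟩
  obtain ⟨UB, hUB⟩ : ∃ UB : Set ℂ, UB = thickening δ A ∩ {z | m - δ < ℓ z} := ⟨_, rfl⟩
  obtain ⟨W, hW⟩ : ∃ W : Set ℂ, W = thickening δ S := ⟨_, rfl⟩
  have hUAo : IsOpen UA := by
    rw [hUA]; exact isOpen_thickening.inter (isOpen_lt ℓ.continuous continuous_const)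
  have hUBo : IsOpen UB := by
    rw [hUB]; exact isOpen_thickening.inter (isOpen_lt continuous_const ℓ.continuous)
  have hWo : IsOpen W := by rw [hW]; exact isOpen_thickening
  have hthK : ∀ {d : ℝ}, δ ≤ d → ∀ x : ℂ × ℂ, x.1 ∈ thickening δ A → x.2 ∈ W →
      x ∈ thickening d (A ×ˢ S) := fun hd x hx1 hx2 =>
    thickening_mono hd _ (glb_thickening_prod ⟨hx1, by rwa [hW] at hx2⟩)
  have hAN : UA ×ˢ W ⊆ N' := fun x hx => by
    have h1 := hx.1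
    rw [hUA] at h1
    have h2 : ℓ x.1 < m + δ := h1.2
    have h3 : ℓ x.1 < m + d1 := by linarith
    exact hs1 ⟨hthK hδ1 x h1.1 hx.2, h3⟩
  have hBN : UB ×ˢ W ⊆ N'' := fun x hx => by
    have h1 := hx.1
    rw [hUB] at h1
    have h2 : m - δ < ℓ x.1 := h1.2
    have h3 : -ℓ x.1 < -m + d2 := by linarith
    exact hs2 ⟨hthK hδ2 x h1.1 hx.2, h3⟩
  have hABF : (UA ∩ UB) ×ˢ W ⊆ thickening δ₁ Fc := fun x hx => by
    have h1 := hx.1.1
    have h2 := hx.1.2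
    rw [hUA] at h1
    rw [hUB] at h2
    have h3 : ℓ x.1 < m + δ := h1.2
    have h4 : m - δ < ℓ x.1 := h2.2
    have h5 : |ℓ x.1 - m| < 0 + d3 := by
      rw [abs_lt]
      constructor <;> linarith
    exact hs3 ⟨hthK hδ3 x h1.1 hx.2, h5⟩
  have hbA : Bornology.IsBounded UA := by
    rw [hUA]; exact (hA.isBounded.thickening).subset inter_subset_left
  have hbB : Bornology.IsBounded UB := by
    rw [hUB]; exact (hA.isBounded.thickening).subset inter_subset_left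
  have hsep : Disjoint (closure (UA \ UB)) (closure (UB \ UA)) := by
    have c1 : closure (UA \ UB) ⊆ {z | ℓ z ≤ m - δ} := by
      apply closure_minimal _ (isClosed_le ℓ.continuous continuous_const)
      rintro z ⟨hzA, hzB⟩
      by_contra hlt
      rw [hUA] at hzA
      have hlt' : m - δ < ℓ z := not_le.1 hlt
      exact hzB (by rw [hUB]; exact ⟨hzA.1, hlt'⟩)
    have c2 : closure (UB \ UA) ⊆ {z | m + δ ≤ ℓ z} := by
      apply closure_minimal _ (isClosed_le continuous_const ℓ.continuous)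
      rintro z ⟨hzB, hzA⟩
      by_contra hlt
      rw [hUB] at hzB
      have hlt' : ℓ z < m + δ := not_le.1 hlt
      exact hzA (by rw [hUA]; exact ⟨hzB.1, hlt'⟩)
    rw [Set.disjoint_left]
    intro z hz1 hz2
    have e1 : ℓ z ≤ m - δ := c1 hz1
    have e2 : m + δ ≤ ℓ z := c2 hz2
    linarith
  obtain ⟨χ, d, M, hcut⟩ := l2_cut_exists hUAo hUBo hbA hbB hsep
  have hB0 : 0 ≤ max B 0 := le_max_right _ _
  obtain ⟨a, b, had, hbd, -, -, hab⟩ := l2_split hcut hWo (u := l) (hld.mono hABF) hB0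
    (fun z hz => (hlB z (hABF hz)).trans (le_max_left _ _))
  obtain ⟨σ, hσd, hσ1, hσ2⟩ := sp_glue_fun (hUAo.prod hWo) (hUBo.prod hWo)
    (g₁ := fun x => Complex.exp (-a x) • σ' x) (g₂ := fun x => Complex.exp (-b x) • σ'' x)
    (had.neg.cexp.smul (hl'.hol.mono hAN)) (hbd.neg.cexp.smul (hl''.hol.mono hBN))
    (fun x hx => by
      have hx' : x ∈ (UA ∩ UB) ×ˢ W := ⟨⟨hx.1.1, hx.2.1⟩, hx.1.2⟩
      rw [hrel x (hABF hx'), smul_smul, ← Complex.exp_add, ← hab x hx']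
      congr 2
      ring)
  refine ⟨UA ×ˢ W ∪ UB ×ˢ W, σ, ?_, (hUAo.prod hWo).union (hUBo.prod hWo), ?_, hσd, ?_, ?_⟩
  · intro x hx
    have hx1 : x.1 ∈ thickening δ A := self_subset_thickening hδ _ hx.1
    have hx2 : x.2 ∈ W := by rw [hW]; exact self_subset_thickening hδ _ hx.2
    rcases le_total (ℓ x.1) m with h | h
    · left
      refine ⟨?_, hx2⟩
      rw [hUA]
      have h' : ℓ x.1 < m + δ := by linarith
      exact ⟨hx1, h'⟩
    · right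
      refine ⟨?_, hx2⟩
      rw [hUB]
      have h' : m - δ < ℓ x.1 := by linarith
      exact ⟨hx1, h'⟩
  · rintro x (hx | hx)
    · exact hl'.sub (hAN hx)
    · exact hl''.sub (hBN hx)
  · rintro x (hx | hx)
    · rw [hσ1 x hx]
      exact smul_ne_zero (Complex.exp_ne_zero _) (hl'.ne x (hAN hx))
    · rw [hσ2 x hx]
      exact smul_ne_zero (Complex.exp_ne_zero _) (hl''.ne x (hBN hx))
  · rintro x (hx | hx) i hi
    · obtain ⟨t, ht⟩ := hl'.prop x (hAN hx) i hi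
      exact ⟨Complex.exp (-a x) * t, by rw [hσ1 x hx, ht, smul_smul]⟩
    · obtain ⟨t, ht⟩ := hl''.prop x (hBN hx) i hi
      exact ⟨Complex.exp (-b x) * t, by rw [hσ2 x hx, ht, smul_smul]⟩

end Claimed.Agent.R245
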