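/-
Row 245 / S0484, GEO, block GEO-LIFT (sub-architect helper278).   INDUCTION: from points to products of compact convex sets.
Statements FROZEN; helper lemmas: prefix `glc_`, in this file.   Tools: GeoLiftA (`gl_shrink`), GeoLiftB (`gl_glue`).
-/
import Claimed.Agent.R245.GeoLiftB

set_option autoImplicit false

namespace Claimed.Agent.R245

open Metric Set Filter Topology

/-- **Induction on intervals** (Mathlib only).
Route: `T = {t ∈ Icc a b | P a t}` contains `a` (`hloc a`, `y = z = a`), bounded by `b`; `s = sSup T ∈ Icc a b`.  `hloc s`: `δ`.  There is `t ∈ T`, `s - δ < t ≤ s` (`exists_lt_of_lt_csSup`).  `z = min (s + δ / 2) b`: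
`P t z` by `hloc`, `P a z` by `hglue`, so `z ∈ T`, `z ≤ s`, hence `z = b`. -/
theorem gl_interval_ind {P : ℝ → ℝ → Prop} {a b : ℝ} (hab : a ≤ b)
    (hglue : ∀ x y z, a ≤ x → x ≤ y → y ≤ z → z ≤ b → P x y → P y z → P x z)
    (hloc : ∀ x ∈ Icc a b, ∃ δ > 0, ∀ y z, a ≤ y → y ≤ z → z ≤ b → x - δ < y → z < x + δ → P y z) :
    P a b := by
  let T : Set ℝ := {t | t ∈ Icc a b ∧ P a t}
  have haT : a ∈ T := by
    obtain ⟨δ, hδ, h⟩ := hloc a ⟨le_rfl, hab⟩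
    exact ⟨⟨le_rfl, hab⟩, h a a le_rfl le_rfl hab (by linarith) (by linarith)⟩
  have hbdd : BddAbove T := ⟨b, fun t ht => ht.1.2⟩
  have hs1 : a ≤ sSup T := le_csSup hbdd haT
  have hs2 : sSup T ≤ b := csSup_le ⟨a, haT⟩ fun t ht => ht.1.2
  obtain ⟨δ, hδ, h⟩ := hloc (sSup T) ⟨hs1, hs2⟩
  obtain ⟨t, htT, htlt⟩ := exists_lt_of_lt_csSup ⟨a, haT⟩ (show sSup T - δ < sSup T by linarith)
  have hts : t ≤ sSup T := le_csSup hbdd htT
  obtain ⟨z, hz⟩ : ∃ z, z = min (sSup T + δ / 2) b := ⟨_, rfl⟩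
  have hz1 : t ≤ z := by rw [hz]; exact le_min (by linarith) htT.1.2
  have hz2 : z ≤ b := by rw [hz]; exact min_le_right _ _
  have hz3 : z < sSup T + δ := by
    rw [hz]; exact lt_of_le_of_lt (min_le_left _ _) (by linarith)
  have hPtz : P t z := h t z htT.1.1 hz1 hz2 htlt hz3
  have hPaz : P a z := hglue a t z le_rfl htT.1.1 hz1 hz2 htT.2 hPtz
  have hzT : z ∈ T := ⟨⟨htT.1.1.trans hz1, hz2⟩, hPaz⟩
  have hzs : z ≤ sSup T := le_csSup hbdd hzT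
  have hzb : z = b := by
    rcases min_choice (sSup T + δ / 2) b with h' | h'
    · rw [h'] at hz
      linarith
    · rw [h'] at hz
      exact hz
  rw [← hzb]
  exact hPaz

variable {ι : Type*} {U : ι → Set (ℂ × ℂ)} {φ : ι → ℂ × ℂ → V4}

/-- **SLAB.**  Lifts near all the slices `ℓ = m` give a lift near `A ×ˢ S`.
Route: `A = ∅`: `gl_lift_empty` (`empty_prod`).  `ℓ '' A ⊆ Icc a b` (`IsCompact.image`, `IsCompact.isBounded`, or `IsCompact.exists_isMinOn / exists_isMaxOn`).  `P x y := GlLift U φ ((A ∩ {z | x ≤ ℓ z ∧ ℓ z ≤ y}) ×ˢ S)`.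
`hglue`: `gl_glue` for the compact convex set `A ∩ {x ≤ ℓ ≤ z}` (closed: `isClosed_le`; convex: `convex_halfSpace_le/ge` with `ℓ.toLinearMap.isLinear`, or by hand) cut at `y`, with `GlLift.mono`.
`hloc x`: `(N, σ)` the lift near the slice `ℓ = x`; `gl_shrink` (`X = ℂ × ℂ`, `K = A ×ˢ S`, `f p = |ℓ p.1 - x|`, level `0`, `O = N`) gives `δ`; `K ⊆ thickening δ K` (`self_subset_thickening`).  Conclusion: `P a b` and `GlLift.mono`. -/
theorem gl_slab {A S : Set ℂ} (hA : IsCompact A) (hAc : Convex ℝ A) (hS : IsCompact S)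
    (hSc : Convex ℝ S) (ℓ : ℂ →L[ℝ] ℝ) (h : ∀ m : ℝ, GlLift U φ ((A ∩ {z | ℓ z = m}) ×ˢ S)) :
    GlLift U φ (A ×ˢ S) := by
  rcases A.eq_empty_or_nonempty with rfl | hne
  · rw [empty_prod]
    exact gl_lift_empty
  obtain ⟨z₁, hz₁, hmin⟩ := hA.exists_isMinOn hne ℓ.continuous.continuousOn
  obtain ⟨z₂, hz₂, hmax⟩ := hA.exists_isMaxOn hne ℓ.continuous.continuousOn
  have hab : ℓ z₁ ≤ ℓ z₂ := hmin hz₂
  have hP : GlLift U φ ((A ∩ {z | ℓ z₁ ≤ ℓ z ∧ ℓ z ≤ ℓ z₂}) ×ˢ S) := by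
    refine gl_interval_ind (P := fun x y => GlLift U φ ((A ∩ {z | x ≤ ℓ z ∧ ℓ z ≤ y}) ×ˢ S))
      hab ?_ ?_
    · intro x y z _ hxy hyz _ h1 h2
      have hB : IsCompact (A ∩ {w | x ≤ ℓ w ∧ ℓ w ≤ z}) :=
        hA.inter_right ((isClosed_le continuous_const ℓ.continuous).inter
          (isClosed_le ℓ.continuous continuous_const))
      have hBc : Convex ℝ (A ∩ {w | x ≤ ℓ w ∧ ℓ w ≤ z}) :=
        hAc.inter ((convex_halfSpace_ge ℓ.toLinearMap.isLinear x).inter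
          (convex_halfSpace_le ℓ.toLinearMap.isLinear z))
      refine gl_glue hB hBc hS hSc ℓ y (h1.mono ?_) (h2.mono ?_)
      · rintro p ⟨⟨⟨hpA, hp1, hp2⟩, hp3⟩, hpS⟩
        exact ⟨⟨hpA, hp1, hp3⟩, hpS⟩
      · rintro p ⟨⟨⟨hpA, hp1, hp2⟩, hp3⟩, hpS⟩
        exact ⟨⟨hpA, hp3, hp2⟩, hpS⟩
    · intro x _
      obtain ⟨N, σ, hN, hl⟩ := h x
      obtain ⟨δ, hδ, hs⟩ := gl_shrink (hA.prod hS) hl.isOpen
        (f := fun p : ℂ × ℂ => |ℓ p.1 - x|)
        ((ℓ.continuous.comp continuous_fst).sub continuous_const).abs (m := 0)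
        (fun p hp => hN ⟨⟨hp.1.1, sub_eq_zero.1 (abs_nonpos_iff.1 hp.2)⟩, hp.1.2⟩)
      refine ⟨δ, hδ, fun y z _ _ _ hy hz => ⟨N, σ, ?_, hl⟩⟩
      rintro p ⟨⟨hpA, hp1, hp2⟩, hpS⟩
      refine hs ⟨self_subset_thickening hδ _ ⟨hpA, hpS⟩, ?_⟩
      show |ℓ p.1 - x| < 0 + δ
      rw [abs_lt]
      constructor <;> linarith
  refine hP.mono ?_
  rintro p ⟨hpA, hpS⟩
  exact ⟨⟨hpA, hmin hpA, hmax hpA⟩, hpS⟩

/-- **COLUMN.**  Lifts near all `{a} ×ˢ S` give a lift near `A ×ˢ S`.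
Route: `gl_slab` with `Complex.reCLM`, then `gl_slab` for `A ∩ {re = m}` with `Complex.imCLM`; `A ∩ {re = m} ∩ {im = m'}` is `⊆ {⟨m, m'⟩}` and is empty or contains `⟨m, m'⟩ ∈ A`. -/
theorem gl_column {A S : Set ℂ} (hA : IsCompact A) (hAc : Convex ℝ A) (hS : IsCompact S)
    (hSc : Convex ℝ S) (h : ∀ a ∈ A, GlLift U φ ({a} ×ˢ S)) : GlLift U φ (A ×ˢ S) := by
  refine gl_slab hA hAc hS hSc Complex.reCLM fun m => ?_
  have hB : IsCompact (A ∩ {z | Complex.reCLM z = m}) :=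
    hA.inter_right (isClosed_eq Complex.reCLM.continuous continuous_const)
  have hBc : Convex ℝ (A ∩ {z | Complex.reCLM z = m}) :=
    hAc.inter (convex_hyperplane Complex.reCLM.toLinearMap.isLinear m)
  refine gl_slab hB hBc hS hSc Complex.imCLM fun m' => ?_
  by_cases hmem : (⟨m, m'⟩ : ℂ) ∈ A
  · refine (h _ hmem).mono ?_
    rintro p ⟨⟨⟨_, hp1⟩, hp2⟩, hpS⟩
    exact ⟨Complex.ext hp1 hp2, hpS⟩
  · have he : (A ∩ {z | Complex.reCLM z = m} ∩ {z | Complex.imCLM z = m'}) = ∅ := by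
      rw [eq_empty_iff_forall_notMem]
      rintro z ⟨⟨hzA, hz1⟩, hz2⟩
      have : z = ⟨m, m'⟩ := Complex.ext hz1 hz2
      exact hmem (this ▸ hzA)
    rw [he, empty_prod]
    exact gl_lift_empty

/-- **SWAP.** -/
theorem gl_swap {K : Set (ℂ × ℂ)}
    (h : GlLift (fun i => Prod.swap ⁻¹' U i) (fun i x => φ i x.swap) (Prod.swap ⁻¹' K)) :
    GlLift U φ K := by
  obtain ⟨N, σ, hN, hl⟩ := h
  refine ⟨Prod.swap ⁻¹' N, fun x => σ x.swap, fun x hx => hN (by simpa using hx), ?_⟩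
  refine ⟨hl.isOpen.preimage continuous_swap, ?_, ?_, fun x hx => hl.ne x.swap hx, ?_⟩
  · intro x hx
    obtain ⟨i, hi⟩ := mem_iUnion.1 (hl.sub hx)
    exact mem_iUnion.2 ⟨i, by simpa using hi⟩
  · exact hl.hol.comp (f := fun x : ℂ × ℂ => (x.2, x.1))
      (differentiableOn_snd.prodMk differentiableOn_fst) (fun _ hx => hx)
  · intro x hx i hi
    obtain ⟨t, ht⟩ := hl.prop x.swap hx i (by simpa using hi)
    exact ⟨t, by simpa using ht⟩

/-- **BOX.**  Every product of compact convex sets inside the union of the cover has a lift. -/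
theorem gl_box (h : GlCover U φ) {A S : Set ℂ} (hA : IsCompact A) (hAc : Convex ℝ A)
    (hS : IsCompact S) (hSc : Convex ℝ S) (hsub : A ×ˢ S ⊆ ⋃ i, U i) : GlLift U φ (A ×ˢ S) := by
  refine gl_column hA hAc hS hSc fun a ha => gl_swap ?_
  have e : (Prod.swap ⁻¹' ({a} ×ˢ S) : Set (ℂ × ℂ)) = S ×ˢ {a} := by
    ext x
    simp [and_comm]
  rw [e]
  refine gl_column hS hSc isCompact_singleton (convex_singleton a) fun s hs => ?_
  rw [singleton_prod_singleton]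
  refine h.swap.lift_point ?_
  obtain ⟨i, hi⟩ := mem_iUnion.1 (hsub (mk_mem_prod ha hs))
  exact mem_iUnion.2 ⟨i, hi⟩

end Claimed.Agent.R245
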