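/-
Row 245 / S0484, GEO, block GEO-LIFT (sub-architect helper278).   EXHAUSTION: the limit lemma and the Runge step.
Statements FROZEN; helper lemmas: prefix `gld_`, in this file.   Tools: SCV.lean (`scv_tendsto`), Runge.lean (`rg_runge`), GeoLiftA (`gl_trans`).
-/
import Claimed.Agent.R245.GeoLiftA
import Claimed.Agent.R245.SCV
import Claimed.Agent.R245.Runge

set_option autoImplicit false

namespace Claimed.Agent.R245

open Metric Set Filter Topology

/-- **LIMIT** (Mathlib + `scv_tendsto`).  `τ (n+1) = exp (g n) • τ n` on `Ω n`, `‖g n‖ ≤ 2^{-n}` on `Ω n`, `Ω n` open increasing.  Then there is `σ`, holomorphic on the union, `σ = t • τ n`, `t ≠ 0`, on `Ω n`.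
Route.  `G n x := ∑' j, g (n + j) x`.  For `x ∈ Ω n` all terms are bounded by `(1/2)^(n+j)` (`hmono`), summable; `G n x = g n x + G (n+1) x` (`Summable.tsum_eq_zero_add`, `n + (j+1) = n+1+j`).
`G n` is holomorphic on `Ω n`: partial sums are (`DifferentiableOn.fun_sum`/`DifferentiableOn.sum`, each `g (n+j)` on `Ω (n+j) ⊇ Ω n`), they converge uniformly on `Ω n` (`tendstoUniformlyOn_tsum_nat` with `u j = (1/2)^(n+j)`), `TendstoUniformlyOn.tendstoLocallyUniformlyOn`, `scv_tendsto`.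
`s n x := exp (G n x) • τ n x`.  On `Ω n`: `s (n+1) x = exp (G (n+1) x) • exp (g n x) • τ n x = s n x`.  Hence `s m x = s n x` for `x ∈ Ω n`, `n ≤ m` (`Nat.le_induction`).
`σ x := s (Nat.find ⟨n, hx⟩) x` if `x ∈ ⋃ n, Ω n` (classical `if`, or `σ x := s (sInf {n | x ∈ Ω n}) x`), so `σ = s n` on `Ω n`; differentiability at `x ∈ Ω n`: `σ =ᶠ s n` near `x` since `Ω n` is open. -/
theorem gl_limit {Ω : ℕ → Set (ℂ × ℂ)} (hΩ : ∀ n, IsOpen (Ω n)) (hmono : Monotone Ω)
    {τ : ℕ → ℂ × ℂ → V4} {g : ℕ → ℂ × ℂ → ℂ} (hτ : ∀ n, DifferentiableOn ℂ (τ n) (Ω n))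
    (hg : ∀ n, DifferentiableOn ℂ (g n) (Ω n)) (hb : ∀ n, ∀ x ∈ Ω n, ‖g n x‖ ≤ (1 / 2 : ℝ) ^ n)
    (hstep : ∀ n, ∀ x ∈ Ω n, τ (n + 1) x = Complex.exp (g n x) • τ n x) :
    ∃ σ : ℂ × ℂ → V4, DifferentiableOn ℂ σ (⋃ n, Ω n) ∧
      ∀ n, ∀ x ∈ Ω n, ∃ t : ℂ, t ≠ 0 ∧ σ x = t • τ n x := by
  classical
  set G : ℕ → ℂ × ℂ → ℂ := fun n x => ∑' j, g (n + j) x with hG
  have hu : ∀ n : ℕ, Summable (fun j : ℕ => (1 / 2 : ℝ) ^ (n + j)) := by
    intro n
    simp only [pow_add]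
    exact (summable_geometric_of_lt_one (by norm_num) (by norm_num)).mul_left _
  have hbd : ∀ n j x, x ∈ Ω n → ‖g (n + j) x‖ ≤ (1 / 2 : ℝ) ^ (n + j) := fun n j x hx =>
    hb (n + j) x (hmono (Nat.le_add_right n j) hx)
  have hsum : ∀ n, ∀ x ∈ Ω n, Summable (fun j => g (n + j) x) := fun n x hx =>
    Summable.of_norm_bounded (hu n) (fun j => hbd n j x hx)
  have hrec : ∀ n, ∀ x ∈ Ω n, G n x = g n x + G (n + 1) x := by
    intro n x hx
    have h1 := (hsum n x hx).tsum_eq_zero_add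
    simp only [hG]
    rw [h1, add_zero]
    congr 1
    refine tsum_congr fun j => ?_
    rw [show n + (j + 1) = n + 1 + j by omega]
  have hGd : ∀ n, DifferentiableOn ℂ (G n) (Ω n) := by
    intro n
    have hunif := tendstoUniformlyOn_tsum_nat (f := fun j x => g (n + j) x) (hu n) (s := Ω n)
      (fun j x hx => hbd n j x hx)
    refine scv_tendsto (hΩ n) (Eventually.of_forall fun m => ?_) hunif.tendstoLocallyUniformlyOn
    exact DifferentiableOn.fun_sum fun j _ => (hg (n + j)).mono (hmono (Nat.le_add_right n j))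
  set s : ℕ → ℂ × ℂ → V4 := fun n x => Complex.exp (G n x) • τ n x with hs
  have hs1 : ∀ n, ∀ x ∈ Ω n, s (n + 1) x = s n x := by
    intro n x hx
    simp only [hs]
    rw [hstep n x hx, hrec n x hx, smul_smul, ← Complex.exp_add, add_comm]
  have hs2 : ∀ n m, n ≤ m → ∀ x ∈ Ω n, s m x = s n x := by
    intro n m hnm
    induction m, hnm using Nat.le_induction with
    | base => intro x _; rfl
    | succ m hm ih =>
      intro x hx
      rw [hs1 m x (hmono hm hx), ih x hx]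
  set σ : ℂ × ℂ → V4 := fun x => if h : ∃ n, x ∈ Ω n then s (Nat.find h) x else 0 with hσ
  have hσs : ∀ n, ∀ x ∈ Ω n, σ x = s n x := by
    intro n x hx
    have h : ∃ n, x ∈ Ω n := ⟨n, hx⟩
    simp only [hσ, dif_pos h]
    exact (hs2 (Nat.find h) n (Nat.find_min' h hx) x (Nat.find_spec h)).symm
  have hsd : ∀ n, DifferentiableOn ℂ (s n) (Ω n) := fun n =>
    ((hGd n).cexp).smul (hτ n)
  refine ⟨σ, ?_, fun n x hx => ⟨Complex.exp (G n x), Complex.exp_ne_zero _, hσs n x hx⟩⟩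
  intro x hx
  obtain ⟨n, hn⟩ := mem_iUnion.1 hx
  have h1 : DifferentiableAt ℂ (s n) x := (hsd n x hn).differentiableAt ((hΩ n).mem_nhds hn)
  have h2 : σ =ᶠ[𝓝 x] s n := by
    filter_upwards [(hΩ n).mem_nhds hn] with y hy using hσs n y hy
  exact (h1.congr_of_eventuallyEq h2).differentiableWithinAt

/-- the complement of a closed disc is preconnected.
Route: for `0 ≤ R` it is the image of the preconnected set `Ioi R ×ˢ univ ⊆ ℝ × ℝ` under the continuous map `(r, θ) ↦ r * exp (θ I)` (`IsPreconnected.image`, `isPreconnected_Ioi.prod isPreconnected_univ`; surjectivity: `Complex.norm_mul_exp_arg_mul_I`);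
for `R < 0` the ball is empty (`closedBall_eq_empty`), `compl_empty`, `isPreconnected_univ`. -/
theorem gl_compl_closedBall (R : ℝ) : IsPreconnected (closedBall (0 : ℂ) R)ᶜ := by
  rcases lt_or_ge R 0 with hR | hR
  · rw [closedBall_eq_empty.2 hR, compl_empty]
    exact isPreconnected_univ
  have h1 : IsPreconnected (Ioi R ×ˢ (univ : Set ℝ)) := isPreconnected_Ioi.prod isPreconnected_univ
  have hc : Continuous (fun p : ℝ × ℝ => (p.1 : ℂ) * Complex.exp (p.2 * Complex.I)) := by fun_prop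
  have e : (closedBall (0 : ℂ) R)ᶜ
      = (fun p : ℝ × ℝ => (p.1 : ℂ) * Complex.exp (p.2 * Complex.I)) '' (Ioi R ×ˢ (univ : Set ℝ)) := by
    ext z
    simp only [mem_compl_iff, mem_closedBall_zero_iff, not_le, mem_image, mem_prod, mem_Ioi,
      mem_univ, and_true, Prod.exists]
    constructor
    · intro hz
      exact ⟨‖z‖, Complex.arg z, hz, Complex.norm_mul_exp_arg_mul_I z⟩
    · rintro ⟨r, θ, hr, rfl⟩
      rw [norm_mul, Complex.norm_exp_ofReal_mul_I, mul_one, Complex.norm_real, Real.norm_eq_abs,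
        abs_of_pos (lt_of_le_of_lt hR hr)]
      exact hr
  rw [e]
  exact h1.image _ hc.continuousOn

variable {ι : Type*} {U : ι → Set (ℂ × ℂ)} {φ : ι → ℂ × ℂ → V4}

/-- **STEP.**  Two lifts near `A ×ˢ closedBall 0 R`: `σ' = exp l • σ` and `l` is approximated by functions which are entire in the second variable.
Route: `K = A ×ˢ closedBall 0 R` compact convex (`IsCompact.prod`, `Convex.prod`, `convex_closedBall`).  `gl_trans`: `δ, B, l`.  `O = thickening δ K`, `W = thickening δ A`.  `thickening δ A ×ˢ thickening δ (closedBall 0 R) ⊆ O` (sup metric).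
`rg_runge` with planar compact `closedBall 0 R` (`gl_compl_closedBall`), `N = thickening δ (closedBall 0 R)`, `Pc = A`, `Wp = W`, `g (z, w) = l (w, z)`: for `η` a function `h₀` holomorphic on `univ ×ˢ W`; `h (w, z) = h₀ (z, w)`. -/
theorem gl_step {A : Set ℂ} {R : ℝ} (hA : IsCompact A) (hAc : Convex ℝ A) {N N' : Set (ℂ × ℂ)}
    {σ σ' : ℂ × ℂ → V4} (h : GlIsLift U φ N σ) (h' : GlIsLift U φ N' σ')
    (hK : A ×ˢ closedBall (0 : ℂ) R ⊆ N) (hK' : A ×ˢ closedBall (0 : ℂ) R ⊆ N') {η : ℝ} (hη : 0 < η) :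
    ∃ (l k : ℂ × ℂ → ℂ) (O : Set (ℂ × ℂ)) (W : Set ℂ), IsOpen O ∧ IsOpen W ∧
      A ×ˢ closedBall (0 : ℂ) R ⊆ O ∧ A ⊆ W ∧ DifferentiableOn ℂ l O ∧
      DifferentiableOn ℂ k (W ×ˢ univ) ∧ (∀ x ∈ O, σ' x = Complex.exp (l x) • σ x) ∧
      ∀ x ∈ A ×ˢ closedBall (0 : ℂ) R, ‖k x - l x‖ < η := by
  have hKc : IsCompact (A ×ˢ closedBall (0 : ℂ) R) := hA.prod (isCompact_closedBall _ _)
  have hKv : Convex ℝ (A ×ˢ closedBall (0 : ℂ) R) := hAc.prod (convex_closedBall _ _)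
  obtain ⟨δ, B, l, hδ, -, hld, -, hrel⟩ := gl_trans hKc hKv h h' hK hK'
  have hprod : thickening δ A ×ˢ thickening δ (closedBall (0 : ℂ) R)
      ⊆ thickening δ (A ×ˢ closedBall (0 : ℂ) R) := by
    rintro ⟨x, y⟩ ⟨hx, hy⟩
    rw [mem_thickening_iff] at hx hy ⊢
    obtain ⟨a, ha, hxa⟩ := hx
    obtain ⟨s, hs, hys⟩ := hy
    exact ⟨(a, s), ⟨ha, hs⟩, by rw [Prod.dist_eq]; exact max_lt hxa hys⟩
  have hg : DifferentiableOn ℂ (fun p : ℂ × ℂ => l (p.2, p.1))
      (thickening δ (closedBall (0 : ℂ) R) ×ˢ thickening δ A) :=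
    hld.comp (f := fun p : ℂ × ℂ => (p.2, p.1)) (differentiableOn_snd.prodMk differentiableOn_fst)
      (fun p hp => hprod ⟨hp.2, hp.1⟩)
  obtain ⟨k₀, hk₀, hk₀a⟩ := rg_runge (isCompact_closedBall (0 : ℂ) R) (gl_compl_closedBall R)
    isOpen_thickening (self_subset_thickening hδ _) hA (self_subset_thickening hδ A) hg η hη
  refine ⟨l, fun p => k₀ (p.2, p.1), thickening δ (A ×ˢ closedBall (0 : ℂ) R), thickening δ A,
    isOpen_thickening, isOpen_thickening, self_subset_thickening hδ _, self_subset_thickening hδ _,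
    hld, ?_, hrel, fun x hx => hk₀a (x.2, x.1) ⟨hx.2, hx.1⟩⟩
  exact hk₀.comp (f := fun p : ℂ × ℂ => (p.2, p.1)) (differentiableOn_snd.prodMk differentiableOn_fst)
    (fun p hp => ⟨mem_univ _, hp.1⟩)

end Claimed.Agent.R245
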