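/-
Row 245 / S0484, GEO (architect helper18).   BLOCK GEO-LIFT (sub-architect helper278): Cousin II on (square) × ℂ = lifting a map into projective space, given by local lifts, to `ℂ⁴ \ 0`.
The top statement `gl_lift` is FROZEN (consumer: GeoStrip.lean).  Prefix `gl_`; further files `R245/GeoLift*.lean`:
  GeoLiftDefs (GlCover, GlIsLift, GlLift), GeoLiftA (RATIO, LOG, SHRINK, TRANS), GeoLiftB (GLUE), GeoLiftC (induction: BOX), GeoLiftD (LIMIT, STEP).
This file: the assembly (exhaustion by `Sq w₀ b ×ˢ closedBall 0 (n+1)`).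
-/
import Claimed.Agent.R245.GeoDefs
import Claimed.Agent.R245.SCV
import Claimed.Agent.R245.GeoLiftC
import Claimed.Agent.R245.GeoLiftD

set_option autoImplicit false

namespace Claimed.Agent.R245

open Metric Set Filter Topology

/-- the closed square of half side `b` -/
def Sq (w₀ : ℂ) (b : ℝ) : Set ℂ := {w | |(w - w₀).re| ≤ b ∧ |(w - w₀).im| ≤ b}

theorem gl_isCompact_Sq (w₀ : ℂ) (b : ℝ) : IsCompact (Sq w₀ b) := by
  have hcl : IsClosed (Sq w₀ b) := by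
    have h1 : IsClosed {w : ℂ | |(w - w₀).re| ≤ b} :=
      isClosed_le (Complex.continuous_re.comp (continuous_id.sub continuous_const)).abs continuous_const
    have h2 : IsClosed {w : ℂ | |(w - w₀).im| ≤ b} :=
      isClosed_le (Complex.continuous_im.comp (continuous_id.sub continuous_const)).abs continuous_const
    exact h1.inter h2
  refine (isCompact_closedBall w₀ (b + b)).of_isClosed_subset hcl ?_
  intro w hw
  rw [mem_closedBall, dist_eq_norm]
  exact (Complex.norm_le_abs_re_add_abs_im _).trans (add_le_add hw.1 hw.2)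

theorem gl_convex_Sq (w₀ : ℂ) (b : ℝ) : Convex ℝ (Sq w₀ b) := by
  intro x hx y hy s t hs ht hst
  have e : s • x + t • y - w₀ = s • (x - w₀) + t • (y - w₀) := by
    have : w₀ = s • w₀ + t • w₀ := by rw [← add_smul, hst, one_smul]
    nth_rewrite 1 [this]
    simp only [smul_sub]
    abel
  have key : ∀ u v : ℝ, |u| ≤ b → |v| ≤ b → |s * u + t * v| ≤ b := by
    intro u v hu hv
    calc |s * u + t * v| ≤ |s * u| + |t * v| := abs_add_le _ _
      _ = s * |u| + t * |v| := by rw [abs_mul, abs_mul, abs_of_nonneg hs, abs_of_nonneg ht]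
      _ ≤ s * b + t * b := by gcongr
      _ = b := by rw [← add_mul, hst, one_mul]
  constructor
  · show |(s • x + t • y - w₀).re| ≤ b
    rw [e]
    simpa using key _ _ hx.1 hy.1
  · show |(s • x + t • y - w₀).im| ≤ b
    rw [e]
    simpa using key _ _ hx.2 hy.2

theorem gl_ball_subset_Sq (w₀ : ℂ) (b : ℝ) : ball w₀ b ⊆ Sq w₀ b := by
  intro w hw
  rw [mem_ball, dist_eq_norm] at hw
  exact ⟨(Complex.abs_re_le_norm _).trans hw.le, (Complex.abs_im_le_norm _).trans hw.le⟩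

/-- **Cousin II / lifting.** -/
theorem gl_lift {ι : Type*} {w₀ : ℂ} {b : ℝ} (hb : 0 < b) (U : ι → Set (ℂ × ℂ)) (φ : ι → ℂ × ℂ → V4)
    (hU : ∀ i, IsOpen (U i)) (hφ : ∀ i, DifferentiableOn ℂ (φ i) (U i)) (hne : ∀ i, ∀ x ∈ U i, φ i x ≠ 0)
    (hcov : Sq w₀ b ×ˢ (univ : Set ℂ) ⊆ ⋃ i, U i)
    (hprop : ∀ i j, ∀ x ∈ U i ∩ U j, ∃ t : ℂ, φ i x = t • φ j x) :
    ∃ σ : ℂ × ℂ → V4, DifferentiableOn ℂ σ (ball w₀ b ×ˢ univ) ∧
      ∀ x ∈ ball w₀ b ×ˢ (univ : Set ℂ), σ x ≠ 0 ∧ ∀ i, x ∈ U i → ∃ t : ℂ, σ x = t • φ i x := by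
  have hc : GlCover U φ := ⟨hU, hφ, hne, hprop⟩
  have hA : IsCompact (Sq w₀ b) := gl_isCompact_Sq w₀ b
  have hAc : Convex ℝ (Sq w₀ b) := gl_convex_Sq w₀ b
  have hBA : ball w₀ b ⊆ Sq w₀ b := gl_ball_subset_Sq w₀ b
  -- lifts near the compact sets of the exhaustion
  have hL : ∀ n : ℕ, GlLift U φ (Sq w₀ b ×ˢ closedBall (0 : ℂ) (n + 1)) := fun n =>
    gl_box hc hA hAc (isCompact_closedBall _ _) (convex_closedBall _ _)
      (fun x hx => hcov ⟨hx.1, mem_univ _⟩)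
  choose N σ hKN hl using hL
  -- the Runge steps
  have hst : ∀ n : ℕ, ∃ (l k : ℂ × ℂ → ℂ) (O : Set (ℂ × ℂ)) (W : Set ℂ), IsOpen O ∧ IsOpen W ∧
      Sq w₀ b ×ˢ closedBall (0 : ℂ) (n + 1) ⊆ O ∧ Sq w₀ b ⊆ W ∧ DifferentiableOn ℂ l O ∧
      DifferentiableOn ℂ k (W ×ˢ univ) ∧ (∀ x ∈ O, σ (n + 1) x = Complex.exp (l x) • σ n x) ∧
      ∀ x ∈ Sq w₀ b ×ˢ closedBall (0 : ℂ) (n + 1), ‖k x - l x‖ < (1 / 2 : ℝ) ^ n := fun n =>
    gl_step hA hAc (hl n) (hl (n + 1)) (hKN n)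
      ((prod_mono_right (closedBall_subset_closedBall (by push_cast; linarith))).trans (hKN (n + 1)))
      (by positivity)
  choose l k O W hO hW hKO hAW hld hkd hrel happ using hst
  set Ω : ℕ → Set (ℂ × ℂ) := fun n => ball w₀ b ×ˢ ball (0 : ℂ) (n + 1) with hΩdef
  have hΩK : ∀ n, Ω n ⊆ Sq w₀ b ×ˢ closedBall (0 : ℂ) (n + 1) := fun n =>
    prod_mono hBA ball_subset_closedBall
  have hΩo : ∀ n, IsOpen (Ω n) := fun n => isOpen_ball.prod isOpen_ball
  have hΩm : Monotone Ω := by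
    intro n m hnm
    refine prod_mono_right (ball_subset_ball ?_)
    have : (n : ℝ) ≤ m := by exact_mod_cast hnm
    linarith
  have hkΩ : ∀ j n, DifferentiableOn ℂ (k j) (Ω n) := fun j n =>
    (hkd j).mono (prod_mono (hBA.trans (hAW j)) (subset_univ _))
  set H : ℕ → ℂ × ℂ → ℂ := fun n x => ∑ j ∈ Finset.range n, k j x with hHdef
  have hHΩ : ∀ m n, DifferentiableOn ℂ (H m) (Ω n) := fun m n =>
    DifferentiableOn.fun_sum fun j _ => hkΩ j n
  obtain ⟨s, hs, hsτ⟩ := gl_limit (Ω := Ω) hΩo hΩm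
    (τ := fun n x => Complex.exp (-H n x) • σ n x) (g := fun n x => l n x - k n x)
    (fun n => ((hHΩ n n).neg.cexp).smul ((hl n).hol.mono ((hΩK n).trans (hKN n))))
    (fun n => ((hld n).mono ((hΩK n).trans (hKO n))).sub (hkΩ n n))
    (fun n x hx => by
      rw [norm_sub_rev]
      exact (happ n x (hΩK n hx)).le)
    (fun n x hx => by
      simp only [hHdef]
      rw [hrel n x (hKO n (hΩK n hx)), Finset.sum_range_succ, smul_smul, smul_smul,
        ← Complex.exp_add, ← Complex.exp_add]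
      congr 2
      ring)
  have hUn : ball w₀ b ×ˢ (univ : Set ℂ) ⊆ ⋃ n, Ω n := by
    intro x hx
    obtain ⟨n, hn⟩ := exists_nat_gt ‖x.2‖
    refine mem_iUnion.2 ⟨n, hx.1, ?_⟩
    rw [mem_ball_zero_iff]
    linarith
  refine ⟨s, hs.mono hUn, fun x hx => ?_⟩
  obtain ⟨n, hn⟩ := mem_iUnion.1 (hUn hx)
  obtain ⟨t, ht0, ht⟩ := hsτ n x hn
  have hxN : x ∈ N n := hKN n (hΩK n hn)
  have he : Complex.exp (-H n x) ≠ 0 := Complex.exp_ne_zero _
  refine ⟨?_, fun i hi => ?_⟩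
  · rw [ht]
    exact smul_ne_zero ht0 (smul_ne_zero he ((hl n).ne x hxN))
  · obtain ⟨t', ht'⟩ := (hl n).prop x hxN i hi
    exact ⟨t * (Complex.exp (-H n x) * t'), by rw [ht, ht', smul_smul, smul_smul, mul_assoc]⟩

end Claimed.Agent.R245
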