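/-
Row 245 / S0484, GEO (architect helper18; sub-architect of the block GEO-STRIP: helper292).   Theorem S: `LeafData ⇒ IsStrip`.  FILE A: definitions, determinants (GS-DET, complete), algebra at a fixed parameter (GS-ALG-A, GS-ALG-B).

MATHEMATICS.  Fix leaf data `D`.  For `w` in the disc the leaf is `{A s² + B s l + C l² = 0}` in the plane spanned by `p, v₁, v₂`, point `x = s p + l (U v₁ + T v₂)`.
With `N² = T U (T - U) (T - λ U)` and `μ = q N` we have `μ² = B² - 4 A C`, and the point of the leaf over `(T, U, N)` is the kernel of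
      `M (μ) = [[2 A, B - μ], [B + μ, 2 C]]`     (determinant `0`, `M ≠ 0` by `nz`),
spanned by `(s, l) = (μ - B, 2 A)` (`X₁`) and by `(2 C, - (B + μ))` (`X₂`), which do not vanish simultaneously.
The elliptic engine `gj_engine` gives `(T, U, N) = (W², S², W S C D)` as functions of `(w, z)` on `ball × ball 0 (2^n ε)`, with `T U_z - U T_z = 2 N`.
`gl_lift` glues the local lifts `X₁, X₂` to `σ : ball × ℂ → ℂ⁴ \ 0`.
KEY IDENTITY (regularity everywhere).  For `x = s p + l v` as above, `g = grad F (p w)`, `G = grad F x`, `det4 p u v₁ v₂ = Δ · (g · u)`: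
      `det4 x x_w x_z e = 2 J Δ · (G · e)`     for every `e ∈ ℂ⁴`.
Proof: `G · x = G · x_w = G · x_z = 0`;  `G · p = ∂_s F = l² κ (2 A s + B l) = l³ κ μ`;  `g · x_w = - g' · x = - l J κ q`;  `x, x_z, p ∈ span (p, v₁, v₂)`, so
`det4 x x_w x_z p = l² (U T_z - T U_z) Δ (g · x_w) = 2 l³ J κ q N Δ = 2 J Δ (G · p)`;  Cramer: `det4 x x_w x_z p · (G · e) = (G · p) · det4 x x_w x_z e`.  Hence
`(G · p) · (det4 x x_w x_z e - 2 J Δ (G · e)) = 0` at EVERY point, and `G · p` does not vanish identically on any slice `w = const`: cancel (`gz_cancel`).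
-/
import Claimed.Agent.R245.GeoDefs
import Claimed.Agent.R245.GeoJacDefs
import Claimed.Agent.R245.L2Poly

set_option autoImplicit false

namespace Claimed.Agent.R245

open MvPolynomial Metric Set Claims.C0412

/-! ## Definitions -/

/-- Legendre coordinates `(T, U, N) = (W², S², W S C D)` of a Jacobi point `(S, C, D, W)` -/
def gsT (y : V4) : ℂ := y 3 ^ 2

/-- see `gsT` -/
def gsU (y : V4) : ℂ := y 0 ^ 2

/-- see `gsT` -/
def gsN (y : V4) : ℂ := y 3 * y 0 * y 1 * y 2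

/-- the conclusion of `gj_engine` as a structure -/
structure GsEngine (lam : ℂ → ℂ) (w₀ : ℂ) (b' ε : ℝ) (Φ : ℕ → ℂ × ℂ → V4) : Prop where
  ε_pos : 0 < ε
  hol : ∀ n, DifferentiableOn ℂ (Φ n) (ball w₀ b' ×ˢ ball (0 : ℂ) (2 ^ n * ε))
  cone : ∀ n, ∀ x ∈ ball w₀ b' ×ˢ ball (0 : ℂ) (2 ^ n * ε), Φ n x ∈ JCone (lam x.1)
  prop : ∀ n, ∀ x ∈ ball w₀ b' ×ˢ ball (0 : ℂ) (2 ^ n * ε), ∃ t : ℂ, Φ (n + 1) x = t • Φ n x
  flow : ∀ n, ∀ w ∈ ball w₀ b', ∀ z ∈ ball (0 : ℂ) (2 ^ n * ε),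
    deriv (fun z => Φ n (w, z) 0) z * Φ n (w, z) 3 - Φ n (w, z) 0 * deriv (fun z => Φ n (w, z) 3) z
      = Φ n (w, z) 1 * Φ n (w, z) 2
  init : ∀ w ∈ ball w₀ b', Φ 0 (w, 0) = ![0, 1, 1, 1]
  surj : ∀ w ∈ ball w₀ b', ∀ T U N : ℂ, (T ≠ 0 ∨ U ≠ 0) → N ^ 2 = T * U * (T - U) * (T - lam w * U) →
    ∃ (n : ℕ) (z c : ℂ), z ∈ ball (0 : ℂ) (2 ^ n * ε) ∧ c ≠ 0 ∧ Φ n (w, z) 3 ^ 2 = c * T ∧
      Φ n (w, z) 0 ^ 2 = c * U ∧
      Φ n (w, z) 3 * Φ n (w, z) 0 * Φ n (w, z) 1 * Φ n (w, z) 2 = c ^ 2 * N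

variable {F : MvPolynomial (Fin 4) ℂ} {w₀ : ℂ} {b : ℝ}

/-- `μ = q N` at a Jacobi point -/
noncomputable def gsMu (D : LeafData F w₀ b) (w : ℂ) (y : V4) : ℂ := D.q w (gsT y) (gsU y) * gsN y

/-- the two formulas for the point of the leaf over the Jacobi point `y` (`true`: `X₁`, `false`: `X₂`) -/
noncomputable def gsX (D : LeafData F w₀ b) (i : Bool) (w : ℂ) (y : V4) : V4 :=
  if i then D.X₁ w (gsT y) (gsU y) (gsMu D w y) else D.X₂ w (gsT y) (gsU y) (gsMu D w y)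

/-- the point `s p + l (U v₁ + T v₂)` -/
noncomputable def gsPt (D : LeafData F w₀ b) (T U s l : ℂ × ℂ → ℂ) (y : ℂ × ℂ) : V4 :=
  s y • D.p y.1 + l y • D.dir y.1 (T y) (U y)

/-- **A section of the family of leaves** over `Ω ⊆ ball w₀ b × ℂ`, in the time of the elliptic flow. -/
structure GsSec (D : LeafData F w₀ b) (Ω : Set (ℂ × ℂ)) (T U N s l : ℂ × ℂ → ℂ) : Prop where
  hT : DifferentiableOn ℂ T Ω
  hU : DifferentiableOn ℂ U Ω
  hN : DifferentiableOn ℂ N Ω
  hs : DifferentiableOn ℂ s Ω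
  hl : DifferentiableOn ℂ l Ω
  curve : ∀ y ∈ Ω, N y ^ 2 = T y * U y * (T y - U y) * (T y - D.lam y.1 * U y)
  flow : ∀ y ∈ Ω, T y * fderiv ℂ U y (0, 1) - U y * fderiv ℂ T y (0, 1) = 2 * N y
  r1 : ∀ y ∈ Ω, 2 * D.A y.1 (T y) (U y) * s y
    + (D.B y.1 (T y) (U y) - D.q y.1 (T y) (U y) * N y) * l y = 0
  r2 : ∀ y ∈ Ω, (D.B y.1 (T y) (U y) + D.q y.1 (T y) (U y) * N y) * s y
    + 2 * D.C y.1 (T y) (U y) * l y = 0

/-! ## GS-DET: determinants of four vectors, the pairing `dot` (complete) -/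

theorem gs_det4_eq (a b c d : V4) : det4 a b c d =
    a 0 * (b 1 * (c 2 * d 3 - c 3 * d 2) - b 2 * (c 1 * d 3 - c 3 * d 1) + b 3 * (c 1 * d 2 - c 2 * d 1))
    - a 1 * (b 0 * (c 2 * d 3 - c 3 * d 2) - b 2 * (c 0 * d 3 - c 3 * d 0) + b 3 * (c 0 * d 2 - c 2 * d 0))
    + a 2 * (b 0 * (c 1 * d 3 - c 3 * d 1) - b 1 * (c 0 * d 3 - c 3 * d 0) + b 3 * (c 0 * d 1 - c 1 * d 0))
    - a 3 * (b 0 * (c 1 * d 2 - c 2 * d 1) - b 1 * (c 0 * d 2 - c 2 * d 0) + b 2 * (c 0 * d 1 - c 1 * d 0)) := by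
  unfold det4
  simp [Matrix.det_succ_row_zero, Fin.sum_univ_succ, Matrix.submatrix, Fin.succAbove]
  ring

theorem gs_dot_eq (a b : V4) : dot a b = a 0 * b 0 + a 1 * b 1 + a 2 * b 2 + a 3 * b 3 := by
  simp [dot, Fin.sum_univ_succ]
  ring

theorem gs_dot_add (a b c : V4) : dot a (b + c) = dot a b + dot a c := by
  simp only [gs_dot_eq, Pi.add_apply]; ring

theorem gs_dot_smul (a b : V4) (t : ℂ) : dot a (t • b) = t * dot a b := by
  simp only [gs_dot_eq, Pi.smul_apply, smul_eq_mul]; ring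

/-- Cramer's identity: five vectors in `ℂ⁴`. -/
theorem gs_cramer (a b c d e G : V4) :
    det4 a b c d * dot G e = dot G a * det4 e b c d + dot G b * det4 a e c d + dot G c * det4 a b e d
      + dot G d * det4 a b c e := by
  simp only [gs_det4_eq, gs_dot_eq]
  ring

theorem gs_det_plane (p v₁ v₂ ξ : V4) (s a c s' a' c' : ℂ) :
    det4 (s • p + a • v₁ + c • v₂) ξ (s' • p + a' • v₁ + c' • v₂) p
      = (a * c' - c * a') * det4 p ξ v₁ v₂ := by
  simp only [gs_det4_eq, Pi.add_apply, Pi.smul_apply, smul_eq_mul]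
  ring

theorem gs_indep_of_det {a b c e : V4} (h : det4 a b c e ≠ 0) : LinearIndependent ℂ ![a, b, c] := by
  have h4 : LinearIndependent ℂ (Matrix.of ![a, b, c, e]).row :=
    Matrix.linearIndependent_rows_of_det_ne_zero h
  have h3 := h4.comp (Fin.castSucc : Fin 3 → Fin 4) (Fin.castSucc_injective 3)
  have e3 : (Matrix.of ![a, b, c, e]).row ∘ (Fin.castSucc : Fin 3 → Fin 4) = ![a, b, c] := by
    ext i j
    fin_cases i <;> rfl
  rwa [e3] at h3

theorem gs_det_of_indep {a b c : V4} (h : LinearIndependent ℂ ![a, b, c]) : ∃ u, det4 a u b c ≠ 0 := by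
  have hlt : 3 < Module.finrank ℂ V4 := by simp
  obtain ⟨u, hu⟩ := exists_linearIndependent_snoc_of_lt_finrank h hlt
  refine ⟨u, ?_⟩
  have e4 : (Matrix.of ![a, b, c, u]).row = Fin.snoc ![a, b, c] u := by
    ext i j
    fin_cases i <;> rfl
  have h4 : LinearIndependent ℂ (Matrix.of ![a, b, c, u]).row := by
    rw [e4]; exact hu
  rw [Matrix.linearIndependent_rows_iff_isUnit, Matrix.isUnit_iff_isUnit_det, isUnit_iff_ne_zero] at h4
  have : det4 a u b c = det4 a b c u := by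
    simp only [gs_det4_eq]; ring
  rw [this]
  exact h4

section diff

variable {E : Type*} [NormedAddCommGroup E] [NormedSpace ℂ E]

theorem gs_det_differentiableOn {a b c d : E → V4} {Ω : Set E} (ha : DifferentiableOn ℂ a Ω)
    (hb : DifferentiableOn ℂ b Ω) (hc : DifferentiableOn ℂ c Ω) (hd : DifferentiableOn ℂ d Ω) :
    DifferentiableOn ℂ (fun y => det4 (a y) (b y) (c y) (d y)) Ω := by
  simp only [gs_det4_eq]
  have ha' := fun i => differentiableOn_pi.1 ha i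
  have hb' := fun i => differentiableOn_pi.1 hb i
  have hc' := fun i => differentiableOn_pi.1 hc i
  have hd' := fun i => differentiableOn_pi.1 hd i
  fun_prop

theorem gs_dot_differentiableOn {a c : E → V4} {Ω : Set E} (ha : DifferentiableOn ℂ a Ω)
    (hc : DifferentiableOn ℂ c Ω) : DifferentiableOn ℂ (fun y => dot (a y) (c y)) Ω := by
  simp only [gs_dot_eq]
  have ha' := fun i => differentiableOn_pi.1 ha i
  have hc' := fun i => differentiableOn_pi.1 hc i
  fun_prop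

end diff

/-- the product rule for `dot` -/
theorem gs_hasDerivAt_dot {a c : ℂ → V4} {a' c' : V4} {t : ℂ} (ha : HasDerivAt a a' t)
    (hc : HasDerivAt c c' t) :
    HasDerivAt (fun t => dot (a t) (c t)) (dot a' (c t) + dot (a t) c') t := by
  have ha' := hasDerivAt_pi.1 ha
  have hc' := hasDerivAt_pi.1 hc
  simp only [gs_dot_eq]
  have h := ((((ha' 0).mul (hc' 0)).add ((ha' 1).mul (hc' 1))).add ((ha' 2).mul (hc' 2))).add
    ((ha' 3).mul (hc' 3))
  refine h.congr_deriv ?_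
  ring

/-- partial derivatives as derivatives of the slices -/
theorem gs_hasDerivAt_snd {E : Type*} [NormedAddCommGroup E] [NormedSpace ℂ E] {f : ℂ × ℂ → E} {w z : ℂ}
    (hf : DifferentiableAt ℂ f (w, z)) :
    HasDerivAt (fun z' => f (w, z')) (fderiv ℂ f (w, z) (0, 1)) z := by
  have h1 : HasDerivAt (fun x : ℂ => (w, x)) ((0 : ℂ), (1 : ℂ)) z :=
    (hasDerivAt_const z w).prodMk (hasDerivAt_id z)
  have h2 : HasFDerivAt f (fderiv ℂ f (w, z)) ((fun x : ℂ => (w, x)) z) := hf.hasFDerivAt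
  exact h2.comp_hasDerivAt z h1

theorem gs_hasDerivAt_fst {E : Type*} [NormedAddCommGroup E] [NormedSpace ℂ E] {f : ℂ × ℂ → E} {w z : ℂ}
    (hf : DifferentiableAt ℂ f (w, z)) :
    HasDerivAt (fun w' => f (w', z)) (fderiv ℂ f (w, z) (1, 0)) w := by
  have h1 : HasDerivAt (fun x : ℂ => (x, z)) ((1 : ℂ), (0 : ℂ)) w :=
    (hasDerivAt_id w).prodMk (hasDerivAt_const w z)
  have h2 : HasFDerivAt f (fderiv ℂ f (w, z)) ((fun x : ℂ => (x, z)) w) := hf.hasFDerivAt
  exact h2.comp_hasDerivAt w h1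

/-! ## GS-ALG: algebra of the two formulas `X₁, X₂` at a fixed parameter `w`.  No analysis.
Statements FROZEN; helper lemmas: prefix `gsa_`.
Notation: `T = gsT y = W²`, `U = gsU y = S²`, `N = gsN y = W S C D`, `μ = gsMu D w y = q N`, `A, B, C, κ, q` evaluated at `(w, T, U)`. -/

/-- (`W = S = 0` forces `C² = D² = 0`.) -/
theorem gs_TU_ne {k : ℂ} {y : V4} (hy : y ∈ JCone k) : gsT y ≠ 0 ∨ gsU y ≠ 0 := by
  by_contra h
  push Not at h
  obtain ⟨h1, h2⟩ := h
  have h3 : y 3 = 0 := by simpa [gsT] using h1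
  have h0 : y 0 = 0 := by simpa [gsU] using h2
  have hy1 : y 1 = 0 := by
    have := hy.2.1
    rw [h0, h3] at this
    simpa using this
  have hy2 : y 2 = 0 := by
    have := hy.2.2
    rw [h0, h3] at this
    simpa using this
  apply hy.1
  funext i
  fin_cases i
  · exact h0
  · exact hy1
  · exact hy2
  · exact h3

/-- (`T - U = C²`, `T - k U = D²`.) -/
theorem gs_curve {k : ℂ} {y : V4} (hy : y ∈ JCone k) :
    gsN y ^ 2 = gsT y * gsU y * (gsT y - gsU y) * (gsT y - k * gsU y) := by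
  have e1 := hy.2.1
  have e2 := hy.2.2
  unfold gsN gsT gsU
  linear_combination (y 3 ^ 2 * y 0 ^ 2 * y 2 ^ 2) * e1 + (y 3 ^ 2 * y 0 ^ 2 * (y 3 ^ 2 - y 0 ^ 2)) * e2

theorem gs_T_smul (t : ℂ) (y : V4) : gsT (t • y) = t ^ 2 * gsT y := by
  simp [gsT]; ring

theorem gs_U_smul (t : ℂ) (y : V4) : gsU (t • y) = t ^ 2 * gsU y := by
  simp [gsU]; ring

theorem gs_N_smul (t : ℂ) (y : V4) : gsN (t • y) = (t ^ 2) ^ 2 * gsN y := by
  simp [gsN]; ring

/-- (`legendre` + `gs_curve`.) -/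
theorem gs_mu_sq (D : LeafData F w₀ b) {w : ℂ} (hw : w ∈ ball w₀ b) {y : V4} (hy : y ∈ JCone (D.lam w)) :
    gsMu D w y ^ 2 = D.B w (gsT y) (gsU y) ^ 2 - 4 * D.A w (gsT y) (gsU y) * D.C w (gsT y) (gsU y) := by
  unfold gsMu
  rw [mul_pow, gs_curve hy, D.legendre w hw]

/-- `p` and a direction are independent.  (`D.indep`, `LinearIndependent.pair_iff`-style: `Fintype.linearIndependent_iff` with the coefficients `(a, c U, c T)`.) -/
theorem gs_pd_indep (D : LeafData F w₀ b) {w : ℂ} (hw : w ∈ ball w₀ b) {T U a c : ℂ} (hTU : T ≠ 0 ∨ U ≠ 0)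
    (h : a • D.p w + c • D.dir w T U = 0) : a = 0 ∧ c = 0 := by
  have h3 := Fintype.linearIndependent_iff.1 (D.indep w hw) ![a, c * U, c * T] (by
    rw [← h]
    simp only [Fin.sum_univ_three, FrameData.dir, smul_add]
    simp [mul_smul, add_assoc])
  have ha : a = 0 := h3 0
  have hU : c * U = 0 := h3 1
  have hT : c * T = 0 := h3 2
  refine ⟨ha, ?_⟩
  rcases hTU with hT0 | hU0
  · exact (mul_eq_zero.1 hT).resolve_right hT0
  · exact (mul_eq_zero.1 hU).resolve_right hU0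

/-- homogeneity.  (`c = t²`; `homA, homB, homC, homq`; `c ^ (d - 1) * c ^ 2 = c ^ (d + 1)` since `1 ≤ d`; `dir w (c T) (c U) = c • dir w T U`.) -/
theorem gs_X_smul (D : LeafData F w₀ b) {w : ℂ} (hw : w ∈ ball w₀ b) (i : Bool) (t : ℂ) (y : V4) :
    gsX D i w (t • y) = (t ^ 2) ^ (D.d + (if i then 1 else 2)) • gsX D i w y := by
  have hpow : (t ^ 2) ^ (D.d - 1) * (t ^ 2) ^ 2 = (t ^ 2) ^ (D.d + 1) := by
    rw [← pow_add]
    congr 1
    have := D.d_pos
    omega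
  have hmu : gsMu D w (t • y) = (t ^ 2) ^ (D.d + 1) * gsMu D w y := by
    unfold gsMu
    rw [gs_T_smul, gs_U_smul, gs_N_smul, D.homq w hw, ← hpow]
    ring
  cases i
  · simp only [gsX, Bool.false_eq_true, if_false, FrameData.X₂, FrameData.dir]
    rw [hmu, gs_T_smul, gs_U_smul, D.homB w hw, D.homC w hw]
    funext j
    simp only [Pi.add_apply, Pi.sub_apply, Pi.smul_apply, smul_eq_mul]
    ring
  · simp only [gsX, if_true, FrameData.X₁, FrameData.dir]
    rw [hmu, gs_T_smul, gs_U_smul, D.homB w hw, D.homA w hw]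
    funext j
    simp only [Pi.add_apply, Pi.smul_apply, smul_eq_mul]
    ring

/-- the two formulas do not vanish simultaneously.  (`gs_pd_indep`: `μ = B, A = 0, C = 0, B + μ = 0`, against `D.nz`.) -/
theorem gs_X_ne (D : LeafData F w₀ b) {w : ℂ} (hw : w ∈ ball w₀ b) {y : V4} (hy : y ∈ JCone (D.lam w)) :
    gsX D true w y ≠ 0 ∨ gsX D false w y ≠ 0 := by
  by_contra h
  push Not at h
  obtain ⟨h1, h2⟩ := h
  have hTU := gs_TU_ne hy
  simp only [gsX, if_true, FrameData.X₁] at h1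
  simp only [gsX, Bool.false_eq_true, if_false, FrameData.X₂, sub_eq_add_neg, ← neg_smul] at h2
  obtain ⟨a1, a2⟩ := gs_pd_indep D hw hTU h1
  obtain ⟨a3, a4⟩ := gs_pd_indep D hw hTU h2
  have hA : D.A w (gsT y) (gsU y) = 0 := by simpa using a2
  have hC : D.C w (gsT y) (gsU y) = 0 := by simpa using a3
  have hB : D.B w (gsT y) (gsU y) = 0 := by linear_combination (-1 / 2 : ℂ) * a1 - (1 / 2 : ℂ) * a4
  rcases D.nz w hw _ _ hTU with h | h | h
  · exact h hA
  · exact h hB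
  · exact h hC

theorem gsa_prop {a₁ c₁ a₂ c₂ : ℂ} (P V : V4) (hdet : a₁ * c₂ - c₁ * a₂ = 0) (hne : a₂ ≠ 0 ∨ c₂ ≠ 0) :
    ∃ t : ℂ, a₁ • P + c₁ • V = t • (a₂ • P + c₂ • V) := by
  rcases hne with h | h
  · refine ⟨a₁ / a₂, ?_⟩
    have e : c₁ = a₁ / a₂ * c₂ := by
      field_simp
      linear_combination (-1 : ℂ) * hdet
    rw [smul_add, ← mul_smul, ← mul_smul, ← e, div_mul_cancel₀ _ h]
  · refine ⟨c₁ / c₂, ?_⟩
    have e : a₁ = c₁ / c₂ * a₂ := by
      field_simp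
      linear_combination hdet
    rw [smul_add, ← mul_smul, ← mul_smul, ← e, div_mul_cancel₀ _ h]

theorem gsa_coeff_ne {a c : ℂ} {P V : V4} (h : a • P + c • V ≠ 0) : a ≠ 0 ∨ c ≠ 0 := by
  by_contra hcon
  push Not at hcon
  apply h
  rw [hcon.1, hcon.2, zero_smul, zero_smul, add_zero]

/-- the two formulas are proportional.  (`i = j`: `t = 1`.  Otherwise the coefficient vectors `(μ - B, 2 A)`, `(2 C, - (B + μ))` have determinant `B² - μ² - 4 A C = 0` (`gs_mu_sq`) and the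
second one is not `0`: divide by a non zero coefficient.) -/
theorem gs_X_prop (D : LeafData F w₀ b) {w : ℂ} (hw : w ∈ ball w₀ b) {y : V4} (hy : y ∈ JCone (D.lam w))
    (i j : Bool) (hj : gsX D j w y ≠ 0) : ∃ t : ℂ, gsX D i w y = t • gsX D j w y := by
  have hmu := gs_mu_sq D hw hy
  have e1 : gsX D true w y = (gsMu D w y - D.B w (gsT y) (gsU y)) • D.p w
      + (2 * D.A w (gsT y) (gsU y)) • D.dir w (gsT y) (gsU y) := by
    simp only [gsX, if_true, FrameData.X₁]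
  have e2 : gsX D false w y = (2 * D.C w (gsT y) (gsU y)) • D.p w
      + (-(D.B w (gsT y) (gsU y) + gsMu D w y)) • D.dir w (gsT y) (gsU y) := by
    simp only [gsX, Bool.false_eq_true, if_false, FrameData.X₂, sub_eq_add_neg, ← neg_smul]
  cases i <;> cases j
  · exact ⟨1, (one_smul _ _).symm⟩
  · rw [e1] at hj
    rw [e1, e2]
    exact gsa_prop _ _ (by linear_combination hmu) (gsa_coeff_ne hj)
  · rw [e2] at hj
    rw [e1, e2]
    exact gsa_prop _ _ (by linear_combination (-1 : ℂ) * hmu) (gsa_coeff_ne hj)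
  · exact ⟨1, (one_smul _ _).symm⟩

/-- (`(s, l) = (μ - B, 2 A)` resp. `(2 C, - (B + μ))`, not both `0` since the vector is not `0`; the quadratic relation by `gs_mu_sq`, `linear_combination`.) -/
theorem gs_X_leaf (D : LeafData F w₀ b) {w : ℂ} (hw : w ∈ ball w₀ b) {y : V4} (hy : y ∈ JCone (D.lam w))
    (i : Bool) (hi : gsX D i w y ≠ 0) : D.OnLeaf w (gsX D i w y) := by
  have hmu := gs_mu_sq D hw hy
  have hTU := gs_TU_ne hy
  cases i
  · have e2 : gsX D false w y = (2 * D.C w (gsT y) (gsU y)) • D.p w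
        + (-(D.B w (gsT y) (gsU y) + gsMu D w y)) • D.dir w (gsT y) (gsU y) := by
      simp only [gsX, Bool.false_eq_true, if_false, FrameData.X₂, sub_eq_add_neg, ← neg_smul]
    rw [e2] at hi
    exact ⟨_, _, _, _, hTU, gsa_coeff_ne hi, e2, by
      linear_combination (D.C w (gsT y) (gsU y)) * hmu⟩
  · have e1 : gsX D true w y = (gsMu D w y - D.B w (gsT y) (gsU y)) • D.p w
        + (2 * D.A w (gsT y) (gsU y)) • D.dir w (gsT y) (gsU y) := by
      simp only [gsX, if_true, FrameData.X₁]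
    rw [e1] at hi
    exact ⟨_, _, _, _, hTU, gsa_coeff_ne hi, e1, by
      linear_combination (D.A w (gsT y) (gsU y)) * hmu⟩

theorem gs_leaf_smul (D : LeafData F w₀ b) {w : ℂ} {x : V4} (hx : D.OnLeaf w x) {t : ℂ} (ht : t ≠ 0) :
    D.OnLeaf w (t • x) := by
  obtain ⟨s, l, T, U, hTU, hsl, rfl, hq⟩ := hx
  refine ⟨t * s, t * l, T, U, hTU, ?_, ?_, ?_⟩
  · rcases hsl with h | h
    · exact Or.inl (mul_ne_zero ht h)
    · exact Or.inr (mul_ne_zero ht h)
  · rw [smul_add, mul_smul, mul_smul]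
  · linear_combination (t ^ 2) * hq

/-- (`D.expand`; `x ≠ 0` by `gs_pd_indep`.) -/
theorem gs_leaf_cone (D : LeafData F w₀ b) {w : ℂ} (hw : w ∈ ball w₀ b) {x : V4} (hx : D.OnLeaf w x) :
    x ∈ Cone F := by
  obtain ⟨s, l, T, U, hTU, hsl, rfl, hq⟩ := hx
  constructor
  · intro h0
    obtain ⟨h1, h2⟩ := gs_pd_indep D hw hTU h0
    rcases hsl with h | h
    · exact h h1
    · exact h h2
  · have := D.expand w hw T U s l
    rw [hq, mul_zero] at this
    exact this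

/-- choice of the sign of the square root of the discriminant -/
theorem gsa_lift_sign {A B C s l μ₀ : ℂ} (hnz : A ≠ 0 ∨ B ≠ 0 ∨ C ≠ 0) (hμ : μ₀ ^ 2 = B ^ 2 - 4 * A * C)
    (hQ : A * s ^ 2 + B * s * l + C * l ^ 2 = 0) :
    ∃ e : ℂ, e ^ 2 = 1 ∧ 2 * A * s + (B - e * μ₀) * l = 0 ∧ (B + e * μ₀) * s + 2 * C * l = 0 := by
  by_cases hA : A = 0
  · by_cases hC : C = 0
    · subst hA hC
      have hB : B ≠ 0 := by simpa using hnz
      have h1 : (μ₀ - B) * (μ₀ + B) = 0 := by linear_combination hμ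
      have h2 : s * l = 0 := by
        have : B * (s * l) = 0 := by linear_combination hQ
        exact (mul_eq_zero.1 this).resolve_left hB
      rcases mul_eq_zero.1 h1 with h3 | h3
      · have h4 : μ₀ = B := by linear_combination h3
        subst h4
        rcases mul_eq_zero.1 h2 with h5 | h5
        · exact ⟨1, by norm_num, by subst h5; ring, by subst h5; ring⟩
        · exact ⟨-1, by norm_num, by subst h5; ring, by subst h5; ring⟩
      · have h4 : μ₀ = -B := by linear_combination h3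
        subst h4
        rcases mul_eq_zero.1 h2 with h5 | h5
        · exact ⟨-1, by norm_num, by subst h5; ring, by subst h5; ring⟩
        · exact ⟨1, by norm_num, by subst h5; ring, by subst h5; ring⟩
    · have h1 : ((B + μ₀) * s + 2 * C * l) * ((B - μ₀) * s + 2 * C * l) = 0 := by
        linear_combination 4 * C * hQ - s ^ 2 * hμ
      rcases mul_eq_zero.1 h1 with h2 | h2
      · refine ⟨1, by norm_num, ?_, by linear_combination h2⟩
        have : 2 * C * (2 * A * s + (B - 1 * μ₀) * l) = 0 := by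
          linear_combination (B - μ₀) * h2 + s * hμ
        exact (mul_eq_zero.1 this).resolve_left (mul_ne_zero two_ne_zero hC)
      · refine ⟨-1, by norm_num, ?_, by linear_combination h2⟩
        have : 2 * C * (2 * A * s + (B - -1 * μ₀) * l) = 0 := by
          linear_combination (B + μ₀) * h2 + s * hμ
        exact (mul_eq_zero.1 this).resolve_left (mul_ne_zero two_ne_zero hC)
  · have h1 : (2 * A * s + (B - μ₀) * l) * (2 * A * s + (B + μ₀) * l) = 0 := by
      linear_combination 4 * A * hQ - l ^ 2 * hμ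
    rcases mul_eq_zero.1 h1 with h2 | h2
    · refine ⟨1, by norm_num, by linear_combination h2, ?_⟩
      have : 2 * A * ((B + 1 * μ₀) * s + 2 * C * l) = 0 := by
        linear_combination (B + μ₀) * h2 + l * hμ
      exact (mul_eq_zero.1 this).resolve_left (mul_ne_zero two_ne_zero hA)
    · refine ⟨-1, by norm_num, by linear_combination h2, ?_⟩
      have : 2 * A * ((B + -1 * μ₀) * s + 2 * C * l) = 0 := by
        linear_combination (B - μ₀) * h2 + l * hμ
      exact (mul_eq_zero.1 this).resolve_left (mul_ne_zero two_ne_zero hA)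

/-- two non zero vectors of `ℂ²` with vanishing determinant are proportional -/
theorem gsa_lift_par {a₁ a₂ s l : ℂ} (ha : a₁ ≠ 0 ∨ a₂ ≠ 0) (hs : s ≠ 0 ∨ l ≠ 0)
    (h : s * a₂ - l * a₁ = 0) : ∃ t : ℂ, t ≠ 0 ∧ s = t * a₁ ∧ l = t * a₂ := by
  by_cases h1 : a₁ = 0
  · have h2 : a₂ ≠ 0 := ha.resolve_left (not_not.2 h1)
    have h3 : s = 0 := by
      have : s * a₂ = 0 := by rw [h1] at h; linear_combination h
      exact (mul_eq_zero.1 this).resolve_right h2
    have h4 : l ≠ 0 := hs.resolve_left (not_not.2 h3)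
    refine ⟨l / a₂, div_ne_zero h4 h2, ?_, ?_⟩
    · rw [h3, h1, mul_zero]
    · field_simp
  · have h3 : s ≠ 0 := by
      intro h3
      have : l * a₁ = 0 := by rw [h3] at h; linear_combination -h
      exact (hs.resolve_left (not_not.2 h3)) ((mul_eq_zero.1 this).resolve_right h1)
    refine ⟨s / a₁, div_ne_zero h3 h1, ?_, ?_⟩
    · field_simp
    · field_simp
      linear_combination -h

theorem gsa_lift_dir (D : LeafData F w₀ b) (w c T U : ℂ) :
    D.dir w (c * T) (c * U) = c • D.dir w T U := by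
  unfold FrameData.dir
  rw [smul_add, smul_smul, smul_smul]

theorem gsa_lift_mu (D : LeafData F w₀ b) {w : ℂ} (hw : w ∈ ball w₀ b) {y : V4} {c T U N : ℂ}
    (hT : gsT y = c * T) (hU : gsU y = c * U) (hN : gsN y = c ^ 2 * N) :
    gsMu D w y = c ^ (D.d + 1) * (D.q w T U * N) := by
  unfold gsMu
  rw [hT, hU, hN, D.homq w hw]
  have h1 : c ^ (D.d + 1) = c ^ (D.d - 1) * c ^ 2 := by
    rw [← pow_add]
    congr 1
    have := D.d_pos
    omega
  rw [h1]
  ring

theorem gsa_lift_X_true (D : LeafData F w₀ b) {w : ℂ} (hw : w ∈ ball w₀ b) {y : V4} {c T U N : ℂ}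
    (hT : gsT y = c * T) (hU : gsU y = c * U) (hN : gsN y = c ^ 2 * N) :
    gsX D true w y = c ^ (D.d + 1) •
      ((D.q w T U * N - D.B w T U) • D.p w + (2 * D.A w T U) • D.dir w T U) := by
  unfold gsX
  rw [if_pos rfl, gsa_lift_mu D hw hT hU hN, hT, hU]
  unfold FrameData.X₁
  rw [D.homA w hw, D.homB w hw, gsa_lift_dir, smul_add, smul_smul, smul_smul, smul_smul]
  congr 2 <;> ring

theorem gsa_lift_X_false (D : LeafData F w₀ b) {w : ℂ} (hw : w ∈ ball w₀ b) {y : V4} {c T U N : ℂ}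
    (hT : gsT y = c * T) (hU : gsU y = c * U) (hN : gsN y = c ^ 2 * N) :
    gsX D false w y = c ^ (D.d + 2) •
      ((2 * D.C w T U) • D.p w + (-(D.B w T U + D.q w T U * N)) • D.dir w T U) := by
  unfold gsX
  rw [if_neg (by simp), gsa_lift_mu D hw hT hU hN, hT, hU]
  unfold FrameData.X₂
  rw [D.homC w hw, D.homB w hw, gsa_lift_dir, smul_add, smul_smul, smul_smul, smul_smul,
    sub_eq_add_neg, ← neg_smul]
  congr 2 <;> ring

/-- the common end of the two cases -/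
theorem gsa_lift_end {p v x X : V4} {s l a₁ a₂ k : ℂ} (hx : x = s • p + l • v)
    (hX : X = k • (a₁ • p + a₂ • v)) (hk : k ≠ 0) (hX0 : X ≠ 0) (hs : s ≠ 0 ∨ l ≠ 0)
    (h : s * a₂ - l * a₁ = 0) : ∃ t : ℂ, t ≠ 0 ∧ x = t • X := by
  have ha : a₁ ≠ 0 ∨ a₂ ≠ 0 := by
    by_contra hc
    push Not at hc
    apply hX0
    rw [hX, hc.1, hc.2]
    simp
  obtain ⟨t, ht, h1, h2⟩ := gsa_lift_par ha hs h
  refine ⟨t * k⁻¹, mul_ne_zero ht (inv_ne_zero hk), ?_⟩
  rw [hx, hX, smul_smul, mul_assoc, inv_mul_cancel₀ hk, mul_one, h1, h2, smul_add, smul_smul,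
    smul_smul]

/-- **Every point of the leaf comes from the elliptic curve.**
Route: `x = s p + l dir (T, U)`, `Q (s, l) = A s² + B s l + C l² = 0`.  Let `N₀` be a square root of `T U (T - U) (T - λ U)` (`IsSquare`/`Complex.cpow` or `IsAlgClosed.exists_pow_nat_eq`), `μ₀ = q N₀`, `μ₀² = B² - 4 A C`.
Choose the sign `N = ± N₀`, `μ = q N`, such that  (R1) `2 A s + (B - μ) l = 0`  and  (R2) `(B + μ) s + 2 C l = 0`:
 `A ≠ 0`: `4 A Q = (2 A s + (B - μ₀) l) (2 A s + (B + μ₀) l)` gives (R1) for one sign; `2 A · (R2) = (B + μ) · (R1)` (uses `μ² = B² - 4 A C`).   `A = 0, C ≠ 0`: symmetric, start with (R2).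
 `A = C = 0`: `B ≠ 0` (`nz`), `μ₀ = ± B`, `B s l = 0`; `l = 0`: take `μ = - B`; `s = 0`: take `μ = B`.
Now let `gsT y = c T`, `gsU y = c U`, `gsN y = c² N`.  By homogeneity (as in `gs_X_smul`) `gsX D true w y = c ^ (d + 1) • ((μ - B) p + 2 A dir)`, `gsX D false w y = c ^ (d + 2) • (2 C p - (B + μ) dir)`.
`(s, l)` and `(μ - B, 2 A)` satisfy: `s · 2 A - l (μ - B) = 0` (R1); if `(μ - B, 2 A) ≠ 0` then `(s, l) = t (μ - B, 2 A)`, `t ≠ 0` since `(s, l) ≠ 0`.  Same for `(2 C, - (B + μ))` with (R2). -/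
theorem gs_leaf_lift (D : LeafData F w₀ b) {w : ℂ} (hw : w ∈ ball w₀ b) {x : V4} (hx : D.OnLeaf w x) :
    ∃ T U N : ℂ, (T ≠ 0 ∨ U ≠ 0) ∧ N ^ 2 = T * U * (T - U) * (T - D.lam w * U) ∧
      ∀ (y : V4) (c : ℂ), c ≠ 0 → gsT y = c * T → gsU y = c * U → gsN y = c ^ 2 * N →
        ∀ i : Bool, gsX D i w y ≠ 0 → ∃ t : ℂ, t ≠ 0 ∧ x = t • gsX D i w y := by
  obtain ⟨s, l, T, U, hTU, hsl, hx, hQ⟩ := hx
  obtain ⟨N₀, hN₀⟩ := IsAlgClosed.exists_pow_nat_eq (T * U * (T - U) * (T - D.lam w * U))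
    (n := 2) (by norm_num)
  have hμ : (D.q w T U * N₀) ^ 2 = D.B w T U ^ 2 - 4 * D.A w T U * D.C w T U := by
    rw [D.legendre w hw, mul_pow, hN₀]
  obtain ⟨e, he, r1, r2⟩ := gsa_lift_sign (D.nz w hw T U hTU) hμ hQ
  refine ⟨T, U, e * N₀, hTU, by rw [mul_pow, he, one_mul, hN₀], ?_⟩
  intro y c hc hT hU hN i hi
  cases i
  · refine gsa_lift_end hx (gsa_lift_X_false D hw hT hU hN) (pow_ne_zero _ hc) hi hsl ?_
    linear_combination -r2
  · refine gsa_lift_end hx (gsa_lift_X_true D hw hT hU hN) (pow_ne_zero _ hc) hi hsl ?_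
    linear_combination r1

end Claimed.Agent.R245
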