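/-
Row 245 / S0484, GEO, block GEO-STRIP (sub-architect helper292).   FILE B: analysis.  Packages GS-LOC (local lifts are sections), GS-GEN (genericity on slices), GS-KI (regularity of sections).
Statements FROZEN; helper lemmas: prefixes `gsl_`, `gsg_`, `gsk_`.   Several owners in this file: touch only your theorems.   Read the header of GeoStripA.lean first.
-/
import Claimed.Agent.R245.GeoStripA
import Claimed.Agent.R245.GeoZero
import Claimed.Agent.R245.GeoKI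

set_option autoImplicit false

namespace Claimed.Agent.R245

open MvPolynomial Metric Set Claims.C0412

variable {F : MvPolynomial (Fin 4) ℂ} {w₀ : ℂ} {b : ℝ}

/-! ## GS-LOC -/

theorem gsl_ball_mono {ε : ℝ} (hε : 0 < ε) {n m : ℕ} (hnm : n ≤ m) :
    ball (0 : ℂ) (2 ^ n * ε) ⊆ ball (0 : ℂ) (2 ^ m * ε) := by
  apply ball_subset_ball
  have : (2 : ℝ) ^ n ≤ 2 ^ m := pow_le_pow_right₀ (by norm_num) hnm
  exact mul_le_mul_of_nonneg_right this hε.le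

theorem gsl_mem_mono {b' ε : ℝ} (hε : 0 < ε) {n m : ℕ} (hnm : n ≤ m) {x : ℂ × ℂ}
    (hx : x ∈ ball w₀ b' ×ˢ ball (0 : ℂ) (2 ^ n * ε)) : x ∈ ball w₀ b' ×ˢ ball (0 : ℂ) (2 ^ m * ε) :=
  ⟨hx.1, gsl_ball_mono hε hnm hx.2⟩

/-- (Induction on `m`; the balls increase; `t ≠ 0` because `Φ m x ∈ JCone` is not `0`.) -/
theorem gs_engine_le {lam : ℂ → ℂ} {b' ε : ℝ} {Φ : ℕ → ℂ × ℂ → V4} (h : GsEngine lam w₀ b' ε Φ) {n m : ℕ}
    (hnm : n ≤ m) {x : ℂ × ℂ} (hx : x ∈ ball w₀ b' ×ˢ ball (0 : ℂ) (2 ^ n * ε)) :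
    ∃ t : ℂ, t ≠ 0 ∧ Φ m x = t • Φ n x := by
  induction m, hnm using Nat.le_induction with
  | base => exact ⟨1, one_ne_zero, (one_smul _ _).symm⟩
  | succ m hnm ih =>
    obtain ⟨t, ht, e⟩ := ih
    obtain ⟨t', e'⟩ := h.prop m x (gsl_mem_mono h.ε_pos hnm hx)
    have hne : Φ (m + 1) x ≠ 0 := (h.cone (m + 1) x (gsl_mem_mono h.ε_pos (hnm.trans (Nat.le_succ m)) hx)).1
    have ht' : t' ≠ 0 := by
      rintro rfl
      rw [zero_smul] at e'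
      exact hne e'
    exact ⟨t' * t, mul_ne_zero ht' ht, by rw [e', e, smul_smul]⟩

theorem gsl_comp {Ω : Set (ℂ × ℂ)} (hΩ : Ω ⊆ ball w₀ b ×ˢ univ) {T U : ℂ × ℂ → ℂ}
    (hT : DifferentiableOn ℂ T Ω) (hU : DifferentiableOn ℂ U Ω) {f : ℂ → ℂ → ℂ → ℂ}
    (hf : DifferentiableOn ℂ (fun x : ℂ × ℂ × ℂ => f x.1 x.2.1 x.2.2) (ball w₀ b ×ˢ univ)) :
    DifferentiableOn ℂ (fun x => f x.1 (T x) (U x)) Ω := by
  have hG : DifferentiableOn ℂ (fun x : ℂ × ℂ => (x.1, T x, U x)) Ω :=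
    differentiableOn_fst.prodMk (hT.prodMk hU)
  exact hf.comp hG (fun x hx => ⟨(hΩ hx).1, mem_univ _⟩)

theorem gsl_flow {lam : ℂ → ℂ} {b' ε : ℝ} {Φ : ℕ → ℂ × ℂ → V4} (h : GsEngine lam w₀ b' ε Φ) (n : ℕ)
    {y : ℂ × ℂ} (hy : y ∈ ball w₀ b' ×ˢ ball (0 : ℂ) (2 ^ n * ε)) :
    gsT (Φ n y) * fderiv ℂ (fun x => gsU (Φ n x)) y (0, 1)
      - gsU (Φ n y) * fderiv ℂ (fun x => gsT (Φ n x)) y (0, 1) = 2 * gsN (Φ n y) := by
  obtain ⟨w, z⟩ := y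
  have hopen : IsOpen (ball w₀ b' ×ˢ ball (0 : ℂ) (2 ^ n * ε)) := isOpen_ball.prod isOpen_ball
  have hd : DifferentiableAt ℂ (Φ n) (w, z) := (h.hol n).differentiableAt (hopen.mem_nhds hy)
  have hdi : ∀ i, DifferentiableAt ℂ (fun x => Φ n x i) (w, z) := fun i => differentiableAt_pi.1 hd i
  have s0 := gs_hasDerivAt_snd (hdi 0)
  have s3 := gs_hasDerivAt_snd (hdi 3)
  have hU : DifferentiableAt ℂ (fun x => gsU (Φ n x)) (w, z) := by
    unfold gsU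
    exact (hdi 0).pow 2
  have hT : DifferentiableAt ℂ (fun x => gsT (Φ n x)) (w, z) := by
    unfold gsT
    exact (hdi 3).pow 2
  have eU : fderiv ℂ (fun x => gsU (Φ n x)) (w, z) (0, 1)
      = 2 * Φ n (w, z) 0 * deriv (fun z => Φ n (w, z) 0) z := by
    have h1 := gs_hasDerivAt_snd hU
    have h2 := s0.pow 2
    have h3 := h1.unique h2
    rw [h3, s0.deriv]
    simp
  have eT : fderiv ℂ (fun x => gsT (Φ n x)) (w, z) (0, 1)
      = 2 * Φ n (w, z) 3 * deriv (fun z => Φ n (w, z) 3) z := by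
    have h1 := gs_hasDerivAt_snd hT
    have h2 := s3.pow 2
    have h3 := h1.unique h2
    rw [h3, s3.deriv]
    simp
  have hfl := h.flow n w hy.1 z hy.2
  rw [eU, eT]
  simp only [gsT, gsU, gsN]
  linear_combination (2 * Φ n (w, z) 3 * Φ n (w, z) 0) * hfl

/-- **The local lifts are sections.**
`T = gsT ∘ Φ n`, `U = gsU ∘ Φ n`, `N = gsN ∘ Φ n`;   `i = true`: `s = μ - B`, `l = 2 A`;   `i = false`: `s = 2 C`, `l = - (B + μ)`   (`μ = q N`, everything evaluated at `(x.1, T x, U x)`).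
Holomorphy: components of `Φ n` (`differentiableOn_pi`), `D.hA` etc. composed with `x ↦ (x.1, T x, U x)` (`DifferentiableOn.comp`, maps `Ω` into `ball w₀ b ×ˢ univ`).
`curve`: `gs_curve`.  `r1, r2`: `gs_mu_sq`, `linear_combination`.
`flow`: `T U_z - U T_z = W² · 2 S S_z - S² · 2 W W_z = 2 W S (S_z W - S W_z) = 2 W S C D`; `fderiv (·) x (0, 1)` is the derivative of the slice (`gs_hasDerivAt_snd`), `h.flow`. -/
theorem gs_sec (D : LeafData F w₀ b) {b' ε : ℝ} (hb' : b' ≤ b) {Φ : ℕ → ℂ × ℂ → V4}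
    (h : GsEngine D.lam w₀ b' ε Φ) (n : ℕ) (i : Bool) :
    ∃ s l : ℂ × ℂ → ℂ,
      GsSec D (ball w₀ b' ×ˢ ball (0 : ℂ) (2 ^ n * ε)) (fun x => gsT (Φ n x)) (fun x => gsU (Φ n x))
        (fun x => gsN (Φ n x)) s l ∧
      ∀ x, gsX D i x.1 (Φ n x) = gsPt D (fun x => gsT (Φ n x)) (fun x => gsU (Φ n x)) s l x := by
  set Ω : Set (ℂ × ℂ) := ball w₀ b' ×ˢ ball (0 : ℂ) (2 ^ n * ε) with hΩdef
  have hΩ : Ω ⊆ ball w₀ b ×ˢ univ := fun x hx => ⟨ball_subset_ball hb' hx.1, mem_univ _⟩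
  have hdi : ∀ i, DifferentiableOn ℂ (fun x => Φ n x i) Ω := fun i => differentiableOn_pi.1 (h.hol n) i
  have hT : DifferentiableOn ℂ (fun x => gsT (Φ n x)) Ω := by
    unfold gsT
    exact (hdi 3).pow 2
  have hU : DifferentiableOn ℂ (fun x => gsU (Φ n x)) Ω := by
    unfold gsU
    exact (hdi 0).pow 2
  have hN : DifferentiableOn ℂ (fun x => gsN (Φ n x)) Ω := by
    unfold gsN
    exact (((hdi 3).mul (hdi 0)).mul (hdi 1)).mul (hdi 2)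
  have hA := gsl_comp hΩ hT hU D.hA
  have hB := gsl_comp hΩ hT hU D.hB
  have hC := gsl_comp hΩ hT hU D.hC
  have hq := gsl_comp hΩ hT hU D.hq
  have hμ : DifferentiableOn ℂ (fun x => D.q x.1 (gsT (Φ n x)) (gsU (Φ n x)) * gsN (Φ n x)) Ω :=
    hq.mul hN
  have hsq : ∀ y ∈ Ω, (D.q y.1 (gsT (Φ n y)) (gsU (Φ n y)) * gsN (Φ n y)) ^ 2
      = D.B y.1 (gsT (Φ n y)) (gsU (Φ n y)) ^ 2
        - 4 * D.A y.1 (gsT (Φ n y)) (gsU (Φ n y)) * D.C y.1 (gsT (Φ n y)) (gsU (Φ n y)) :=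
    fun y hy => gs_mu_sq D (hΩ hy).1 (h.cone n y hy)
  cases i with
  | true =>
    refine ⟨fun x => D.q x.1 (gsT (Φ n x)) (gsU (Φ n x)) * gsN (Φ n x)
        - D.B x.1 (gsT (Φ n x)) (gsU (Φ n x)), fun x => 2 * D.A x.1 (gsT (Φ n x)) (gsU (Φ n x)),
      ⟨hT, hU, hN, hμ.sub hB, hA.const_mul 2, fun y hy => gs_curve (h.cone n y hy),
        fun y hy => gsl_flow h n hy, fun y hy => by ring, fun y hy => ?_⟩, fun x => ?_⟩
    · linear_combination hsq y hy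
    · simp only [gsX, gsPt, FrameData.X₁, gsMu, if_true]
  | false =>
    refine ⟨fun x => 2 * D.C x.1 (gsT (Φ n x)) (gsU (Φ n x)),
      fun x => - (D.B x.1 (gsT (Φ n x)) (gsU (Φ n x))
        + D.q x.1 (gsT (Φ n x)) (gsU (Φ n x)) * gsN (Φ n x)),
      ⟨hT, hU, hN, hC.const_mul 2, (hB.add hμ).neg, fun y hy => gs_curve (h.cone n y hy),
        fun y hy => gsl_flow h n hy, fun y hy => ?_, fun y hy => by ring⟩, fun x => ?_⟩
    · linear_combination hsq y hy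
    · simp only [gsX, gsPt, FrameData.X₂, gsMu, neg_smul, sub_eq_add_neg]
      simp

/-- (`D.hp, D.hv₁, D.hv₂` composed with `Prod.fst`; `DifferentiableOn.smul`, `.add`.) -/
theorem gs_pt_differentiableOn (D : LeafData F w₀ b) {Ω : Set (ℂ × ℂ)} (hΩ : Ω ⊆ ball w₀ b ×ˢ univ)
    {T U N s l : ℂ × ℂ → ℂ} (h : GsSec D Ω T U N s l) : DifferentiableOn ℂ (gsPt D T U s l) Ω := by
  have hfst : MapsTo (fun x : ℂ × ℂ => x.1) Ω (ball w₀ b) := fun x hx => (hΩ hx).1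
  have hp : DifferentiableOn ℂ (fun x : ℂ × ℂ => D.p x.1) Ω := D.hp.comp differentiableOn_fst hfst
  have hv₁ : DifferentiableOn ℂ (fun x : ℂ × ℂ => D.v₁ x.1) Ω := D.hv₁.comp differentiableOn_fst hfst
  have hv₂ : DifferentiableOn ℂ (fun x : ℂ × ℂ => D.v₂ x.1) Ω := D.hv₂.comp differentiableOn_fst hfst
  unfold gsPt FrameData.dir
  exact (h.hs.smul hp).add (h.hl.smul ((h.hU.smul hv₁).add (h.hT.smul hv₂)))

/-! ## GS-GEN -/

/-- **Principle.**  A function `P` of the Jacobi point whose zero set is invariant under scaling and which is not zero at ONE point reached by the engine (over `w`) does not vanish identically on any of the discs.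
Route: suppose `P (Φ n (w, z)) = 0` on `ball 0 (2^n ε)`.  `m = max n n₁`.  By `gs_engine_le` (`Φ n = t⁻¹ Φ m` on the small disc) `z ↦ P (Φ m (w, z))` vanishes on `ball 0 (2^n ε)`, a neighbourhood of `0`; identity theorem on the
preconnected `ball 0 (2^m ε)` (`DifferentiableOn.analyticOnNhd`, `AnalyticOnNhd.eqOn_zero_of_preconnected_of_eventuallyEq_zero`): it vanishes at `z₁`; `Φ m (w, z₁) = t Φ n₁ (w, z₁)`, `t ≠ 0`: contradiction with `hP`. -/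
theorem gs_principle {lam : ℂ → ℂ} {b' ε : ℝ} {Φ : ℕ → ℂ × ℂ → V4} (h : GsEngine lam w₀ b' ε Φ) {w : ℂ}
    (hw : w ∈ ball w₀ b') (P : V4 → ℂ)
    (hPd : ∀ n, DifferentiableOn ℂ (fun z => P (Φ n (w, z))) (ball (0 : ℂ) (2 ^ n * ε)))
    (hP : ∀ (t : ℂ) (y : V4), t ≠ 0 → P y ≠ 0 → P (t • y) ≠ 0)
    {n₁ : ℕ} {z₁ : ℂ} (hz₁ : z₁ ∈ ball (0 : ℂ) (2 ^ n₁ * ε)) (h1 : P (Φ n₁ (w, z₁)) ≠ 0) (n : ℕ) :
    ∃ z ∈ ball (0 : ℂ) (2 ^ n * ε), P (Φ n (w, z)) ≠ 0 := by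
  by_contra hcon
  push Not at hcon
  set m := max n n₁ with hm
  have hε := h.ε_pos
  have han : AnalyticOnNhd ℂ (fun z => P (Φ m (w, z))) (ball (0 : ℂ) (2 ^ m * ε)) :=
    (hPd m).analyticOnNhd isOpen_ball
  have hsmall : ∀ z ∈ ball (0 : ℂ) (2 ^ n * ε), P (Φ m (w, z)) = 0 := by
    intro z hz
    obtain ⟨t, ht, e⟩ := gs_engine_le h (le_max_left n n₁) (x := (w, z)) ⟨hw, hz⟩
    by_contra hne
    have := hP t⁻¹ _ (inv_ne_zero ht) hne
    rw [e, smul_smul, inv_mul_cancel₀ ht, one_smul] at this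
    exact this (hcon z hz)
  have hpos : ∀ k : ℕ, 0 < (2 : ℝ) ^ k * ε := fun k => by positivity
  have hev : (fun z => P (Φ m (w, z))) =ᶠ[nhds (0 : ℂ)] 0 := by
    filter_upwards [isOpen_ball.mem_nhds (mem_ball_self (hpos n))] with z hz
    exact hsmall z hz
  have hzero := han.eqOn_zero_of_preconnected_of_eventuallyEq_zero (convex_ball _ _).isPreconnected
    (mem_ball_self (hpos m)) hev (gsl_ball_mono hε (le_max_right n n₁) hz₁)
  obtain ⟨t, ht, e⟩ := gs_engine_le h (le_max_right n n₁) (x := (w, z₁)) ⟨hw, hz₁⟩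
  have := hP t _ ht h1
  rw [← e] at this
  exact this hzero

theorem gsg_slice {lam : ℂ → ℂ} {b' ε : ℝ} {Φ : ℕ → ℂ × ℂ → V4} (h : GsEngine lam w₀ b' ε Φ) {w : ℂ}
    (hw : w ∈ ball w₀ b') (n : ℕ) (i : Fin 4) :
    DifferentiableOn ℂ (fun z => Φ n (w, z) i) (ball (0 : ℂ) (2 ^ n * ε)) := by
  have h1 : DifferentiableOn ℂ (fun z : ℂ => (w, z)) (ball (0 : ℂ) (2 ^ n * ε)) :=
    (differentiableOn_const w).prodMk differentiableOn_id
  exact (differentiableOn_pi.1 (h.hol n) i).comp h1 (fun z hz => ⟨hw, hz⟩)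

theorem gsg_comp {w : ℂ} (hw : w ∈ ball w₀ b) {Ω : Set ℂ} {T U : ℂ → ℂ}
    (hT : DifferentiableOn ℂ T Ω) (hU : DifferentiableOn ℂ U Ω) {f : ℂ → ℂ → ℂ → ℂ}
    (hf : DifferentiableOn ℂ (fun x : ℂ × ℂ × ℂ => f x.1 x.2.1 x.2.2) (ball w₀ b ×ˢ univ)) :
    DifferentiableOn ℂ (fun z => f w (T z) (U z)) Ω := by
  have hG : DifferentiableOn ℂ (fun z : ℂ => (w, T z, U z)) Ω :=
    (differentiableOn_const w).prodMk (hT.prodMk hU)
  exact hf.comp hG (fun x _ => ⟨hw, mem_univ _⟩)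

/-- **Genericity.**
Route: `P₁ y = A w (gsT y) (gsU y) * κ … * q …`, `P₂ = gsN`; both are scaling invariant in the sense of `gs_principle` (`gs_T_smul`, `gs_U_smul`, `gs_N_smul`, `homA, homκ, homq` with `c = t²`) and holomorphic along `Φ n (w, ·)`.
`P₁`: `D.gen` gives `(T₁, U₁)`, not `(0, 0)` (`homA` with `c = 0`, `1 ≤ d`); `N₁` a square root of `T₁ U₁ (T₁ - U₁)(T₁ - λ U₁)` (`IsAlgClosed.exists_pow_nat_eq`); `h.surj` gives `n₁, z₁, c ≠ 0` with `(gsT, gsU) = c (T₁, U₁)`; homogeneity.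
`P₂`: `U = 1`, `T ∉ {0, 1, λ}` (`Infinite.exists_notMem_finset`), `N` a square root, `N ≠ 0`; `h.surj`: `gsN = c² N ≠ 0`.
So neither `P₁ ∘ Φ n (w, ·)` nor `P₂ ∘ Φ n (w, ·)` vanishes identically on the disc; if the product did, `gz_cancel` (`E = ℂ`, `Ω` = the disc, convex hence preconnected) would kill the second factor. -/
theorem gs_generic (D : LeafData F w₀ b) {b' ε : ℝ} (hb' : b' ≤ b) {Φ : ℕ → ℂ × ℂ → V4}
    (h : GsEngine D.lam w₀ b' ε Φ) (n : ℕ) {w : ℂ} (hw : w ∈ ball w₀ b') :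
    ∃ z ∈ ball (0 : ℂ) (2 ^ n * ε),
      D.A w (gsT (Φ n (w, z))) (gsU (Φ n (w, z))) * D.κ w (gsT (Φ n (w, z))) (gsU (Φ n (w, z)))
        * D.q w (gsT (Φ n (w, z))) (gsU (Φ n (w, z))) * gsN (Φ n (w, z)) ≠ 0 := by
  have hwb : w ∈ ball w₀ b := ball_subset_ball hb' hw
  set P₁ : V4 → ℂ := fun y => D.A w (gsT y) (gsU y) * D.κ w (gsT y) (gsU y) * D.q w (gsT y) (gsU y)
    with hP₁
  have hTd : ∀ n, DifferentiableOn ℂ (fun z => gsT (Φ n (w, z))) (ball (0 : ℂ) (2 ^ n * ε)) := by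
    intro n
    unfold gsT
    exact (gsg_slice h hw n 3).pow 2
  have hUd : ∀ n, DifferentiableOn ℂ (fun z => gsU (Φ n (w, z))) (ball (0 : ℂ) (2 ^ n * ε)) := by
    intro n
    unfold gsU
    exact (gsg_slice h hw n 0).pow 2
  have hNd : ∀ n, DifferentiableOn ℂ (fun z => gsN (Φ n (w, z))) (ball (0 : ℂ) (2 ^ n * ε)) := by
    intro n
    unfold gsN
    exact (((gsg_slice h hw n 3).mul (gsg_slice h hw n 0)).mul (gsg_slice h hw n 1)).mul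
      (gsg_slice h hw n 2)
  have hP₁d : ∀ n, DifferentiableOn ℂ (fun z => P₁ (Φ n (w, z))) (ball (0 : ℂ) (2 ^ n * ε)) := by
    intro n
    exact ((gsg_comp hwb (hTd n) (hUd n) D.hA).mul (gsg_comp hwb (hTd n) (hUd n) D.hκ)).mul
      (gsg_comp hwb (hTd n) (hUd n) D.hq)
  have hhom : ∀ (c T U : ℂ), c ≠ 0 → D.A w T U * D.κ w T U * D.q w T U ≠ 0 →
      D.A w (c * T) (c * U) * D.κ w (c * T) (c * U) * D.q w (c * T) (c * U) ≠ 0 := by
    intro c T U hc hne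
    rw [D.homA w hwb, D.homκ w hwb, D.homq w hwb]
    have e : c ^ D.d * D.A w T U * (c ^ (2 - D.d) * D.κ w T U) * (c ^ (D.d - 1) * D.q w T U)
        = (c ^ D.d * c ^ (2 - D.d) * c ^ (D.d - 1)) * (D.A w T U * D.κ w T U * D.q w T U) := by ring
    rw [e]
    exact mul_ne_zero (mul_ne_zero (mul_ne_zero (pow_ne_zero _ hc) (pow_ne_zero _ hc))
      (pow_ne_zero _ hc)) hne
  have hP₁s : ∀ (t : ℂ) (y : V4), t ≠ 0 → P₁ y ≠ 0 → P₁ (t • y) ≠ 0 := by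
    intro t y ht hy
    simp only [hP₁, gs_T_smul, gs_U_smul]
    exact hhom (t ^ 2) _ _ (pow_ne_zero 2 ht) hy
  -- a point for `P₁`
  obtain ⟨z₁', hz₁', hne₁⟩ : ∃ z ∈ ball (0 : ℂ) (2 ^ n * ε), P₁ (Φ n (w, z)) ≠ 0 := by
    obtain ⟨T₁, U₁, hgen⟩ := D.gen w hwb
    have hTU : T₁ ≠ 0 ∨ U₁ ≠ 0 := by
      by_contra hcon
      push Not at hcon
      obtain ⟨rfl, rfl⟩ := hcon
      have := D.homA w hwb 0 0 0
      rw [mul_zero, zero_pow (by have := D.d_pos; omega), zero_mul] at this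
      rw [this] at hgen
      simp at hgen
    obtain ⟨N₁, hN₁⟩ := IsAlgClosed.exists_pow_nat_eq (T₁ * U₁ * (T₁ - U₁) * (T₁ - D.lam w * U₁))
      (n := 2) (by norm_num)
    obtain ⟨n₁, z₁, c, hz₁, hc, e1, e2, -⟩ := h.surj w hw T₁ U₁ N₁ hTU hN₁
    refine gs_principle h hw P₁ hP₁d hP₁s hz₁ ?_ n
    have : P₁ (Φ n₁ (w, z₁)) = D.A w (c * T₁) (c * U₁) * D.κ w (c * T₁) (c * U₁)
        * D.q w (c * T₁) (c * U₁) := by
      simp only [hP₁, gsT, gsU, e1, e2]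
    rw [this]
    exact hhom c _ _ hc hgen
  -- a point for `P₂`
  obtain ⟨z₂', hz₂', hne₂⟩ : ∃ z ∈ ball (0 : ℂ) (2 ^ n * ε), gsN (Φ n (w, z)) ≠ 0 := by
    obtain ⟨T, hT⟩ := Infinite.exists_notMem_finset ({0, 1, D.lam w} : Finset ℂ)
    simp only [Finset.mem_insert, Finset.mem_singleton, not_or] at hT
    obtain ⟨hT0, hT1, hTl⟩ := hT
    obtain ⟨N, hN⟩ := IsAlgClosed.exists_pow_nat_eq (T * 1 * (T - 1) * (T - D.lam w * 1))
      (n := 2) (by norm_num)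
    have hN0 : N ≠ 0 := by
      rintro rfl
      rw [zero_pow (by norm_num)] at hN
      have : T * 1 * (T - 1) * (T - D.lam w * 1) ≠ 0 := by
        rw [mul_one, mul_one]
        exact mul_ne_zero (mul_ne_zero hT0 (sub_ne_zero.2 hT1)) (sub_ne_zero.2 hTl)
      exact this hN.symm
    obtain ⟨n₁, z₁, c, hz₁, hc, -, -, e3⟩ := h.surj w hw T 1 N (Or.inl hT0) hN
    refine gs_principle h hw gsN hNd ?_ hz₁ ?_ n
    · intro t y ht hy
      rw [gs_N_smul]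
      exact mul_ne_zero (pow_ne_zero _ (pow_ne_zero _ ht)) hy
    · simp only [gsN, e3]
      exact mul_ne_zero (pow_ne_zero _ hc) hN0
  by_contra hcon
  push Not at hcon
  have := gz_cancel isOpen_ball (convex_ball (0 : ℂ) (2 ^ n * ε)).isPreconnected (hP₁d n) (hNd n)
    (fun z hz => hcon z hz) ⟨z₁', hz₁', hne₁⟩
  exact hne₂ (this z₂' hz₂')

/-! ## GS-KI -/

theorem gsk_cancel {R : ℝ} {h k : ℂ → ℂ} (hh : DifferentiableOn ℂ h (ball (0 : ℂ) R))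
    (hk : DifferentiableOn ℂ k (ball (0 : ℂ) R)) (hz : ∀ z ∈ ball (0 : ℂ) R, h z * k z = 0)
    (hne : ∃ z ∈ ball (0 : ℂ) R, h z ≠ 0) : ∀ z ∈ ball (0 : ℂ) R, k z = 0 :=
  gz_cancel isOpen_ball (convex_ball _ _).isPreconnected hh hk hz hne

theorem gsk_eval (D : LeafData F w₀ b) {Ω : Set (ℂ × ℂ)} (hΩ : Ω ⊆ ball w₀ b ×ˢ univ)
    {T U N s l : ℂ × ℂ → ℂ} (h : GsSec D Ω T U N s l) {y : ℂ × ℂ} (hy : y ∈ Ω) :
    eval (gsPt D T U s l y) F = 0 := by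
  have hw : y.1 ∈ ball w₀ b := (hΩ hy).1
  have e := D.expand y.1 hw (T y) (U y) (s y) (l y)
  unfold gsPt FrameData.dir
  rw [e]
  have h1 := h.r1 y hy
  have h2 := h.r2 y hy
  have : D.A y.1 (T y) (U y) * s y ^ 2 + D.B y.1 (T y) (U y) * s y * l y + D.C y.1 (T y) (U y) * l y ^ 2 = 0 := by
    linear_combination (s y / 2) * h1 + (l y / 2) * h2
  rw [this, mul_zero]

theorem gsk_fderiv_differentiableOn {Ω : Set (ℂ × ℂ)} (hΩ : IsOpen Ω) {x : ℂ × ℂ → V4}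
    (hx : DifferentiableOn ℂ x Ω) (v : ℂ × ℂ) : DifferentiableOn ℂ (fun y => fderiv ℂ x y v) Ω := by
  have ha : AnalyticOnNhd ℂ x Ω := scv_analyticOnNhd hΩ hx
  have hb : AnalyticOnNhd ℂ (fun y => fderiv ℂ x y v) Ω := fun z hz =>
    ((ContinuousLinearMap.apply ℂ V4 v).analyticAt _).comp (ha.fderiv z hz)
  exact hb.differentiableOn

theorem gsk_slice {E : Type*} [NormedAddCommGroup E] [NormedSpace ℂ E] {b' R : ℝ} {f : ℂ × ℂ → E}
    (hf : DifferentiableOn ℂ f (ball w₀ b' ×ˢ ball (0 : ℂ) R)) {w : ℂ} (hw : w ∈ ball w₀ b') :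
    DifferentiableOn ℂ (fun z => f (w, z)) (ball (0 : ℂ) R) :=
  hf.comp (f := fun z : ℂ => (w, z)) (by fun_prop) (fun z hz => ⟨hw, hz⟩)

theorem gsk_coef {b' R : ℝ} (hb' : b' ≤ b) {K : ℂ → ℂ → ℂ → ℂ}
    (hK : DifferentiableOn ℂ (fun x : ℂ × ℂ × ℂ => K x.1 x.2.1 x.2.2) (ball w₀ b ×ˢ univ))
    {T U : ℂ × ℂ → ℂ} (hT : DifferentiableOn ℂ T (ball w₀ b' ×ˢ ball (0 : ℂ) R))
    (hU : DifferentiableOn ℂ U (ball w₀ b' ×ˢ ball (0 : ℂ) R)) :
    DifferentiableOn ℂ (fun y : ℂ × ℂ => K y.1 (T y) (U y)) (ball w₀ b' ×ˢ ball (0 : ℂ) R) :=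
  hK.comp (f := fun y : ℂ × ℂ => (y.1, T y, U y)) (differentiableOn_fst.prodMk (hT.prodMk hU))
    (fun _ hy => ⟨ball_subset_ball hb' hy.1, mem_univ _⟩)

theorem gsk_exists_dot {g : V4} (hg : g ≠ 0) : ∃ m : V4, dot g m ≠ 0 := by
  obtain ⟨i, hi⟩ := Function.ne_iff.1 hg
  refine ⟨Pi.single i 1, ?_⟩
  have : dot g (Pi.single i 1) = g i := by
    simp [dot, Pi.single_apply]
  rw [this]
  exact hi

/-- **Regularity of sections.**  (owner: helper292; PROVED) -/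
theorem gs_ki_reg (hF : IsSmoothQuarticForm F) (D : LeafData F w₀ b) {b' R : ℝ} (hb' : b' ≤ b)
    {T U N s l : ℂ × ℂ → ℂ} (h : GsSec D (ball w₀ b' ×ˢ ball (0 : ℂ) R) T U N s l)
    (hgen : ∀ w ∈ ball w₀ b', ∃ z ∈ ball (0 : ℂ) R,
      D.A w (T (w, z)) (U (w, z)) * D.κ w (T (w, z)) (U (w, z)) * D.q w (T (w, z)) (U (w, z)) * N (w, z) ≠ 0) :
    ∀ y ∈ ball w₀ b' ×ˢ ball (0 : ℂ) R, gsPt D T U s l y ≠ 0 → RegAt (gsPt D T U s l) y := by
  rintro ⟨w₁, z₁⟩ hy hne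
  have hΩo : IsOpen (ball w₀ b' ×ˢ ball (0 : ℂ) R) := isOpen_ball.prod isOpen_ball
  have hΩs : ball w₀ b' ×ˢ ball (0 : ℂ) R ⊆ ball w₀ b ×ˢ univ :=
    fun y hy => ⟨ball_subset_ball hb' hy.1, mem_univ _⟩
  have hw₁ : w₁ ∈ ball w₀ b' := hy.1
  have hw₁b : w₁ ∈ ball w₀ b := ball_subset_ball hb' hw₁
  have hz₁ : z₁ ∈ ball (0 : ℂ) R := hy.2
  obtain ⟨x, hxdef⟩ : ∃ x : ℂ × ℂ → V4, x = gsPt D T U s l := ⟨_, rfl⟩
  rw [← hxdef] at hne ⊢
  have hxd : DifferentiableOn ℂ x (ball w₀ b' ×ˢ ball (0 : ℂ) R) := by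
    rw [hxdef]; exact gs_pt_differentiableOn D hΩs h
  have hx0 : ∀ y ∈ ball w₀ b' ×ˢ ball (0 : ℂ) R, eval (x y) F = 0 := fun y hy => by
    rw [hxdef]; exact gsk_eval D hΩs h hy
  -- the vectors `m`, `n`
  obtain ⟨m, hm⟩ := gsk_exists_dot (l2_grad_ne_zero hF (D.cone w₁ hw₁b))
  have hΔ : det4 (D.v₁ w₁) (D.v₂ w₁) (D.p w₁) m ≠ 0 := gk_det_frame_ne D.toFrameData hw₁b hm
  obtain ⟨n, hn⟩ := gsk_exists_dot (l2_grad_ne_zero hF (y := x (w₁, z₁)) ⟨hne, hx0 _ hy⟩)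
  -- the key identity
  have hki := gk_ki hF.1 isOpen_ball D.toFrameData hΩo (fun y hy => (hΩs hy).1) h.hT h.hU h.hs h.hl
    (N := x) (fun y => by rw [hxdef]; rfl) hx0
  -- slice functions
  have dA := gsk_slice (gsk_coef hb' D.hA h.hT h.hU) hw₁
  have dκ := gsk_slice (gsk_coef hb' D.hκ h.hT h.hU) hw₁
  have dq := gsk_slice (gsk_coef hb' D.hq h.hT h.hU) hw₁
  have dN := gsk_slice h.hN hw₁
  have ds := gsk_slice h.hs hw₁
  have dl := gsk_slice h.hl hw₁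
  have dx := gsk_slice hxd hw₁
  have dxz := gsk_slice (gsk_fderiv_differentiableOn hΩo hxd (0, 1)) hw₁
  have dxw := gsk_slice (gsk_fderiv_differentiableOn hΩo hxd (1, 0)) hw₁
  have dG : DifferentiableOn ℂ (fun z => grad F (x (w₁, z))) (ball (0 : ℂ) R) :=
    (l2_differentiable_grad F).comp_differentiableOn dx
  obtain ⟨kf, hkf⟩ : ∃ kf : ℂ → ℂ, kf = fun z =>
      det4 (x (w₁, z)) (fderiv ℂ x (w₁, z) (0, 1)) (fderiv ℂ x (w₁, z) (1, 0)) n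
          * dot (grad F (D.p w₁)) m
        + 2 * D.J w₁ * det4 (D.v₁ w₁) (D.v₂ w₁) (D.p w₁) m * dot (grad F (x (w₁, z))) n := ⟨_, rfl⟩
  have dkf : DifferentiableOn ℂ kf (ball (0 : ℂ) R) := by
    rw [hkf]
    exact ((gs_det_differentiableOn dx dxz dxw (differentiableOn_const n)).mul_const _).add
      ((gs_dot_differentiableOn dG (differentiableOn_const n)).const_mul _)
  obtain ⟨z₂, hz₂, hg₂⟩ := hgen w₁ hw₁
  -- `l` does not vanish identically on the slice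
  have hl : ∃ z ∈ ball (0 : ℂ) R, l (w₁, z) ≠ 0 := by
    by_contra hcon
    push Not at hcon
    have hs0 : ∀ z ∈ ball (0 : ℂ) R, s (w₁, z) = 0 := by
      refine gsk_cancel dA ds (fun z hz => ?_) ⟨z₂, hz₂, fun h0 => hg₂ (by rw [h0]; ring)⟩
      have := h.r1 (w₁, z) ⟨hw₁, hz⟩
      rw [hcon z hz] at this
      linear_combination this / 2
    apply hne
    rw [hxdef]
    unfold gsPt
    rw [hs0 z₁ hz₁, hcon z₁ hz₁, zero_smul, zero_smul, add_zero]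
  -- the identity with the factor
  have hmul : ∀ z ∈ ball (0 : ℂ) R, l (w₁, z) * (l (w₁, z) * (l (w₁, z) *
      ((D.κ w₁ (T (w₁, z)) (U (w₁, z)) * D.q w₁ (T (w₁, z)) (U (w₁, z)) * N (w₁, z)) * kf z))) = 0 := by
    intro z hz
    have hyz : (w₁, z) ∈ ball w₀ b' ×ˢ ball (0 : ℂ) R := ⟨hw₁, hz⟩
    have e1 := hki (w₁, z) hyz m n
    have e2 : dot (grad F (x (w₁, z))) (D.p w₁) = l (w₁, z) ^ 2 * D.κ w₁ (T (w₁, z)) (U (w₁, z))
        * (2 * D.A w₁ (T (w₁, z)) (U (w₁, z)) * s (w₁, z) + D.B w₁ (T (w₁, z)) (U (w₁, z)) * l (w₁, z)) := by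
      rw [hxdef]
      exact gk_grad_p D.toFrameData hw₁b _ _ _ _
    have e3 := h.r1 (w₁, z) hyz
    have e4 := h.flow (w₁, z) hyz
    have e5 : D.gaussL w₁ (T (w₁, z)) (U (w₁, z))
        = D.J w₁ * D.κ w₁ (T (w₁, z)) (U (w₁, z)) * D.q w₁ (T (w₁, z)) (U (w₁, z)) :=
      D.gauss w₁ hw₁b _ _
    simp only at e1 e3 e4
    rw [e2, e5] at e1
    rw [hkf]
    linear_combination e1
      - (l (w₁, z) ^ 2 * D.κ w₁ (T (w₁, z)) (U (w₁, z))
          * det4 (x (w₁, z)) (fderiv ℂ x (w₁, z) (0, 1)) (fderiv ℂ x (w₁, z) (1, 0)) n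
          * dot (grad F (D.p w₁)) m) * e3
      - (l (w₁, z) ^ 3 * D.J w₁ * D.κ w₁ (T (w₁, z)) (U (w₁, z)) * D.q w₁ (T (w₁, z)) (U (w₁, z))
          * det4 (D.v₁ w₁) (D.v₂ w₁) (D.p w₁) m * dot (grad F (x (w₁, z))) n) * e4
  have c1 := gsk_cancel dl (dl.mul (dl.mul (((dκ.mul dq).mul dN).mul dkf))) hmul hl
  have c2 := gsk_cancel dl (dl.mul (((dκ.mul dq).mul dN).mul dkf)) c1 hl
  have c3 := gsk_cancel dl (((dκ.mul dq).mul dN).mul dkf) c2 hl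
  have c4 := gsk_cancel ((dκ.mul dq).mul dN) dkf c3 ⟨z₂, hz₂, fun h0 => hg₂ (by
    have : D.A w₁ (T (w₁, z₂)) (U (w₁, z₂)) * D.κ w₁ (T (w₁, z₂)) (U (w₁, z₂)) * D.q w₁ (T (w₁, z₂)) (U (w₁, z₂)) * N (w₁, z₂)
      = D.A w₁ (T (w₁, z₂)) (U (w₁, z₂)) * (D.κ w₁ (T (w₁, z₂)) (U (w₁, z₂)) * D.q w₁ (T (w₁, z₂)) (U (w₁, z₂)) * N (w₁, z₂)) := by ring
    have h0' : D.κ w₁ (T (w₁, z₂)) (U (w₁, z₂)) * D.q w₁ (T (w₁, z₂)) (U (w₁, z₂)) * N (w₁, z₂) = 0 := h0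
    rw [this, h0', mul_zero])⟩
  have hfin := c4 z₁ hz₁
  rw [hkf] at hfin
  have hdet : det4 (x (w₁, z₁)) (fderiv ℂ x (w₁, z₁) (1, 0)) (fderiv ℂ x (w₁, z₁) (0, 1)) n ≠ 0 := by
    intro h0
    have hsw : det4 (x (w₁, z₁)) (fderiv ℂ x (w₁, z₁) (0, 1)) (fderiv ℂ x (w₁, z₁) (1, 0)) n
        = - det4 (x (w₁, z₁)) (fderiv ℂ x (w₁, z₁) (1, 0)) (fderiv ℂ x (w₁, z₁) (0, 1)) n := by
      simp only [gs_det4_eq]; ring
    simp only at hfin
    rw [hsw, h0] at hfin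
    have : 2 * D.J w₁ * det4 (D.v₁ w₁) (D.v₂ w₁) (D.p w₁) m * dot (grad F (x (w₁, z₁))) n ≠ 0 :=
      mul_ne_zero (mul_ne_zero (mul_ne_zero two_ne_zero (D.J_ne w₁ hw₁b)) hΔ) hn
    apply this
    linear_combination hfin
  exact gs_indep_of_det hdet

/-- linear algebra for `gs_reg_smul` -/
theorem gsm_indep {a b c : V4} (h : LinearIndependent ℂ ![a, b, c]) {k β γ : ℂ} (hk : k ≠ 0) :
    LinearIndependent ℂ ![k • a, k • b + β • a, k • c + γ • a] := by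
  rw [Fintype.linearIndependent_iff] at h ⊢
  intro g hg
  simp only [Fin.sum_univ_three, Matrix.cons_val_zero, Matrix.cons_val_one, Matrix.cons_val] at hg
  have h1 := h ![g 0 * k + g 1 * β + g 2 * γ, g 1 * k, g 2 * k] (by
    simp only [Fin.sum_univ_three, Matrix.cons_val_zero, Matrix.cons_val_one, Matrix.cons_val]
    rw [← hg]
    simp only [smul_add, smul_smul, add_smul]
    abel)
  have e0 := h1 0
  have e1 := h1 1
  have e2 := h1 2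
  simp only [Matrix.cons_val_zero, Matrix.cons_val_one, Matrix.cons_val] at e0 e1 e2
  have g1 : g 1 = 0 := (mul_eq_zero.1 e1).resolve_right hk
  have g2 : g 2 = 0 := (mul_eq_zero.1 e2).resolve_right hk
  have g0 : g 0 = 0 := by
    rw [g1, g2] at e0
    simp only [zero_mul, add_zero] at e0
    exact (mul_eq_zero.1 e0).resolve_right hk
  intro i
  fin_cases i
  · exact g0
  · exact g1
  · exact g2

/-- regularity is invariant under multiplication by a holomorphic function without zeros.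
(`fderiv (c • φ) y v = c y • fderiv φ y v + fderiv c y v • φ y` (`fderiv_smul`/`HasFDerivAt.smul`).  With `gs_det_of_indep`-free linear algebra: `LinearIndependent` of `![a, b, c]` ⇒ of `![k a, k b + β a, k c + γ a]`, `k ≠ 0`:
`Fintype.linearIndependent_iff`, or `LinearIndependent.units_smul` + adding multiples of the first vector.) -/
theorem gs_reg_smul {φ : ℂ × ℂ → V4} {c : ℂ × ℂ → ℂ} {y : ℂ × ℂ} (hφ : DifferentiableAt ℂ φ y)
    (hc : DifferentiableAt ℂ c y) (hc0 : c y ≠ 0) (h : RegAt φ y) : RegAt (fun x => c x • φ x) y := by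
  unfold RegAt at h ⊢
  have hd := (hc.hasFDerivAt.smul hφ.hasFDerivAt).fderiv
  have e : ∀ v : ℂ × ℂ, fderiv ℂ (fun x => c x • φ x) y v =
      c y • fderiv ℂ φ y v + fderiv ℂ c y v • φ y := by
    intro v
    have : fderiv ℂ (fun x => c x • φ x) y = c y • fderiv ℂ φ y + (fderiv ℂ c y).smulRight (φ y) := hd
    rw [this]
    simp
  rw [e, e]
  exact gsm_indep h hc0

end Claimed.Agent.R245
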