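/-
Row 245 / S0484, GEO (architect helper18).   BLOCK GEO-STRIP (sub-architect: helper292): Theorem S = leaf data give a complete regular strip.
`geo_strip` is FROZEN (consumers: GeoN, GeoL).  Prefix `gs_`; further files `R245/GeoStrip*.lean`.     Inputs: `gj_engine` (GeoJac), `gl_lift` (GeoLift), `gk_ki`, `gk_grad_p`, `gk_det_swap` (GeoKI), `gz_cancel` (GeoZero).

MATH.   `b' = 3 b / 4`, `b'' = b / 2`: `Sq w₀ b'' ⊆ ball w₀ b'`.   `gj_engine` on `ball w₀ b'`: `Φ n = (S, C, D, W)` on `Q n = ball w₀ b' × ball 0 (2^n ε)`.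
  `T = W²`, `U = S²`, `N_J = W S C D`:  `N_J² = T U (T - U) (T - λ U)`, `(T, U) ≠ 0`;   `μ = q (w, T, U) N_J`:  `μ² = disc` (`legendre`).
LOCAL LIFTS, index `(n, i) ∈ ℕ × Fin 2`:  `φ (n, 0) = X₁ (w, T, U, μ)`, `φ (n, 1) = X₂ (w, T, U, μ)`, on `U (n, i) = {x ∈ Q n | φ (n, i) x ≠ 0}` (open).
  * `F (X₁) = F (X₂) = 0` (`expand`, `μ² = B² - 4 A C`);   * not both zero (`X₁ = 0 ⇒ A = 0, μ = B`;  `X₂ = 0 ⇒ C = 0, μ = - B`;  `nz`; `p, dir` independent): the `U (n, i)` cover;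
  * `X₁ ∥ X₂`: the `2 × 2` determinant `(μ - B)(-(B + μ)) - 4 A C = 0`;    * `Φ (n+1) = t Φ n` (`t ≠ 0`) ⇒ `(T, U, μ) ↦ (t² T, t² U, t^(2d+2) μ)`, `X₁ ↦ t^(2d+2) X₁`, `X₂ ↦ t^(2d+4) X₂` (homogeneity fields).
`gl_lift` ⇒ `σ` on `ball w₀ b'' × ℂ`, `σ ≠ 0`, `σ = t φ (n, i)`.  So `σ ∈ Cone F`, `OnLeaf`.
SURJECTIVITY.  `x = s p + l dir (T, U)`, `A s² + B s l + C l² = 0`.  `μ := (2 A s + B l) / l` if `l ≠ 0`, `μ := - B` if `l = 0` (then `A = 0`): `μ² = disc`, `μ l = 2 A s + B l`, and `x ∥ X₁`, `x ∥ X₂` (`2 × 2` determinants `2 A s - l (μ - B) = 0`, `- s (B + μ) - 2 C l = 0`).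
  `N := μ / q` if `q (w, T, U) ≠ 0`, otherwise (`μ = 0`) any square root of `T U (T - U)(T - λ U)`.  Last clause of `gj_engine`: `n, z, c` with `(W², S², W S C D) = (c T, c U, c² N)`; homogeneity: `X_i` at `Φ n (w, z)` is `c^(d+1) X₁`, `c^(d+2) X₂`.
REGULARITY.  On `U (n, i)`: `gk_ki` with `N = φ (n, i)`, `g_N · p = β³ κ μ` (`gk_grad_p`), `U T_z - T U_z = - 2 S W (S' W - S W') = - 2 N_J`, `ġ · dir = J κ q` (`gauss`):
     `β³ κ q N_J [ det (φ, φ_z, φ_w, n) (g · m) + 2 J det (v₁, v₂, p, m) (g_φ · n) ] = 0`.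
  `β³ κ q N_J` is not identically zero near any point (work on small balls; `gz_cancel` factor by factor).  PRINCIPLE: let `Π (w, T, U, N)` be weighted homogeneous and `Π (w, T₁, U₁, N₁) ≠ 0` for one point of the curve `N² = T U (T - U)(T - λ U)`; then for fixed `w` the function
  `z ↦ Π (w, W², S², W S C D)` (at `Φ n (w, z)`) does not vanish identically on any open set: otherwise it vanishes on the whole disc (identity theorem in `z`), hence so do the functions for all `n' ≥ n` (`Φ (n+1) = t Φ n`, identity theorem), contradicting the surjectivity clause of `gj_engine` at `(T₁, U₁, N₁)`.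
  Apply it to `Π = A κ q` (`gen`), `Π = N`;  `β = 2 A` resp. `β = - (B + μ)` (`B + μ ≡ 0` ⇒ `A C ≡ 0`, and `C ≠ 0` where `X₂ = 2 C p ≠ 0`, so `A ≡ 0`: excluded).
  Hence `det (φ, φ_z, φ_w, n) (g · m) = - 2 J det (v₁, v₂, p, m) (g_φ · n)`; choose `m` with `g · m ≠ 0` and `n` with `g_φ · n ≠ 0` (smoothness): `φ, φ_z, φ_w` independent.    `σ = c φ` with `c` holomorphic without zeros (`c = σ_k / φ_k`): `σ` regular.

STATUS (helper292): `geo_strip` is PROVED below from the packages of GeoStripA.lean (defs, GS-DET, GS-ALG) and GeoStripB.lean (GS-LOC, GS-GEN, GS-KI).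
-/
import Claimed.Agent.R245.GeoStripB
import Claimed.Agent.R245.GeoJac
import Claimed.Agent.R245.GeoLift
import Claimed.Agent.R245.GeoLiftA

set_option autoImplicit false

namespace Claimed.Agent.R245

open MvPolynomial Metric Set Filter Topology Claims.C0412

variable {F : MvPolynomial (Fin 4) ℂ} {w₀ : ℂ} {b : ℝ}

theorem gs_reg_congr {σ τ : ℂ × ℂ → V4} {y : ℂ × ℂ} (he : σ =ᶠ[𝓝 y] τ) (h : RegAt τ y) : RegAt σ y := by
  unfold RegAt at *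
  rw [he.fderiv_eq, he.eq_of_nhds]
  exact h

theorem gs_engine_exists (D : LeafData F w₀ b) {b' : ℝ} (hb' : 0 < b') (hbb : b' < b) :
    ∃ (ε : ℝ) (Φ : ℕ → ℂ × ℂ → V4), GsEngine D.lam w₀ b' ε Φ := by
  obtain ⟨ε, Φ, h1, h2, h3, h4, h5, h6, h7⟩ := gj_engine hb' hbb D.hlam D.lam_ne0 D.lam_ne1
  exact ⟨ε, Φ, ⟨h1, h2, h3, h4, h5, h6, h7⟩⟩

theorem gs_engine_any {lam : ℂ → ℂ} {b' ε : ℝ} {Φ : ℕ → ℂ × ℂ → V4} (h : GsEngine lam w₀ b' ε Φ) {n m : ℕ}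
    {x : ℂ × ℂ} (hx : x ∈ ball w₀ b' ×ˢ ball (0 : ℂ) (2 ^ n * ε))
    (hx' : x ∈ ball w₀ b' ×ˢ ball (0 : ℂ) (2 ^ m * ε)) : ∃ t : ℂ, Φ n x = t • Φ m x := by
  rcases le_total n m with hnm | hmn
  · obtain ⟨t, ht, e⟩ := gs_engine_le h hnm hx
    exact ⟨t⁻¹, by rw [e, smul_smul, inv_mul_cancel₀ ht, one_smul]⟩
  · obtain ⟨t, _, e⟩ := gs_engine_le h hmn hx'
    exact ⟨t, e⟩

/-- Theorem S, with `t ≠ 0` in the last clause. -/
theorem gs_strip (hF : IsSmoothQuarticForm F) (D : LeafData F w₀ b) :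
    ∃ σ : ℂ × ℂ → V4, IsStrip F w₀ (b / 2) σ ∧
      (∀ w ∈ ball w₀ (b / 2), ∀ z : ℂ, D.OnLeaf w (σ (w, z))) ∧
      (∀ w ∈ ball w₀ (b / 2), ∀ x : V4, D.OnLeaf w x → ∃ t z : ℂ, t ≠ 0 ∧ x = t • σ (w, z)) := by
  have hb : 0 < b := D.b_pos
  obtain ⟨b₁, hb₁⟩ : ∃ b₁ : ℝ, b₁ = 3 * b / 4 := ⟨_, rfl⟩
  have hb₁pos : 0 < b₁ := by rw [hb₁]; positivity
  have hb₁lt : b₁ < b := by rw [hb₁]; linarith
  obtain ⟨ε, Φ, hE⟩ := gs_engine_exists D hb₁pos hb₁lt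
  obtain ⟨b₂, hb₂⟩ : ∃ b₂ : ℝ, b₂ = b / 2 := ⟨_, rfl⟩
  have hb₂pos : 0 < b₂ := by rw [hb₂]; positivity
  have hsub1 : ball w₀ b₁ ⊆ ball w₀ b := ball_subset_ball hb₁lt.le
  have hSq : Sq w₀ b₂ ⊆ ball w₀ b₁ := by
    intro w hw
    rw [mem_ball, dist_eq_norm]
    have h1 : (w - w₀).re ^ 2 ≤ b₂ ^ 2 := sq_le_sq' (abs_le.1 hw.1).1 (abs_le.1 hw.1).2
    have h2 : (w - w₀).im ^ 2 ≤ b₂ ^ 2 := sq_le_sq' (abs_le.1 hw.2).1 (abs_le.1 hw.2).2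
    have h3 : ‖w - w₀‖ ^ 2 = (w - w₀).re ^ 2 + (w - w₀).im ^ 2 := by
      rw [Complex.sq_norm, Complex.normSq_apply]; ring
    have h4 : ‖w - w₀‖ ^ 2 < b₁ ^ 2 := by
      rw [h3, hb₁]; rw [hb₂] at h1 h2; nlinarith
    exact lt_of_pow_lt_pow_left₀ 2 hb₁pos.le h4
  have hbSq : ball w₀ b₂ ⊆ Sq w₀ b₂ := by
    intro w hw
    rw [mem_ball, dist_eq_norm] at hw
    exact ⟨(Complex.abs_re_le_norm _).trans hw.le, (Complex.abs_im_le_norm _).trans hw.le⟩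
  obtain ⟨dom, hdom⟩ : ∃ dom : ℕ → Set (ℂ × ℂ), dom = fun n => ball w₀ b₁ ×ˢ ball (0 : ℂ) (2 ^ n * ε) :=
    ⟨_, rfl⟩
  obtain ⟨φ, hφ⟩ : ∃ φ : ℕ × Bool → ℂ × ℂ → V4, φ = fun k x => gsX D k.2 x.1 (Φ k.1 x) := ⟨_, rfl⟩
  obtain ⟨Uc, hUc⟩ : ∃ Uc : ℕ × Bool → Set (ℂ × ℂ), Uc = fun k => dom k.1 ∩ (φ k) ⁻¹' {0}ᶜ := ⟨_, rfl⟩
  have hdomo : ∀ n, IsOpen (dom n) := fun n => by rw [hdom]; exact isOpen_ball.prod isOpen_ball
  have hdomsub : ∀ n, dom n ⊆ ball w₀ b ×ˢ univ := fun n x hx => by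
    rw [hdom] at hx; exact ⟨hsub1 hx.1, mem_univ _⟩
  have hφd : ∀ k, DifferentiableOn ℂ (φ k) (dom k.1) := by
    intro k
    obtain ⟨s, l, hsec, heq⟩ := gs_sec D hb₁lt.le hE k.1 k.2
    have e : φ k = gsPt D (fun x => gsT (Φ k.1 x)) (fun x => gsU (Φ k.1 x)) s l := by
      rw [hφ]; exact funext heq
    rw [e]
    have := gs_pt_differentiableOn D (by simpa [hdom] using hdomsub k.1) hsec
    simpa [hdom] using this
  have hUo : ∀ k, IsOpen (Uc k) := fun k => by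
    rw [hUc]; exact (hφd k).continuousOn.isOpen_inter_preimage (hdomo k.1) isOpen_compl_singleton
  have hcone : ∀ n, ∀ x ∈ dom n, Φ n x ∈ JCone (D.lam x.1) := fun n x hx => by
    rw [hdom] at hx; exact hE.cone n x hx
  have hw1 : ∀ n, ∀ x ∈ dom n, x.1 ∈ ball w₀ b := fun n x hx => (hdomsub n hx).1
  -- the cover
  have hcov' : ∀ x : ℂ × ℂ, x.1 ∈ ball w₀ b₁ → ∃ k, x ∈ Uc k := by
    intro x hx
    obtain ⟨n, hn⟩ := pow_unbounded_of_one_lt (‖x.2‖ / ε) (one_lt_two : (1 : ℝ) < 2)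
    have hxd : x ∈ dom n := by
      rw [hdom]
      refine ⟨hx, ?_⟩
      rw [mem_ball_zero_iff]
      exact (div_lt_iff₀ hE.ε_pos).1 hn
    rcases gs_X_ne D (hw1 n x hxd) (hcone n x hxd) with h1 | h1
    · exact ⟨(n, true), by rw [hUc, hφ]; exact ⟨hxd, h1⟩⟩
    · exact ⟨(n, false), by rw [hUc, hφ]; exact ⟨hxd, h1⟩⟩
  have hcov : Sq w₀ b₂ ×ˢ (univ : Set ℂ) ⊆ ⋃ k, Uc k := by
    intro x hx
    obtain ⟨k, hk⟩ := hcov' x (hSq hx.1)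
    exact mem_iUnion.2 ⟨k, hk⟩
  have hmemU : ∀ k x, x ∈ Uc k → x ∈ dom k.1 ∧ φ k x ≠ 0 := fun k x hx => by
    rw [hUc] at hx; exact hx
  have hprop : ∀ k k', ∀ x ∈ Uc k ∩ Uc k', ∃ t : ℂ, φ k x = t • φ k' x := by
    intro k k' x hx
    obtain ⟨hd, _⟩ := hmemU k x hx.1
    obtain ⟨hd', hne'⟩ := hmemU k' x hx.2
    obtain ⟨t, ht⟩ := gs_engine_any hE (by simpa [hdom] using hd) (by simpa [hdom] using hd')
    have hne'' : gsX D k'.2 x.1 (Φ k'.1 x) ≠ 0 := by simpa [hφ] using hne'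
    obtain ⟨t', ht'⟩ := gs_X_prop D (hw1 _ x hd') (hcone _ x hd') k.2 k'.2 hne''
    refine ⟨(t ^ 2) ^ (D.d + (if k.2 then 1 else 2)) * t', ?_⟩
    have : φ k x = gsX D k.2 x.1 (Φ k.1 x) := by rw [hφ]
    rw [this, ht, gs_X_smul D (hw1 _ x hd'), ht', smul_smul]
    rw [hφ]
  obtain ⟨σ, hσd, hσ⟩ := gl_lift hb₂pos Uc φ hUo (fun k => (hφd k).mono (by rw [hUc]; exact inter_subset_left))
    (fun k x hx => (hmemU k x hx).2) hcov hprop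
  have hb21 : ball w₀ b₂ ⊆ ball w₀ b₁ := hbSq.trans hSq
  -- the leaf
  have hleaf : ∀ w ∈ ball w₀ b₂, ∀ z : ℂ, D.OnLeaf w (σ (w, z)) := by
    intro w hw z
    obtain ⟨k, hk⟩ := hcov' (w, z) (hb21 hw)
    obtain ⟨hne, hp⟩ := hσ (w, z) ⟨hw, mem_univ _⟩
    obtain ⟨t, ht⟩ := hp k hk
    obtain ⟨hd, hne'⟩ := hmemU k _ hk
    have ht0 : t ≠ 0 := by
      rintro rfl
      exact hne (by rw [ht, zero_smul])
    rw [ht]
    have hne'' : gsX D k.2 w (Φ k.1 (w, z)) ≠ 0 := by simpa [hφ] using hne'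
    have := gs_leaf_smul D (gs_X_leaf D (hw1 _ _ hd) (hcone _ _ hd) k.2 hne'') ht0
    simpa [hφ] using this
  subst hb₂
  refine ⟨σ, ⟨hb₂pos, ⟨hσd, ?_⟩, ?_⟩, hleaf, ?_⟩
  · intro x hx
    exact gs_leaf_cone D (hsub1 (hb21 hx.1)) (hleaf x.1 hx.1 x.2)
  · -- regularity
    intro x hx
    obtain ⟨k, hk⟩ := hcov' x (hb21 hx.1)
    obtain ⟨hd, hne'⟩ := hmemU k _ hk
    have hNo : IsOpen (Uc k ∩ ball w₀ (b / 2) ×ˢ (univ : Set ℂ)) := (hUo k).inter (isOpen_ball.prod isOpen_univ)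
    obtain ⟨c, hcd, hc⟩ := gl_ratio hNo (f := σ) (g := φ k) (hσd.mono inter_subset_right)
      ((hφd k).mono (fun y hy => (hmemU k y hy.1).1)) (fun y hy => (hσ y hy.2).1)
      (fun y hy => (hmemU k y hy.1).2) (fun y hy => (hσ y hy.2).2 k hy.1)
    have hxN : x ∈ Uc k ∩ ball w₀ (b / 2) ×ˢ (univ : Set ℂ) := ⟨hk, hx⟩
    have hreg : RegAt (φ k) x := by
      obtain ⟨s, l, hsec, heq⟩ := gs_sec D hb₁lt.le hE k.1 k.2
      have e : φ k = gsPt D (fun x => gsT (Φ k.1 x)) (fun x => gsU (Φ k.1 x)) s l := by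
        rw [hφ]; exact funext heq
      rw [e]
      refine gs_ki_reg hF D hb₁lt.le hsec (fun w hw => gs_generic D hb₁lt.le hE k.1 hw) x
        (by simpa [hdom] using hd) ?_
      rw [← e]; exact hne'
    refine gs_reg_congr (τ := fun y => c y • φ k y) ?_ ?_
    · filter_upwards [hNo.mem_nhds hxN] with y hy
      exact (hc y hy).2
    · exact gs_reg_smul (((hφd k) x hd).differentiableAt ((hdomo k.1).mem_nhds hd))
        ((hcd x hxN).differentiableAt (hNo.mem_nhds hxN)) (hc x hxN).1 hreg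
  · -- surjectivity
    intro w hw x hx
    obtain ⟨T, U, N, hTU, hN, hlift⟩ := gs_leaf_lift D (hsub1 (hb21 hw)) hx
    obtain ⟨n, z, c, hz, hc0, e1, e2, e3⟩ := hE.surj w (hb21 hw) T U N hTU hN
    have hxd : (w, z) ∈ dom n := by rw [hdom]; exact ⟨hb21 hw, hz⟩
    obtain ⟨i, hi⟩ : ∃ i : Bool, gsX D i w (Φ n (w, z)) ≠ 0 := by
      rcases gs_X_ne D (hw1 n _ hxd) (hcone n _ hxd) with h1 | h1
      · exact ⟨true, h1⟩
      · exact ⟨false, h1⟩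
    obtain ⟨t, ht0, ht⟩ := hlift (Φ n (w, z)) c hc0 e1 e2 e3 i hi
    have hk : (w, z) ∈ Uc (n, i) := by rw [hUc, hφ]; exact ⟨hxd, hi⟩
    obtain ⟨hne, hp⟩ := hσ (w, z) ⟨hw, mem_univ _⟩
    obtain ⟨t', ht'⟩ := hp (n, i) hk
    have ht'0 : t' ≠ 0 := by
      rintro rfl
      exact hne (by rw [ht', zero_smul])
    refine ⟨t / t', z, div_ne_zero ht0 ht'0, ?_⟩
    rw [ht', smul_smul, div_mul_cancel₀ _ ht'0, ht, hφ]

/-- **Theorem S.** -/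
theorem geo_strip (F : MvPolynomial (Fin 4) ℂ) (hF : IsSmoothQuarticForm F) {w₀ : ℂ} {b : ℝ} (D : LeafData F w₀ b) :
    ∃ σ : ℂ × ℂ → V4, IsStrip F w₀ (b / 2) σ ∧
      (∀ w ∈ ball w₀ (b / 2), ∀ z : ℂ, D.OnLeaf w (σ (w, z))) ∧
      ∀ w ∈ ball w₀ (b / 2), ∀ x : V4, D.OnLeaf w x → ∃ t z : ℂ, x = t • σ (w, z) := by
  obtain ⟨σ, h1, h2, h3⟩ := gs_strip hF D
  refine ⟨σ, h1, h2, fun w hw x hx => ?_⟩
  obtain ⟨t, z, _, e⟩ := h3 w hw x hx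
  exact ⟨t, z, e⟩

end Claimed.Agent.R245
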