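/-
Row 245 / S0484, GEO (architect helper18).   BLOCK GEO-L (sub-architect: helper187): the case of a surface containing a line `ℓ = span (y₀, y₁)`.
`gll_leaf` (statement of helper18, verbatim) is PROVED here by helper187 from the leaf packages GLL-* of GeoLTri/Exp/Wron/Crit/Sq/Leaf.lean.  Prefix `gll_`; further files `R245/GeoL*.lean`.
`geo_caseL` is PROVED from `gll_leaf`, `geo_strip` (helper292), `ge_typeII` (GeoEnd.lean, helper138).

MATH for `gll_leaf`.   `p (w) = y₀ + w y₁`, `g (w) = grad F (p w)` (cubic in `w`) kills `y₀, y₁`.  Complete to a basis `y₀, y₁, e₂, e₃`;  `a = g · e₂`, `c = g · e₃`: polynomials without common zero.   Frame: `v₁ = y₁`, `v₂ = c e₂ - a e₃`.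
  `F (s p + l (U y₁ + T v₂))` vanishes for `T = 0`, and has no `l⁰, l¹` terms:  `= l² T (A s² + B s l + C l²)`, `A, B, C` forms of degree `1, 2, 3` in `(T, U)` with coefficients polynomial in `w`;  `κ = T`, `d = 1`.  The leaf over `w` is the cone over the residual cubic `E_w` of the plane `H_w = T_{p (w)}`.
  `gaussL (w, T, U) = U ġ · y₁ + T ġ · v₂ = T W (w)`:  `ġ · y₁ = 0` (differentiate `g · y₁ = 0`), `W = ġ · v₂ = a' c - c' a`.
(W)  `W` is not identically `0`: otherwise `g (w) ∥ g (0)` for all `w` (`gg_gauss_inf` with the non radial arc `p`).      Work on an open set where `W ≠ 0`.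
(NZ), (SQ): see helper187's plan (msg 13636): squarefreeness of the binary quartic `B² - 4 A C` on some disc via `gr_roots` and the second order trick / `gk_div`, RIGID LINES for a moving family of lines; `nz` follows from squarefreeness.    Legendre frame explicit.
Remaining clauses:  `OnLeaf w (p w)`: `s = 1, l = 0`, `(T, U)` a zero of the linear form `A`.    Not locally in the leaf: `p ζ = p w + (ζ - w) y₁`; the representation `x = s p + (l U) v₁ + (l T) v₂` is unique, so in the ORIGINAL frame `s = 1`, `l T = 0`, `l U = ζ - w =: δ ≠ 0`, and by homogeneity the equation reads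
     `U (A (0,1) + δ B (0,1) + δ² C (0,1)) = 0`: finitely many `δ` by `nz` at `(0, 1)`.     Plane section: `x = s p + a' y₁ + c' v₂ ∈ Cone F`; `c' = 0`: `x ∈ ℓ`; `c' ≠ 0`: `l = 1`, `F x = c' (A s² + B s + C) = 0`.
-/
import Claimed.Agent.R245.GeoStrip
import Claimed.Agent.R245.GeoEnd
import Claimed.Agent.R245.GeoRoots
import Claimed.Agent.R245.GeoLLeaf

set_option autoImplicit false

namespace Claimed.Agent.R245

open MvPolynomial Metric Set Filter Topology Claims.C0412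

section leafdata

variable {F : MvPolynomial (Fin 4) ℂ} {y : Fin 4 → V4} {w₀ : ℂ} {b : ℝ} {ρ : Fin 4 → ℂ → ℂ} {q : ℂ → ℂ}

/-- the leaf data along the line -/
noncomputable def gllLeafData (hF : IsSmoothQuarticForm F) (h : GllLine F y) (R : GllRoots (gllCub F y) w₀ b ρ q) :
    LeafData F w₀ b where
  toFrameData := gllFrame hF h R
  q w _ _ := q w
  lam := gllLam ρ
  J w := (gllCub F y).A₁ w / q w
  d := 1
  b_pos := R.b_pos
  d_pos := le_rfl
  d_le := by norm_num
  hq := gll_diffOn_q R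
  hlam := gll_diffOn_lam R
  lam_ne0 _ hw := gll_lam_ne0 R hw
  lam_ne1 _ hw := gll_lam_ne1 R hw
  homA w _ c T U := by
    show (gllCub F y).hA w (gllA ρ w (c * T) (c * U)) (gllC ρ w (c * T) (c * U)) =
      c ^ 1 * (gllCub F y).hA w (gllA ρ w T U) (gllC ρ w T U)
    unfold GllCub.hA gllA gllC
    ring
  homB w _ c T U := by
    show (gllCub F y).hB w (gllA ρ w (c * T) (c * U)) (gllC ρ w (c * T) (c * U)) =
      c ^ (1 + 1) * (gllCub F y).hB w (gllA ρ w T U) (gllC ρ w T U)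
    unfold GllCub.hB gllA gllC
    ring
  homC w _ c T U := by
    show (gllCub F y).hC w (gllA ρ w (c * T) (c * U)) (gllC ρ w (c * T) (c * U)) =
      c ^ (1 + 2) * (gllCub F y).hC w (gllA ρ w T U) (gllC ρ w T U)
    unfold GllCub.hC gllA gllC
    ring
  homκ w _ c T U := by
    show gllC ρ w (c * T) (c * U) = c ^ (2 - 1) * gllC ρ w T U
    unfold gllC
    norm_num
    ring
  homq w _ c T U := by
    show q w = c ^ (1 - 1) * q w
    simp
  legendre w hw T U := gll_legendre R hw T U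
  gauss w hw T U := by
    show dot (deriv (fun w => grad F (gllP y w)) w)
      (U • ((ρ 2 w - ρ 1 w) • (ρ 0 w • y 1 + gllN F y w)) + T • ((ρ 0 w - ρ 2 w) • (ρ 1 w • y 1 + gllN F y w)))
      = (gllCub F y).A₁ w / q w * gllC ρ w T U * q w
    rw [gll_dir, gll_gauss hF.1 h]
    have := R.q_ne hw
    field_simp
  J_ne w hw := div_ne_zero (R.A₁_ne w hw) (R.q_ne hw)
  gen w hw := by
    have hq := R.q_ne hw
    have a1 := R.sub_ne hw (i := 2) (j := 1) (by decide)
    have a2 := R.sub_ne hw (i := 0) (j := 2) (by decide)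
    have a3 := R.sub_ne hw (i := 0) (j := 1) (by decide)
    have hA := R.A₁_ne w hw
    by_cases h0 : (gllCub F y).A₁ w * ρ 0 w + (gllCub F y).A₂ w = 0
    · refine ⟨1, 0, ?_⟩
      show (gllCub F y).hA w (gllA ρ w 1 0) (gllC ρ w 1 0) * gllC ρ w 1 0 * q w ≠ 0
      have h1 : (gllCub F y).A₁ w * ρ 1 w + (gllCub F y).A₂ w ≠ 0 := fun h1 => by
        have : (gllCub F y).A₁ w * (ρ 0 w - ρ 1 w) = 0 := by linear_combination h0 - h1
        exact mul_ne_zero hA a3 this
      have e : (gllCub F y).hA w (gllA ρ w 1 0) (gllC ρ w 1 0) * gllC ρ w 1 0 * q w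
          = ((gllCub F y).A₁ w * ρ 1 w + (gllCub F y).A₂ w) * (ρ 0 w - ρ 2 w) ^ 2 * q w := by
        unfold GllCub.hA gllA gllC
        ring
      rw [e]
      positivity
    · refine ⟨0, 1, ?_⟩
      show (gllCub F y).hA w (gllA ρ w 0 1) (gllC ρ w 0 1) * gllC ρ w 0 1 * q w ≠ 0
      have e : (gllCub F y).hA w (gllA ρ w 0 1) (gllC ρ w 0 1) * gllC ρ w 0 1 * q w
          = ((gllCub F y).A₁ w * ρ 0 w + (gllCub F y).A₂ w) * (ρ 2 w - ρ 1 w) ^ 2 * q w := by
        unfold GllCub.hA gllA gllC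
        ring
      rw [e]
      positivity

/-- the leaves are the cones over the residual cubics -/
theorem gll_onLeaf_of_cubic (hF : IsSmoothQuarticForm F) (h : GllLine F y) (R : GllRoots (gllCub F y) w₀ b ρ q)
    {w : ℂ} (hw : w ∈ ball w₀ b) {s a c : ℂ} (hne : s ≠ 0 ∨ a ≠ 0 ∨ c ≠ 0) (hG : (gllCub F y).G w s a c = 0) :
    (gllLeafData hF h R).OnLeaf w (s • gllP y w + a • y 1 + c • gllN F y w) := by
  by_cases hac : a = 0 ∧ c = 0
  · obtain ⟨rfl, rfl⟩ := hac
    have hs : s ≠ 0 := by simpa using hne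
    obtain ⟨T, U, hT, hU⟩ := gll_inv R hw ((gllCub F y).A₂ w) (-(gllCub F y).A₁ w)
    refine ⟨s, 0, T, U, ?_, Or.inl hs, by simp; rfl, ?_⟩
    · by_contra hcon
      push Not at hcon
      obtain ⟨rfl, rfl⟩ := hcon
      have : gllC ρ w 0 0 = 0 := by simp [gllC]
      rw [this] at hU
      exact R.A₁_ne w hw (by linear_combination hU)
    · show (gllCub F y).hA w (gllA ρ w T U) (gllC ρ w T U) * s ^ 2 +
        (gllCub F y).hB w (gllA ρ w T U) (gllC ρ w T U) * s * 0 + (gllCub F y).hC w (gllA ρ w T U) (gllC ρ w T U) * 0 ^ 2 = 0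
      rw [hT, hU]
      unfold GllCub.hA
      ring
  · obtain ⟨T, U, hT, hU⟩ := gll_inv R hw a c
    refine ⟨s, 1, T, U, ?_, Or.inr one_ne_zero, ?_, ?_⟩
    · by_contra hcon
      push Not at hcon
      obtain ⟨rfl, rfl⟩ := hcon
      apply hac
      constructor
      · rw [← hT]; simp [gllA]
      · rw [← hU]; simp [gllC]
    · show _ = s • gllP y w + (1 : ℂ) • (U • ((ρ 2 w - ρ 1 w) • (ρ 0 w • y 1 + gllN F y w)) +
        T • ((ρ 0 w - ρ 2 w) • (ρ 1 w • y 1 + gllN F y w)))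
      rw [gll_dir, hT, hU, one_smul, add_assoc]
    · show (gllCub F y).hA w (gllA ρ w T U) (gllC ρ w T U) * s ^ 2 +
        (gllCub F y).hB w (gllA ρ w T U) (gllC ρ w T U) * s * 1 + (gllCub F y).hC w (gllA ρ w T U) (gllC ρ w T U) * 1 ^ 2 = 0
      rw [hT, hU]
      unfold GllCub.G at hG
      linear_combination hG

theorem gll_cubic_of_onLeaf (hF : IsSmoothQuarticForm F) (h : GllLine F y) (R : GllRoots (gllCub F y) w₀ b ρ q)
    {w : ℂ} {x : V4} (hx : (gllLeafData hF h R).OnLeaf w x) :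
    ∃ s a c : ℂ, x = s • gllP y w + a • y 1 + c • gllN F y w ∧ (gllCub F y).G w s a c = 0 := by
  obtain ⟨s, l, T, U, -, -, hx, hQ⟩ := hx
  refine ⟨s, l * gllA ρ w T U, l * gllC ρ w T U, ?_, ?_⟩
  · rw [hx]
    show s • gllP y w + l • (U • ((ρ 2 w - ρ 1 w) • (ρ 0 w • y 1 + gllN F y w)) +
        T • ((ρ 0 w - ρ 2 w) • (ρ 1 w • y 1 + gllN F y w))) = _
    rw [gll_dir]
    module
  · have hQ' : (gllCub F y).hA w (gllA ρ w T U) (gllC ρ w T U) * s ^ 2 +
        (gllCub F y).hB w (gllA ρ w T U) (gllC ρ w T U) * s * l + (gllCub F y).hC w (gllA ρ w T U) (gllC ρ w T U) * l ^ 2 = 0 := hQ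
    unfold GllCub.hA GllCub.hB GllCub.hC at hQ'
    unfold GllCub.G GllCub.hA GllCub.hB GllCub.hC
    linear_combination l * hQ'

end leafdata

/-- **Leaf data along a line**: the residual cubics of the planes through the line. -/
theorem gll_leaf (F : MvPolynomial (Fin 4) ℂ) (hF : IsSmoothQuarticForm F) {y₀ y₁ : V4}
    (hind : LinearIndependent ℂ ![y₀, y₁]) (hline : ∀ s t : ℂ, eval (s • y₀ + t • y₁) F = 0) :
    ∃ (w₀ : ℂ) (b : ℝ) (D : LeafData F w₀ b), ∀ w ∈ ball w₀ b,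
      D.OnLeaf w (y₀ + w • y₁) ∧ (¬ ∀ᶠ ζ in 𝓝 w, D.OnLeaf w (y₀ + ζ • y₁)) ∧
      ∀ x ∈ Cone F, dot (grad F (y₀ + w • y₁)) x = 0 → D.OnLeaf w x ∨ ∃ s t : ℂ, x = s • y₀ + t • y₁ := by
  obtain ⟨y₂, y₃, hy⟩ := gll_basis hind
  have h : GllLine F ![y₀, y₁, y₂, y₃] := ⟨hy, hline⟩
  obtain ⟨w₀, b, ρ, q, R⟩ := gll_sqfree (gllCub F ![y₀, y₁, y₂, y₃]) (gll_hol F _) (gll_A1_ne hF h)
    (gll_noCrit hF h) (gll_noLead hF h)
  refine ⟨w₀, b, gllLeafData hF h R, fun w hw => ⟨?_, ?_, ?_⟩⟩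
  · have := gll_onLeaf_of_cubic hF h R hw (s := 1) (a := 0) (c := 0) (Or.inl one_ne_zero)
      (by simp [GllCub.G, GllCub.hA, GllCub.hB, GllCub.hC])
    simpa [gllP] using this
  · intro hev
    refine gll_not_germ (gllCub F ![y₀, y₁, y₂, y₃]) (R.A₁_ne w hw) ?_
    filter_upwards [hev] with ζ hζ
    obtain ⟨s, a, c, hx, hG⟩ := gll_cubic_of_onLeaf hF h R hζ
    have e : (s - 1) • gllP ![y₀, y₁, y₂, y₃] w + (a - (ζ - w)) • (![y₀, y₁, y₂, y₃] : Fin 4 → V4) 1 +
        c • gllN F ![y₀, y₁, y₂, y₃] w = 0 := by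
      have e1 : (s - 1) • gllP ![y₀, y₁, y₂, y₃] w + (a - (ζ - w)) • (![y₀, y₁, y₂, y₃] : Fin 4 → V4) 1 +
        c • gllN F ![y₀, y₁, y₂, y₃] w = (s • gllP ![y₀, y₁, y₂, y₃] w + a • (![y₀, y₁, y₂, y₃] : Fin 4 → V4) 1 +
        c • gllN F ![y₀, y₁, y₂, y₃] w) - (y₀ + ζ • y₁) := by
        simp only [gllP, Matrix.cons_val_zero, Matrix.cons_val_one]
        module
      rw [e1, ← hx, sub_self]
    obtain ⟨h1, h2, h3⟩ := gll_frame_eq_zero hF h e
    have hs : s = 1 := by linear_combination h1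
    have ha : a = ζ - w := by linear_combination h2
    rw [hs, ha, h3] at hG
    exact hG
  · intro x hx hdot
    obtain ⟨s, a, c, rfl⟩ := gll_plane hF h w (x := x) (by simpa [gllP] using hdot)
    have hFx := hx.2
    rw [gll_expand hF.1 h] at hFx
    rcases mul_eq_zero.1 hFx with hc | hG
    · right
      refine ⟨s, s * w + a, ?_⟩
      rw [hc]
      simp only [gllP, Matrix.cons_val_zero, Matrix.cons_val_one]
      module
    · left
      refine gll_onLeaf_of_cubic hF h R hw ?_ hG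
      by_contra hcon
      push Not at hcon
      obtain ⟨rfl, rfl, rfl⟩ := hcon
      exact hx.1 (by simp)

/-- a non zero multiple of a point of a leaf is on the leaf -/
theorem gll_onLeaf_smul {F : MvPolynomial (Fin 4) ℂ} {S : Set ℂ} (D : FrameData F S) {w : ℂ} {x : V4} {t : ℂ}
    (ht : t ≠ 0) (hx : D.OnLeaf w x) : D.OnLeaf w (t • x) := by
  obtain ⟨s, l, T, U, hTU, hsl, rfl, h⟩ := hx
  refine ⟨t * s, t * l, T, U, hTU, ?_, ?_, ?_⟩
  · rcases hsl with h' | h'
    · exact Or.inl (mul_ne_zero ht h')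
    · exact Or.inr (mul_ne_zero ht h')
  · rw [smul_add, smul_smul, smul_smul]
  · have : D.A w T U * (t * s) ^ 2 + D.B w T U * (t * s) * (t * l) + D.C w T U * (t * l) ^ 2
        = t ^ 2 * (D.A w T U * s ^ 2 + D.B w T U * s * l + D.C w T U * l ^ 2) := by ring
    rw [this, h, mul_zero]

theorem geo_caseL (F : MvPolynomial (Fin 4) ℂ) (hF : IsSmoothQuarticForm F) (hL : HasLine F) :
    LEverywhere F := by
  obtain ⟨y₀, y₁, hind, hline⟩ := hL
  obtain ⟨w₀, b, D, hD⟩ := gll_leaf F hF hind hline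
  obtain ⟨σ, hσ, hon, hsurj⟩ := geo_strip F hF D
  have hsub : ∀ w ∈ ball w₀ (b / 2), w ∈ ball w₀ b := fun w hw =>
    ball_subset_ball (by linarith [D.b_pos]) hw
  have hw₀ : w₀ ∈ ball w₀ (b / 2) := mem_ball_self hσ.b_pos
  have hne : ∀ ζ : ℂ, y₀ + ζ • y₁ ≠ 0 := fun ζ h => by
    have h1 : (1 : ℂ) • y₀ + ζ • y₁ = 0 := by rw [one_smul]; exact h
    exact one_ne_zero (LinearIndependent.pair_iff.1 hind 1 ζ h1).1
  obtain ⟨t, z₁, e⟩ := hsurj w₀ hw₀ _ (hD w₀ (hsub w₀ hw₀)).1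
  have ht : t ≠ 0 := by
    rintro rfl
    exact hne w₀ (by rw [e, zero_smul])
  refine ge_typeII hF hind hline hσ (fun w => grad F (y₀ + w • y₁)) ?_ hw₀ ht e ?_
  · intro w hw x hx hdot
    rcases (hD w (hsub w hw)).2.2 x hx hdot with h | h
    · obtain ⟨t', z, e'⟩ := hsurj w hw x h
      refine Or.inr ⟨z, t', ?_, e'⟩
      rintro rfl
      exact hx.1 (by rw [e', zero_smul])
    · exact Or.inl h
  · intro ε hε
    by_contra hcon
    push Not at hcon
    refine (hD w₀ (hsub w₀ hw₀)).2.1 ?_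
    filter_upwards [Metric.ball_mem_nhds w₀ hε] with ζ hζ
    obtain ⟨z, t', ht', e'⟩ := hcon ζ (by simpa [dist_eq_norm] using hζ)
    rw [e']
    exact gll_onLeaf_smul D.toFrameData ht' (hon w₀ hw₀ z)

end Claimed.Agent.R245
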