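/-
Row 245 / S0484, GEO (architect helper18).   Block GEO-LEG (sub-architect helper30).   Algebra of `lc` / `f6` (all proved; free for every GEO block).
`gleg_eval_P`, `gleg_eval_add`, `gleg_expand`, `gleg_lc_zero`, `gleg_lc_one`, `gleg_lc_smul`, recursion `gleg_lc_mul_X(_zero)`, `gleg_lc_add`, `gleg_lc_C`,
`gleg_differentiable_lc`, `gleg_lc_poly`.
-/
import Claimed.Agent.R245.GeoDefs
import Claimed.Agent.R245.L2Poly

set_option autoImplicit false

namespace Claimed.Agent.R245

open MvPolynomial Metric Set Filter Topology Claims.C0412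

/-! ### algebra of `lc` -/

/-- the polynomial `l ↦ F (p + l v)` -/
noncomputable def glegP (F : MvPolynomial (Fin 4) ℂ) (p v : V4) : Polynomial ℂ :=
  aeval (fun i => Polynomial.C (p i) + Polynomial.C (v i) * Polynomial.X) F

theorem gleg_lc_eq (F : MvPolynomial (Fin 4) ℂ) (k : ℕ) (p v : V4) :
    lc F k p v = (glegP F p v).coeff k := rfl

theorem gleg_eval_P (F : MvPolynomial (Fin 4) ℂ) (p v : V4) (l : ℂ) :
    (glegP F p v).eval l = eval (p + l • v) F := by
  unfold glegP
  rw [← Polynomial.coe_evalRingHom, aeval_def, eval₂_comp_left, eval, ]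
  congr 1
  · ext x
    simp
  · ext i
    simp only [Function.comp, Polynomial.coe_evalRingHom, Polynomial.eval_add, Polynomial.eval_C,
      Polynomial.eval_mul, Polynomial.eval_X, Pi.add_apply, Pi.smul_apply, smul_eq_mul]
    ring

theorem gleg_natDegree_P {F : MvPolynomial (Fin 4) ℂ} (hF : F.IsHomogeneous 4) (p v : V4) :
    (glegP F p v).natDegree ≤ 4 := by
  have h := MvPolynomial.aeval_natDegree_le (m := 4) (n := 1) F hF.totalDegree_le
    (fun i => Polynomial.C (p i) + Polynomial.C (v i) * Polynomial.X) (fun i => by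
      rw [add_comm]
      exact Polynomial.natDegree_linear_le)
  unfold glegP
  simpa using h

theorem gleg_eval_add {F : MvPolynomial (Fin 4) ℂ} (hF : F.IsHomogeneous 4) (p v : V4) (l : ℂ) :
    eval (p + l • v) F = ∑ k ∈ Finset.range 5, lc F k p v * l ^ k := by
  rw [← gleg_eval_P, Polynomial.eval_eq_sum_range' (Nat.lt_succ_of_le (gleg_natDegree_P hF p v))]
  rfl

theorem gleg_expand {F : MvPolynomial (Fin 4) ℂ} (hF : F.IsHomogeneous 4) (p v : V4) (s l : ℂ) :
    eval (s • p + l • v) F = ∑ k ∈ Finset.range 5, lc F k p v * s ^ (4 - k) * l ^ k := by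
  have hcl : Continuous fun s : ℂ => eval (s • p + l • v) F :=
    (MvPolynomial.continuous_eval F).comp (by fun_prop)
  have hcr : Continuous fun s : ℂ => ∑ k ∈ Finset.range 5, lc F k p v * s ^ (4 - k) * l ^ k := by
    fun_prop
  have hd : Dense ({0}ᶜ : Set ℂ) := dense_compl_singleton 0
  have := Continuous.ext_on hd hcl hcr (fun s hs => by
    have hs0 : s ≠ 0 := hs
    have e1 : s • p + l • v = s • (p + (l / s) • v) := by
      rw [smul_add, smul_smul, mul_div_cancel₀ _ hs0]
    rw [e1, l2_eval_smul hF, gleg_eval_add hF, Finset.mul_sum]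
    refine Finset.sum_congr rfl fun k hk => ?_
    have hk4 : k ≤ 4 := by
      have := Finset.mem_range.1 hk
      omega
    have : s ^ 4 = s ^ (4 - k) * s ^ k := by rw [← pow_add]; congr 1; omega
    rw [this, div_pow]
    field_simp)
  exact congrFun this s

theorem gleg_lc_zero (F : MvPolynomial (Fin 4) ℂ) (p v : V4) : lc F 0 p v = eval p F := by
  rw [gleg_lc_eq, Polynomial.coeff_zero_eq_eval_zero, gleg_eval_P]
  simp

theorem gleg_lc_one (F : MvPolynomial (Fin 4) ℂ) (p v : V4) : lc F 1 p v = dot (grad F p) v := by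
  have h1 : HasDerivAt (fun l : ℂ => (glegP F p v).eval l) ((glegP F p v).derivative.eval 0) 0 :=
    (glegP F p v).hasDerivAt 0
  have h2 : HasDerivAt (fun l : ℂ => p + l • v) v 0 := by
    have := ((hasDerivAt_id (0 : ℂ)).smul_const v).const_add p
    simpa using this
  have h3 : HasDerivAt (fun l : ℂ => eval (p + l • v) F) (l2dotL (grad F p) v) 0 := by
    have h4 := l2_hasFDerivAt_eval F (p + (0 : ℂ) • v)
    have := h4.comp_hasDerivAt (0 : ℂ) h2
    simpa [Function.comp_def] using this
  have h5 : (fun l : ℂ => (glegP F p v).eval l) = fun l : ℂ => eval (p + l • v) F :=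
    funext fun l => gleg_eval_P F p v l
  rw [h5] at h1
  have := h1.unique h3
  rw [l2dotL_apply] at this
  rw [← this, gleg_lc_eq, ← Polynomial.coeff_zero_eq_eval_zero, Polynomial.coeff_derivative]
  simp

theorem gleg_lc_smul (F : MvPolynomial (Fin 4) ℂ) (k : ℕ) (p v : V4) (c : ℂ) :
    lc F k p (c • v) = c ^ k * lc F k p v := by
  have : glegP F p (c • v) = (glegP F p v).comp (Polynomial.C c * Polynomial.X) := by
    refine Polynomial.funext fun l => ?_
    rw [Polynomial.eval_comp, gleg_eval_P, gleg_eval_P, Polynomial.eval_mul, Polynomial.eval_C,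
      Polynomial.eval_X, smul_smul, mul_comm]
  rw [gleg_lc_eq, this, Polynomial.comp_C_mul_X_coeff, gleg_lc_eq, mul_comm]

/-- recursion for the induction on `F` -/
theorem gleg_lc_mul_X (F : MvPolynomial (Fin 4) ℂ) (i : Fin 4) (k : ℕ) (p v : V4) :
    lc (F * X i) (k + 1) p v = lc F (k + 1) p v * p i + lc F k p v * v i := by
  unfold lc
  rw [map_mul, aeval_X, mul_add, Polynomial.coeff_add, Polynomial.coeff_mul_C, ← mul_assoc,
    Polynomial.coeff_mul_X, Polynomial.coeff_mul_C]

theorem gleg_lc_mul_X_zero (F : MvPolynomial (Fin 4) ℂ) (i : Fin 4) (p v : V4) :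
    lc (F * X i) 0 p v = lc F 0 p v * p i := by
  unfold lc
  rw [map_mul, aeval_X, mul_add, Polynomial.coeff_add, Polynomial.coeff_mul_C, ← mul_assoc,
    Polynomial.coeff_zero_eq_eval_zero (_ * Polynomial.X)]
  simp

theorem gleg_lc_add (F G : MvPolynomial (Fin 4) ℂ) (k : ℕ) (p v : V4) :
    lc (F + G) k p v = lc F k p v + lc G k p v := by
  unfold lc
  rw [map_add, Polynomial.coeff_add]

theorem gleg_lc_C (a : ℂ) (k : ℕ) (p v : V4) :
    lc (C a) k p v = if k = 0 then a else 0 := by
  unfold lc
  rw [aeval_C]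
  simp [Polynomial.coeff_C]

theorem gleg_differentiable_lc (F : MvPolynomial (Fin 4) ℂ) :
    ∀ k : ℕ, Differentiable ℂ (fun x : V4 × V4 => lc F k x.1 x.2) := by
  induction F using MvPolynomial.induction_on with
  | C a =>
    intro k
    simp only [gleg_lc_C]
    exact differentiable_const _
  | add P Q hP hQ =>
    intro k
    simp only [gleg_lc_add]
    exact (hP k).add (hQ k)
  | mul_X P i hP =>
    intro k
    have hp : Differentiable ℂ (fun x : V4 × V4 => x.1 i) :=
      (differentiable_pi.1 differentiable_fst) i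
    have hv : Differentiable ℂ (fun x : V4 × V4 => x.2 i) :=
      (differentiable_pi.1 differentiable_snd) i
    cases k with
    | zero =>
      simp only [gleg_lc_mul_X_zero]
      exact (hP 0).mul hp
    | succ k =>
      simp only [gleg_lc_mul_X]
      exact ((hP (k + 1)).mul hp).add ((hP k).mul hv)

/-- along an affine line of directions `lc` is a polynomial -/
theorem gleg_lc_poly (F : MvPolynomial (Fin 4) ℂ) (p a b : V4) :
    ∀ k : ℕ, ∃ P : Polynomial ℂ, ∀ τ : ℂ, lc F k p (τ • a + b) = P.eval τ := by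
  induction F using MvPolynomial.induction_on with
  | C c =>
    intro k
    exact ⟨Polynomial.C (if k = 0 then c else 0), fun τ => by rw [gleg_lc_C]; simp⟩
  | add P Q hP hQ =>
    intro k
    obtain ⟨P1, h1⟩ := hP k
    obtain ⟨Q1, h2⟩ := hQ k
    exact ⟨P1 + Q1, fun τ => by rw [gleg_lc_add, h1, h2, Polynomial.eval_add]⟩
  | mul_X P i hP =>
    intro k
    cases k with
    | zero =>
      obtain ⟨P1, h1⟩ := hP 0
      exact ⟨P1 * Polynomial.C (p i), fun τ => by rw [gleg_lc_mul_X_zero, h1]; simp⟩
    | succ k =>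
      obtain ⟨P1, h1⟩ := hP (k + 1)
      obtain ⟨P2, h2⟩ := hP k
      exact ⟨P1 * Polynomial.C (p i) + P2 * (Polynomial.X * Polynomial.C (a i) + Polynomial.C (b i)),
        fun τ => by
          rw [gleg_lc_mul_X, h1, h2]
          simp only [Polynomial.eval_add, Polynomial.eval_mul, Polynomial.eval_C, Polynomial.eval_X,
            Pi.add_apply, Pi.smul_apply, smul_eq_mul]⟩

end Claimed.Agent.R245
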