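/-
Row 245 / S0484, GEO (architect helper18).   Block GEO-LEG (sub-architect helper30).   Families of polynomials: `lc`, `f6` along `a + τ b` with coefficients holomorphic in `(p, a, b)`;
homogenisation of affine identities.     Prefix `gleg_`.
-/
import Claimed.Agent.R245.GeoLegAlg

set_option autoImplicit false

namespace Claimed.Agent.R245

open MvPolynomial Metric Set Filter Topology Claims.C0412

/-- `lc F k p (a + τ b)` is a polynomial in `τ` of degree `≤ k` whose coefficients are holomorphic in `x = (p, a, b)`. -/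
theorem gleg_lc_fam (F : MvPolynomial (Fin 4) ℂ) : ∀ k : ℕ, ∃ P : V4 × V4 × V4 → Polynomial ℂ,
    (∀ j, Differentiable ℂ fun x => (P x).coeff j) ∧ (∀ x, (P x).natDegree ≤ k) ∧
    ∀ x τ, lc F k x.1 (x.2.1 + τ • x.2.2) = (P x).eval τ := by
  induction F using MvPolynomial.induction_on with
  | C c =>
    intro k
    refine ⟨fun _ => Polynomial.C (if k = 0 then c else 0), fun j => differentiable_const _,
      fun x => by simp, fun x τ => by rw [gleg_lc_C]; simp⟩
  | add P Q hP hQ =>
    intro k
    obtain ⟨P1, h1, h1', h1''⟩ := hP k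
    obtain ⟨Q1, h2, h2', h2''⟩ := hQ k
    refine ⟨fun x => P1 x + Q1 x, fun j => ?_, fun x => ?_, fun x τ => ?_⟩
    · simp only [Polynomial.coeff_add]
      exact (h1 j).add (h2 j)
    · exact (Polynomial.natDegree_add_le _ _).trans (max_le (h1' x) (h2' x))
    · rw [gleg_lc_add, h1'', h2'', Polynomial.eval_add]
  | mul_X P i hP =>
    intro k
    have hp : Differentiable ℂ (fun x : V4 × V4 × V4 => x.1 i) :=
      (differentiable_pi.1 differentiable_fst) i
    have ha : Differentiable ℂ (fun x : V4 × V4 × V4 => x.2.1 i) :=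
      (differentiable_pi.1 (differentiable_fst.comp differentiable_snd)) i
    have hb : Differentiable ℂ (fun x : V4 × V4 × V4 => x.2.2 i) :=
      (differentiable_pi.1 (differentiable_snd.comp differentiable_snd)) i
    cases k with
    | zero =>
      obtain ⟨P1, h1, h1', h1''⟩ := hP 0
      refine ⟨fun x => P1 x * Polynomial.C (x.1 i), fun j => ?_, fun x => ?_, fun x τ => ?_⟩
      · simp only [Polynomial.coeff_mul_C]
        exact (h1 j).mul hp
      · exact (Polynomial.natDegree_mul_C_le _ _).trans (h1' x)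
      · rw [gleg_lc_mul_X_zero, h1'']; simp
    | succ k =>
      obtain ⟨P1, h1, h1', h1''⟩ := hP (k + 1)
      obtain ⟨P2, h2, h2', h2''⟩ := hP k
      refine ⟨fun x => P1 x * Polynomial.C (x.1 i) + (P2 x * Polynomial.C (x.2.1 i)
        + P2 x * Polynomial.C (x.2.2 i) * Polynomial.X), fun j => ?_, fun x => ?_, fun x τ => ?_⟩
      · cases j with
        | zero =>
          simp only [Polynomial.coeff_add, Polynomial.mul_coeff_zero,
            Polynomial.coeff_X_zero, mul_zero, add_zero, Polynomial.coeff_C_zero]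
          exact ((h1 0).mul hp).add ((h2 0).mul ha)
        | succ j =>
          simp only [Polynomial.coeff_add, Polynomial.coeff_mul_C, Polynomial.coeff_mul_X]
          exact ((h1 (j + 1)).mul hp).add (((h2 (j + 1)).mul ha).add ((h2 j).mul hb))
      · refine (Polynomial.natDegree_add_le _ _).trans (max_le ?_ ?_)
        · exact (Polynomial.natDegree_mul_C_le _ _).trans (h1' x)
        · refine (Polynomial.natDegree_add_le _ _).trans (max_le ?_ ?_)
          · exact ((Polynomial.natDegree_mul_C_le _ _).trans (h2' x)).trans (Nat.le_succ k)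
          · refine Polynomial.natDegree_mul_le.trans ?_
            have h5 := (Polynomial.natDegree_mul_C_le (P2 x) (x.2.2 i)).trans (h2' x)
            have h6 : (Polynomial.X : Polynomial ℂ).natDegree ≤ 1 := Polynomial.natDegree_X_le
            omega
      · rw [gleg_lc_mul_X, h1'', h2'']
        simp only [Polynomial.eval_add, Polynomial.eval_mul, Polynomial.eval_C, Polynomial.eval_X,
          Pi.add_apply, Pi.smul_apply, smul_eq_mul]
        ring

/-- the product of two families with holomorphic coefficients -/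
theorem gleg_fam_mul {E : Type*} [NormedAddCommGroup E] [NormedSpace ℂ E] {P Q : E → Polynomial ℂ}
    (hP : ∀ j, Differentiable ℂ fun x => (P x).coeff j) (hQ : ∀ j, Differentiable ℂ fun x => (Q x).coeff j) :
    ∀ j, Differentiable ℂ fun x => (P x * Q x).coeff j := by
  intro j
  simp only [Polynomial.coeff_mul]
  exact Differentiable.fun_sum fun y _ => (hP y.1).mul (hQ y.2)

theorem gleg_f6_fam (F : MvPolynomial (Fin 4) ℂ) : ∃ P : V4 × V4 × V4 → Polynomial ℂ,
    (∀ j, Differentiable ℂ fun x => (P x).coeff j) ∧ (∀ x, (P x).natDegree ≤ 6) ∧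
    ∀ x τ, f6 F x.1 (x.2.1 + τ • x.2.2) = (P x).eval τ := by
  obtain ⟨P2, h2, h2', h2''⟩ := gleg_lc_fam F 2
  obtain ⟨P3, h3, h3', h3''⟩ := gleg_lc_fam F 3
  obtain ⟨P4, h4, h4', h4''⟩ := gleg_lc_fam F 4
  refine ⟨fun x => P3 x * P3 x - Polynomial.C 4 * (P2 x * P4 x), fun j => ?_, fun x => ?_, fun x τ => ?_⟩
  · simp only [Polynomial.coeff_sub, Polynomial.coeff_C_mul]
    exact (gleg_fam_mul h3 h3 j).sub ((gleg_fam_mul h2 h4 j).const_mul 4)
  · refine (Polynomial.natDegree_sub_le _ _).trans (max_le ?_ ?_)
    · refine Polynomial.natDegree_mul_le.trans ?_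
      have := h3' x
      omega
    · refine (Polynomial.natDegree_C_mul_le _ _).trans (Polynomial.natDegree_mul_le.trans ?_)
      have := h2' x
      have := h4' x
      omega
  · unfold f6
    rw [h2'', h3'', h4'']
    simp only [Polynomial.eval_sub, Polynomial.eval_mul, Polynomial.eval_C]
    ring

theorem gleg_f6_smul (F : MvPolynomial (Fin 4) ℂ) (p v : V4) (c : ℂ) :
    f6 F p (c • v) = c ^ 6 * f6 F p v := by
  unfold f6
  rw [gleg_lc_smul, gleg_lc_smul, gleg_lc_smul]
  ring

theorem gleg_differentiable_f6 (F : MvPolynomial (Fin 4) ℂ) :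
    Differentiable ℂ fun x : V4 × V4 => f6 F x.1 x.2 := by
  unfold f6
  exact ((gleg_differentiable_lc F 3).pow 2).sub
    (((gleg_differentiable_lc F 2).const_mul 4).mul (gleg_differentiable_lc F 4))

/-- **homogenisation**: an identity in the affine chart `a + τ b` between homogeneous continuous functions holds for all `(T, U)`. -/
theorem gleg_homog {n : ℕ} {f : V4 → ℂ} (hf : Continuous f) (hh : ∀ (c : ℂ) (v : V4), f (c • v) = c ^ n * f v)
    (a b : V4) {g : ℂ → ℂ → ℂ} (hg : ∀ T, Continuous fun U => g T U)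
    (hgh : ∀ c T U, g (c * T) (c * U) = c ^ n * g T U) (h : ∀ τ, f (a + τ • b) = g τ 1) (T U : ℂ) :
    f (U • a + T • b) = g T U := by
  have hcl : Continuous fun U : ℂ => f (U • a + T • b) := hf.comp (by fun_prop)
  have hd : Dense ({0}ᶜ : Set ℂ) := dense_compl_singleton 0
  have := Continuous.ext_on hd hcl (hg T) (fun U hU => by
    have hU0 : U ≠ 0 := hU
    have e1 : U • a + T • b = U • (a + (T / U) • b) := by
      rw [smul_add, smul_smul, mul_div_cancel₀ _ hU0]
    rw [e1, hh, h, ← hgh, mul_div_cancel₀ _ hU0, mul_one])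
  exact congrFun this U

end Claimed.Agent.R245
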