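/-
Row 245 / S0484, GEO.   BLOCK GEO-N (owner: helper98): lemmas for `gn_leaf` (GeoN.lean).   Prefix `gnn`.   Statements FROZEN (consumer: GeoN.lean); helper lemmas directly above the theorem they serve.
  PACKAGES   GNN-LEAD  : gnn_lead, gnn_Lc_lead, gnn_F6_lead, gnn_F6_sum           (top coefficient of the pencil polynomials)
             GNN-FRAME : gnn_lc_diff, gnn_indep_dir, gnn_nz  (fields of the frame data `gnnFrame`)
             GNN-NR    : gnn_gdot_p, gnn_not_radial, gnn_NR                        (the Gauss map moves)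
             GNN-MULT  : gnn_mult, gnn_pattern                                     (multiplicities)
             GNN-PLANE : gnn_span, gnn_quad_zero, gnn_plane                        (the leaf is the whole plane section)
             GNN-DIV   : gnn_div_i                                                 (application of `gk_div`)
-/
import Claimed.Agent.R245.GeoAlg
import Claimed.Agent.R245.GeoKI
import Claimed.Agent.R245.GeoGauss
import Claimed.Agent.R245.GeoEnd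

set_option autoImplicit false

namespace Claimed.Agent.R245

open MvPolynomial Metric Set Filter Topology Claims.C0412

/-! ### GNN-LEAD -/

/-- the top coefficient from the behaviour at infinity.
(`Polynomial.eval₂_reflect_mul_pow` / by hand: `R u = ∑ i ∈ range (n+1), P.coeff i * u ^ (n - i)` is continuous, `R u = u ^ n * P.eval u⁻¹ = Q u` for `u ≠ 0`, so `R 0 = Q 0` (`tendsto_nhds_unique` on `𝓝[≠] 0`), `R 0 = P.coeff n`.) -/
theorem gnn_lead {P : Polynomial ℂ} {n : ℕ} (hP : P.natDegree ≤ n) {Q : ℂ → ℂ} (hQ : ContinuousAt Q 0)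
    (h : ∀ τ : ℂ, τ ≠ 0 → P.eval τ = τ ^ n * Q τ⁻¹) : P.coeff n = Q 0 := by
  set R : ℂ → ℂ := fun u => ∑ i ∈ Finset.range (n + 1), P.coeff i * u ^ (n - i) with hR
  have hRc : Continuous R := by
    rw [hR]
    fun_prop
  have hR0 : R 0 = P.coeff n := by
    rw [hR]
    show ∑ i ∈ Finset.range (n + 1), P.coeff i * (0 : ℂ) ^ (n - i) = P.coeff n
    rw [Finset.sum_range_succ, Finset.sum_eq_zero, zero_add, Nat.sub_self, pow_zero, mul_one]
    intro i hi
    rw [zero_pow (by have := Finset.mem_range.1 hi; omega), mul_zero]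
  have hRQ : ∀ u : ℂ, u ≠ 0 → R u = Q u := by
    intro u hu
    have h1 := h u⁻¹ (inv_ne_zero hu)
    rw [inv_inv, Polynomial.eval_eq_sum_range' (Nat.lt_succ_of_le hP)] at h1
    have h2 : Q u = u ^ n * (u⁻¹ ^ n * Q u) := by
      rw [← mul_assoc, ← mul_pow, mul_inv_cancel₀ hu, one_pow, one_mul]
    rw [h2, ← h1, Finset.mul_sum]
    refine Finset.sum_congr rfl fun i hi => ?_
    have hi' : i ≤ n := by have := Finset.mem_range.1 hi; omega
    have h3 : u ^ n = u ^ (n - i) * u ^ i := by rw [← pow_add, Nat.sub_add_cancel hi']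
    rw [h3, inv_pow]
    field_simp
  have h1 : Tendsto R (𝓝[≠] 0) (𝓝 (R 0)) := hRc.continuousAt.tendsto.mono_left nhdsWithin_le_nhds
  have h2 : Tendsto Q (𝓝[≠] 0) (𝓝 (Q 0)) := hQ.tendsto.mono_left nhdsWithin_le_nhds
  have h3 : R =ᶠ[𝓝[≠] 0] Q := by
    filter_upwards [self_mem_nhdsWithin] with u hu using hRQ u hu
  rw [← hR0]
  exact tendsto_nhds_unique_of_eventuallyEq h1 h2 h3

/-- (`gnn_lead` with `Q u = lc F k p (v₂ + u • v₁)`; `ga_Lc_eval`, `ga_Lc_natDegree_le`, `ga_lc_smul hF 1 τ`, `ga_differentiable_lc`.) -/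
theorem gnn_Lc_lead {F : MvPolynomial (Fin 4) ℂ} (hF : F.IsHomogeneous 4) {k : ℕ} (hk : k ≤ 4) (p v₁ v₂ : V4) :
    (gaLc F k p v₁ v₂).coeff k = lc F k p v₂ := by
  have hc : Continuous fun u : ℂ => lc F k p (v₂ + u • v₁) :=
    (ga_differentiable_lc F k).continuous.comp (f := fun u : ℂ => ((p, v₂ + u • v₁) : V4 × V4))
      (by fun_prop)
  have h := gnn_lead (ga_Lc_natDegree_le F k p v₁ v₂) (Q := fun u : ℂ => lc F k p (v₂ + u • v₁))
    hc.continuousAt (fun τ hτ => ?_)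
  · rw [h, zero_smul, add_zero]
  · rw [ga_Lc_eval]
    have e : v₁ + τ • v₂ = τ • (v₂ + τ⁻¹ • v₁) := by
      rw [smul_add, smul_smul, mul_inv_cancel₀ hτ, one_smul, add_comm]
    have h1 := ga_lc_smul hF 1 τ p (v₂ + τ⁻¹ • v₁) k hk
    rw [one_smul, one_pow, one_mul] at h1
    rw [e, h1]

/-- (`gnn_lead` with `Q u = f6 F p (v₂ + u • v₁)`; `ga_F6_eval`, `ga_F6_natDegree_le`, `ga_f6_smul hF 1 τ`, `ga_differentiable_f6`.) -/
theorem gnn_F6_lead {F : MvPolynomial (Fin 4) ℂ} (hF : F.IsHomogeneous 4) (p v₁ v₂ : V4) :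
    (gaF6 F p v₁ v₂).coeff 6 = f6 F p v₂ := by
  have hc : Continuous fun u : ℂ => f6 F p (v₂ + u • v₁) :=
    (ga_differentiable_f6 F).continuous.comp (f := fun u : ℂ => ((p, v₂ + u • v₁) : V4 × V4))
      (by fun_prop)
  have h := gnn_lead (ga_F6_natDegree_le F p v₁ v₂) (Q := fun u : ℂ => f6 F p (v₂ + u • v₁))
    hc.continuousAt (fun τ hτ => ?_)
  · rw [h, zero_smul, add_zero]
  · rw [ga_F6_eval]
    have e : v₁ + τ • v₂ = τ • (v₂ + τ⁻¹ • v₁) := by
      rw [smul_add, smul_smul, mul_inv_cancel₀ hτ, one_smul, add_comm]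
    have h1 := ga_f6_smul hF 1 τ p (v₂ + τ⁻¹ • v₁)
    rw [one_smul, one_pow, one_mul] at h1
    rw [e, h1]

/-- (`ga_F6_eval`, `Polynomial.eval_eq_sum_range'` with `ga_F6_natDegree_le`, `Fin.sum_univ_eq_sum_range`.) -/
theorem gnn_F6_sum (F : MvPolynomial (Fin 4) ℂ) (p v₁ v₂ : V4) (τ : ℂ) :
    ∑ i : Fin (6 + 1), (gaF6 F p v₁ v₂).coeff (i : ℕ) * τ ^ (i : ℕ) = f6 F p (v₁ + τ • v₂) := by
  rw [← ga_F6_eval, Polynomial.eval_eq_sum_range' (Nat.lt_succ_of_le (ga_F6_natDegree_le F p v₁ v₂)),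
    Fin.sum_univ_eq_sum_range (fun i => (gaF6 F p v₁ v₂).coeff i * τ ^ i)]

/-! ### GNN-FRAME -/

/-- (`ga_differentiableOn_lc`; `p ∘ fst` etc. are `DifferentiableOn` on the product: `hp.comp differentiableOn_fst (fun x hx => hx.1)`.) -/
theorem gnn_lc_diff (F : MvPolynomial (Fin 4) ℂ) (k : ℕ) {S : Set ℂ} {p v₁ v₂ : ℂ → V4}
    (hp : DifferentiableOn ℂ p S) (hv₁ : DifferentiableOn ℂ v₁ S) (hv₂ : DifferentiableOn ℂ v₂ S) :
    DifferentiableOn ℂ (fun x : ℂ × ℂ × ℂ => lc F k (p x.1) (x.2.2 • v₁ x.1 + x.2.1 • v₂ x.1)) (S ×ˢ univ) := by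
  have hfst : ∀ {q : ℂ → V4}, DifferentiableOn ℂ q S →
      DifferentiableOn ℂ (fun x : ℂ × ℂ × ℂ => q x.1) (S ×ˢ (univ : Set (ℂ × ℂ))) := fun hq =>
    hq.comp differentiableOn_fst (fun x hx => hx.1)
  have h22 : DifferentiableOn ℂ (fun x : ℂ × ℂ × ℂ => x.2.2) (S ×ˢ (univ : Set (ℂ × ℂ))) :=
    (differentiable_snd.comp differentiable_snd).differentiableOn
  have h21 : DifferentiableOn ℂ (fun x : ℂ × ℂ × ℂ => x.2.1) (S ×ˢ (univ : Set (ℂ × ℂ))) :=
    (differentiable_fst.comp differentiable_snd).differentiableOn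
  exact ga_differentiableOn_lc F k (hfst hp) ((h22.smul (hfst hv₁)).add (h21.smul (hfst hv₂)))

theorem gnn_three {p v₁ v₂ : V4} (hli : LinearIndependent ℂ ![p, v₁, v₂]) {a b c : ℂ}
    (h : a • p + b • v₁ + c • v₂ = 0) : a = 0 ∧ b = 0 ∧ c = 0 := by
  have h1 := Fintype.linearIndependent_iff.1 hli ![a, b, c] (by simpa [Fin.sum_univ_three] using h)
  exact ⟨h1 0, h1 1, h1 2⟩

/-- (`LinearIndependent.pair_iff` / `Fintype.linearIndependent_iff`: a relation `a p + c (U v₁ + T v₂) = 0` is the relation `(a, c U, c T)`.) -/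
theorem gnn_indep_dir {p v₁ v₂ : V4} (h : LinearIndependent ℂ ![p, v₁, v₂]) {T U : ℂ} (hTU : T ≠ 0 ∨ U ≠ 0) :
    LinearIndependent ℂ ![p, U • v₁ + T • v₂] := by
  rw [LinearIndependent.pair_iff]
  intro s t hst
  have h1 : s • p + (t * U) • v₁ + (t * T) • v₂ = 0 := by
    rw [← hst, smul_add, smul_smul, smul_smul, add_assoc]
  obtain ⟨hs, hU, hT⟩ := gnn_three h h1
  refine ⟨hs, ?_⟩
  rcases hTU with h' | h'
  · exact (mul_eq_zero.1 hT).resolve_right h'
  · exact (mul_eq_zero.1 hU).resolve_right h'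

/-- without lines the residual quadratic does not vanish identically.  (Otherwise `ga_expand_tang` gives `eval (s • p + l • v) F = 0` for all `s, l`: `HasLine`.) -/
theorem gnn_nz {F : MvPolynomial (Fin 4) ℂ} (hF : F.IsHomogeneous 4) (hN : ¬ HasLine F) {p v : V4}
    (hp : p ∈ Cone F) (hind : LinearIndependent ℂ ![p, v]) (ht : dot (grad F p) v = 0) :
    lc F 2 p v ≠ 0 ∨ lc F 3 p v ≠ 0 ∨ lc F 4 p v ≠ 0 := by
  by_contra hcon
  push Not at hcon
  obtain ⟨h2, h3, h4⟩ := hcon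
  exact hN ⟨p, v, hind, fun s t => by rw [ga_expand_tang hF hp.2 ht, h2, h3, h4]; ring⟩

theorem gnn_dot_add (g a b : V4) : dot g (a + b) = dot g a + dot g b := by
  simp only [dot, Pi.add_apply, mul_add, Finset.sum_add_distrib]

theorem gnn_dot_smul (g a : V4) (c : ℂ) : dot g (c • a) = c * dot g a := by
  simp only [dot, Pi.smul_apply, smul_eq_mul, Finset.mul_sum]
  exact Finset.sum_congr rfl fun i _ => by ring

/-- **the frame data of a tangent frame** (`κ = 1`, `A, B, C = lc F 2, 3, 4`) -/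
noncomputable def gnnFrame (F : MvPolynomial (Fin 4) ℂ) (hF : F.IsHomogeneous 4) (hN : ¬ HasLine F) {S : Set ℂ}
    {p v₁ v₂ : ℂ → V4} (hp : DifferentiableOn ℂ p S) (hv₁ : DifferentiableOn ℂ v₁ S)
    (hv₂ : DifferentiableOn ℂ v₂ S) (cone : ∀ w ∈ S, p w ∈ Cone F)
    (indep : ∀ w ∈ S, LinearIndependent ℂ ![p w, v₁ w, v₂ w])
    (tang₁ : ∀ w ∈ S, dot (grad F (p w)) (v₁ w) = 0) (tang₂ : ∀ w ∈ S, dot (grad F (p w)) (v₂ w) = 0) :
    FrameData F S where
  p := p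
  v₁ := v₁
  v₂ := v₂
  A := fun w T U => lc F 2 (p w) (U • v₁ w + T • v₂ w)
  B := fun w T U => lc F 3 (p w) (U • v₁ w + T • v₂ w)
  C := fun w T U => lc F 4 (p w) (U • v₁ w + T • v₂ w)
  κ := fun _ _ _ => 1
  hp := hp
  hv₁ := hv₁
  hv₂ := hv₂
  hA := gnn_lc_diff F 2 hp hv₁ hv₂
  hB := gnn_lc_diff F 3 hp hv₁ hv₂
  hC := gnn_lc_diff F 4 hp hv₁ hv₂
  hκ := differentiableOn_const _
  cone := cone
  indep := indep
  tang₁ := tang₁
  tang₂ := tang₂
  expand := fun w hw T U s l => by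
    rw [ga_expand_tang hF (cone w hw).2
      (by rw [gnn_dot_add, gnn_dot_smul, gnn_dot_smul, tang₁ w hw, tang₂ w hw]; ring)]
    ring
  nz := fun w hw T U hTU => gnn_nz hF hN (cone w hw) (gnn_indep_dir (indep w hw) hTU)
    (by rw [gnn_dot_add, gnn_dot_smul, gnn_dot_smul, tang₁ w hw, tang₂ w hw]; ring)

/-! ### GNN-NR -/

theorem gnn_hasDerivAt_dot {a c : ℂ → V4} {a' c' : V4} {t : ℂ} (ha : HasDerivAt a a' t)
    (hc : HasDerivAt c c' t) :
    HasDerivAt (fun t => dot (a t) (c t)) (dot a' (c t) + dot (a t) c') t := by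
  have ha' := hasDerivAt_pi.1 ha
  have hc' := hasDerivAt_pi.1 hc
  unfold dot
  rw [← Finset.sum_add_distrib]
  exact HasDerivAt.fun_sum fun i _ => (ha' i).mul (hc' i)

/-- `ġ · p = 0`.   (`φ w = dot (grad F (p w)) (p w) = 4 * eval (p w) F = 0` on the open `S` (`l2_euler`), so `deriv φ w = 0`; product rule: `deriv φ w = dot ġ (p w) + dot (grad F (p w)) (deriv p w)`
(`dot` is a finite sum of products; `HasDerivAt.fun_sum`, `HasDerivAt.mul`, `hasDerivAt_pi`); and `dot (grad F (p w)) (deriv p w) = deriv (fun w => eval (p w) F) w = 0` (`l2_hasFDerivAt_eval`, chain rule).) -/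
theorem gnn_gdot_p {F : MvPolynomial (Fin 4) ℂ} (hF : F.IsHomogeneous 4) {S : Set ℂ} (hS : IsOpen S) {p : ℂ → V4}
    (hp : DifferentiableOn ℂ p S) (cone : ∀ w ∈ S, p w ∈ Cone F) {w : ℂ} (hw : w ∈ S) :
    dot (deriv (fun w => grad F (p w)) w) (p w) = 0 := by
  have hpw : HasDerivAt p (deriv p w) w := (hp.differentiableAt (hS.mem_nhds hw)).hasDerivAt
  have hG : HasDerivAt (fun w => grad F (p w)) (deriv (fun w => grad F (p w)) w) w :=
    (((l2_differentiable_grad F) (p w)).comp w hpw.differentiableAt).hasDerivAt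
  have h1 := gnn_hasDerivAt_dot hG hpw
  have h2 : (fun t => dot (grad F (p t)) (p t)) =ᶠ[𝓝 w] fun _ => (0 : ℂ) := by
    filter_upwards [hS.mem_nhds hw] with t ht
    rw [l2_euler hF, (cone t ht).2, mul_zero]
  have h3 : dot (deriv (fun w => grad F (p w)) w) (p w) + dot (grad F (p w)) (deriv p w) = 0 := by
    rw [← h1.deriv, h2.deriv_eq]
    simp
  have h4 : HasDerivAt (fun t => eval (p t) F) (l2dotL (grad F (p w)) (deriv p w)) w :=
    (l2_hasFDerivAt_eval F (p w)).comp_hasDerivAt w hpw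
  have h5 : (fun t => eval (p t) F) =ᶠ[𝓝 w] fun _ => (0 : ℂ) := by
    filter_upwards [hS.mem_nhds hw] with t ht
    exact (cone t ht).2
  have h6 : dot (grad F (p w)) (deriv p w) = 0 := by
    rw [← l2dotL_apply, ← h4.deriv, h5.deriv_eq]
    simp
  rw [h6, add_zero] at h3
  exact h3

/-- a curve with `p, p'` independent at the centre is not radial.   (As `ge_radial`: the slopes `(p w - p w₁) / (w - w₁)`, `w` near `w₁`, lie in the closed subspace `ℂ ∙ p w₁`, so does `deriv p w₁`;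
then `![p w₁, deriv p w₁]` is dependent: `LinearIndependent.pair_iff`.) -/
theorem gnn_not_radial {p : ℂ → V4} {w₁ : ℂ} {r : ℝ} (hr : 0 < r) (hp : DifferentiableAt ℂ p w₁)
    (hind : LinearIndependent ℂ ![p w₁, deriv p w₁]) :
    ¬ ∀ w ∈ ball w₁ r, ∀ w' ∈ ball w₁ r, ∃ a : ℂ, p w' = a • p w := by
  intro h
  have h1 := hasDerivAt_iff_tendsto_slope.1 hp.hasDerivAt
  have hcl : IsClosed ((Submodule.span ℂ {p w₁} : Submodule ℂ V4) : Set V4) :=
    Submodule.closed_of_finiteDimensional _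
  have h2 : deriv p w₁ ∈ ((Submodule.span ℂ {p w₁} : Submodule ℂ V4) : Set V4) := by
    refine hcl.mem_of_tendsto h1 ?_
    filter_upwards [mem_nhdsWithin_of_mem_nhds (ball_mem_nhds w₁ hr)] with z hz
    obtain ⟨c, hc⟩ := h w₁ (mem_ball_self hr) z hz
    rw [slope_def_module, hc]
    refine Submodule.smul_mem _ _ (Submodule.sub_mem _ ?_ ?_)
    · exact Submodule.smul_mem _ _ (Submodule.mem_span_singleton_self _)
    · exact Submodule.mem_span_singleton_self _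
  obtain ⟨c, hc⟩ := Submodule.mem_span_singleton.1 h2
  have h3 := LinearIndependent.pair_iff.1 hind c (-1) (by rw [hc]; simp)
  exact one_ne_zero (neg_eq_zero.1 h3.2)

/-- **(NR)** the derivative of the Gauss map cannot kill the tangent frame along the whole disc.
(`ġ` kills `p` (`gnn_gdot_p`), `v₁`, `v₂`; so does `g = grad F (p w) ≠ 0` (`l2_grad_ne_zero`, `l2_euler`); `ge_prop`: `ġ = a • g`; `gg_gauss_inf` on `ball w₁ r` (`(convex_ball _ _).isPreconnected`): radial; `gnn_not_radial`.) -/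
theorem gnn_NR {F : MvPolynomial (Fin 4) ℂ} (hF : IsSmoothQuarticForm F) {w₁ : ℂ} {r : ℝ} (hr : 0 < r)
    {p v₁ v₂ : ℂ → V4} (hp : DifferentiableOn ℂ p (ball w₁ r)) (cone : ∀ w ∈ ball w₁ r, p w ∈ Cone F)
    (indep : ∀ w ∈ ball w₁ r, LinearIndependent ℂ ![p w, v₁ w, v₂ w])
    (tang₁ : ∀ w ∈ ball w₁ r, dot (grad F (p w)) (v₁ w) = 0)
    (tang₂ : ∀ w ∈ ball w₁ r, dot (grad F (p w)) (v₂ w) = 0)
    (hind : LinearIndependent ℂ ![p w₁, deriv p w₁])
    (h : ∀ w ∈ ball w₁ r, dot (deriv (fun w => grad F (p w)) w) (v₁ w) = 0 ∧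
      dot (deriv (fun w => grad F (p w)) w) (v₂ w) = 0) : False := by
  have hg : ∀ w ∈ ball w₁ r, ∃ a : ℂ, deriv (fun w => grad F (p w)) w = a • grad F (p w) := by
    intro w hw
    exact ge_prop (indep w hw) (l2_grad_ne_zero hF (cone w hw))
      (by rw [l2_euler hF.1, (cone w hw).2, mul_zero]) (tang₁ w hw) (tang₂ w hw)
      (gnn_gdot_p hF.1 isOpen_ball hp cone hw) (h w hw).1 (h w hw).2
  have hrad := gg_gauss_inf F hF isOpen_ball (convex_ball w₁ r).isPreconnected hp cone hg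
  exact gnn_not_radial hr (hp.differentiableAt (ball_mem_nhds w₁ hr)) hind hrad

/-! ### GNN-MULT -/

/-- a common root of `f` and `f'` is a root of multiplicity `≥ 2`.
(`f τ₀ = 0` ⇒ `τ₀ = ρ i`, `m i ≠ 0` for some `i` (`Finset.prod_eq_zero_iff`, `pow_eq_zero_iff`).  If `m i = 1`: `f τ = (τ - ρ i) * h τ`, `h τ = c * ∏ j ∈ univ.erase i, (τ - ρ j) ^ m j` (`Finset.mul_prod_erase`), `h` differentiable,
`deriv f (ρ i) = h (ρ i) ≠ 0` (injectivity).) -/
theorem gnn_mult {k : ℕ} {ρ : Fin k → ℂ} {m : Fin k → ℕ} {c : ℂ} (hc : c ≠ 0) (hinj : Function.Injective ρ)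
    {f : ℂ → ℂ} (hf : ∀ τ, f τ = c * ∏ i, (τ - ρ i) ^ m i) {τ₀ : ℂ} (h0 : f τ₀ = 0) (h1 : deriv f τ₀ = 0) :
    ∃ i, 2 ≤ m i := by
  by_contra hcon
  push Not at hcon
  rw [hf] at h0
  have hprod := (mul_eq_zero.1 h0).resolve_left hc
  obtain ⟨i, -, hi⟩ := Finset.prod_eq_zero_iff.1 hprod
  have hmi0 : m i ≠ 0 := by
    intro h
    rw [h, pow_zero] at hi
    exact one_ne_zero hi
  have hτ : τ₀ = ρ i := by
    have := pow_eq_zero_iff hmi0 |>.1 hi
    exact sub_eq_zero.1 this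
  have hmi : m i = 1 := by have := hcon i; omega
  obtain ⟨h, hh⟩ : ∃ h : ℂ → ℂ, h = fun τ => c * ∏ j ∈ Finset.univ.erase i, (τ - ρ j) ^ m j := ⟨_, rfl⟩
  have hd : Differentiable ℂ h := by
    rw [hh]
    fun_prop
  have hfe : f = fun τ => (τ - ρ i) * h τ := by
    funext τ
    rw [hf, hh, ← Finset.mul_prod_erase Finset.univ _ (Finset.mem_univ i), hmi, pow_one]
    ring
  have hder : HasDerivAt f (1 * h τ₀ + (τ₀ - ρ i) * deriv h τ₀) τ₀ := by
    rw [hfe]
    exact ((hasDerivAt_id τ₀).sub_const (ρ i)).mul (hd τ₀).hasDerivAt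
  rw [hder.deriv, hτ, sub_self, zero_mul, add_zero, one_mul, hh] at h1
  have h2 := (mul_eq_zero.1 h1).resolve_left hc
  obtain ⟨j, hj, hj0⟩ := Finset.prod_eq_zero_iff.1 h2
  have h3 : ρ i - ρ j = 0 := by
    by_contra hne
    exact pow_ne_zero _ hne hj0
  exact (Finset.mem_erase.1 hj).1 (hinj (sub_eq_zero.1 h3)).symm

/-- the patterns `(2,1,1,1,1)` and `(3,1,1,1)`.
(`k = k' + 1`; `Fin.sum_univ_succAbove _ i₀`: `m i₀ + k' = 6`.   `m i₀ = 2`: `k' = 4`, `e = i₀.succAbove`, `Fin.prod_univ_succAbove _ i₀`.   `m i₀ = 3`: `k = 4`, `e = id`, `Fin.prod_univ_succAbove` on both sides.) -/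
theorem gnn_pattern {k : ℕ} (m : Fin k → ℕ) (hsum : ∑ i, m i = 6) (i₀ : Fin k) (h2 : 2 ≤ m i₀) (h3 : m i₀ ≤ 3)
    (h1 : ∀ j, j ≠ i₀ → m j = 1) :
    ∃ e : Fin 4 → Fin k, Function.Injective e ∧ ∀ x : Fin k → ℂ, ∏ i, x i ^ m i = x i₀ ^ 2 * ∏ j, x (e j) := by
  obtain ⟨k', rfl⟩ : ∃ k', k = k' + 1 := ⟨k - 1, by have := i₀.pos; omega⟩
  have hk : m i₀ + k' = 6 := by
    rw [Fin.sum_univ_succAbove _ i₀] at hsum
    have : ∑ j : Fin k', m (i₀.succAbove j) = k' := by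
      rw [Finset.sum_congr rfl fun j _ => h1 _ (Fin.succAbove_ne i₀ j)]
      simp
    omega
  have hprod : ∀ x : Fin (k' + 1) → ℂ, ∏ i, x i ^ m i = x i₀ ^ m i₀ * ∏ j : Fin k', x (i₀.succAbove j) := by
    intro x
    rw [Fin.prod_univ_succAbove _ i₀]
    congr 1
    exact Finset.prod_congr rfl fun j _ => by rw [h1 _ (Fin.succAbove_ne i₀ j), pow_one]
  rcases (by omega : m i₀ = 2 ∨ m i₀ = 3) with hm | hm
  · obtain rfl : k' = 4 := by omega
    exact ⟨i₀.succAbove, Fin.succAbove_right_injective, fun x => by rw [hprod, hm]⟩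
  · obtain rfl : k' = 3 := by omega
    refine ⟨id, Function.injective_id, fun x => ?_⟩
    rw [hprod, hm, Fin.prod_univ_succAbove (fun j => x (id j)) i₀]
    simp only [id]
    ring

/-! ### GNN-PLANE -/

theorem gnn_dotL (g : V4) : ∃ L : V4 →ₗ[ℂ] ℂ, ∀ y, L y = dot g y :=
  ⟨∑ i, g i • (LinearMap.proj i : V4 →ₗ[ℂ] ℂ), fun y => by simp [dot, LinearMap.sum_apply]⟩

/-- the kernel of a non zero covector is spanned by three independent vectors of it.
(Otherwise `![e₀, e₁, e₂, x]` is independent (`LinearIndependent.fin_cons'`-type lemma / `linearIndependent_fin_snoc`), hence a basis of `ℂ⁴` (`card = finrank`), and `g` kills a basis: `g = 0`.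
Or: `Matrix`: the rows `e₀ e₁ e₂ x` are killed by `g ≠ 0`, so `det = 0`, so the rows are dependent; the coefficient of `x` is not `0` by `he`.) -/
theorem gnn_span {g e₀ e₁ e₂ x : V4} (hg : g ≠ 0) (he : LinearIndependent ℂ ![e₀, e₁, e₂]) (h0 : dot g e₀ = 0)
    (h1 : dot g e₁ = 0) (h2 : dot g e₂ = 0) (hx : dot g x = 0) : ∃ s a c : ℂ, x = s • e₀ + a • e₁ + c • e₂ := by
  by_cases hmem : x ∈ Submodule.span ℂ (Set.range ![e₀, e₁, e₂])
  · obtain ⟨c, hc⟩ := (Submodule.mem_span_range_iff_exists_fun ℂ).1 hmem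
    refine ⟨c 0, c 1, c 2, ?_⟩
    rw [← hc, Fin.sum_univ_three]
    rfl
  · exfalso
    obtain ⟨L, hL⟩ := gnn_dotL g
    have h4 : LinearIndependent ℂ (Fin.snoc ![e₀, e₁, e₂] x : Fin 4 → V4) :=
      linearIndependent_finSnoc.2 ⟨he, hmem⟩
    have htop := h4.span_eq_top_of_card_eq_finrank (by simp)
    have hle : Submodule.span ℂ (Set.range (Fin.snoc ![e₀, e₁, e₂] x : Fin 4 → V4))
        ≤ LinearMap.ker L := by
      rw [Submodule.span_le]
      rintro _ ⟨i, rfl⟩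
      rw [SetLike.mem_coe, LinearMap.mem_ker, hL]
      fin_cases i
      · exact h0
      · exact h1
      · exact h2
      · exact hx
    rw [htop, top_le_iff, LinearMap.ker_eq_top] at hle
    apply hg
    funext i
    have := congrArg (fun L : V4 →ₗ[ℂ] ℂ => L (Pi.single i 1)) hle
    simpa [hL, dot, Pi.single_apply] using this

/-- a binary quadratic form has a non trivial zero.
(If `lc F 2 p v₂ = 0`: `(T, U) = (1, 0)`.  Otherwise `P = gaLc F 2 p v₁ v₂` has `P.coeff 2 ≠ 0` (`gnn_Lc_lead`), so `P.degree ≠ 0`; `IsAlgClosed.exists_root`; `(T, U) = (τ, 1)`, `ga_Lc_eval`.) -/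
theorem gnn_quad_zero {F : MvPolynomial (Fin 4) ℂ} (hF : F.IsHomogeneous 4) (p v₁ v₂ : V4) :
    ∃ T U : ℂ, (T ≠ 0 ∨ U ≠ 0) ∧ lc F 2 p (U • v₁ + T • v₂) = 0 := by
  by_cases h : lc F 2 p v₂ = 0
  · refine ⟨1, 0, Or.inl one_ne_zero, ?_⟩
    rw [zero_smul, one_smul, zero_add]
    exact h
  · have hc : (gaLc F 2 p v₁ v₂).coeff 2 ≠ 0 := by
      rw [gnn_Lc_lead hF (by norm_num)]
      exact h
    have hdeg : (gaLc F 2 p v₁ v₂).degree ≠ 0 := by
      intro h0
      apply hc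
      apply Polynomial.coeff_eq_zero_of_degree_lt
      rw [h0]
      norm_num
    obtain ⟨τ, hτ⟩ := IsAlgClosed.exists_root _ hdeg
    refine ⟨τ, 1, Or.inr one_ne_zero, ?_⟩
    rw [one_smul, ← ga_Lc_eval]
    exact hτ

/-- **the leaf is the whole plane section.**
(`gnn_span` with `g = grad F (D.p w)`: `x = s p + a v₁ + c v₂`.   If `a ≠ 0 ∨ c ≠ 0`: `l = 1`, `(T, U) = (c, a)`; `D.expand` and `eval x F = 0`, `κ = 1`.   Otherwise `x = s p`, `s ≠ 0`, `l = 0`, `(T, U)` from `gnn_quad_zero`.) -/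
theorem gnn_plane {F : MvPolynomial (Fin 4) ℂ} (hF : IsSmoothQuarticForm F) {S : Set ℂ} (D : FrameData F S)
    (hκ : ∀ w T U, D.κ w T U = 1) (hA : ∀ w T U, D.A w T U = lc F 2 (D.p w) (U • D.v₁ w + T • D.v₂ w)) {w : ℂ}
    (hw : w ∈ S) {x : V4} (hx : x ∈ Cone F) (hdot : dot (grad F (D.p w)) x = 0) : D.OnLeaf w x := by
  have hg : grad F (D.p w) ≠ 0 := l2_grad_ne_zero hF (D.cone w hw)
  have hgp : dot (grad F (D.p w)) (D.p w) = 0 := by
    rw [l2_euler hF.1, (D.cone w hw).2, mul_zero]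
  obtain ⟨s, a, c, e⟩ := gnn_span hg (D.indep w hw) hgp (D.tang₁ w hw) (D.tang₂ w hw) hdot
  by_cases hac : a ≠ 0 ∨ c ≠ 0
  · refine ⟨s, 1, c, a, hac.symm, Or.inr one_ne_zero, ?_, ?_⟩
    · rw [e, one_smul, FrameData.dir, add_assoc]
    · have h1 := D.expand w hw c a s 1
      rw [one_smul, ← add_assoc, ← e, hx.2, hκ] at h1
      linear_combination -h1
  · push Not at hac
    obtain ⟨rfl, rfl⟩ := hac
    rw [zero_smul, zero_smul, add_zero, add_zero] at e
    have hs : s ≠ 0 := by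
      rintro rfl
      rw [zero_smul] at e
      exact hx.1 e
    obtain ⟨T, U, hTU, hz⟩ := gnn_quad_zero hF.1 (D.p w) (D.v₁ w) (D.v₂ w)
    refine ⟨s, 0, T, U, hTU, Or.inl hs, ?_, ?_⟩
    · rw [e, zero_smul, add_zero]
    · rw [hA, hz]
      ring

/-! ### GNN-DIV -/

theorem gnn_dot_differentiableOn {a c : ℂ → V4} {Ω : Set ℂ} (ha : DifferentiableOn ℂ a Ω)
    (hc : DifferentiableOn ℂ c Ω) : DifferentiableOn ℂ (fun y => dot (a y) (c y)) Ω := by
  unfold dot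
  exact DifferentiableOn.fun_sum fun i _ =>
    (differentiableOn_pi.1 ha i).mul (differentiableOn_pi.1 hc i)

/-- **(DIV) for one root** of the factorised sextic: `gk_div` for `gnnFrame`, `k w τ = c w * ∏ j ∈ univ.erase i, (τ - ρ j w) ^ m j`.
(`D.disc w τ 1 = f6 F (p w) (1 • v₁ w + τ • v₂ w)` by `rfl`/`unfold f6`; `one_smul`; `Finset.mul_prod_erase`.   `D.gaussL w τ 1 = 1 * (G₀ w + τ * G₁ w)`: `gnn_dot_add`, `gnn_dot_smul`.
`G₀, G₁` holomorphic: `w ↦ grad F (p w)` is `DifferentiableOn` (`l2_differentiable_grad`), `DifferentiableOn.deriv` (open set), `dot` = finite sum of products, `differentiableOn_pi`.) -/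
theorem gnn_div_i {F : MvPolynomial (Fin 4) ℂ} (hF : IsSmoothQuarticForm F) (hN : ¬ HasLine F) {w₁ : ℂ} {r : ℝ}
    {p v₁ v₂ : ℂ → V4} (hp : DifferentiableOn ℂ p (ball w₁ r)) (hv₁ : DifferentiableOn ℂ v₁ (ball w₁ r))
    (hv₂ : DifferentiableOn ℂ v₂ (ball w₁ r)) (cone : ∀ w ∈ ball w₁ r, p w ∈ Cone F)
    (indep : ∀ w ∈ ball w₁ r, LinearIndependent ℂ ![p w, v₁ w, v₂ w])
    (tang₁ : ∀ w ∈ ball w₁ r, dot (grad F (p w)) (v₁ w) = 0)
    (tang₂ : ∀ w ∈ ball w₁ r, dot (grad F (p w)) (v₂ w) = 0)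
    {k : ℕ} {ρ : Fin k → ℂ → ℂ} {m : Fin k → ℕ} {c : ℂ → ℂ} (hc : DifferentiableOn ℂ c (ball w₁ r))
    (hc0 : ∀ w ∈ ball w₁ r, c w ≠ 0) (hρ : ∀ i, DifferentiableOn ℂ (ρ i) (ball w₁ r))
    (hinj : ∀ w ∈ ball w₁ r, Function.Injective fun i => ρ i w)
    (hfac : ∀ w ∈ ball w₁ r, ∀ τ : ℂ, f6 F (p w) (v₁ w + τ • v₂ w) = c w * ∏ i, (τ - ρ i w) ^ m i) (i : Fin k) :
    (2 ≤ m i → ∀ w ∈ ball w₁ r, dot (deriv (fun w => grad F (p w)) w) (v₁ w)
        + ρ i w * dot (deriv (fun w => grad F (p w)) w) (v₂ w) = 0) ∧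
    (4 ≤ m i → ∀ w ∈ ball w₁ r, dot (deriv (fun w => grad F (p w)) w) (v₁ w) = 0 ∧
        dot (deriv (fun w => grad F (p w)) w) (v₂ w) = 0) := by
  have hgp : DifferentiableOn ℂ (fun w => grad F (p w)) (ball w₁ r) :=
    (l2_differentiable_grad F).comp_differentiableOn hp
  have hgd : DifferentiableOn ℂ (deriv (fun w => grad F (p w))) (ball w₁ r) := hgp.deriv isOpen_ball
  refine gk_div hF isOpen_ball (gnnFrame F hF.1 hN hp hv₁ hv₂ cone indep tang₁ tang₂)
    (G₀ := fun w => dot (deriv (fun w => grad F (p w)) w) (v₁ w))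
    (G₁ := fun w => dot (deriv (fun w => grad F (p w)) w) (v₂ w))
    (gnn_dot_differentiableOn hgd hv₁) (gnn_dot_differentiableOn hgd hv₂) ?_ ?_ (hρ i)
    (k := fun w τ => c w * ∏ j ∈ Finset.univ.erase i, (τ - ρ j w) ^ m j) ?_ (m := m i) ?_ ?_
  · intro w _ τ
    change dot (deriv (fun w => grad F (p w)) w) ((1 : ℂ) • v₁ w + τ • v₂ w) = 1 * _
    rw [gnn_dot_add, gnn_dot_smul, gnn_dot_smul]
    ring
  · intro w _
    have : {τ : ℂ | (gnnFrame F hF.1 hN hp hv₁ hv₂ cone indep tang₁ tang₂).κ w τ 1 = 0} = ∅ := by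
      ext τ
      simp [gnnFrame]
    rw [this]
    exact Set.finite_empty
  · have hfst : MapsTo (fun x : ℂ × ℂ => x.1) (ball w₁ r ×ˢ (univ : Set ℂ)) (ball w₁ r) :=
      fun x hx => hx.1
    refine (hc.comp differentiableOn_fst hfst).mul ?_
    have hj : ∀ j, DifferentiableOn ℂ
        (fun x : ℂ × ℂ => (x.2 - ρ j x.1) ^ m j) (ball w₁ r ×ˢ (univ : Set ℂ)) := fun j =>
      (differentiableOn_snd.sub ((hρ j).comp differentiableOn_fst hfst)).pow _
    have hu : ∀ u : Finset (Fin k), DifferentiableOn ℂ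
        (fun x : ℂ × ℂ => ∏ j ∈ u, (x.2 - ρ j x.1) ^ m j) (ball w₁ r ×ˢ (univ : Set ℂ)) := by
      intro u
      induction u using Finset.induction_on with
      | empty => simp
      | insert a s ha ih =>
        simp only [Finset.prod_insert ha]
        exact (hj a).mul ih
    exact hu _
  · intro w hw τ
    change lc F 3 (p w) ((1 : ℂ) • v₁ w + τ • v₂ w) ^ 2
      - 4 * lc F 2 (p w) ((1 : ℂ) • v₁ w + τ • v₂ w) * lc F 4 (p w) ((1 : ℂ) • v₁ w + τ • v₂ w) = _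
    have h1 := hfac w hw τ
    unfold f6 at h1
    rw [one_smul, h1, ← Finset.mul_prod_erase Finset.univ _ (Finset.mem_univ i)]
    ring
  · intro w hw
    refine mul_ne_zero (hc0 w hw) (Finset.prod_ne_zero_iff.2 fun j hj => pow_ne_zero _ ?_)
    rw [sub_ne_zero]
    intro h
    exact (Finset.ne_of_mem_erase hj) ((hinj w hw h).symm)

end Claimed.Agent.R245
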