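/-
Row 245 / S0484, GEO-LEG: Legendre normalisation, `gleg_leaf` cut into leaves.     Architect of this file: helper138 (statement `gleg_leaf`: helper30).   Prefix `glb`.
Inputs: `gnnFrame`, `gnn_gdot_p` (GeoNPat.lean), `gleg_homog`, `gleg_f6_smul`, `gleg_differentiable_f6` (GeoLegFam.lean), `gk_sqrt` (GeoKIb.lean), `ge_prop`, `gg_gauss_inf`, `ga_*`.

ROUTE (`r_j = rt j w`, `ρ = ρ₀ w`).   New frame `V₁ = (r₁ - r₂)(v₁ + r₀ v₂)`, `V₂ = (r₂ - r₀)(v₁ + r₁ v₂)`:   `U V₁ + T V₂ = M v₁ + N v₂`, `M = U (r₁ - r₂) + T (r₂ - r₀)`, `N = U (r₁ - r₂) r₀ + T (r₂ - r₀) r₁`.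
`f6 (p, U' v₁ + T' v₂) = c (T' - ρ U')² ∏ (T' - r_j U')` (`glb_homog6`), and   `N - r₀ M = T (r₂ - r₀)(r₁ - r₀)`, `N - r₁ M = U (r₁ - r₂)(r₀ - r₁)`, `N - r₂ M = (r₁ - r₂)(r₂ - r₀)(T - U)`, `N - r₃ M = (r₂ - r₀)(r₁ - r₃)(T - λ U)`, `N - ρ M = L₀ (T, U)`   (`glb_alg`).
`q = s L₀`, `s² = c K`.    `ġ · (U V₁ + T V₂) = G₁ L₀` because `G₀ + ρ G₁ = 0`: `J = G₁ / s`; `G₁` is not identically `0` (`hNR`): move the centre.

LEAVES (statements FROZEN; helper lemmas directly above the theorem):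
  GLB-ALG    glb_alg, glb_lam_ne0, glb_lam_ne1, glb_K_ne, glb_dir, glb_indep, glb_gauss      (pure algebra, ~150 lines)
  GLB-HOM    glb_homog6                                                                       (~60 lines, `gleg_homog`)
  GLB-GEN    glb_sq_simple, glb_gen                                                           (~150 lines)
  GLB-AN     glb_sqrt, glb_G_diff, glb_diff_q                                                 (~120 lines)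
-/
import Claimed.Agent.R245.GeoNPat
import Claimed.Agent.R245.GeoLegFam

set_option autoImplicit false

namespace Claimed.Agent.R245

open MvPolynomial Metric Set Filter Topology Claims.C0412

/-- the cross ratio -/
noncomputable def glbLam (r : Fin 4 → ℂ) : ℂ := (r 1 - r 2) * (r 3 - r 0) / ((r 2 - r 0) * (r 1 - r 3))

/-- the constant of the normalisation -/
def glbK (r : Fin 4 → ℂ) : ℂ :=
  (r 2 - r 0) * (r 1 - r 0) * ((r 1 - r 2) * (r 0 - r 1)) * ((r 1 - r 2) * (r 2 - r 0)) * ((r 2 - r 0) * (r 1 - r 3))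

/-- the linear form which vanishes at the double root -/
def glbL0 (r : Fin 4 → ℂ) (ρ T U : ℂ) : ℂ := U * ((r 1 - r 2) * (r 0 - ρ)) + T * ((r 2 - r 0) * (r 1 - ρ))

def glbM (r : Fin 4 → ℂ) (T U : ℂ) : ℂ := U * (r 1 - r 2) + T * (r 2 - r 0)

def glbNn (r : Fin 4 → ℂ) (T U : ℂ) : ℂ := U * ((r 1 - r 2) * r 0) + T * ((r 2 - r 0) * r 1)

/-! ### GLB-ALG -/

theorem glb_sub_ne {r : Fin 4 → ℂ} (hr : Function.Injective r) {i j : Fin 4} (h : i ≠ j) : r i - r j ≠ 0 :=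
  sub_ne_zero.2 fun e => h (hr e)

/-- (`Fin.prod_univ_four`, unfold, `field_simp`, `ring`; the denominators `r 2 - r 0`, `r 1 - r 3` are non zero by injectivity.) -/
theorem glb_alg {r : Fin 4 → ℂ} (hr : Function.Injective r) (c ρ T U : ℂ) :
    c * (glbNn r T U - ρ * glbM r T U) ^ 2 * ∏ j, (glbNn r T U - r j * glbM r T U)
      = c * glbK r * glbL0 r ρ T U ^ 2 * (T * U * (T - U) * (T - glbLam r * U)) := by
  have h20 : r 2 - r 0 ≠ 0 := glb_sub_ne hr (by decide)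
  have h13 : r 1 - r 3 ≠ 0 := glb_sub_ne hr (by decide)
  have hl : (r 2 - r 0) * (r 1 - r 3) * (T - glbLam r * U)
      = (r 2 - r 0) * (r 1 - r 3) * T - (r 1 - r 2) * (r 3 - r 0) * U := by
    unfold glbLam
    field_simp
  have e0 : glbNn r T U - r 0 * glbM r T U = T * ((r 2 - r 0) * (r 1 - r 0)) := by
    simp only [glbNn, glbM]; ring
  have e1 : glbNn r T U - r 1 * glbM r T U = U * ((r 1 - r 2) * (r 0 - r 1)) := by
    simp only [glbNn, glbM]; ring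
  have e2 : glbNn r T U - r 2 * glbM r T U = (r 1 - r 2) * (r 2 - r 0) * (T - U) := by
    simp only [glbNn, glbM]; ring
  have e3 : glbNn r T U - r 3 * glbM r T U = (r 2 - r 0) * (r 1 - r 3) * (T - glbLam r * U) := by
    rw [hl]
    simp only [glbNn, glbM]; ring
  have eρ : glbNn r T U - ρ * glbM r T U = glbL0 r ρ T U := by
    simp only [glbNn, glbM, glbL0]; ring
  rw [Fin.prod_univ_four, e0, e1, e2, e3, eρ]
  simp only [glbK]
  generalize glbL0 r ρ T U = L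
  generalize glbLam r = lam
  generalize r 2 - r 0 = a
  generalize r 1 - r 0 = b
  generalize r 1 - r 2 = d
  generalize r 0 - r 1 = e
  generalize r 1 - r 3 = f
  ring

theorem glb_lam_ne0 {r : Fin 4 → ℂ} (hr : Function.Injective r) : glbLam r ≠ 0 := by
  unfold glbLam
  exact div_ne_zero (mul_ne_zero (glb_sub_ne hr (by decide)) (glb_sub_ne hr (by decide)))
    (mul_ne_zero (glb_sub_ne hr (by decide)) (glb_sub_ne hr (by decide)))

/-- (`(r₁ - r₂)(r₃ - r₀) - (r₂ - r₀)(r₁ - r₃) = (r₁ - r₀)(r₃ - r₂)`.) -/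
theorem glb_lam_ne1 {r : Fin 4 → ℂ} (hr : Function.Injective r) : glbLam r ≠ 1 := by
  unfold glbLam
  have h20 : r 2 - r 0 ≠ 0 := glb_sub_ne hr (by decide)
  have h13 : r 1 - r 3 ≠ 0 := glb_sub_ne hr (by decide)
  have h10 : r 1 - r 0 ≠ 0 := glb_sub_ne hr (by decide)
  have h32 : r 3 - r 2 ≠ 0 := glb_sub_ne hr (by decide)
  intro h
  rw [div_eq_one_iff_eq (mul_ne_zero h20 h13)] at h
  exact mul_ne_zero h10 h32 (by linear_combination h)

theorem glb_K_ne {r : Fin 4 → ℂ} (hr : Function.Injective r) : glbK r ≠ 0 := by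
  unfold glbK
  have h : ∀ i j : Fin 4, i ≠ j → r i - r j ≠ 0 := fun i j hij => glb_sub_ne hr hij
  exact mul_ne_zero (mul_ne_zero (mul_ne_zero (mul_ne_zero (h 2 0 (by decide)) (h 1 0 (by decide)))
    (mul_ne_zero (h 1 2 (by decide)) (h 0 1 (by decide)))) (mul_ne_zero (h 1 2 (by decide)) (h 2 0 (by decide))))
    (mul_ne_zero (h 2 0 (by decide)) (h 1 3 (by decide)))

theorem glb_dir (r : Fin 4 → ℂ) (v₁ v₂ : V4) (T U : ℂ) :
    U • ((r 1 - r 2) • (v₁ + r 0 • v₂)) + T • ((r 2 - r 0) • (v₁ + r 1 • v₂))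
      = glbM r T U • v₁ + glbNn r T U • v₂ := by
  simp only [glbM, glbNn]
  module

/-- (the change of frame has determinant `(r₁ - r₂)(r₂ - r₀)(r₁ - r₀) ≠ 0`; `Fintype.linearIndependent_iff`, `Fin.sum_univ_three`.) -/
theorem glb_indep {r : Fin 4 → ℂ} (hr : Function.Injective r) {p v₁ v₂ : V4} (h : LinearIndependent ℂ ![p, v₁, v₂]) :
    LinearIndependent ℂ ![p, (r 1 - r 2) • (v₁ + r 0 • v₂), (r 2 - r 0) • (v₁ + r 1 • v₂)] := by
  rw [Fintype.linearIndependent_iff] at h ⊢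
  intro x hx
  rw [Fin.sum_univ_three] at hx
  simp only [Matrix.cons_val_zero, Matrix.cons_val_one, Matrix.cons_val_two, Matrix.head_cons, Matrix.tail_cons] at hx
  have h12 : r 1 - r 2 ≠ 0 := glb_sub_ne hr (by decide)
  have h20 : r 2 - r 0 ≠ 0 := glb_sub_ne hr (by decide)
  have h10 : r 1 - r 0 ≠ 0 := glb_sub_ne hr (by decide)
  have key := h ![x 0, x 1 * (r 1 - r 2) + x 2 * (r 2 - r 0), x 1 * (r 1 - r 2) * r 0 + x 2 * (r 2 - r 0) * r 1] (by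
    rw [Fin.sum_univ_three]
    simp only [Matrix.cons_val_zero, Matrix.cons_val_one, Matrix.cons_val_two, Matrix.head_cons, Matrix.tail_cons]
    rw [← hx]
    module)
  have k0 : x 0 = 0 := by simpa using key 0
  have k1 : x 1 * (r 1 - r 2) + x 2 * (r 2 - r 0) = 0 := by simpa using key 1
  have k2 : x 1 * (r 1 - r 2) * r 0 + x 2 * (r 2 - r 0) * r 1 = 0 := by simpa using key 2
  have e2 : x 2 * ((r 2 - r 0) * (r 1 - r 0)) = 0 := by linear_combination k2 - r 0 * k1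
  have x2 : x 2 = 0 := (mul_eq_zero.1 e2).resolve_right (mul_ne_zero h20 h10)
  have e1 : x 1 * (r 1 - r 2) = 0 := by rw [x2] at k1; simpa using k1
  have x1 : x 1 = 0 := (mul_eq_zero.1 e1).resolve_right h12
  intro i
  fin_cases i
  · exact k0
  · exact x1
  · exact x2

/-- (`glb_dir`, `gp_dot_add`, `gp_dot_smul`, then `linear_combination`.) -/
theorem glb_gauss (r : Fin 4 → ℂ) {ρ : ℂ} {gd v₁ v₂ : V4} (h : dot gd (v₁ + ρ • v₂) = 0) (T U : ℂ) :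
    dot gd (U • ((r 1 - r 2) • (v₁ + r 0 • v₂)) + T • ((r 2 - r 0) • (v₁ + r 1 • v₂))) = dot gd v₂ * glbL0 r ρ T U := by
  rw [gp_dot_add, gp_dot_smul] at h
  rw [glb_dir, gp_dot_add, gp_dot_smul, gp_dot_smul]
  simp only [glbM, glbNn, glbL0]
  linear_combination (U * (r 1 - r 2) + T * (r 2 - r 0)) * h

/-! ### GLB-HOM -/

/-- homogenisation of the factorisation.   (`gleg_homog` with `n = 6`, `f = f6 F p` (continuous: `gleg_differentiable_f6`; homogeneous: `gleg_f6_smul`), `g T U = c (T - ρ U)² ∏ (T - r_j U)`.) -/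
theorem glb_homog6 (F : MvPolynomial (Fin 4) ℂ) {p v₁ v₂ : V4} {c ρ : ℂ} {r : Fin 4 → ℂ}
    (h : ∀ τ : ℂ, f6 F p (v₁ + τ • v₂) = c * (τ - ρ) ^ 2 * ∏ j, (τ - r j)) (T U : ℂ) :
    f6 F p (U • v₁ + T • v₂) = c * (T - ρ * U) ^ 2 * ∏ j, (T - r j * U) := by
  have hf : Continuous fun v : V4 => f6 F p v := by
    have h1 : Continuous fun v : V4 => ((p, v) : V4 × V4) := by fun_prop
    have h0 := ((gleg_differentiable_f6 F).continuous).comp h1
    exact h0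
  have hh : ∀ (e : ℂ) (v : V4), f6 F p (e • v) = e ^ 6 * f6 F p v := fun e v => gleg_f6_smul F p v e
  obtain ⟨g, hg⟩ : ∃ g : ℂ → ℂ → ℂ, g = fun T U => c * (T - ρ * U) ^ 2 * ∏ j, (T - r j * U) := ⟨_, rfl⟩
  have hgc : ∀ T, Continuous fun U => g T U := by
    intro T
    rw [hg]
    fun_prop
  have hgh : ∀ e T U, g (e * T) (e * U) = e ^ 6 * g T U := by
    intro e T U
    rw [hg]
    simp only [Fin.prod_univ_four]
    ring
  have h1 : ∀ τ, f6 F p (v₁ + τ • v₂) = g τ 1 := by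
    intro τ
    rw [hg, h τ]
    simp only [mul_one]
  have := gleg_homog hf hh v₁ v₂ hgc hgh h1 T U
  rw [this, hg]

/-! ### GLB-GEN -/

/-- a square has no simple zero.   (`β 0 ^ 2 = 0`, so `β 0 = 0`; the derivative at `0` of `β ^ 2` is `2 β 0 β' 0 = 0`, that of `t ↦ h t * t` is `h 0`; `Filter.EventuallyEq.deriv_eq`.) -/
theorem glb_sq_simple {β h : ℂ → ℂ} (hβ : DifferentiableAt ℂ β 0) (hh : DifferentiableAt ℂ h 0)
    (e : ∀ᶠ t in 𝓝 (0 : ℂ), β t ^ 2 = h t * t) : h 0 = 0 := by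
  have h0 : β 0 = 0 := by
    have := e.self_of_nhds
    rw [mul_zero] at this
    exact pow_eq_zero_iff (two_ne_zero) |>.1 this
  have d1 : HasDerivAt (fun t => β t ^ 2) (deriv β 0 * β 0 + β 0 * deriv β 0) 0 := by
    have := hβ.hasDerivAt.mul hβ.hasDerivAt
    refine this.congr_of_eventuallyEq (Filter.Eventually.of_forall fun t => ?_)
    simp [sq]
  have d2 : HasDerivAt (fun t => h t * t) (deriv h 0 * 0 + h 0 * 1) 0 :=
    hh.hasDerivAt.mul (hasDerivAt_id (0 : ℂ))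
  have d3 : HasDerivAt (fun t => β t ^ 2) (deriv h 0 * 0 + h 0 * 1) 0 :=
    d2.congr_of_eventuallyEq e
  have := d1.unique d3
  rw [h0] at this
  simpa using this.symm

/-- **(gen)**: `A q` does not vanish identically.
Route: suppose `A (T, U) · s · (U ℓ₀ + T ℓ₁) = 0` for all `T, U`.   Case `ℓ₀ ≠ 0`: chart `U = 1`; `ℓ₀ + T ℓ₁ ≠ 0` for `T` near `0`, so `A (T, 1) = 0` there and `B (T, 1)² = [s² (ℓ₀ + T ℓ₁)² (T - 1)(T - λ)] · T`;
`glb_sq_simple` (`β T = lc F 3 p (1 • V₁ + T • V₂)` is differentiable: `ga_differentiable_lc`) gives `s² ℓ₀² λ = 0`: contradiction.     Case `ℓ₁ ≠ 0`: chart `T = 1`, `B (1, U)² = [s² (U ℓ₀ + ℓ₁)² (1 - U)(1 - λ U)] · U`, `s² ℓ₁² = 0`. -/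
theorem glb_gen (F : MvPolynomial (Fin 4) ℂ) (p V₁ V₂ : V4) {s lam ℓ₀ ℓ₁ : ℂ} (hs : s ≠ 0) (hlam : lam ≠ 0)
    (hℓ : ℓ₀ ≠ 0 ∨ ℓ₁ ≠ 0)
    (hleg : ∀ T U : ℂ, lc F 3 p (U • V₁ + T • V₂) ^ 2 - 4 * lc F 2 p (U • V₁ + T • V₂) * lc F 4 p (U • V₁ + T • V₂)
      = (s * (U * ℓ₀ + T * ℓ₁)) ^ 2 * (T * U * (T - U) * (T - lam * U))) :
    ∃ T U : ℂ, lc F 2 p (U • V₁ + T • V₂) * 1 * (s * (U * ℓ₀ + T * ℓ₁)) ≠ 0 := by
  by_contra hcon
  push Not at hcon
  have hA : ∀ T U : ℂ, U * ℓ₀ + T * ℓ₁ ≠ 0 → lc F 2 p (U • V₁ + T • V₂) = 0 := by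
    intro T U hne
    have := hcon T U
    rw [mul_one] at this
    exact (mul_eq_zero.1 this).resolve_right (mul_ne_zero hs hne)
  rcases hℓ with h0 | h1
  · have hβ : Differentiable ℂ (fun T : ℂ => lc F 3 p ((1 : ℂ) • V₁ + T • V₂)) :=
      (ga_differentiable_lc F 3).comp (f := fun T : ℂ => (p, (1 : ℂ) • V₁ + T • V₂)) (by fun_prop)
    have hh : Differentiable ℂ (fun T : ℂ => s ^ 2 * (ℓ₀ + T * ℓ₁) ^ 2 * (T - 1) * (T - lam)) := by
      fun_prop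
    have hc : ContinuousAt (fun T : ℂ => 1 * ℓ₀ + T * ℓ₁) 0 := by fun_prop
    have hev : ∀ᶠ T in 𝓝 (0 : ℂ), 1 * ℓ₀ + T * ℓ₁ ≠ 0 := hc.eventually_ne (by simpa using h0)
    have := glb_sq_simple (hβ 0) (hh 0) (by
      filter_upwards [hev] with T hT
      have h1 := hleg T 1
      rw [hA T 1 hT] at h1
      linear_combination h1)
    simp only [zero_mul, add_zero, zero_sub] at this
    have hne : s ^ 2 * ℓ₀ ^ 2 * -1 * -lam ≠ 0 :=
      mul_ne_zero (mul_ne_zero (mul_ne_zero (pow_ne_zero 2 hs) (pow_ne_zero 2 h0)) (by norm_num))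
        (neg_ne_zero.2 hlam)
    exact hne this
  · have hβ : Differentiable ℂ (fun U : ℂ => lc F 3 p (U • V₁ + (1 : ℂ) • V₂)) :=
      (ga_differentiable_lc F 3).comp (f := fun U : ℂ => (p, U • V₁ + (1 : ℂ) • V₂)) (by fun_prop)
    have hh : Differentiable ℂ (fun U : ℂ => s ^ 2 * (U * ℓ₀ + ℓ₁) ^ 2 * (1 - U) * (1 - lam * U)) := by
      fun_prop
    have hc : ContinuousAt (fun U : ℂ => U * ℓ₀ + 1 * ℓ₁) 0 := by fun_prop
    have hev : ∀ᶠ U in 𝓝 (0 : ℂ), U * ℓ₀ + 1 * ℓ₁ ≠ 0 := hc.eventually_ne (by simpa using h1)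
    have := glb_sq_simple (hβ 0) (hh 0) (by
      filter_upwards [hev] with U hU
      have h1 := hleg 1 U
      rw [hA 1 U hU] at h1
      linear_combination h1)
    simp only [zero_mul, zero_add, sub_zero, mul_zero, mul_one] at this
    exact mul_ne_zero (pow_ne_zero 2 hs) (pow_ne_zero 2 h1) this

/-! ### GLB-AN -/

/-- local holomorphic square root in one variable.   (`gk_sqrt` for `x ↦ h x.1` at `(w₀, 0)`, then `s w = r (w, 0)`; or directly `exp (log (h w / h w₀) / 2) * a`, `a² = h w₀`.) -/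
theorem glb_sqrt {h : ℂ → ℂ} {w₀ : ℂ} {Ω : Set ℂ} (hΩ : Ω ∈ 𝓝 w₀) (hh : DifferentiableOn ℂ h Ω) (h0 : h w₀ ≠ 0) :
    ∃ (ε : ℝ) (s : ℂ → ℂ), 0 < ε ∧ ball w₀ ε ⊆ Ω ∧ DifferentiableOn ℂ s (ball w₀ ε) ∧ ∀ w ∈ ball w₀ ε, s w ^ 2 = h w := by
  have hΩ₀ : Ω ×ˢ (univ : Set ℂ) ∈ 𝓝 (w₀, (0 : ℂ)) := prod_mem_nhds hΩ univ_mem
  have hh' : DifferentiableOn ℂ (fun x : ℂ × ℂ => h x.1) (Ω ×ˢ (univ : Set ℂ)) :=
    hh.comp differentiableOn_fst (fun x hx => hx.1)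
  obtain ⟨ε, r, hε, hsub, hr, hr2⟩ := gk_sqrt hΩ₀ hh' h0
  have hmem : ∀ w ∈ ball w₀ ε, (w, (0 : ℂ)) ∈ ball (w₀, (0 : ℂ)) ε := by
    intro w hw
    rw [mem_ball, Prod.dist_eq, dist_self, max_lt_iff]
    exact ⟨hw, hε⟩
  refine ⟨ε, fun w => r (w, 0), hε, fun w hw => (hsub (hmem w hw)).1, ?_, fun w hw => hr2 _ (hmem w hw)⟩
  exact hr.comp (differentiableOn_id.prodMk (differentiableOn_const 0)) hmem

/-- `w ↦ ġ (w) · v (w)` is holomorphic.   (`l2_differentiable_grad`, `DifferentiableOn.deriv` on the o-p-e-n set, `differentiableOn_pi`, finite sum of products.) -/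
theorem glb_G_diff (F : MvPolynomial (Fin 4) ℂ) {S : Set ℂ} (hS : IsOpen S) {p v : ℂ → V4} (hp : DifferentiableOn ℂ p S)
    (hv : DifferentiableOn ℂ v S) :
    DifferentiableOn ℂ (fun w => dot (deriv (fun w => grad F (p w)) w) (v w)) S := by
  have hgp : DifferentiableOn ℂ (fun w => grad F (p w)) S :=
    (l2_differentiable_grad F).comp_differentiableOn hp
  exact gnn_dot_differentiableOn (hgp.deriv hS) hv

theorem glb_diff_q {S : Set ℂ} {s ρ₀ : ℂ → ℂ} {rt : Fin 4 → ℂ → ℂ} (hs : DifferentiableOn ℂ s S)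
    (hρ₀ : DifferentiableOn ℂ ρ₀ S) (hrt : ∀ j, DifferentiableOn ℂ (rt j) S) :
    DifferentiableOn ℂ (fun x : ℂ × ℂ × ℂ => s x.1 * glbL0 (fun j => rt j x.1) (ρ₀ x.1) x.2.1 x.2.2) (S ×ˢ univ) := by
  have hfst : MapsTo (fun x : ℂ × ℂ × ℂ => x.1) (S ×ˢ (univ : Set (ℂ × ℂ))) S := fun x hx => hx.1
  have hs' : DifferentiableOn ℂ (fun x : ℂ × ℂ × ℂ => s x.1) (S ×ˢ univ) := hs.comp differentiableOn_fst hfst
  have hρ' : DifferentiableOn ℂ (fun x : ℂ × ℂ × ℂ => ρ₀ x.1) (S ×ˢ univ) := hρ₀.comp differentiableOn_fst hfst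
  have hr' : ∀ j, DifferentiableOn ℂ (fun x : ℂ × ℂ × ℂ => rt j x.1) (S ×ˢ univ) := fun j =>
    (hrt j).comp differentiableOn_fst hfst
  have hT : DifferentiableOn ℂ (fun x : ℂ × ℂ × ℂ => x.2.1) (S ×ˢ univ) :=
    (differentiable_fst.comp differentiable_snd).differentiableOn
  have hU : DifferentiableOn ℂ (fun x : ℂ × ℂ × ℂ => x.2.2) (S ×ˢ univ) :=
    (differentiable_snd.comp differentiable_snd).differentiableOn
  unfold glbL0
  exact hs'.mul ((hU.mul (((hr' 1).sub (hr' 2)).mul ((hr' 0).sub hρ'))).add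
    (hT.mul (((hr' 2).sub (hr' 0)).mul ((hr' 1).sub hρ'))))

/-! ### the glue -/

/-- the Legendre form of the discriminant in the new frame, at one point -/
theorem glb_legendre (F : MvPolynomial (Fin 4) ℂ) {p v₁ v₂ : V4} {c ρ s : ℂ} {r : Fin 4 → ℂ} (hr : Function.Injective r)
    (h : ∀ τ : ℂ, f6 F p (v₁ + τ • v₂) = c * (τ - ρ) ^ 2 * ∏ j, (τ - r j)) (hs : s ^ 2 = c * glbK r) (T U : ℂ) :
    f6 F p (U • ((r 1 - r 2) • (v₁ + r 0 • v₂)) + T • ((r 2 - r 0) • (v₁ + r 1 • v₂)))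
      = (s * glbL0 r ρ T U) ^ 2 * (T * U * (T - U) * (T - glbLam r * U)) := by
  rw [glb_dir, glb_homog6 F h, glb_alg hr, mul_pow, hs]

/-- `G₁` does not vanish identically -/
theorem glb_G1 {F : MvPolynomial (Fin 4) ℂ} (hF : IsSmoothQuarticForm F) {w₁ : ℂ} {r : ℝ} {p v₁ v₂ : ℂ → V4}
    (hp : DifferentiableOn ℂ p (ball w₁ r)) (cone : ∀ w ∈ ball w₁ r, p w ∈ Cone F)
    (indep : ∀ w ∈ ball w₁ r, LinearIndependent ℂ ![p w, v₁ w, v₂ w])
    (tang₁ : ∀ w ∈ ball w₁ r, dot (grad F (p w)) (v₁ w) = 0) (tang₂ : ∀ w ∈ ball w₁ r, dot (grad F (p w)) (v₂ w) = 0)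
    {ρ₀ : ℂ → ℂ} (hG : ∀ w ∈ ball w₁ r, dot (deriv (fun w => grad F (p w)) w) (v₁ w + ρ₀ w • v₂ w) = 0)
    (hNR : ¬ ∀ w ∈ ball w₁ r, ∀ w' ∈ ball w₁ r, ∃ a : ℂ, p w' = a • p w) :
    ∃ w₀ ∈ ball w₁ r, dot (deriv (fun w => grad F (p w)) w₀) (v₂ w₀) ≠ 0 := by
  by_contra hcon
  push Not at hcon
  refine hNR (gg_gauss_inf F hF isOpen_ball (convex_ball w₁ r).isPreconnected hp cone fun w hw => ?_)
  have h2 := hcon w hw
  have h1 : dot (deriv (fun w => grad F (p w)) w) (v₁ w) = 0 := by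
    have := hG w hw
    rw [gp_dot_add, gp_dot_smul, h2, mul_zero, add_zero] at this
    exact this
  exact ge_prop (indep w hw) (l2_grad_ne_zero hF (cone w hw))
    (by rw [l2_euler hF.1, (cone w hw).2, mul_zero]) (tang₁ w hw) (tang₂ w hw)
    (gnn_gdot_p hF.1 isOpen_ball hp cone hw) h1 h2

/-- **GEO-LEG.**  (Statement of `gleg_leaf`.) -/
theorem glb_leaf (F : MvPolynomial (Fin 4) ℂ) (hF : IsSmoothQuarticForm F) (hline : ¬ HasLine F)
    {w₁ : ℂ} {r : ℝ} (_hr : 0 < r) {p v₁ v₂ : ℂ → V4}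
    (hp : DifferentiableOn ℂ p (ball w₁ r)) (hv₁ : DifferentiableOn ℂ v₁ (ball w₁ r))
    (hv₂ : DifferentiableOn ℂ v₂ (ball w₁ r))
    (cone : ∀ w ∈ ball w₁ r, p w ∈ Cone F)
    (indep : ∀ w ∈ ball w₁ r, LinearIndependent ℂ ![p w, v₁ w, v₂ w])
    (tang₁ : ∀ w ∈ ball w₁ r, dot (grad F (p w)) (v₁ w) = 0)
    (tang₂ : ∀ w ∈ ball w₁ r, dot (grad F (p w)) (v₂ w) = 0)
    {c ρ₀ : ℂ → ℂ} {rt : Fin 4 → ℂ → ℂ}
    (hc : DifferentiableOn ℂ c (ball w₁ r)) (hρ₀ : DifferentiableOn ℂ ρ₀ (ball w₁ r))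
    (hrt : ∀ j, DifferentiableOn ℂ (rt j) (ball w₁ r))
    (hc0 : ∀ w ∈ ball w₁ r, c w ≠ 0)
    (hinj : ∀ w ∈ ball w₁ r, Function.Injective fun j => rt j w)
    (hf6 : ∀ w ∈ ball w₁ r, ∀ τ : ℂ,
      f6 F (p w) (v₁ w + τ • v₂ w) = c w * (τ - ρ₀ w) ^ 2 * ∏ j, (τ - rt j w))
    (hG : ∀ w ∈ ball w₁ r, dot (deriv (fun w => grad F (p w)) w) (v₁ w + ρ₀ w • v₂ w) = 0)
    (hNR : ¬ ∀ w ∈ ball w₁ r, ∀ w' ∈ ball w₁ r, ∃ a : ℂ, p w' = a • p w) :
    ∃ (w₀ : ℂ) (b : ℝ) (L : LeafData F w₀ b), ball w₀ b ⊆ ball w₁ r ∧ L.d = 2 ∧ L.p = p ∧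
      (∀ w, L.v₁ w = (rt 1 w - rt 2 w) • (v₁ w + rt 0 w • v₂ w)) ∧
      (∀ w, L.v₂ w = (rt 2 w - rt 0 w) • (v₁ w + rt 1 w • v₂ w)) ∧
      (∀ w T U, L.κ w T U = 1) ∧
      (∀ w T U, L.A w T U = lc F 2 (p w) (U • L.v₁ w + T • L.v₂ w)) ∧
      (∀ w T U, L.B w T U = lc F 3 (p w) (U • L.v₁ w + T • L.v₂ w)) ∧
      (∀ w T U, L.C w T U = lc F 4 (p w) (U • L.v₁ w + T • L.v₂ w)) := by
  obtain ⟨w₀, hw₀, hG1⟩ := glb_G1 hF hp cone indep tang₁ tang₂ hG hNR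
  -- the functions
  have hKd : DifferentiableOn ℂ (fun w => c w * glbK (fun j => rt j w)) (ball w₁ r) := by
    unfold glbK
    have h := hrt
    exact hc.mul ((((((h 2).sub (h 0)).mul ((h 1).sub (h 0))).mul (((h 1).sub (h 2)).mul ((h 0).sub (h 1)))).mul
      (((h 1).sub (h 2)).mul ((h 2).sub (h 0)))).mul (((h 2).sub (h 0)).mul ((h 1).sub (h 3))))
  obtain ⟨ε, s, hε, hεsub, hsd, hs2⟩ := glb_sqrt (isOpen_ball.mem_nhds hw₀) hKd
    (mul_ne_zero (hc0 w₀ hw₀) (glb_K_ne (hinj w₀ hw₀)))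
  have hG1c : ContinuousAt (fun w => dot (deriv (fun w => grad F (p w)) w) (v₂ w)) w₀ :=
    ((glb_G_diff F isOpen_ball hp hv₂).differentiableAt (isOpen_ball.mem_nhds hw₀)).continuousAt
  obtain ⟨b₁, hb₁, hb₁ne⟩ := Metric.eventually_nhds_iff_ball.1 (hG1c.eventually_ne hG1)
  set b : ℝ := min ε b₁ with hb
  have hbpos : 0 < b := lt_min hε hb₁
  have hsub : ball w₀ b ⊆ ball w₁ r := (ball_subset_ball (min_le_left _ _)).trans hεsub
  have hsubε : ball w₀ b ⊆ ball w₀ ε := ball_subset_ball (min_le_left _ _)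
  have hs0 : ∀ w ∈ ball w₀ b, s w ≠ 0 := fun w hw h0 => by
    have := hs2 w (hsubε hw)
    rw [h0] at this
    exact mul_ne_zero (hc0 w (hsub hw)) (glb_K_ne (hinj w (hsub hw))) (by simpa using this.symm)
  have hV₁ : DifferentiableOn ℂ (fun w => (rt 1 w - rt 2 w) • (v₁ w + rt 0 w • v₂ w)) (ball w₀ b) :=
    (((hrt 1).sub (hrt 2)).smul (hv₁.add ((hrt 0).smul hv₂))).mono hsub
  have hV₂ : DifferentiableOn ℂ (fun w => (rt 2 w - rt 0 w) • (v₁ w + rt 1 w • v₂ w)) (ball w₀ b) :=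
    (((hrt 2).sub (hrt 0)).smul (hv₁.add ((hrt 1).smul hv₂))).mono hsub
  have hleg : ∀ w ∈ ball w₀ b, ∀ T U : ℂ,
      f6 F (p w) (U • ((rt 1 w - rt 2 w) • (v₁ w + rt 0 w • v₂ w)) + T • ((rt 2 w - rt 0 w) • (v₁ w + rt 1 w • v₂ w)))
        = (s w * glbL0 (fun j => rt j w) (ρ₀ w) T U) ^ 2 * (T * U * (T - U) * (T - glbLam (fun j => rt j w) * U)) :=
    fun w hw T U => glb_legendre F (r := fun j => rt j w) (hinj w (hsub hw)) (hf6 w (hsub hw)) (hs2 w (hsubε hw)) T U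
  have hsm : ∀ (k : ℕ) (w a T U : ℂ) (x y : V4), lc F k (p w) ((a * U) • x + (a * T) • y)
      = a ^ k * lc F k (p w) (U • x + T • y) := fun k w a T U x y => by
    rw [← gleg_lc_smul]
    congr 1
    module
  let L : LeafData F w₀ b :=
    { toFrameData := gnnFrame F hF.1 hline (hp.mono hsub) hV₁ hV₂ (fun w hw => cone w (hsub hw))
        (fun w hw => glb_indep (r := fun j => rt j w) (hinj w (hsub hw)) (indep w (hsub hw)))
        (fun w hw => by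
          rw [gp_dot_smul, gp_dot_add, gp_dot_smul, tang₁ w (hsub hw), tang₂ w (hsub hw)]; ring)
        (fun w hw => by
          rw [gp_dot_smul, gp_dot_add, gp_dot_smul, tang₁ w (hsub hw), tang₂ w (hsub hw)]; ring)
      q := fun w T U => s w * glbL0 (fun j => rt j w) (ρ₀ w) T U
      lam := fun w => glbLam (fun j => rt j w)
      J := fun w => dot (deriv (fun w => grad F (p w)) w) (v₂ w) / s w
      d := 2
      b_pos := hbpos
      d_pos := by norm_num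
      d_le := le_rfl
      hq := glb_diff_q (hsd.mono hsubε) (hρ₀.mono hsub) (fun j => (hrt j).mono hsub)
      hlam := by
        unfold glbLam
        refine ((((hrt 1).sub (hrt 2)).mul ((hrt 3).sub (hrt 0))).div
          (((hrt 2).sub (hrt 0)).mul ((hrt 1).sub (hrt 3))) fun w hw => ?_).mono hsub
        exact mul_ne_zero (sub_ne_zero.2 fun h => by simpa using hinj w hw h)
          (sub_ne_zero.2 fun h => by simpa using hinj w hw h)
      lam_ne0 := fun w hw => glb_lam_ne0 (hinj w (hsub hw))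
      lam_ne1 := fun w hw => glb_lam_ne1 (hinj w (hsub hw))
      homA := fun w _ a T U => hsm 2 w a T U _ _
      homB := fun w _ a T U => hsm 3 w a T U _ _
      homC := fun w _ a T U => hsm 4 w a T U _ _
      homκ := fun w _ a T U => by simp [gnnFrame]
      homq := fun w _ a T U => by
        simp only [glbL0]
        ring
      legendre := fun w hw T U => hleg w hw T U
      gauss := fun w hw T U => by
        have h1 := glb_gauss (fun j => rt j w) (hG w (hsub hw)) T U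
        have h2 : (dot (deriv (fun w => grad F (p w)) w) (v₂ w) / s w) * 1 * (s w * glbL0 (fun j => rt j w) (ρ₀ w) T U)
            = dot (deriv (fun w => grad F (p w)) w) (v₂ w) * glbL0 (fun j => rt j w) (ρ₀ w) T U := by
          field_simp [hs0 w hw]
        exact h1.trans h2.symm
      J_ne := fun w hw => div_ne_zero (hb₁ne w (ball_subset_ball (min_le_right _ _) hw)) (hs0 w hw)
      gen := fun w hw => by
        refine glb_gen F (p w) _ _ (hs0 w hw) (glb_lam_ne0 (hinj w (hsub hw)))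
          (ℓ₀ := (rt 1 w - rt 2 w) * (rt 0 w - ρ₀ w)) (ℓ₁ := (rt 2 w - rt 0 w) * (rt 1 w - ρ₀ w)) ?_
          (fun T U => hleg w hw T U)
        by_contra hcon
        push Not at hcon
        have h12 : rt 1 w - rt 2 w ≠ 0 := sub_ne_zero.2 fun h => by simpa using hinj w (hsub hw) h
        have h20 : rt 2 w - rt 0 w ≠ 0 := sub_ne_zero.2 fun h => by simpa using hinj w (hsub hw) h
        have e0 := (mul_eq_zero.1 hcon.1).resolve_left h12
        have e1 := (mul_eq_zero.1 hcon.2).resolve_left h20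
        have : rt 0 w = rt 1 w := by linear_combination e0 - e1
        simpa using hinj w (hsub hw) this }
  exact ⟨w₀, b, L, hsub, rfl, rfl, fun _ => rfl, fun _ => rfl, fun _ _ _ => rfl, fun _ _ _ => rfl,
    fun _ _ _ => rfl, fun _ _ _ => rfl⟩

/-- **GEO-LEG**, under the name used by the consumer `gn_leaf` (GeoN.lean). -/
theorem gleg_leaf (F : MvPolynomial (Fin 4) ℂ) (hF : IsSmoothQuarticForm F) (hline : ¬ HasLine F)
    {w₁ : ℂ} {r : ℝ} (hr : 0 < r) {p v₁ v₂ : ℂ → V4}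
    (hp : DifferentiableOn ℂ p (ball w₁ r)) (hv₁ : DifferentiableOn ℂ v₁ (ball w₁ r))
    (hv₂ : DifferentiableOn ℂ v₂ (ball w₁ r))
    (cone : ∀ w ∈ ball w₁ r, p w ∈ Cone F)
    (indep : ∀ w ∈ ball w₁ r, LinearIndependent ℂ ![p w, v₁ w, v₂ w])
    (tang₁ : ∀ w ∈ ball w₁ r, dot (grad F (p w)) (v₁ w) = 0)
    (tang₂ : ∀ w ∈ ball w₁ r, dot (grad F (p w)) (v₂ w) = 0)
    {c ρ₀ : ℂ → ℂ} {rt : Fin 4 → ℂ → ℂ}
    (hc : DifferentiableOn ℂ c (ball w₁ r)) (hρ₀ : DifferentiableOn ℂ ρ₀ (ball w₁ r))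
    (hrt : ∀ j, DifferentiableOn ℂ (rt j) (ball w₁ r))
    (hc0 : ∀ w ∈ ball w₁ r, c w ≠ 0)
    (hinj : ∀ w ∈ ball w₁ r, Function.Injective fun j => rt j w)
    (hf6 : ∀ w ∈ ball w₁ r, ∀ τ : ℂ,
      f6 F (p w) (v₁ w + τ • v₂ w) = c w * (τ - ρ₀ w) ^ 2 * ∏ j, (τ - rt j w))
    (hG : ∀ w ∈ ball w₁ r, dot (deriv (fun w => grad F (p w)) w) (v₁ w + ρ₀ w • v₂ w) = 0)
    (hNR : ¬ ∀ w ∈ ball w₁ r, ∀ w' ∈ ball w₁ r, ∃ a : ℂ, p w' = a • p w) :
    ∃ (w₀ : ℂ) (b : ℝ) (L : LeafData F w₀ b), ball w₀ b ⊆ ball w₁ r ∧ L.d = 2 ∧ L.p = p ∧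
      (∀ w, L.v₁ w = (rt 1 w - rt 2 w) • (v₁ w + rt 0 w • v₂ w)) ∧
      (∀ w, L.v₂ w = (rt 2 w - rt 0 w) • (v₁ w + rt 1 w • v₂ w)) ∧
      (∀ w T U, L.κ w T U = 1) ∧
      (∀ w T U, L.A w T U = lc F 2 (p w) (U • L.v₁ w + T • L.v₂ w)) ∧
      (∀ w T U, L.B w T U = lc F 3 (p w) (U • L.v₁ w + T • L.v₂ w)) ∧
      (∀ w T U, L.C w T U = lc F 4 (p w) (U • L.v₁ w + T • L.v₂ w)) :=
  glb_leaf F hF hline hr hp hv₁ hv₂ cone indep tang₁ tang₂ hc hρ₀ hrt hc0 hinj hf6 hG hNR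

end Claimed.Agent.R245
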