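/-
Row 245 / S0484, GEO block 4 = GEO-MULT (sub-architect helper139).   Package R6: a discriminant for binary sextics.   MATHLIB ONLY, no paper.
`bsx c T U = ∑ c_i T^i U^(6-i)`;  `R6 c = Res_{5,5} (∂_T f (X,1), ∂_U f (X,1))` (Sylvester determinant, `Polynomial.resultant` with formal degrees `5, 5`).
Facts: `R6 c = 0 ↔` the two partial derivatives have a common projective zero (`MultRoot c`);  `R6 (a c) = a^10 R6 c`;  `R6 (c ∘ M) = (det M)^30 R6 c`.
The covariance costs nothing:  `t ↦ R6 (c ∘ u_t)` (`u_t` unipotent) is a POLYNOMIAL in `t` (naturality `r6g_map` with `R = ℂ[X]`) which has no zero if `R6 c ≠ 0` (by `r6_zero_iff` and the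
invariance of `MultRoot`), hence it is constant (`ℂ` algebraically closed);  `SL₂` is generated by unipotents;  scalars act by homogeneity.
Statements FROZEN; several owners: touch only your theorems; helper lemmas directly above your theorem with the prefix given in the subtask.
-/
import Mathlib

set_option autoImplicit false

namespace Claimed.Agent.R245

open Polynomial

/-- the binary sextic with coefficient vector `c` -/
noncomputable def bsx (c : Fin 7 → ℂ) (T U : ℂ) : ℂ := ∑ i : Fin 7, c i * T ^ (i : ℕ) * U ^ (6 - (i : ℕ))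

/-- its derivative with respect to `T` -/
noncomputable def bsxT (c : Fin 7 → ℂ) (T U : ℂ) : ℂ :=
  ∑ i : Fin 6, (((i : ℕ) + 1 : ℕ) : ℂ) * c i.succ * T ^ (i : ℕ) * U ^ (5 - (i : ℕ))

/-- its derivative with respect to `U` -/
noncomputable def bsxU (c : Fin 7 → ℂ) (T U : ℂ) : ℂ :=
  ∑ i : Fin 6, ((6 - (i : ℕ) : ℕ) : ℂ) * c i.castSucc * T ^ (i : ℕ) * U ^ (5 - (i : ℕ))

/-- the two partial derivatives have a common projective zero (`⇔` multiple root, or `c = 0`) -/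
def MultRoot (c : Fin 7 → ℂ) : Prop := ∃ T U : ℂ, (T ≠ 0 ∨ U ≠ 0) ∧ bsxT c T U = 0 ∧ bsxU c T U = 0

section generic

variable {R S : Type*} [CommRing R] [CommRing S]

/-- `∂_T f (X, 1)`, over any commutative ring -/
noncomputable def r6A (c : Fin 7 → R) : R[X] := ∑ i : Fin 6, C ((((i : ℕ) + 1 : ℕ) : R) * c i.succ) * X ^ (i : ℕ)

/-- `∂_U f (X, 1)`, over any commutative ring -/
noncomputable def r6B (c : Fin 7 → R) : R[X] := ∑ i : Fin 6, C (((6 - (i : ℕ) : ℕ) : R) * c i.castSucc) * X ^ (i : ℕ)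

/-- the resultant with formal degrees `(5, 5)` -/
noncomputable def R6g (c : Fin 7 → R) : R := resultant (r6A c) (r6B c) 5 5

/-- **R6-A.** naturality (`Polynomial.resultant_map_map`, `Polynomial.map_sum`). -/
theorem r6g_map (φ : R →+* S) (c : Fin 7 → R) : φ (R6g c) = R6g (fun i => φ (c i)) := by
  have hA : (r6A c).map φ = r6A (fun i => φ (c i)) := by
    simp only [r6A, Polynomial.map_sum, Polynomial.map_mul, Polynomial.map_pow, map_C, map_X,
      _root_.map_mul, map_natCast, Polynomial.map_natCast]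
  have hB : (r6B c).map φ = r6B (fun i => φ (c i)) := by
    simp only [r6B, Polynomial.map_sum, Polynomial.map_mul, Polynomial.map_pow, map_C, map_X,
      _root_.map_mul, map_natCast, Polynomial.map_natCast]
  unfold R6g
  rw [← hA, ← hB, resultant_map_map]

end generic

/-- the discriminant of a binary sextic (up to a constant factor) -/
noncomputable def R6 (c : Fin 7 → ℂ) : ℂ := R6g c

theorem R6_eq (c : Fin 7 → ℂ) : R6 c = R6g c := rfl

-- `R6` is irreducible from here on (the unifier must not unfold a `10 × 10` determinant): use `rw [R6_eq]`.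
attribute [irreducible] R6

/-- **R6-A.**  `R6` along a polynomial family is a polynomial (`Q = R6g q`, `r6g_map (evalRingHom t)`). -/
theorem r6_poly (q : Fin 7 → ℂ[X]) : ∃ Q : ℂ[X], ∀ t : ℂ, R6 (fun i => (q i).eval t) = Q.eval t := by
  refine ⟨R6g q, fun t => ?_⟩
  rw [R6_eq]
  exact (r6g_map (evalRingHom t) q).symm

/-- **R6-A.**  `R6` is a polynomial function of the coefficients, hence holomorphic.
(`R6 c = MvPolynomial.eval c (R6g fun i => MvPolynomial.X i)` by `r6g_map`, and evaluation of an `MvPolynomial` is differentiable by `MvPolynomial.induction_on`; or expand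
`Matrix.det_apply` and use `Differentiable.finset_sum / finset_prod`; every entry of `sylvester` is `0` or a coefficient of `r6A c`, `r6B c`, which is linear in `c`.) -/
theorem r6a_eval_differentiable (p : MvPolynomial (Fin 7) ℂ) :
    Differentiable ℂ (fun c : Fin 7 → ℂ => MvPolynomial.eval c p) := by
  induction p using MvPolynomial.induction_on with
  | C a => simp
  | add p q hp hq =>
    simp only [_root_.map_add]
    exact hp.fun_add hq
  | mul_X p i hp =>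
    have hi : Differentiable ℂ (fun c : Fin 7 → ℂ => c i) := differentiable_apply i
    simp only [_root_.map_mul, MvPolynomial.eval_X]
    exact hp.fun_mul hi

theorem r6_differentiable : Differentiable ℂ R6 := by
  have h : R6 = fun c : Fin 7 → ℂ => MvPolynomial.eval c (R6g fun i => MvPolynomial.X i) := by
    funext c
    rw [R6_eq, r6g_map (MvPolynomial.eval c)]
    simp
  rw [h]
  exact r6a_eval_differentiable _

/-- **R6-A.**  homogeneity of degree `10` (`r6A (a • c) = C a * r6A c`, `resultant_C_mul_left`, `resultant_C_mul_right`). -/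
theorem r6_smul (a : ℂ) (c : Fin 7 → ℂ) : R6 (a • c) = a ^ 10 * R6 c := by
  have hA : r6A (a • c) = C a * r6A c := by
    simp only [r6A, Finset.mul_sum, Pi.smul_apply, smul_eq_mul]
    refine Finset.sum_congr rfl fun i _ => ?_
    rw [← mul_assoc (C a), ← C_mul]
    congr 2
    ring
  have hB : r6B (a • c) = C a * r6B c := by
    simp only [r6B, Finset.mul_sum, Pi.smul_apply, smul_eq_mul]
    refine Finset.sum_congr rfl fun i _ => ?_
    rw [← mul_assoc (C a), ← C_mul]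
    congr 2
    ring
  rw [R6_eq, R6_eq]
  unfold R6g
  rw [hA, hB, resultant_C_mul_left, resultant_C_mul_right]
  ring

/-- **R6-B.**  The zero set of `R6`.
Route.  `A = r6A c`, `B = r6B c`, `natDegree ≤ 5`, `A.eval τ = bsxT c τ 1`, `B.eval τ = bsxU c τ 1`, `A.coeff 5 = bsxT c 1 0`, `B.coeff 5 = bsxU c 1 0`; `bsxT, bsxU` are homogeneous of degree `5` in `(T, U)`.
* both `coeff 5 = 0`: `resultant_eq_zero_of_lt_lt` (if `natDegree < 5`), and `(T, U) = (1, 0)` is a common zero.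
* `A.coeff 5 ≠ 0` (`natDegree A = 5`): with `n = natDegree B`, `resultant_add_right_deg`: `Res_{5,5} = (A.coeff 5)^(5-n) * Res_{5,n}`, `Res_{5,n} = resultant A B`;
  `resultant_eq_zero_iff`: `= 0 ↔ ¬ IsCoprime A B`; over `ℂ`: not coprime `↔` common root (`Polynomial.isCoprime_iff_aeval_ne_zero_of_isAlgClosed` or `EuclideanDomain.gcd` + `IsAlgClosed.exists_root`).  `(1,0)` is not a common zero.
* `B.coeff 5 ≠ 0`: symmetric (`resultant_comm` or `resultant_add_left_deg`). -/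
theorem r6b_natDegree_lt {A : ℂ[X]} {n : ℕ} (hA : A.natDegree ≤ n + 1) (h0 : A.coeff (n + 1) = 0) :
    A.natDegree < n + 1 := by
  rcases hA.lt_or_eq with h | h
  · exact h
  · exfalso
    have h1 : A.leadingCoeff = 0 := by rw [leadingCoeff, h, h0]
    rw [leadingCoeff_eq_zero] at h1
    rw [h1, natDegree_zero] at h
    omega

theorem r6b_half {A B : ℂ[X]} {n : ℕ} (hA : A.natDegree ≤ n) (hB : B.natDegree ≤ n)
    (h0 : A.coeff n ≠ 0) : resultant A B n n = 0 ↔ ∃ τ : ℂ, A.eval τ = 0 ∧ B.eval τ = 0 := by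
  have hAn : A.natDegree = n := le_antisymm hA (le_natDegree_of_ne_zero h0)
  have hA0 : A ≠ 0 := by
    rintro rfl
    simp at h0
  obtain ⟨k, hk⟩ : ∃ k, n = B.natDegree + k := ⟨n - B.natDegree, by omega⟩
  have h1 : resultant A B n n = A.coeff n ^ k * resultant A B := by
    conv_lhs => rw [show resultant A B n n = resultant A B n (B.natDegree + k) by rw [← hk]]
    rw [resultant_add_right_deg _ _ _ _ _ le_rfl, hAn]
  rw [h1, mul_eq_zero, or_iff_right (pow_ne_zero _ h0), resultant_eq_zero_iff,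
    Polynomial.isCoprime_iff_aeval_ne_zero_of_isAlgClosed (k := ℂ) ℂ A B]
  constructor
  · rintro ⟨-, h⟩
    push Not at h
    simpa using h
  · rintro ⟨τ, h2, h3⟩
    refine ⟨Or.inl hA0, ?_⟩
    push Not
    exact ⟨τ, by simpa using h2, by simpa using h3⟩

theorem r6b_res_iff {A B : ℂ[X]} {n : ℕ} (hA : A.natDegree ≤ n + 1) (hB : B.natDegree ≤ n + 1) :
    resultant A B (n + 1) (n + 1) = 0 ↔
      (A.coeff (n + 1) = 0 ∧ B.coeff (n + 1) = 0) ∨ ∃ τ : ℂ, A.eval τ = 0 ∧ B.eval τ = 0 := by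
  by_cases hA0 : A.coeff (n + 1) = 0
  · by_cases hB0 : B.coeff (n + 1) = 0
    · simp only [hA0, hB0, and_self, true_or, iff_true]
      exact resultant_eq_zero_of_lt_lt _ _ _ _ (r6b_natDegree_lt hA hA0) (r6b_natDegree_lt hB hB0)
    · rw [resultant_comm, mul_eq_zero, or_iff_right (pow_ne_zero _ (by norm_num)),
        r6b_half hB hA hB0]
      simp only [hB0, and_false, false_or]
      exact ⟨fun ⟨τ, h1, h2⟩ => ⟨τ, h2, h1⟩, fun ⟨τ, h1, h2⟩ => ⟨τ, h2, h1⟩⟩
  · rw [r6b_half hA hB hA0]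
    simp only [hA0, false_and, false_or]

theorem r6b_homT (c : Fin 7 → ℂ) (s T U : ℂ) : bsxT c (s * T) (s * U) = s ^ 5 * bsxT c T U := by
  unfold bsxT
  rw [Finset.mul_sum]
  refine Finset.sum_congr rfl fun i _ => ?_
  have hi : (i : ℕ) + (5 - (i : ℕ)) = 5 := by omega
  rw [mul_pow, mul_pow]
  calc _ = (s ^ (i : ℕ) * s ^ (5 - (i : ℕ))) * ((((i : ℕ) + 1 : ℕ) : ℂ) * c i.succ * T ^ (i : ℕ) * U ^ (5 - (i : ℕ))) := by ring
    _ = _ := by rw [← pow_add, hi]

theorem r6b_homU (c : Fin 7 → ℂ) (s T U : ℂ) : bsxU c (s * T) (s * U) = s ^ 5 * bsxU c T U := by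
  unfold bsxU
  rw [Finset.mul_sum]
  refine Finset.sum_congr rfl fun i _ => ?_
  have hi : (i : ℕ) + (5 - (i : ℕ)) = 5 := by omega
  rw [mul_pow, mul_pow]
  calc _ = (s ^ (i : ℕ) * s ^ (5 - (i : ℕ))) * (((6 - (i : ℕ) : ℕ) : ℂ) * c i.castSucc * T ^ (i : ℕ) * U ^ (5 - (i : ℕ))) := by ring
    _ = _ := by rw [← pow_add, hi]

theorem r6b_evalA (c : Fin 7 → ℂ) (τ : ℂ) : (r6A c).eval τ = bsxT c τ 1 := by
  simp [r6A, bsxT, eval_finsetSum]

theorem r6b_evalB (c : Fin 7 → ℂ) (τ : ℂ) : (r6B c).eval τ = bsxU c τ 1 := by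
  simp [r6B, bsxU, eval_finsetSum]

theorem r6b_degA (c : Fin 7 → ℂ) : (r6A c).natDegree ≤ 5 := by
  refine natDegree_sum_le_of_forall_le _ _ fun i _ => ?_
  exact (natDegree_C_mul_X_pow_le _ _).trans (by omega)

theorem r6b_degB (c : Fin 7 → ℂ) : (r6B c).natDegree ≤ 5 := by
  refine natDegree_sum_le_of_forall_le _ _ fun i _ => ?_
  exact (natDegree_C_mul_X_pow_le _ _).trans (by omega)

theorem r6b_coeffA (c : Fin 7 → ℂ) : (r6A c).coeff 5 = bsxT c 1 0 := by
  simp only [r6A, bsxT, finsetSum_coeff, coeff_C_mul_X_pow]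
  simp [Fin.sum_univ_succ]

theorem r6b_coeffB (c : Fin 7 → ℂ) : (r6B c).coeff 5 = bsxU c 1 0 := by
  simp only [r6B, bsxU, finsetSum_coeff, coeff_C_mul_X_pow]
  simp [Fin.sum_univ_succ]

theorem r6_zero_iff (c : Fin 7 → ℂ) : R6 c = 0 ↔ MultRoot c := by
  rw [R6_eq]
  unfold R6g
  rw [r6b_res_iff (n := 4) (r6b_degA c) (r6b_degB c), r6b_coeffA, r6b_coeffB]
  simp only [r6b_evalA, r6b_evalB]
  constructor
  · rintro (⟨h1, h2⟩ | ⟨τ, h1, h2⟩)
    · exact ⟨1, 0, Or.inl one_ne_zero, h1, h2⟩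
    · exact ⟨τ, 1, Or.inr one_ne_zero, h1, h2⟩
  · rintro ⟨T, U, h0, h1, h2⟩
    by_cases hU : U = 0
    · subst hU
      have hT : T ≠ 0 := by simpa using h0
      left
      have e1 := r6b_homT c T 1 0
      have e2 := r6b_homU c T 1 0
      rw [mul_one, mul_zero] at e1 e2
      rw [e1] at h1
      rw [e2] at h2
      exact ⟨(mul_eq_zero.1 h1).resolve_left (pow_ne_zero _ hT),
        (mul_eq_zero.1 h2).resolve_left (pow_ne_zero _ hT)⟩
    · right
      refine ⟨T / U, ?_, ?_⟩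
      · have e1 := r6b_homT c U (T / U) 1
        rw [mul_one, mul_div_cancel₀ _ hU, h1] at e1
        exact (mul_eq_zero.1 e1.symm).resolve_left (pow_ne_zero _ hU)
      · have e2 := r6b_homU c U (T / U) 1
        rw [mul_one, mul_div_cancel₀ _ hU, h2] at e2
        exact (mul_eq_zero.1 e2.symm).resolve_left (pow_ne_zero _ hU)

/-- **R6-C.**  a binary form determines its coefficients (`U = 1`: a polynomial of degree `≤ 6` with infinitely many zeros). -/
theorem r6c_coeff (c : Fin 7 → ℂ) (j : Fin 7) :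
    (∑ i : Fin 7, C (c i) * X ^ (i : ℕ) : ℂ[X]).coeff (j : ℕ) = c j := by
  rw [finsetSum_coeff, Finset.sum_eq_single j]
  · simp
  · intro i _ hij
    rw [coeff_C_mul, coeff_X_pow, if_neg, mul_zero]
    exact fun h => hij (Fin.ext h.symm)
  · simp

theorem bsx_ext {c c' : Fin 7 → ℂ} (h : ∀ T U : ℂ, bsx c T U = bsx c' T U) : c = c' := by
  have hP : (∑ i : Fin 7, C (c i) * X ^ (i : ℕ) : ℂ[X]) = ∑ i : Fin 7, C (c' i) * X ^ (i : ℕ) := by
    refine Polynomial.funext fun T => ?_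
    have := h T 1
    simpa [bsx, eval_finsetSum] using this
  funext j
  rw [← r6c_coeff c j, hP, r6c_coeff]

/-- **R6-C.** -/
theorem r6c_sum_T (c : Fin 7 → ℂ) (T U : ℂ) :
    ∑ i : Fin 7, c i * (((i : ℕ) : ℂ) * T ^ ((i : ℕ) - 1)) * U ^ (6 - (i : ℕ)) = bsxT c T U := by
  rw [Fin.sum_univ_succ, bsxT]
  simp only [Fin.val_zero, Nat.cast_zero, zero_mul, mul_zero, zero_add, Fin.val_succ,
    Nat.add_sub_cancel]
  refine Finset.sum_congr rfl fun i _ => ?_
  rw [show 6 - ((i : ℕ) + 1) = 5 - (i : ℕ) by omega]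
  ring

theorem r6c_sum_U (c : Fin 7 → ℂ) (T U : ℂ) :
    ∑ i : Fin 7, c i * T ^ (i : ℕ) * (((6 - (i : ℕ) : ℕ) : ℂ) * U ^ (6 - (i : ℕ) - 1)) = bsxU c T U := by
  rw [Fin.sum_univ_castSucc, bsxU]
  simp only [Fin.val_last, Nat.sub_self, Nat.cast_zero, zero_mul, mul_zero, add_zero,
    Fin.val_castSucc]
  refine Finset.sum_congr rfl fun i _ => ?_
  rw [show 6 - (i : ℕ) - 1 = 5 - (i : ℕ) by omega]
  ring

theorem bsx_hasDerivAt_T (c : Fin 7 → ℂ) (T U : ℂ) : HasDerivAt (fun T => bsx c T U) (bsxT c T U) T := by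
  rw [← r6c_sum_T]
  unfold bsx
  refine HasDerivAt.fun_sum fun i _ => ?_
  exact ((hasDerivAt_pow (i : ℕ) T).const_mul (c i)).mul_const _

/-- **R6-C.** -/
theorem bsx_hasDerivAt_U (c : Fin 7 → ℂ) (T U : ℂ) : HasDerivAt (fun U => bsx c T U) (bsxU c T U) U := by
  rw [← r6c_sum_U]
  unfold bsx
  refine HasDerivAt.fun_sum fun i _ => ?_
  exact (hasDerivAt_pow (6 - (i : ℕ)) U).const_mul (c i * T ^ (i : ℕ))

/-- **R6-C.**  derivative along a line (polynomial identity; or chain rule from the two partial derivatives: `bsx c` is a polynomial map, `HasFDerivAt`). -/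
theorem bsx_hasDerivAt_line (c : Fin 7 → ℂ) (T U a b : ℂ) :
    HasDerivAt (fun x : ℂ => bsx c (T + x * a) (U + x * b)) (a * bsxT c T U + b * bsxU c T U) 0 := by
  rw [← r6c_sum_T, ← r6c_sum_U, Finset.mul_sum, Finset.mul_sum, ← Finset.sum_add_distrib]
  unfold bsx
  refine HasDerivAt.fun_sum fun i _ => ?_
  have h1 : HasDerivAt (fun x : ℂ => T + x * a) a 0 := by
    simpa using ((hasDerivAt_id (0 : ℂ)).mul_const a).const_add T
  have h2 : HasDerivAt (fun x : ℂ => U + x * b) b 0 := by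
    simpa using ((hasDerivAt_id (0 : ℂ)).mul_const b).const_add U
  have h3 := ((h1.fun_pow (i : ℕ)).const_mul (c i)).fun_mul (h2.fun_pow (6 - (i : ℕ)))
  simp only [zero_mul, add_zero] at h3
  have e : a * (c i * (((i : ℕ) : ℂ) * T ^ ((i : ℕ) - 1)) * U ^ (6 - (i : ℕ)))
      + b * (c i * T ^ (i : ℕ) * (((6 - (i : ℕ) : ℕ) : ℂ) * U ^ (6 - (i : ℕ) - 1)))
      = c i * (((i : ℕ) : ℂ) * T ^ ((i : ℕ) - 1) * a) * U ^ (6 - (i : ℕ))
        + c i * T ^ (i : ℕ) * (((6 - (i : ℕ) : ℕ) : ℂ) * U ^ (6 - (i : ℕ) - 1) * b) := by ring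
  rw [e]
  exact h3

/-- **R6-C.**  Euler. -/
theorem bsx_euler (c : Fin 7 → ℂ) (T U : ℂ) : T * bsxT c T U + U * bsxU c T U = 6 * bsx c T U := by
  simp only [bsx, bsxT, bsxU, Fin.sum_univ_succ, Fin.sum_univ_zero, Fin.val_zero, Fin.val_succ,
    Fin.succ_zero_eq_one, Fin.castSucc_zero, Fin.castSucc_succ]
  norm_num
  ring

/-- **R6-C.**  `MultRoot` is invariant under invertible substitutions.
Route: let `(T₀, U₀)` be the common zero for `c`; `(T₁, U₁) = M⁻¹ (T₀, U₀) ≠ 0`.  For every direction `(x, y)`: the derivative at `0` of `s ↦ bsx c' (T₁ + s x) (U₁ + s y) = bsx c (T₀ + s (a x + b y)) (U₀ + s (e x + d y))`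
is `x * bsxT c' + y * bsxU c' = (a x + b y) * 0 + (e x + d y) * 0` (`bsx_hasDerivAt_line`, `HasDerivAt.unique`); take `(x, y) = (1, 0), (0, 1)`. -/
theorem r6c_of_flat {c : Fin 7 → ℂ} {T₀ U₀ : ℂ} (h0 : T₀ ≠ 0 ∨ U₀ ≠ 0)
    (h : ∀ a b : ℂ, HasDerivAt (fun x : ℂ => bsx c (T₀ + x * a) (U₀ + x * b)) 0 0) : MultRoot c := by
  refine ⟨T₀, U₀, h0, ?_, ?_⟩
  · have := (bsx_hasDerivAt_line c T₀ U₀ 1 0).unique (h 1 0)
    simpa using this
  · have := (bsx_hasDerivAt_line c T₀ U₀ 0 1).unique (h 0 1)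
    simpa using this

theorem multRoot_subst {c c' : Fin 7 → ℂ} {a b e d : ℂ} (hdet : a * d - b * e ≠ 0)
    (h : ∀ T U : ℂ, bsx c' T U = bsx c (a * T + b * U) (e * T + d * U)) (hc : MultRoot c) : MultRoot c' := by
  obtain ⟨T₀, U₀, h0, hT, hU⟩ := hc
  obtain ⟨T₁, hT₁⟩ : ∃ T₁ : ℂ, T₁ = (d * T₀ - b * U₀) / (a * d - b * e) := ⟨_, rfl⟩
  obtain ⟨U₁, hU₁⟩ : ∃ U₁ : ℂ, U₁ = (a * U₀ - e * T₀) / (a * d - b * e) := ⟨_, rfl⟩
  have e1 : a * T₁ + b * U₁ = T₀ := by
    rw [hT₁, hU₁, mul_div_assoc', mul_div_assoc', ← add_div, div_eq_iff hdet]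
    ring
  have e2 : e * T₁ + d * U₁ = U₀ := by
    rw [hT₁, hU₁, mul_div_assoc', mul_div_assoc', ← add_div, div_eq_iff hdet]
    ring
  refine r6c_of_flat (T₀ := T₁) (U₀ := U₁) ?_ ?_
  · by_contra hcon
    push Not at hcon
    rw [hcon.1, hcon.2] at e1 e2
    rcases h0 with h0 | h0
    · exact h0 (by rw [← e1]; ring)
    · exact h0 (by rw [← e2]; ring)
  · intro α β
    have h1 := bsx_hasDerivAt_line c T₀ U₀ (a * α + b * β) (e * α + d * β)
    rw [hT, hU, mul_zero, mul_zero, add_zero] at h1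
    refine h1.congr_of_eventuallyEq (Filter.Eventually.of_forall fun x => ?_)
    simp only
    rw [h, ← e1, ← e2]
    congr 1 <;> ring

/-- **R6-C.**  a form which vanishes to order `≥ 2` at a point has a multiple root there (`bsx_hasDerivAt_line` with directions `(1,0)`, `(0,1)`). -/
theorem multRoot_of_flat {c : Fin 7 → ℂ} {T₀ U₀ : ℂ} (h0 : T₀ ≠ 0 ∨ U₀ ≠ 0)
    (h : ∀ a b : ℂ, HasDerivAt (fun x : ℂ => bsx c (T₀ + x * a) (U₀ + x * b)) 0 0) : MultRoot c :=
  r6c_of_flat h0 h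

/-- **R6-D.**  the coefficients of `f (T + t U, U)` are polynomials in `t`:  `q j = ∑_{i ≥ j} C (c i * choose i j) * X ^ (i - j)` (binomial theorem `add_pow`). -/
theorem bsx_shift_T (c : Fin 7 → ℂ) : ∃ q : Fin 7 → ℂ[X], ∀ t T U : ℂ,
    bsx (fun j => (q j).eval t) T U = bsx c (T + t * U) U := by
  refine ⟨fun j => ∑ i : Fin 7, C (c i * ((Nat.choose (i : ℕ) (j : ℕ) : ℕ) : ℂ)) * X ^ ((i : ℕ) - (j : ℕ)),
    fun t T U => ?_⟩
  simp only [bsx, Fin.sum_univ_succ, Fin.sum_univ_zero, Fin.val_zero, Fin.val_succ]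
  norm_num [Nat.choose]
  ring

/-- **R6-D.**  the same for `f (T, U + t T)`. -/
theorem bsx_shift_U (c : Fin 7 → ℂ) : ∃ q : Fin 7 → ℂ[X], ∀ t T U : ℂ,
    bsx (fun j => (q j).eval t) T U = bsx c T (U + t * T) := by
  refine ⟨fun j => ∑ i : Fin 7, if (i : ℕ) ≤ (j : ℕ) then
      C (c i * ((Nat.choose (6 - (i : ℕ)) ((j : ℕ) - (i : ℕ)) : ℕ) : ℂ)) * X ^ ((j : ℕ) - (i : ℕ)) else 0,
    fun t T U => ?_⟩
  simp only [bsx, Fin.sum_univ_succ, Fin.sum_univ_zero, Fin.val_zero, Fin.val_succ]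
  norm_num [Nat.choose]
  ring

/-- **R6-D.**  abstract form of the trick: a polynomial family `c_t = c ∘ M_t` (`det M_t ≠ 0`, `M_0 = 1`) has constant `R6`.
Route: `Q` from `r6_poly q`.  If `R6 c = 0`: `MultRoot c` (`r6_zero_iff`), `MultRoot (c_t)` (`multRoot_subst`), `R6 (c_t) = 0`.  If `R6 c ≠ 0`: `Q.eval t ≠ 0` for all `t` (otherwise `MultRoot (c_t)`, and `c = c_t ∘ M_t⁻¹`
gives `MultRoot c`: apply `multRoot_subst` with the inverse matrix `(d, -b; -e, a) / det`), so `Q.degree = 0` (`IsAlgClosed.exists_root`), `Q = C (Q.eval 0)`, and `c_0 = c` by `bsx_ext`. -/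
theorem r6_const_of_family (c : Fin 7 → ℂ) (q : Fin 7 → ℂ[X]) (a b e d : ℂ → ℂ) (hdet : ∀ t, a t * d t - b t * e t ≠ 0)
    (h0 : a 0 = 1 ∧ b 0 = 0 ∧ e 0 = 0 ∧ d 0 = 1)
    (h : ∀ t T U : ℂ, bsx (fun j => (q j).eval t) T U = bsx c (a t * T + b t * U) (e t * T + d t * U)) (t : ℂ) :
    R6 (fun j => (q j).eval t) = R6 c := by
  obtain ⟨Q, hQ⟩ := r6_poly q
  obtain ⟨ha, hb, he, hd⟩ := h0
  have hc0 : (fun j => (q j).eval 0) = c := by
    refine bsx_ext fun T U => ?_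
    rw [h 0, ha, hb, he, hd]
    congr 1 <;> ring
  by_cases hR : R6 c = 0
  · rw [hR, r6_zero_iff]
    exact multRoot_subst (hdet t) (h t) ((r6_zero_iff c).1 hR)
  · have hne : ∀ t, Q.eval t ≠ 0 := by
      intro t ht
      rw [← hQ, r6_zero_iff] at ht
      apply hR
      rw [r6_zero_iff]
      obtain ⟨w, hw⟩ : ∃ w : ℂ, (a t * d t - b t * e t) * w = 1 := ⟨_, mul_inv_cancel₀ (hdet t)⟩
      have hw0 : w ≠ 0 := by
        rintro rfl
        simp at hw
      refine multRoot_subst (a := d t * w) (b := -b t * w) (e := -e t * w) (d := a t * w) ?_ ?_ ht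
      · have : d t * w * (a t * w) - -b t * w * (-e t * w) = w := by
          linear_combination w * hw
        rw [this]
        exact hw0
      · intro T U
        rw [h t]
        congr 1
        · linear_combination (-T) * hw
        · linear_combination (-U) * hw
    have hdeg : Q.degree = 0 := by
      by_contra hcon
      obtain ⟨x, hx⟩ := IsAlgClosed.exists_root Q hcon
      exact hne x hx
    have hQC := eq_C_of_degree_eq_zero hdeg
    rw [hQ t, ← hc0, hQ 0, hQC]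
    simp

/-- **R6-D.** -/
theorem r6_unip_T {c c' : Fin 7 → ℂ} {t : ℂ} (h : ∀ T U : ℂ, bsx c' T U = bsx c (T + t * U) U) : R6 c' = R6 c := by
  obtain ⟨q, hq⟩ := bsx_shift_T c
  have h1 : c' = fun j => (q j).eval t := bsx_ext fun T U => by rw [h, hq]
  rw [h1]
  refine r6_const_of_family c q (fun _ => 1) (fun t => t) (fun _ => 0) (fun _ => 1) (by simp) (by simp) ?_ t
  intro t T U
  rw [hq]
  simp

/-- **R6-D.** -/
theorem r6_unip_U {c c' : Fin 7 → ℂ} {t : ℂ} (h : ∀ T U : ℂ, bsx c' T U = bsx c T (U + t * T)) : R6 c' = R6 c := by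
  obtain ⟨q, hq⟩ := bsx_shift_U c
  have h1 : c' = fun j => (q j).eval t := bsx_ext fun T U => by rw [h, hq]
  rw [h1]
  refine r6_const_of_family c q (fun _ => 1) (fun _ => 0) (fun t => t) (fun _ => 1) (by simp) (by simp) ?_ t
  intro t T U
  rw [hq]
  simp [add_comm]

theorem r6e_bsx_hom (c : Fin 7 → ℂ) (x T U : ℂ) : bsx c (x * T) (x * U) = x ^ 6 * bsx c T U := by
  simp only [bsx, Fin.sum_univ_succ, Fin.sum_univ_zero]
  simp
  ring

theorem r6e_bsx_smul (k : ℂ) (c : Fin 7 → ℂ) (T U : ℂ) : bsx (k • c) T U = k * bsx c T U := by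
  simp only [bsx, Pi.smul_apply, smul_eq_mul, Finset.mul_sum]
  exact Finset.sum_congr rfl fun i _ => by ring

theorem r6e_sl2_aux {c c' : Fin 7 → ℂ} {a b e d : ℂ} (hdet : a * d - b * e = 1) (he : e ≠ 0)
    (h : ∀ T U : ℂ, bsx c' T U = bsx c (a * T + b * U) (e * T + d * U)) : R6 c' = R6 c := by
  obtain ⟨q₁, hq₁⟩ := bsx_shift_T c
  set c₁ : Fin 7 → ℂ := fun j => (q₁ j).eval ((a - 1) / e) with hc₁
  obtain ⟨q₂, hq₂⟩ := bsx_shift_U c₁
  set c₂ : Fin 7 → ℂ := fun j => (q₂ j).eval e with hc₂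
  obtain ⟨q₃, hq₃⟩ := bsx_shift_T c₂
  set c₃ : Fin 7 → ℂ := fun j => (q₃ j).eval ((d - 1) / e) with hc₃
  have h1 : R6 c₁ = R6 c := r6_unip_T (t := (a - 1) / e) fun T U => hq₁ _ T U
  have h2 : R6 c₂ = R6 c₁ := r6_unip_U (t := e) fun T U => hq₂ _ T U
  have h3 : R6 c₃ = R6 c₂ := r6_unip_T (t := (d - 1) / e) fun T U => hq₃ _ T U
  have h4 : c' = c₃ := by
    apply bsx_ext
    intro T U
    rw [h, hc₃, hq₃, hc₂, hq₂, hc₁, hq₁]
    have hb : b = (a * d - 1) / e := by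
      field_simp
      linear_combination -hdet
    congr 1
    · rw [hb]; field_simp; ring
    · field_simp; ring
  rw [h4, h3, h2, h1]

/-- **R6-E.**  `SL₂`-invariance.
Route.  `e ≠ 0`: `x = (a - 1) / e`, `y = (d - 1) / e`; `c₁ = c ∘ (T + x U, U)`, `c₂ = c₁ ∘ (T, U + e T)`, `c₃ = c₂ ∘ (T + y U, U)` (existence of `c₁, c₂, c₃`: `bsx_shift_T`, `bsx_shift_U` evaluated);
`bsx c₃ T U = bsx c (a T + b U) (e T + d U)` (`b = (a d - 1) / e`), so `c₃ = c'` (`bsx_ext`); `r6_unip_T`, `r6_unip_U`.   `e = 0` (`d ≠ 0`): apply the first case to `c'' = c' ∘ (T, U + T)`, matrix `(a + b, b; d, d)`. -/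
theorem r6_sl2 {c c' : Fin 7 → ℂ} {a b e d : ℂ} (hdet : a * d - b * e = 1)
    (h : ∀ T U : ℂ, bsx c' T U = bsx c (a * T + b * U) (e * T + d * U)) : R6 c' = R6 c := by
  by_cases he : e = 0
  · have hd : d ≠ 0 := by
      rintro rfl
      rw [he] at hdet
      simp at hdet
    obtain ⟨q, hq⟩ := bsx_shift_U c'
    set c'' : Fin 7 → ℂ := fun j => (q j).eval 1 with hc''
    have h1 : R6 c'' = R6 c' := r6_unip_U (t := 1) fun T U => hq _ T U
    have h2 : R6 c'' = R6 c := by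
      refine r6e_sl2_aux (a := a + b) (b := b) (e := d) (d := d) ?_ hd ?_
      · rw [he] at hdet; linear_combination hdet
      · intro T U
        rw [hc'', hq, h, he]
        congr 1 <;> ring
    rw [← h1, h2]
  · exact r6e_sl2_aux hdet he h

/-- **R6-E.**  a form in one linear form only has a multiple root:  if `a d = b e` then `(T₀, U₀) = (b, -a)` or `(d, -e)` or (all four zero) `(1, 0)` is a point with `M (T₀, U₀) = 0`, and
`bsx c' (T₀ + x α) (U₀ + x β) = bsx c (x (a α + b β)) (x (e α + d β)) = x ^ 6 * …`; `multRoot_of_flat`, `r6_zero_iff`. -/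
theorem r6_singular {c c' : Fin 7 → ℂ} {a b e d : ℂ} (hdet : a * d - b * e = 0)
    (h : ∀ T U : ℂ, bsx c' T U = bsx c (a * T + b * U) (e * T + d * U)) : R6 c' = 0 := by
  obtain ⟨T₀, U₀, h0, hA, hB⟩ : ∃ T₀ U₀ : ℂ, (T₀ ≠ 0 ∨ U₀ ≠ 0) ∧ a * T₀ + b * U₀ = 0 ∧ e * T₀ + d * U₀ = 0 := by
    by_cases hab : a = 0 ∧ b = 0
    · by_cases hed : e = 0 ∧ d = 0
      · exact ⟨1, 0, Or.inl one_ne_zero, by simp [hab.1], by simp [hed.1]⟩
      · refine ⟨d, -e, ?_, by rw [hab.1, hab.2]; ring, by ring⟩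
        by_contra hcon
        push Not at hcon
        exact hed ⟨by simpa using hcon.2, hcon.1⟩
    · refine ⟨b, -a, ?_, by ring, by linear_combination -hdet⟩
      by_contra hcon
      push Not at hcon
      exact hab ⟨by simpa using hcon.2, hcon.1⟩
  rw [r6_zero_iff]
  refine multRoot_of_flat h0 fun α β => ?_
  have e1 : (fun x : ℂ => bsx c' (T₀ + x * α) (U₀ + x * β)) =
      fun x : ℂ => x ^ 6 * bsx c (a * α + b * β) (e * α + d * β) := by
    funext x
    rw [h, ← r6e_bsx_hom]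
    congr 1
    · linear_combination hA
    · linear_combination hB
  rw [e1]
  have := ((hasDerivAt_pow 6 (0 : ℂ)).mul_const (bsx c (a * α + b * β) (e * α + d * β)))
  simpa using this

/-- **R6-E.  Covariance.**   `det = 0`: `r6_singular`.   `det ≠ 0`: `s ^ 2 = det` (`IsAlgClosed.exists_pow_nat_eq`), `c' = (s ^ 6 • c) ∘ (M / s)`, `r6_sl2`, `r6_smul`: `(s ^ 6) ^ 10 = det ^ 30`. -/
theorem r6_cov {c c' : Fin 7 → ℂ} {a b e d : ℂ}
    (h : ∀ T U : ℂ, bsx c' T U = bsx c (a * T + b * U) (e * T + d * U)) : R6 c' = (a * d - b * e) ^ 30 * R6 c := by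
  by_cases hdet : a * d - b * e = 0
  · rw [r6_singular hdet h, hdet]; simp
  · obtain ⟨s, hs⟩ := IsAlgClosed.exists_pow_nat_eq (a * d - b * e) (n := 2) (by norm_num)
    have hs0 : s ≠ 0 := by
      rintro rfl
      apply hdet
      rw [← hs]; simp
    have h1 : R6 c' = R6 (s ^ 6 • c) := by
      refine r6_sl2 (a := a / s) (b := b / s) (e := e / s) (d := d / s) ?_ ?_
      · field_simp
        rw [hs]
      · intro T U
        rw [h, r6e_bsx_smul, ← r6e_bsx_hom]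
        congr 1 <;> field_simp
    rw [h1, r6_smul, ← hs]
    ring

theorem r6f_bsxT_hom (c : Fin 7 → ℂ) (x T U : ℂ) : bsxT c (x * T) (x * U) = x ^ 5 * bsxT c T U := by
  simp only [bsxT, Fin.sum_univ_succ, Fin.sum_univ_zero]
  simp
  ring

theorem r6f_bsxU_hom (c : Fin 7 → ℂ) (x T U : ℂ) : bsxU c (x * T) (x * U) = x ^ 5 * bsxU c T U := by
  simp only [bsxU, Fin.sum_univ_succ, Fin.sum_univ_zero]
  simp
  ring

theorem r6f_bsxT_zero (c : Fin 7 → ℂ) (T : ℂ) : bsxT c T 0 = 6 * c 6 * T ^ 5 := by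
  simp only [bsxT, Fin.sum_univ_succ, Fin.sum_univ_zero]
  simp

theorem r6f_bsx_one (c : Fin 7 → ℂ) (τ : ℂ) : bsx c τ 1 = ∑ i : Fin 7, c i * τ ^ (i : ℕ) := by
  simp [bsx]

/-- **R6-F.**  If the sextic has degree exactly `6` in `T`, factors with pairwise distinct roots `ρ i` and multiplicities `m i`, and `R6 c = 0`, then some multiplicity is `≥ 2`.
Route: `r6_zero_iff` gives `(T, U) ≠ 0` with `bsxT = bsxU = 0`.  `U = 0` is impossible (`bsxT c T 0 = 6 * c 6 * T ^ 5`).  `τ₀ = T / U`: by homogeneity `bsxT c τ₀ 1 = 0`, `bsxU c τ₀ 1 = 0`, so (`bsx_euler`) `P τ₀ = 0` and `P' τ₀ = 0` where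
`P τ = bsx c τ 1 = ∑ c i τ^i`.  If all `m i ≤ 1` (so `= 1` or `0`; factors with `m i = 0` are `1`) then `P τ = c 6 ∏_{i ∈ s} (τ - ρ i)`, `τ₀ = ρ j` for some `j ∈ s` and the derivative at `ρ j` is `c 6 ∏_{i ∈ s, i ≠ j} (ρ j - ρ i) ≠ 0`
(`HasDerivAt.finset_prod` or `Polynomial.derivative_prod`/`Polynomial.eval_derivative…`; or write `P τ = (τ - ρ j) * G τ` with `G (ρ j) ≠ 0`). -/
theorem r6_pattern {k : ℕ} (c : Fin 7 → ℂ) (ρ : Fin k → ℂ) (m : Fin k → ℕ) (hinj : Function.Injective ρ) (hc : c 6 ≠ 0)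
    (hfac : ∀ τ : ℂ, ∑ i : Fin 7, c i * τ ^ (i : ℕ) = c 6 * ∏ i, (τ - ρ i) ^ m i) (hR : R6 c = 0) : ∃ i, 2 ≤ m i := by
  by_contra hcon
  push Not at hcon
  obtain ⟨T, U, hTU, hT, hU⟩ := (r6_zero_iff c).1 hR
  by_cases hU0 : U = 0
  · subst hU0
    rw [r6f_bsxT_zero] at hT
    have hT0 : T ≠ 0 := by simpa using hTU
    exact (mul_ne_zero (mul_ne_zero (by norm_num) hc) (pow_ne_zero 5 hT0)) hT
  · set τ₀ := T / U with hτ₀
    have e1 : bsxT c τ₀ 1 = 0 := by
      have := r6f_bsxT_hom c U⁻¹ T U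
      rw [hT, mul_zero, inv_mul_cancel₀ hU0, mul_comm, ← div_eq_mul_inv] at this
      exact this
    have e2 : bsxU c τ₀ 1 = 0 := by
      have := r6f_bsxU_hom c U⁻¹ T U
      rw [hU, mul_zero, inv_mul_cancel₀ hU0, mul_comm, ← div_eq_mul_inv] at this
      exact this
    have e3 : bsx c τ₀ 1 = 0 := by
      have := bsx_euler c τ₀ 1
      rw [e1, e2] at this
      have h6 : (6 : ℂ) * bsx c τ₀ 1 = 0 := by rw [← this]; ring
      exact (mul_eq_zero.1 h6).resolve_left (by norm_num)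
    have hP : ∀ τ, bsx c τ 1 = c 6 * ∏ i, (τ - ρ i) ^ m i := fun τ => by rw [r6f_bsx_one, hfac]
    have hd : HasDerivAt (fun τ => bsx c τ 1) 0 τ₀ := by
      have := bsx_hasDerivAt_T c τ₀ 1
      rwa [e1] at this
    rw [hP] at e3
    obtain ⟨j, -, hj⟩ := Finset.prod_eq_zero_iff.1 ((mul_eq_zero.1 e3).resolve_left hc)
    have hmj : m j ≠ 0 := by
      intro h0
      rw [h0, pow_zero] at hj
      exact one_ne_zero hj
    have hmj1 : m j = 1 := by have := hcon j; omega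
    have hτj : τ₀ = ρ j := by
      rw [hmj1, pow_one] at hj
      exact sub_eq_zero.1 hj
    set G : ℂ → ℂ := fun τ => c 6 * ∏ i ∈ Finset.univ.erase j, (τ - ρ i) ^ m i with hG
    have hPG : (fun τ => bsx c τ 1) = fun τ => (τ - ρ j) * G τ := by
      funext τ
      rw [hP, hG, ← Finset.mul_prod_erase Finset.univ _ (Finset.mem_univ j), hmj1, pow_one]
      ring
    have hGd : Differentiable ℂ G := by
      rw [hG]
      fun_prop
    have hd2 : HasDerivAt (fun τ => (τ - ρ j) * G τ) (1 * G τ₀ + (τ₀ - ρ j) * deriv G τ₀) τ₀ :=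
      ((hasDerivAt_id τ₀).sub_const (ρ j)).mul (hGd τ₀).hasDerivAt
    rw [hPG] at hd
    have h0 := hd.unique hd2
    rw [hτj, sub_self, zero_mul, add_zero, one_mul] at h0
    have hGne : G (ρ j) ≠ 0 := by
      rw [hG]
      refine mul_ne_zero hc (Finset.prod_ne_zero_iff.2 fun i hi => pow_ne_zero _ (sub_ne_zero.2 fun h => ?_))
      exact (Finset.ne_of_mem_erase hi) (hinj h).symm
    exact hGne h0.symm

end Claimed.Agent.R245
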