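/-
Row 245 / S0484, GEO block 4 = GEO-MULT (sub-architect helper139).   Package GMA: algebra of `lc`, `f6`, `det4`; the coefficient vector `c6` of the sextic `f6` in a frame; change of frame.
No paper.  Statements FROZEN; several owners: touch only your theorems; helper lemmas directly above your theorem, prefix `gma_`.
(If R245/GeoAlg.lean of helper129 is on main and contains one of the `lc` facts, just import it and apply it.)
-/
import Claimed.Agent.R245.GeoDefs
import Claimed.Agent.R245.L2Poly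
import Claimed.Agent.R245.GeoR6
import Claimed.Agent.R245.GeoKIa

set_option autoImplicit false

namespace Claimed.Agent.R245

open MvPolynomial Metric Set Claims.C0412

/-! ### GMA-LC : the coefficients `lc` -/

/-- **GMA-LC.**  `F (p + l v) = ∑_{k ≤ 4} lc_k l^k` (`F` of total degree `≤ 4`: `natDegree` of `aeval (C p_i + C v_i X) F` is `≤ 4`; `Polynomial.eval_eq_sum_range'`; evaluation at `l` commutes with `aeval`). -/
theorem gma_expand_one {F : MvPolynomial (Fin 4) ℂ} (hF : F.IsHomogeneous 4) (p v : V4) (l : ℂ) :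
    eval (p + l • v) F = ∑ k ∈ Finset.range 5, lc F k p v * l ^ k := by
  exact ga_line hF p v l

/-- **GMA-LC.**  homogeneity in `v` (any `F`): substitute `X ↦ C s * X` (`Polynomial.comp`, `Polynomial.comp_C_mul_X_coeff`). -/
theorem gma_lc_smul_right (F : MvPolynomial (Fin 4) ℂ) (k : ℕ) (p v : V4) (s : ℂ) : lc F k p (s • v) = s ^ k * lc F k p v := by
  have h : gaPoly F p (s • v) = (gaPoly F p v).comp (Polynomial.C s * Polynomial.X) := by
    apply Polynomial.funext
    intro l
    rw [Polynomial.eval_comp, ga_poly_eval, ga_poly_eval]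
    simp only [Polynomial.eval_mul, Polynomial.eval_C, Polynomial.eval_X, smul_smul]
    rw [mul_comm l s]
  rw [ga_lc_def, ga_lc_def, h, Polynomial.comp_C_mul_X_coeff, mul_comm]

/-- **GMA-LC.**  homogeneity in `p`.  (`t = 0`: … ; `t ≠ 0`: `F (t p + l v) = t^4 F (p + (l/t) v)` for all `l`, compare coefficients; or by `MvPolynomial.induction_on`/monomials.) -/
theorem gma_lc_smul_left {F : MvPolynomial (Fin 4) ℂ} (hF : F.IsHomogeneous 4) {k : ℕ} (hk : k ≤ 4) (p v : V4) (t : ℂ) :
    lc F k (t • p) v = t ^ (4 - k) * lc F k p v := by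
  have h := ga_lc_smul hF t 1 p v k hk
  rw [one_smul, one_pow, mul_one] at h
  exact h

/-- **GMA-LC.**  the full expansion. -/
theorem gma_expand {F : MvPolynomial (Fin 4) ℂ} (hF : F.IsHomogeneous 4) (p v : V4) (s l : ℂ) :
    eval (s • p + l • v) F = ∑ k ∈ Finset.range 5, lc F k p v * s ^ (4 - k) * l ^ k := by
  rw [gma_expand_one hF]
  refine Finset.sum_congr rfl fun k hk => ?_
  rw [gma_lc_smul_left hF (by have := Finset.mem_range.1 hk; omega)]
  ring

/-- **GMA-LC.** -/
theorem gma_lc_zero (F : MvPolynomial (Fin 4) ℂ) (p v : V4) : lc F 0 p v = eval p F := by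
  exact ga_lc_zero F p v

/-- **GMA-LC.**  (derivative at `l = 0` of `F (p + l v)`: `l2_hasFDerivAt_eval`; or `Polynomial.coeff_one` = derivative at `0`, by `MvPolynomial.induction_on`.) -/
theorem gma_lc_one (F : MvPolynomial (Fin 4) ℂ) (p v : V4) : lc F 1 p v = dot (grad F p) v := by
  exact ga_lc_one F p v

/-- **GMA-LC.**  `lc` is a polynomial function of `(p, v)`.  (`MvPolynomial.induction_on F`: `lc (C a) k = if k = 0 then a else 0`, `lc (F + G) = lc F + lc G`,
`lc (F * X i) k p v = lc F k p v * p i + lc F (k - 1) p v * v i` (`Polynomial.coeff_mul_X`, `coeff_mul_C`; for all `k` simultaneously).) -/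
theorem gma_lc_differentiable (F : MvPolynomial (Fin 4) ℂ) (k : ℕ) : Differentiable ℂ fun x : V4 × V4 => lc F k x.1 x.2 := by
  exact ga_differentiable_lc F k

/-- the residual quadratic on the tangent plane -/
theorem gma_expand_tangent {F : MvPolynomial (Fin 4) ℂ} (hF : F.IsHomogeneous 4) {p v : V4} (hp : eval p F = 0)
    (hv : dot (grad F p) v = 0) (s l : ℂ) :
    eval (s • p + l • v) F = l ^ 2 * (lc F 2 p v * s ^ 2 + lc F 3 p v * s * l + lc F 4 p v * l ^ 2) := by
  rw [gma_expand hF]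
  simp only [Finset.sum_range_succ, Finset.sum_range_zero, gma_lc_zero, gma_lc_one, hp, hv]
  ring

/-- **GMA-LC.**  `grad F (s p + l v) · p = ∂_s F (s p + l v)` on the tangent plane (differentiate `gma_expand_tangent` in `s`; `l2_hasFDerivAt_eval`, `HasDerivAt.unique`). -/
theorem gma_grad_dot_p {F : MvPolynomial (Fin 4) ℂ} (hF : F.IsHomogeneous 4) {p v : V4} (hp : eval p F = 0)
    (hv : dot (grad F p) v = 0) (s l : ℂ) :
    dot (grad F (s • p + l • v)) p = l ^ 2 * (2 * lc F 2 p v * s + lc F 3 p v * l) := by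
  rw [ga_dot_grad_p hF, ga_lc_zero, ga_lc_one, hp, hv]
  ring

/-! ### GMA-F6 : the sextic -/

theorem gma_f6_differentiable (F : MvPolynomial (Fin 4) ℂ) : Differentiable ℂ fun x : V4 × V4 => f6 F x.1 x.2 := by
  unfold f6
  exact ((gma_lc_differentiable F 3).pow 2).sub
    (((differentiable_const (4 : ℂ)).mul (gma_lc_differentiable F 2)).mul (gma_lc_differentiable F 4))

theorem gma_f6_smul_right (F : MvPolynomial (Fin 4) ℂ) (p v : V4) (s : ℂ) : f6 F p (s • v) = s ^ 6 * f6 F p v := by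
  unfold f6
  rw [gma_lc_smul_right, gma_lc_smul_right, gma_lc_smul_right]
  ring

theorem gma_f6_smul_left {F : MvPolynomial (Fin 4) ℂ} (hF : F.IsHomogeneous 4) (p v : V4) (t : ℂ) :
    f6 F (t • p) v = t ^ 2 * f6 F p v := by
  unfold f6
  rw [gma_lc_smul_left hF (by norm_num), gma_lc_smul_left hF (by norm_num), gma_lc_smul_left hF (by norm_num)]
  ring

/-- **GMA-F6.**  `f6` lives on `T_p / ℂ p`.   Route: for all `l`:  `F (p + l (v + c p)) = F ((1 + l c) p + l v) = l² (a₂ (1 + l c)² + a₃ (1 + l c) l + a₄ l²)` (`gma_expand_tangent`), and also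
`= l² (a₂' + a₃' l + a₄' l²)` (`v + c p` is tangent too: Euler `l2_euler`).  Compare coefficients (two polynomials in `l` agreeing everywhere; e.g. evaluate at `l = 1, -1, 2` after cancelling `l²`, or
`Polynomial.funext`): `a₂' = a₂`, `a₃' = a₃ + 2 c a₂`, `a₄' = a₄ + c a₃ + c² a₂`; then `ring`. -/
theorem gma_f6_add_smul {F : MvPolynomial (Fin 4) ℂ} (hF : F.IsHomogeneous 4) {p v : V4} (hp : eval p F = 0)
    (hv : dot (grad F p) v = 0) (c : ℂ) : f6 F p (v + c • p) = f6 F p v := by
  exact ga_f6_shift hF hp hv c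

/-! ### GMA-C6 : the coefficient vector -/

/-- **GMA-C6.**  `(T, U) ↦ f6 F p (U v₁ + T v₂)` is a binary sextic whose coefficients are polynomial functions of `(p, v₁, v₂)`.   (No hypothesis on `F`.)
Route A (generic ring).  `A = MvPolynomial (Fin 3 × Fin 4) ℂ`, `Φ = aeval (fun i => C (C (X (0,i))) + C (C (X (1,i)) + C (X (2,i)) * X) * X) F : A[X][X]`, `L k = Φ.coeff k : A[X]`;
`natDegree (L k) ≤ k` (induction on `F`: `coeff_k (G * (C a + C b * X)) = coeff_k G * a + coeff_{k-1} G * b`, `natDegree a = 0`, `natDegree b ≤ 1`); `P = L 3 ^ 2 - 4 * L 2 * L 4`, `natDegree ≤ 6`;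
`c6 x i = eval (fun (a, j) => ![x.1, x.2.1, x.2.2] a j) (P.coeff i)`: differentiable (evaluation of an `MvPolynomial` is differentiable: induction).  Naturality of `aeval` under the ring hom `A[X] → ℂ` (evaluate, then `τ`)
gives `f6 F p (v₁ + τ v₂) = ∑ c6 i τ^i`.  General `(T, U)`: `U ≠ 0` by `gma_f6_smul_right`; `U = 0` by continuity in `U` (`gma_f6_differentiable`) of both sides (or by density: both sides are polynomials in `U`).
Route B (induction on `F` for `lc`): for every `k` there are differentiable `m k i` (`i ≤ k`) with `lc F k p (U v₁ + T v₂) = ∑_{i ≤ k} m k i (p, v₁, v₂) T^i U^(k-i)`; then multiply out. -/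
theorem gma_c6_exists (F : MvPolynomial (Fin 4) ℂ) : ∃ c : V4 × V4 × V4 → Fin 7 → ℂ, Differentiable ℂ c ∧
    ∀ (p v₁ v₂ : V4) (T U : ℂ), f6 F p (U • v₁ + T • v₂) = bsx (c (p, v₁, v₂)) T U := by
  refine ⟨fun x i => (gaF6 F x.1 x.2.1 x.2.2).coeff (i : ℕ), differentiable_pi.2 fun i => ga_F6_differentiable F i, ?_⟩
  intro p v₁ v₂ T
  have hL : Continuous fun U : ℂ => f6 F p (U • v₁ + T • v₂) := by
    have h1 : Continuous fun U : ℂ => ((p, U • v₁ + T • v₂) : V4 × V4) := by fun_prop
    have h2 : Continuous (fun x : V4 × V4 => f6 F x.1 x.2) := (ga_differentiable_f6 F).continuous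
    have h3 := h2.comp h1
    simpa only [Function.comp_def] using h3
  have hR : Continuous fun U : ℂ => bsx (fun i : Fin 7 => (gaF6 F p v₁ v₂).coeff (i : ℕ)) T U := by
    unfold bsx
    fun_prop
  have key := Continuous.ext_on (dense_compl_singleton (0 : ℂ)) hL hR (fun U hU => by
    have hU0 : U ≠ 0 := hU
    have e : U • v₁ + T • v₂ = U • (v₁ + (T / U) • v₂) := by
      rw [smul_add, smul_smul, mul_div_cancel₀ T hU0]
    show f6 F p (U • v₁ + T • v₂) = bsx (fun i : Fin 7 => (gaF6 F p v₁ v₂).coeff (i : ℕ)) T U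
    rw [e, gma_f6_smul_right, ← ga_F6_eval,
      Polynomial.eval_eq_sum_range' (lt_of_le_of_lt (ga_F6_natDegree_le F p v₁ v₂) (by norm_num : 6 < 7)),
      Finset.mul_sum, bsx, Finset.sum_range]
    refine Finset.sum_congr rfl fun i _ => ?_
    have hi : (i : ℕ) ≤ 6 := by have := i.2; omega
    have e6 : U ^ 6 = U ^ (6 - (i : ℕ)) * U ^ (i : ℕ) := by rw [← pow_add]; congr 1; omega
    rw [div_pow, e6]
    field_simp)
  intro U
  exact congrFun key U

/-- the coefficient vector of the sextic `f6 F p (U v₁ + T v₂)` -/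
noncomputable def c6 (F : MvPolynomial (Fin 4) ℂ) : V4 × V4 × V4 → Fin 7 → ℂ := (gma_c6_exists F).choose

theorem c6_differentiable (F : MvPolynomial (Fin 4) ℂ) : Differentiable ℂ (c6 F) := (gma_c6_exists F).choose_spec.1

theorem c6_spec (F : MvPolynomial (Fin 4) ℂ) (p v₁ v₂ : V4) (T U : ℂ) :
    f6 F p (U • v₁ + T • v₂) = bsx (c6 F (p, v₁, v₂)) T U := (gma_c6_exists F).choose_spec.2 p v₁ v₂ T U

/-- the discriminant of the sextic in the frame `(v₁, v₂)` -/
noncomputable def D6 (F : MvPolynomial (Fin 4) ℂ) (p v₁ v₂ : V4) : ℂ := R6 (c6 F (p, v₁, v₂))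

theorem D6_differentiable (F : MvPolynomial (Fin 4) ℂ) : Differentiable ℂ fun x : V4 × V4 × V4 => D6 F x.1 x.2.1 x.2.2 := by
  have h : Differentiable ℂ fun x : V4 × V4 × V4 => R6 (c6 F x) := r6_differentiable.comp (c6_differentiable F)
  exact h

theorem D6_differentiableOn (F : MvPolynomial (Fin 4) ℂ) {E : Type*} [NormedAddCommGroup E] [NormedSpace ℂ E] {S : Set E}
    {p v₁ v₂ : E → V4} (hp : DifferentiableOn ℂ p S) (h₁ : DifferentiableOn ℂ v₁ S) (h₂ : DifferentiableOn ℂ v₂ S) :
    DifferentiableOn ℂ (fun x => D6 F (p x) (v₁ x) (v₂ x)) S := by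
  have h0 : DifferentiableOn ℂ (fun x => (p x, v₁ x, v₂ x)) S := hp.prodMk (h₁.prodMk h₂)
  have h1 : Differentiable ℂ fun y : V4 × V4 × V4 => R6 (c6 F y) := r6_differentiable.comp (c6_differentiable F)
  exact h1.comp_differentiableOn h0

/-- scaling of the base point -/
theorem D6_smul_left {F : MvPolynomial (Fin 4) ℂ} (hF : F.IsHomogeneous 4) (p v₁ v₂ : V4) (t : ℂ) :
    D6 F (t • p) v₁ v₂ = t ^ 20 * D6 F p v₁ v₂ := by
  have h : c6 F (t • p, v₁, v₂) = (t ^ 2) • c6 F (p, v₁, v₂) := by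
    apply bsx_ext
    intro T U
    rw [← c6_spec, gma_f6_smul_left hF, c6_spec]
    simp only [bsx, Pi.smul_apply, smul_eq_mul, Finset.mul_sum]
    exact Finset.sum_congr rfl fun i _ => by ring
  unfold D6
  rw [h, r6_smul]
  ring

/-! ### GMA-DET : linear algebra in `ℂ⁴` -/

/-- **GMA-DET.**  (`Matrix.det_succ_row_zero`, `Fin.sum_univ_succ`, `simp`, `ring`; or `Matrix.det_updateRow_add`, `det_updateRow_smul`.) -/
theorem gma_det4_add_smul (p v₁ v₂ n : V4) (a b e d x y : ℂ) :
    det4 p (a • v₁ + b • v₂ + x • p) (e • v₁ + d • v₂ + y • p) n = (a * d - b * e) * det4 p v₁ v₂ n := by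
  simp only [gk_det4_eq, Pi.add_apply, Pi.smul_apply, smul_eq_mul]
  ring

/-- **GMA-DET.** -/
theorem gma_det4_smul_left (p v₁ v₂ n : V4) (t : ℂ) : det4 (t • p) v₁ v₂ n = t * det4 p v₁ v₂ n := by
  simp only [gk_det4_eq, Pi.smul_apply, smul_eq_mul]
  ring

/-- **GMA-DET.**  linearity in the last slot. -/
theorem gma_det4_last (p v₁ v₂ n n' : V4) (a b : ℂ) :
    det4 p v₁ v₂ (a • n + b • n') = a * det4 p v₁ v₂ n + b * det4 p v₁ v₂ n' := by
  simp only [gk_det4_eq, Pi.add_apply, Pi.smul_apply, smul_eq_mul]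
  ring

/-- **GMA-DET.**  `det4` is a polynomial in the entries (`Matrix.det_apply`, `DifferentiableOn.fun_sum`, `DifferentiableOn.finset_prod`, `differentiableOn_pi`; or expand the determinant completely). -/
theorem gma_det4_differentiableOn {E : Type*} [NormedAddCommGroup E] [NormedSpace ℂ E] {S : Set E} {a b c d : E → V4}
    (ha : DifferentiableOn ℂ a S) (hb : DifferentiableOn ℂ b S) (hc : DifferentiableOn ℂ c S) (hd : DifferentiableOn ℂ d S) :
    DifferentiableOn ℂ (fun x => det4 (a x) (b x) (c x) (d x)) S := by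
  have ha' : ∀ i, DifferentiableOn ℂ (fun x => a x i) S := fun i => differentiableOn_pi.1 ha i
  have hb' : ∀ i, DifferentiableOn ℂ (fun x => b x i) S := fun i => differentiableOn_pi.1 hb i
  have hc' : ∀ i, DifferentiableOn ℂ (fun x => c x i) S := fun i => differentiableOn_pi.1 hc i
  have hd' : ∀ i, DifferentiableOn ℂ (fun x => d x i) S := fun i => differentiableOn_pi.1 hd i
  simp only [gk_det4_eq]
  have m2 : ∀ i j, DifferentiableOn ℂ (fun x => c x i * d x j - c x j * d x i) S := fun i j =>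
    ((hc' i).mul (hd' j)).sub ((hc' j).mul (hd' i))
  have m3 : ∀ i j k, DifferentiableOn ℂ (fun x => b x i * (c x j * d x k - c x k * d x j)
      - b x j * (c x i * d x k - c x k * d x i) + b x k * (c x i * d x j - c x j * d x i)) S := fun i j k =>
    (((hb' i).mul (m2 j k)).sub ((hb' j).mul (m2 i k))).add ((hb' k).mul (m2 i j))
  exact ((((ha' 0).mul (m3 1 2 3)).sub ((ha' 1).mul (m3 0 2 3))).add ((ha' 2).mul (m3 0 1 3))).sub ((ha' 3).mul (m3 0 1 2))

/-- **GMA-DET.**  four vectors in a hyperplane are dependent.  (`g ≠ 0`; `Matrix.of ![a,b,c,d] *ᵥ g = 0`, so `det = 0`: `Matrix.exists_mulVec_eq_zero_iff`.) -/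
theorem gma_det4_hyperplane {g a b c d : V4} (hg : g ≠ 0) (ha : dot g a = 0) (hb : dot g b = 0) (hc : dot g c = 0)
    (hd : dot g d = 0) : det4 a b c d = 0 := by
  unfold det4
  refine Matrix.exists_mulVec_eq_zero_iff.1 ⟨g, hg, ?_⟩
  funext i
  simp only [dot, Fin.sum_univ_four] at ha hb hc hd
  fin_cases i
  · simp [Matrix.mulVec, dotProduct, Fin.sum_univ_four]; linear_combination ha
  · simp [Matrix.mulVec, dotProduct, Fin.sum_univ_four]; linear_combination hb
  · simp [Matrix.mulVec, dotProduct, Fin.sum_univ_four]; linear_combination hc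
  · simp [Matrix.mulVec, dotProduct, Fin.sum_univ_four]; linear_combination hd

/-- a vanishing determinant gives a linear relation -/
theorem gma_det4_relation {a b c d : V4} : det4 a b c d = 0 ↔
    ∃ x : Fin 4 → ℂ, x ≠ 0 ∧ x 0 • a + x 1 • b + x 2 • c + x 3 • d = 0 := by
  unfold det4
  rw [← Matrix.exists_vecMul_eq_zero_iff]
  refine exists_congr fun x => and_congr_right fun _ => ?_
  have e : Matrix.vecMul x (Matrix.of ![a, b, c, d]) = x 0 • a + x 1 • b + x 2 • c + x 3 • d := by
    funext j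
    simp [Matrix.vecMul, dotProduct, Fin.sum_univ_four]
  rw [e]

/-- **GMA-DET.** (`Matrix.linearIndependent_rows_iff_isUnit` / `Matrix.det_ne_zero…`; if `![a, b, c]` is dependent then so are the rows.) -/
theorem gma_indep_of_det4 {a b c d : V4} (h : det4 a b c d ≠ 0) : LinearIndependent ℂ ![a, b, c] := by
  rw [Fintype.linearIndependent_iff]
  intro x hx
  rw [Fin.sum_univ_three] at hx
  simp only [Matrix.cons_val_zero, Matrix.cons_val_one, Matrix.cons_val_two, Matrix.head_cons, Matrix.tail_cons] at hx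
  by_contra hne
  apply h
  refine gma_det4_relation.2 ⟨![x 0, x 1, x 2, 0], ?_, ?_⟩
  · intro h0
    apply hne
    intro i
    fin_cases i
    · simpa using congrFun h0 0
    · simpa using congrFun h0 1
    · simpa using congrFun h0 2
  · simpa using hx

/-- **GMA-DET.**  (extend to a basis: if `det4 a b c n = 0` for the four unit vectors `n = Pi.single i 1`, hence for all `n` by linearity, then … ; or: `span {a, b, c}` has dimension `3 < 4`, take `n` outside; the four vectors
are independent; `Matrix.linearIndependent_rows_iff_isUnit`.) -/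
theorem gma_exists_det4 {a b c : V4} (h : LinearIndependent ℂ ![a, b, c]) : ∃ n : V4, det4 a b c n ≠ 0 := by
  by_contra hcon
  push Not at hcon
  have hspan : ∀ n : V4, n ∈ Submodule.span ℂ (Set.range ![a, b, c]) := by
    intro n
    obtain ⟨x, hx0, hx⟩ := gma_det4_relation.1 (hcon n)
    have h3 : x 3 ≠ 0 := by
      intro h3
      rw [h3, zero_smul, add_zero] at hx
      have := Fintype.linearIndependent_iff.1 h ![x 0, x 1, x 2] (by
        rw [Fin.sum_univ_three]
        simpa using hx)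
      apply hx0
      funext i
      fin_cases i
      · simpa using this 0
      · simpa using this 1
      · simpa using this 2
      · simpa using h3
    have e : n = (-(x 0 / x 3)) • a + (-(x 1 / x 3)) • b + (-(x 2 / x 3)) • c := by
      have : x 3 • n = -(x 0 • a + x 1 • b + x 2 • c) := by
        rw [eq_neg_iff_add_eq_zero, add_comm]; exact hx
      have h4 : n = (x 3)⁻¹ • (x 3 • n) := by rw [smul_smul, inv_mul_cancel₀ h3, one_smul]
      rw [h4, this]
      simp only [div_eq_mul_inv]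
      module
    rw [e]
    have ma : a ∈ Submodule.span ℂ (Set.range ![a, b, c]) := Submodule.subset_span ⟨0, rfl⟩
    have mb : b ∈ Submodule.span ℂ (Set.range ![a, b, c]) := Submodule.subset_span ⟨1, rfl⟩
    have mc : c ∈ Submodule.span ℂ (Set.range ![a, b, c]) := Submodule.subset_span ⟨2, rfl⟩
    exact Submodule.add_mem _ (Submodule.add_mem _ (Submodule.smul_mem _ _ ma) (Submodule.smul_mem _ _ mb))
      (Submodule.smul_mem _ _ mc)
  have htop : Submodule.span ℂ (Set.range ![a, b, c]) = ⊤ := Submodule.eq_top_iff'.2 hspan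
  have h1 := finrank_range_le_card (R := ℂ) ![a, b, c]
  rw [Set.finrank, htop, finrank_top] at h1
  simp at h1

/-- **GMA-DET.**  a vector of the hyperplane `g^⊥` in terms of a basis of it.  (`det4 p v₁ v₂ n ≠ 0` makes `(p, v₁, v₂, n)` a basis: `u = x p + a v₁ + b v₂ + z n`; pairing with `g` gives `z (g · n) = 0`, and
`g · n ≠ 0` by `gma_det4_hyperplane`.) -/
theorem gma_span {g p v₁ v₂ n u : V4} (hg : g ≠ 0) (hp : dot g p = 0) (h₁ : dot g v₁ = 0) (h₂ : dot g v₂ = 0)
    (hdet : det4 p v₁ v₂ n ≠ 0) (hu : dot g u = 0) : ∃ a b x : ℂ, u = a • v₁ + b • v₂ + x • p := by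
  obtain ⟨x, hx0, hx⟩ := gma_det4_relation.1 (gma_det4_hyperplane hg hp h₁ h₂ hu)
  have h := gma_indep_of_det4 hdet
  have h3 : x 3 ≠ 0 := by
    intro h3
    rw [h3, zero_smul, add_zero] at hx
    have := Fintype.linearIndependent_iff.1 h ![x 0, x 1, x 2] (by
      rw [Fin.sum_univ_three]
      simpa using hx)
    apply hx0
    funext i
    fin_cases i
    · simpa using this 0
    · simpa using this 1
    · simpa using this 2
    · simpa using h3
  refine ⟨-(x 1 / x 3), -(x 2 / x 3), -(x 0 / x 3), ?_⟩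
  have : x 3 • u = -(x 0 • p + x 1 • v₁ + x 2 • v₂) := by
    rw [eq_neg_iff_add_eq_zero, add_comm]; exact hx
  have h4 : u = (x 3)⁻¹ • (x 3 • u) := by rw [smul_smul, inv_mul_cancel₀ h3, one_smul]
  rw [h4, this]
  simp only [div_eq_mul_inv]
  module

/-- **GMA-DET.**  two linear forms with the same kernel.  (`b - (b·n / a·n) a` kills the basis `(p, v₁, v₂, n)`.) -/
theorem gma_proportional {a b p v₁ v₂ : V4} (hli : LinearIndependent ℂ ![p, v₁, v₂]) (ha : a ≠ 0) (hap : dot a p = 0)
    (ha₁ : dot a v₁ = 0) (ha₂ : dot a v₂ = 0) (hbp : dot b p = 0) (hb₁ : dot b v₁ = 0) (hb₂ : dot b v₂ = 0) :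
    ∃ c : ℂ, b = c • a := by
  obtain ⟨n, hn⟩ := gma_exists_det4 hli
  have han : dot a n ≠ 0 := fun h => hn (gma_det4_hyperplane ha hap ha₁ ha₂ h)
  refine ⟨dot b n / dot a n, ?_⟩
  by_contra hne
  have hl : ∀ y : V4, dot (b - (dot b n / dot a n) • a) y = dot b y - (dot b n / dot a n) * dot a y := by
    intro y
    simp only [dot, Pi.sub_apply, Pi.smul_apply, smul_eq_mul, sub_mul, Finset.sum_sub_distrib, Finset.mul_sum]
    congr 1
    exact Finset.sum_congr rfl fun i _ => by ring
  refine hn (gma_det4_hyperplane (g := b - (dot b n / dot a n) • a) (sub_ne_zero.2 hne) ?_ ?_ ?_ ?_)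
  · rw [hl, hbp, hap]; ring
  · rw [hl, hb₁, ha₁]; ring
  · rw [hl, hb₂, ha₂]; ring
  · rw [hl]; field_simp; ring

theorem gma_dot_add (a b c : V4) : dot a (b + c) = dot a b + dot a c := by
  simp [dot, mul_add, Finset.sum_add_distrib]

theorem gma_dot_smul (a b : V4) (t : ℂ) : dot a (t • b) = t * dot a b := by
  simp only [dot, Pi.smul_apply, smul_eq_mul, Finset.mul_sum]
  exact Finset.sum_congr rfl fun i _ => by ring

/-- the volume form does not depend on the transversal vector -/
theorem gma_det4_swap {g p v₁ v₂ : V4} (hg : g ≠ 0) (hp : dot g p = 0) (h₁ : dot g v₁ = 0) (h₂ : dot g v₂ = 0) (n n' : V4) :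
    det4 p v₁ v₂ n' * dot g n = det4 p v₁ v₂ n * dot g n' := by
  have h := gma_det4_hyperplane (d := dot g n • n' + (-dot g n') • n) hg hp h₁ h₂ (by
    rw [gma_dot_add, gma_dot_smul, gma_dot_smul]; ring)
  rw [gma_det4_last] at h
  linear_combination h

/-! ### GMA-FR : change of frame -/

/-- **GMA-FR.**  a degenerate frame gives a degenerate sextic.
Route: `¬ LinearIndependent`: `α p + β v₁ + γ v₂ = 0`, not all zero; `(β, γ) ≠ 0` since `p ≠ 0`.  Put `(T₀, U₀) = (γ, β)`: `U₀ v₁ + T₀ v₂ = -α p`.  For all `a b x`: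
`bsx c (T₀ + x a) (U₀ + x b) = f6 F p (x (b v₁ + a v₂) + (-α) p) = f6 F p (x (b v₁ + a v₂)) = x^6 f6 F p (b v₁ + a v₂)` (`c6_spec`, `gma_f6_add_smul`, `gma_f6_smul_right`), whose derivative at `x = 0` is `0`;
`multRoot_of_flat`, `r6_zero_iff`. -/
theorem gma_D6_degenerate {F : MvPolynomial (Fin 4) ℂ} (hF : F.IsHomogeneous 4) {p v₁ v₂ : V4} (hp : p ∈ Cone F)
    (h₁ : dot (grad F p) v₁ = 0) (h₂ : dot (grad F p) v₂ = 0) (hdep : ¬ LinearIndependent ℂ ![p, v₁, v₂]) :
    D6 F p v₁ v₂ = 0 := by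
  rw [Fintype.linearIndependent_iff] at hdep
  push Not at hdep
  obtain ⟨g, hg, i, hi⟩ := hdep
  rw [Fin.sum_univ_three] at hg
  simp only [Matrix.cons_val_zero, Matrix.cons_val_one, Matrix.cons_val_two, Matrix.head_cons, Matrix.tail_cons] at hg
  have h0 : g 2 ≠ 0 ∨ g 1 ≠ 0 := by
    by_contra hcon
    push Not at hcon
    rw [hcon.1, hcon.2, zero_smul, zero_smul, add_zero, add_zero] at hg
    have h00 : g 0 = 0 := (smul_eq_zero.1 hg).resolve_right hp.1
    fin_cases i
    · exact hi h00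
    · exact hi hcon.2
    · exact hi hcon.1
  unfold D6
  rw [r6_zero_iff]
  refine multRoot_of_flat h0 fun a b => ?_
  have e : (fun x : ℂ => bsx (c6 F (p, v₁, v₂)) (g 2 + x * a) (g 1 + x * b))
      = fun x : ℂ => x ^ 6 * f6 F p (b • v₁ + a • v₂) := by
    funext x
    rw [← c6_spec]
    have e1 : (g 1 + x * b) • v₁ + (g 2 + x * a) • v₂ = x • (b • v₁ + a • v₂) + (-g 0) • p := by
      have : g 1 • v₁ + g 2 • v₂ = (-g 0) • p := by
        rw [neg_smul, eq_neg_iff_add_eq_zero, ← hg]; abel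
      calc (g 1 + x * b) • v₁ + (g 2 + x * a) • v₂ = x • (b • v₁ + a • v₂) + (g 1 • v₁ + g 2 • v₂) := by module
        _ = _ := by rw [this]
    rw [e1, gma_f6_add_smul hF hp.2, gma_f6_smul_right]
    rw [gma_dot_smul, gma_dot_add, gma_dot_smul, gma_dot_smul, h₁, h₂]
    ring
  rw [e]
  have := (hasDerivAt_pow 6 (0 : ℂ)).mul_const (f6 F p (b • v₁ + a • v₂))
  simpa using this

/-- **GMA-FR.**  explicit change of frame:  `U v₁' + T v₂' = (a U + e T) v₁ + (b U + d T) v₂ + (…) p`, so `c' = c ∘ (T, U) ↦ (d T + b U, e T + a U)`; `c6_spec`, `gma_f6_add_smul`, `r6_cov`. -/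
theorem gma_D6_change {F : MvPolynomial (Fin 4) ℂ} (hF : F.IsHomogeneous 4) {p v₁ v₂ : V4} (hp : p ∈ Cone F)
    (h₁ : dot (grad F p) v₁ = 0) (h₂ : dot (grad F p) v₂ = 0) (a b e d x y : ℂ) :
    D6 F p (a • v₁ + b • v₂ + x • p) (e • v₁ + d • v₂ + y • p) = (a * d - b * e) ^ 30 * D6 F p v₁ v₂ := by
  unfold D6
  have h := r6_cov (c := c6 F (p, v₁, v₂)) (c' := c6 F (p, a • v₁ + b • v₂ + x • p, e • v₁ + d • v₂ + y • p))
    (a := d) (b := b) (e := e) (d := a) (fun T U => by
      rw [← c6_spec, ← c6_spec]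
      have e1 : U • (a • v₁ + b • v₂ + x • p) + T • (e • v₁ + d • v₂ + y • p)
          = ((e * T + a * U) • v₁ + (d * T + b * U) • v₂) + (x * U + y * T) • p := by module
      rw [e1, gma_f6_add_smul hF hp.2]
      rw [gma_dot_add, gma_dot_smul, gma_dot_smul, h₁, h₂]
      ring)
  rw [h]
  ring

/-- **The cross relation**: `D6 / vol^30` does not depend on the frame. -/
theorem gma_D6_cross {F : MvPolynomial (Fin 4) ℂ} (hF : IsSmoothQuarticForm F) {p v₁ v₂ v₁' v₂' : V4} (hp : p ∈ Cone F)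
    (h₁ : dot (grad F p) v₁ = 0) (h₂ : dot (grad F p) v₂ = 0) (h₁' : dot (grad F p) v₁' = 0)
    (h₂' : dot (grad F p) v₂' = 0) (n n' : V4) :
    D6 F p v₁' v₂' * (det4 p v₁ v₂ n * dot (grad F p) n') ^ 30 =
      D6 F p v₁ v₂ * (det4 p v₁' v₂' n' * dot (grad F p) n) ^ 30 := by
  have hg : grad F p ≠ 0 := l2_grad_ne_zero hF hp
  have hpp : dot (grad F p) p = 0 := by rw [l2_euler hF.1, hp.2]; simp
  by_cases hdet : det4 p v₁ v₂ n = 0
  · have hD : D6 F p v₁ v₂ * (det4 p v₁' v₂' n' * dot (grad F p) n) = 0 := by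
      by_cases hli : LinearIndependent ℂ ![p, v₁, v₂]
      · -- then `n` lies in the hyperplane
        obtain ⟨m, hm⟩ := gma_exists_det4 hli
        have h := gma_det4_swap hg hpp h₁ h₂ m n
        rw [hdet, zero_mul] at h
        have : dot (grad F p) n = 0 := by
          rcases mul_eq_zero.1 h.symm with h | h
          · exact absurd h hm
          · exact h
        rw [this]; ring
      · rw [gma_D6_degenerate hF.1 hp h₁ h₂ hli]; ring
    rw [hdet]
    have : D6 F p v₁ v₂ * (det4 p v₁' v₂' n' * dot (grad F p) n) ^ 30 = 0 := by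
      rw [show (30 : ℕ) = 29 + 1 from rfl, pow_succ, ← mul_assoc, mul_right_comm, hD]; ring
    rw [this]; ring
  · obtain ⟨a, b, x, e₁⟩ := gma_span hg hpp h₁ h₂ hdet h₁'
    obtain ⟨e, d, y, e₂⟩ := gma_span hg hpp h₁ h₂ hdet h₂'
    rw [e₁, e₂, gma_D6_change hF.1 hp h₁ h₂, gma_det4_add_smul]
    have h := gma_det4_swap hg hpp h₁ h₂ n n'
    rw [mul_assoc (a * d - b * e), h]
    ring

end Claimed.Agent.R245
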