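/-
Row 245 / S0484, GEO block 4 = GEO-MULT (sub-architect helper139).   Package GMX: the maximum principle (M'):  there is a point `p` of the cone at which the sextic `f6 F p ·` on `T_p / ℂ p` has a multiple root.
Idea: `|D6| |g·n|^30 / |det4 p v₁ v₂ n|^30` does not depend on the frame (`gma_D6_cross`), is homogeneous of degree `80` in `p`, and is locally the modulus of a holomorphic function.  If it had no zero, then
`|p|^80 / N p` would have a maximum on the compact surface; normalising a non radial holomorphic curve through the maximum point by an `80`-th root gives a holomorphic curve in `ℂ⁴` whose EUCLIDEAN norm has a local maximum,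
hence a constant curve (`Complex.eventually_eq_of_isLocalMax_norm`, strictly convex norm): contradiction.
No paper.  Statements FROZEN; several owners: touch only your theorems; helper lemmas directly above your theorem, prefix `gmx_`.
-/
import Claimed.Agent.R245.GeoMultAlg
import Claimed.Agent.R245.GeoPeak
import Claimed.Agent.R245.GeoGauss

set_option autoImplicit false

namespace Claimed.Agent.R245

open MvPolynomial Metric Set Filter Topology Claims.C0412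

/-- the Euclidean norm on `ℂ⁴` (`= ‖WithLp.toLp 2 p‖` in `EuclideanSpace ℂ (Fin 4)`, `EuclideanSpace.norm_eq`) -/
noncomputable def gmxE (p : V4) : ℝ := Real.sqrt (∑ i, ‖p i‖ ^ 2)

/-- **GMX-NE.**  The cone is not empty.  (`e₀ = Pi.single 0 1`, `e₁ = Pi.single 1 1`.  If `F e₁ = 0` take `e₁`.  Otherwise `P = aeval (C (e₀ i) + C (e₁ i) X) F` has `coeff 4 = lc F 4 e₀ e₁ = F e₁ ≠ 0`
(`gma_lc_smul_left` with `t = 0` and `gma_expand_one`, or directly), so `degree P ≠ 0` and `P` has a root `l` (`IsAlgClosed.exists_root`); `e₀ + l e₁ ≠ 0`.) -/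
theorem gmx_cone_nonempty {F : MvPolynomial (Fin 4) ℂ} (hF : F.IsHomogeneous 4) : (Cone F).Nonempty := by
  set e₀ : V4 := Pi.single 0 1 with he₀
  set e₁ : V4 := Pi.single 1 1 with he₁
  set Q : Polynomial ℂ := ∑ k ∈ Finset.range 5, Polynomial.C (lc F k e₀ e₁) * Polynomial.X ^ k with hQ
  have hQe : ∀ l : ℂ, Q.eval l = eval (e₀ + l • e₁) F := by
    intro l
    rw [gma_expand_one hF, hQ, Polynomial.eval_finsetSum]
    simp
  by_cases hdeg : Q.degree = 0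
  · -- `F e₁ = 0`
    have h4 : Q.coeff 4 = 0 := Polynomial.coeff_eq_zero_of_degree_lt (by rw [hdeg]; norm_num)
    have h4' : Q.coeff 4 = lc F 4 e₀ e₁ := by
      rw [hQ, Polynomial.finsetSum_coeff]
      simp
    have h5 : eval e₁ F = lc F 4 e₀ e₁ := by
      have := gma_expand hF e₀ e₁ 0 1
      simpa [Finset.sum_range_succ] using this
    refine ⟨e₁, ?_, by rw [h5, ← h4', h4]⟩
    intro h0
    have := congrFun h0 1
    simp [he₁] at this
  · obtain ⟨l, hl⟩ := IsAlgClosed.exists_root Q hdeg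
    refine ⟨e₀ + l • e₁, ?_, by rw [← hQe]; exact hl⟩
    intro h0
    have := congrFun h0 0
    simp [he₀, he₁] at this

/-- **GMX-TB.**  a basis of the tangent plane.  (Linear algebra: `ker (dot g)` has dimension `3` and contains `p ≠ 0`; extend `p` to a basis of it; `n` with `dot g n ≠ 0`.   Or explicitly: `k` with `g k ≠ 0`; `j ≠ k` with `p j ≠ 0`
(exists since `dot g p = 0`); `{a, b}` the other two indices, `u = g k • e_a - g a • e_k`, … , `n = e_k`, `det = ± (g k)^2 p j`.) -/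
theorem gmx_tangent_basis {g p : V4} (hg : g ≠ 0) (hp : p ≠ 0) (hgp : dot g p = 0) :
    ∃ u₁ u₂ n : V4, dot g u₁ = 0 ∧ dot g u₂ = 0 ∧ det4 p u₁ u₂ n ≠ 0 := by
  obtain ⟨φ, hφd⟩ : ∃ φ : V4 →ₗ[ℂ] ℂ, ∀ v, φ v = dot g v :=
    ⟨{ toFun := dot g
       map_add' := gma_dot_add g
       map_smul' := fun t b => by simpa using gma_dot_smul g b t }, fun _ => rfl⟩
  have hφ : φ ≠ 0 := by
    intro h0
    apply hg
    funext i
    have := LinearMap.congr_fun h0 (Pi.single i 1)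
    rw [hφd] at this
    simpa [dot, Pi.single_apply] using this
  have hrank : Module.finrank ℂ (LinearMap.ker φ) = 3 := by
    have := Module.Dual.finrank_ker_add_one_of_ne_zero (f := φ) hφ
    simp at this
    omega
  have hpm : p ∈ LinearMap.ker φ := by rw [LinearMap.mem_ker, hφd]; exact hgp
  obtain ⟨u₁, h1⟩ := exists_linearIndependent_pair_of_one_lt_finrank (R := ℂ)
    (M := LinearMap.ker φ) (by omega) (x := ⟨p, hpm⟩) (by simpa using hp)
  obtain ⟨u₂, h2⟩ := exists_linearIndependent_snoc_of_lt_finrank h1 (by omega)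
  have h3 : LinearIndependent ℂ ![p, (u₁ : V4), (u₂ : V4)] := by
    have := h2.map' (LinearMap.ker φ).subtype (Submodule.ker_subtype _)
    have e : ![p, (u₁ : V4), (u₂ : V4)]
        = (LinearMap.ker φ).subtype ∘ Fin.snoc ![⟨p, hpm⟩, u₁] u₂ := by
      funext i
      fin_cases i <;> rfl
    rw [e]
    exact this
  obtain ⟨n, hn⟩ := gma_exists_det4 h3
  refine ⟨u₁, u₂, n, ?_, ?_, hn⟩
  · rw [← hφd]; exact u₁.2
  · rw [← hφd]; exact u₂.2

/-- a frame of the tangent plane at `p`, with a transversal vector `n` -/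
def IsFr (F : MvPolynomial (Fin 4) ℂ) (p v₁ v₂ n : V4) : Prop :=
  dot (grad F p) v₁ = 0 ∧ dot (grad F p) v₂ = 0 ∧ det4 p v₁ v₂ n ≠ 0

/-- **GMX-FR.**  a global polynomial frame field which is a frame at `p₀`:  `φ_i y = (g y · n) u_i - (g y · u_i) n` with `(u₁, u₂, n)` from `gmx_tangent_basis` at `p₀`
(`det4 p₀ (φ₁ p₀) (φ₂ p₀) n = (g p₀ · n)^2 det4 p₀ u₁ u₂ n`, `gma_det4_add_smul`; `g p₀ · n ≠ 0` by `gma_det4_hyperplane`; `l2_differentiable_grad`). -/
theorem gmx_frame {F : MvPolynomial (Fin 4) ℂ} (hF : IsSmoothQuarticForm F) {p₀ : V4} (hp₀ : p₀ ∈ Cone F) :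
    ∃ (φ₁ φ₂ : V4 → V4) (n : V4), Differentiable ℂ φ₁ ∧ Differentiable ℂ φ₂ ∧ (∀ y, dot (grad F y) (φ₁ y) = 0) ∧
      (∀ y, dot (grad F y) (φ₂ y) = 0) ∧ det4 p₀ (φ₁ p₀) (φ₂ p₀) n ≠ 0 := by
  have hg : grad F p₀ ≠ 0 := l2_grad_ne_zero hF hp₀
  have hpp : dot (grad F p₀) p₀ = 0 := by rw [l2_euler hF.1, hp₀.2]; simp
  obtain ⟨u₁, u₂, n, h1, h2, hdet⟩ := gmx_tangent_basis hg hp₀.1 hpp
  have hgn : dot (grad F p₀) n ≠ 0 := fun h0 => hdet (gma_det4_hyperplane hg hpp h1 h2 h0)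
  have hgd : ∀ v : V4, Differentiable ℂ fun y : V4 => dot (grad F y) v := by
    intro v
    unfold dot
    exact Differentiable.fun_sum fun i _ =>
      ((differentiable_pi.1 (l2_differentiable_grad F) i).mul (differentiable_const _))
  have hd : ∀ u : V4, Differentiable ℂ
      fun y : V4 => dot (grad F y) n • u + (-dot (grad F y) u) • n := by
    intro u
    exact ((hgd n).smul_const u).add ((hgd u).neg.smul_const n)
  have hz : ∀ (u y : V4), dot (grad F y) (dot (grad F y) n • u + (-dot (grad F y) u) • n) = 0 := by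
    intro u y
    rw [gma_dot_add, gma_dot_smul, gma_dot_smul]
    ring
  refine ⟨fun y => dot (grad F y) n • u₁ + (-dot (grad F y) u₁) • n,
    fun y => dot (grad F y) n • u₂ + (-dot (grad F y) u₂) • n, n, hd u₁, hd u₂, hz u₁, hz u₂, ?_⟩
  have e := gma_det4_add_smul p₀ u₁ u₂ n (dot (grad F p₀) n) 0 0 (dot (grad F p₀) n) 0 0
  simp only [h1, h2, neg_zero, zero_smul, add_zero] at e ⊢
  simp only [zero_add] at e
  rw [e]
  exact mul_ne_zero (by simpa using mul_ne_zero hgn hgn) hdet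

/-- **GMX-CH.**  a chart of the cone (from `gp_chart` with `e' = 0`; `(e, m, n)` from `gmx_tangent_basis`, `n` rescaled so that `g · n = 1`; `ξ (0,0) = x` because `‖μ (0,0)‖ ≤ C₀ ‖F x‖ = 0`). -/
theorem gmx_chart {F : MvPolynomial (Fin 4) ℂ} (hF : IsSmoothQuarticForm F) {x : V4} (hx : x ∈ Cone F) :
    ∃ (r : ℝ) (ξ : ℂ × ℂ → V4), 0 < r ∧ HolOn F ξ (ball (0 : ℂ) r ×ˢ ball (0 : ℂ) r) ∧ ξ (0, 0) = x ∧ RegAt ξ (0, 0) := by
  have hg : grad F x ≠ 0 := l2_grad_ne_zero hF hx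
  have hgx : dot (grad F x) x = 0 := by rw [l2_euler hF.1, hx.2, mul_zero]
  obtain ⟨u₁, u₂, n, h1, h2, hdet⟩ := gmx_tangent_basis hg hx.1 hgx
  have hgn : dot (grad F x) n ≠ 0 := fun h0 => hdet (gma_det4_hyperplane hg hgx h1 h2 h0)
  have hn' : dot (grad F x) ((dot (grad F x) n)⁻¹ • n) = 1 := by
    have : dot (grad F x) ((dot (grad F x) n)⁻¹ • n) = (dot (grad F x) n)⁻¹ * dot (grad F x) n := by
      rw [← l2dotL_apply, ← l2dotL_apply, map_smul, smul_eq_mul]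
    rw [this, inv_mul_cancel₀ hgn]
  obtain ⟨r₀, C₀, μ, hr₀, -, hhol, hμ, hli⟩ := gp_chart F x u₁ 0 u₂ ((dot (grad F x) n)⁻¹ • n) hx h1 h2 hn'
    (gma_indep_of_det4 hdet)
  have hY0 : gpY x u₁ 0 u₂ (0, 0) = x := by simp [gpY]
  have hμ0 : μ (0, 0) = 0 := by
    have := hμ (0, 0) ⟨mem_ball_self hr₀, mem_ball_self hr₀⟩
    rw [hY0, hx.2, norm_zero, mul_zero] at this
    exact norm_le_zero_iff.1 this
  refine ⟨r₀, fun q => gpY x u₁ 0 u₂ q + μ q • ((dot (grad F x) n)⁻¹ • n), hr₀, hhol, ?_, hli⟩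
  simp only [hY0, hμ0, zero_smul, add_zero]

/-- **GMX-CV.**  a non radial holomorphic curve through a point of the cone (`c t = ξ (t, 0)`, `deriv c 0 = fderiv ξ (0,0) (1,0)`). -/
theorem gmx_curve {F : MvPolynomial (Fin 4) ℂ} (hF : IsSmoothQuarticForm F) {x : V4} (hx : x ∈ Cone F) :
    ∃ (r : ℝ) (c : ℂ → V4), 0 < r ∧ DifferentiableOn ℂ c (ball 0 r) ∧ (∀ t ∈ ball (0 : ℂ) r, c t ∈ Cone F) ∧ c 0 = x ∧
      LinearIndependent ℂ ![x, deriv c 0] := by
  obtain ⟨r, ξ, hr, hhol, h0, hreg⟩ := gmx_chart hF hx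
  have hmaps : MapsTo (fun t : ℂ => (t, (0 : ℂ))) (ball 0 r) (ball (0 : ℂ) r ×ˢ ball (0 : ℂ) r) :=
    fun t ht => ⟨ht, mem_ball_self hr⟩
  have hopen : IsOpen (ball (0 : ℂ) r ×ˢ ball (0 : ℂ) r) := isOpen_ball.prod isOpen_ball
  have hd0 : DifferentiableAt ℂ ξ (0, 0) :=
    hhol.1.differentiableAt (hopen.mem_nhds ⟨mem_ball_self hr, mem_ball_self hr⟩)
  have hder : HasDerivAt (fun t : ℂ => ξ (t, 0)) (fderiv ℂ ξ (0, 0) (1, 0)) 0 := by
    have h1 : HasDerivAt (fun t : ℂ => (t, (0 : ℂ))) ((1 : ℂ), (0 : ℂ)) 0 :=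
      (hasDerivAt_id (0 : ℂ)).prodMk (hasDerivAt_const (0 : ℂ) (0 : ℂ))
    have h2 : HasFDerivAt ξ (fderiv ℂ ξ (0, 0)) ((fun t : ℂ => (t, (0 : ℂ))) 0) := hd0.hasFDerivAt
    exact HasFDerivAt.comp_hasDerivAt (f := fun t : ℂ => (t, (0 : ℂ))) (0 : ℂ) h2 h1
  refine ⟨r, fun t => ξ (t, 0), hr, ?_, fun t ht => hhol.2 (hmaps ht), h0, ?_⟩
  · exact hhol.1.comp (by fun_prop) hmaps
  · rw [hder.deriv]
    unfold RegAt at hreg
    rw [h0] at hreg
    rw [LinearIndependent.pair_iff]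
    intro s t hst
    have := Fintype.linearIndependent_iff.1 hreg ![s, t, 0] (by
      simp only [Fin.sum_univ_three]
      simp only [Matrix.cons_val]
      rw [zero_smul, add_zero]
      exact hst)
    exact ⟨this 0, this 1⟩

theorem gmx_E_eq_norm (p : V4) : gmxE p = ‖(EuclideanSpace.equiv (Fin 4) ℂ).symm p‖ := by
  rw [EuclideanSpace.norm_eq]; rfl

theorem gmx_E_smul (t : ℂ) (p : V4) : gmxE (t • p) = ‖t‖ * gmxE p := by
  rw [gmx_E_eq_norm, gmx_E_eq_norm, map_smul, norm_smul]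

theorem gmx_E_nonneg (p : V4) : 0 ≤ gmxE p := Real.sqrt_nonneg _

theorem gmx_E_pos {p : V4} (hp : p ≠ 0) : 0 < gmxE p := by
  rw [gmx_E_eq_norm, norm_pos_iff]
  simpa using hp

theorem gmx_E_continuous : Continuous gmxE := by
  have : gmxE = fun p => ‖(EuclideanSpace.equiv (Fin 4) ℂ).symm p‖ := funext gmx_E_eq_norm
  rw [this]
  exact (EuclideanSpace.equiv (Fin 4) ℂ).symm.continuous.norm

theorem gmx_norm_le_E (p : V4) : ‖p‖ ≤ gmxE p := by
  rw [pi_norm_le_iff_of_nonneg (gmx_E_nonneg p)]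
  intro i
  unfold gmxE
  apply Real.le_sqrt_of_sq_le
  exact Finset.single_le_sum (f := fun i => ‖p i‖ ^ 2) (fun j _ => by positivity) (Finset.mem_univ i)

/-- **GMX-MAX.**  existence of the maximum.
Route: `K = {p | gmxE p = 1 ∧ eval p F = 0}` is compact (closed and bounded: `‖p‖ ≤ gmxE p`), non empty (`gmx_cone_nonempty`, rescale), contained in the cone.  `N` is continuous on the cone: at `p₀` it coincides on `W ∩ Cone F` with `‖H ·‖`,
`H` continuous at `p₀` (`ContinuousWithinAt.congr_of_eventuallyEq` / `mem_nhdsWithin`).  `IsCompact.exists_isMaxOn` for `p ↦ 1 / N p` on `K` gives `p₀`.  For `p` in the cone, `t = (gmxE p)⁻¹`: `t • p ∈ K`, `N (t • p) = t^k N p`,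
so `gmxE p ^ k / N p = 1 / N (t • p) ≤ 1 / N p₀ = gmxE p₀ ^ k / N p₀`. -/
theorem gmx_exists_max {F : MvPolynomial (Fin 4) ℂ} (hF : F.IsHomogeneous 4) (k : ℕ) (N : V4 → ℝ)
    (hpos : ∀ p ∈ Cone F, 0 < N p) (hhom : ∀ p ∈ Cone F, ∀ t : ℂ, t ≠ 0 → N (t • p) = ‖t‖ ^ k * N p)
    (hloc : ∀ p₀ ∈ Cone F, ∃ (W : Set V4) (H : V4 → ℂ), IsOpen W ∧ p₀ ∈ W ∧ DifferentiableOn ℂ H W ∧
      ∀ p ∈ W ∩ Cone F, N p = ‖H p‖) :
    ∃ p₀ ∈ Cone F, ∀ p ∈ Cone F, gmxE p ^ k / N p ≤ gmxE p₀ ^ k / N p₀ := by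
  set K : Set V4 := {p | gmxE p = 1 ∧ eval p F = 0} with hK
  have hKc : K ⊆ Cone F := by
    rintro p ⟨h1, h2⟩
    refine ⟨?_, h2⟩
    rintro rfl
    have : gmxE (0 : V4) = 0 := by simp [gmxE]
    rw [this] at h1
    exact zero_ne_one h1
  have hscale : ∀ p ∈ Cone F, (((gmxE p)⁻¹ : ℝ) : ℂ) ≠ 0 ∧ (((gmxE p)⁻¹ : ℝ) : ℂ) • p ∈ K := by
    intro p hp
    have hE : 0 < gmxE p := gmx_E_pos hp.1
    have ht : (((gmxE p)⁻¹ : ℝ) : ℂ) ≠ 0 := by exact_mod_cast (inv_pos.2 hE).ne'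
    refine ⟨ht, ?_, (l2_smul_mem_cone hF ht hp).2⟩
    rw [gmx_E_smul, Complex.norm_real, Real.norm_of_nonneg (inv_pos.2 hE).le, inv_mul_cancel₀ hE.ne']
  have hKne : K.Nonempty := by
    obtain ⟨p, hp⟩ := gmx_cone_nonempty hF
    exact ⟨_, (hscale p hp).2⟩
  have hKcomp : IsCompact K := by
    apply Metric.isCompact_of_isClosed_isBounded
    · exact (isClosed_eq gmx_E_continuous continuous_const).inter
        (isClosed_eq (MvPolynomial.continuous_eval F) continuous_const)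
    · refine (Metric.isBounded_closedBall (x := (0 : V4)) (r := 1)).subset ?_
      rintro p ⟨h1, -⟩
      rw [mem_closedBall_zero_iff, ← h1]
      exact gmx_norm_le_E p
  have hNc : ContinuousOn N K := by
    intro p₀ hp₀
    obtain ⟨W, H, hW, hp₀W, hH, hNH⟩ := hloc p₀ (hKc hp₀)
    have h1 : ContinuousWithinAt (fun p => ‖H p‖) K p₀ :=
      ((hH.differentiableAt (hW.mem_nhds hp₀W)).continuousAt.norm).continuousWithinAt
    refine h1.congr_of_eventuallyEq ?_ (hNH p₀ ⟨hp₀W, hKc hp₀⟩)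
    filter_upwards [mem_nhdsWithin_of_mem_nhds (hW.mem_nhds hp₀W), self_mem_nhdsWithin] with p h2 h3
    exact hNH p ⟨h2, hKc h3⟩
  obtain ⟨p₀, hp₀, hmin⟩ := hKcomp.exists_isMinOn hKne hNc
  refine ⟨p₀, hKc hp₀, fun p hp => ?_⟩
  obtain ⟨ht, htK⟩ := hscale p hp
  have hE : 0 < gmxE p := gmx_E_pos hp.1
  have h1 : N p₀ ≤ N ((((gmxE p)⁻¹ : ℝ) : ℂ) • p) := hmin htK
  rw [hhom p hp _ ht, Complex.norm_real, Real.norm_of_nonneg (inv_pos.2 hE).le, inv_pow] at h1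
  rw [hp₀.1, one_pow, div_le_div_iff₀ (hpos p hp) (hpos p₀ (hKc hp₀)), one_mul]
  have h2 : 0 < gmxE p ^ k := pow_pos hE k
  rw [inv_mul_eq_div, le_div_iff₀ h2] at h1
  linarith

/-- **GMX-LOC.**  the local argument (Mathlib only).
Route: near `0`, `h t / h 0` is close to `1`, so `L t = Complex.log (h t / h 0)` is holomorphic near `0`, `exp (L t) = h t / h 0`, `L 0 = 0`.   `ĉ t = exp (- L t / k) • c t`, viewed in `EuclideanSpace ℂ (Fin 4)` (`WithLp.toLp 2`, a continuous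
linear equivalence, so differentiability is preserved).  `‖ĉ t‖ ^ k = ‖h 0‖ / ‖h t‖ * gmxE (c t) ^ k ≤ gmxE (c 0) ^ k = ‖ĉ 0‖ ^ k`, so `‖ĉ ·‖` has a local maximum at `0` (`pow_le_pow_iff_left₀`);
`Complex.eventually_eq_of_isLocalMax_norm` (needs `∀ᶠ t in 𝓝 0, DifferentiableAt ℂ ĉ t` and `StrictConvexSpace ℝ (EuclideanSpace ℂ (Fin 4))`): `ĉ` is constant near `0`, so `deriv ĉ 0 = 0`, i.e.
`- (L' 0 / k) • c 0 + deriv c 0 = 0`. -/
theorem gmx_local (k : ℕ) (hk : 1 ≤ k) {c : ℂ → V4} {r : ℝ} (hr : 0 < r) (hc : DifferentiableOn ℂ c (ball 0 r)) {h : ℂ → ℂ}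
    (hh : DifferentiableOn ℂ h (ball 0 r)) (hne : ∀ t ∈ ball (0 : ℂ) r, h t ≠ 0)
    (hmax : ∀ t ∈ ball (0 : ℂ) r, gmxE (c t) ^ k / ‖h t‖ ≤ gmxE (c 0) ^ k / ‖h 0‖) :
    ∃ a : ℂ, deriv c 0 = a • c 0 := by
  have hk0 : (k : ℂ) ≠ 0 := by exact_mod_cast (by omega : k ≠ 0)
  have h0mem : (0 : ℂ) ∈ ball (0 : ℂ) r := mem_ball_self hr
  have hh0 : h 0 ≠ 0 := hne 0 h0mem
  have hball : ball (0 : ℂ) r ∈ 𝓝 (0 : ℂ) := ball_mem_nhds 0 hr
  have hevb : ∀ᶠ t in 𝓝 (0 : ℂ), t ∈ ball (0 : ℂ) r := hball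
  set g : ℂ → ℂ := fun t => h t / h 0 with hg
  have hgd : ∀ t ∈ ball (0 : ℂ) r, DifferentiableAt ℂ g t := fun t ht =>
    ((hh.differentiableAt (isOpen_ball.mem_nhds ht)).div_const _)
  have hg0 : g 0 = 1 := div_self hh0
  have hslit : ∀ᶠ t in 𝓝 (0 : ℂ), g t ∈ Complex.slitPlane := by
    apply (hgd 0 h0mem).continuousAt.eventually
    rw [hg0]
    exact Complex.isOpen_slitPlane.mem_nhds Complex.one_mem_slitPlane
  set L : ℂ → ℂ := fun t => Complex.log (g t) with hL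
  have hLd : ∀ᶠ t in 𝓝 (0 : ℂ), DifferentiableAt ℂ L t := by
    filter_upwards [hslit, hevb] with t h1 h2
    exact (hgd t h2).clog h1
  have hL0 : L 0 = 0 := by simp [hL, hg0]
  set Φ := (EuclideanSpace.equiv (Fin 4) ℂ).symm with hΦ
  set ch : ℂ → EuclideanSpace ℂ (Fin 4) := fun t => Φ (Complex.exp (-(L t) / k) • c t) with hch
  have hchd : ∀ᶠ t in 𝓝 (0 : ℂ), DifferentiableAt ℂ ch t := by
    filter_upwards [hLd, hevb] with t h1 h2
    have h3 : DifferentiableAt ℂ (fun t => Complex.exp (-(L t) / k) • c t) t :=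
      ((h1.neg.div_const _).cexp).smul (hc.differentiableAt (isOpen_ball.mem_nhds h2))
    exact Φ.differentiableAt.comp t h3
  have hnorm : ∀ t ∈ ball (0 : ℂ) r, ‖ch t‖ ^ k = ‖h 0‖ / ‖h t‖ * gmxE (c t) ^ k := by
    intro t ht
    have hgt : g t ≠ 0 := div_ne_zero (hne t ht) hh0
    have h1 : ‖ch t‖ = ‖Complex.exp (-(L t) / k)‖ * gmxE (c t) := by
      rw [hch]; simp only; rw [map_smul, norm_smul, gmx_E_eq_norm]
    have h2 : Complex.exp (-(L t) / k) ^ k = (g t)⁻¹ := by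
      rw [← Complex.exp_nat_mul, mul_div_cancel₀ _ hk0, Complex.exp_neg, hL]
      simp only
      rw [Complex.exp_log hgt]
    rw [h1, mul_pow, ← norm_pow, h2, norm_inv, hg]
    simp only
    rw [norm_div, inv_div]
  have hmaxl : IsLocalMax (norm ∘ ch) 0 := by
    filter_upwards [hevb] with t ht
    simp only [Function.comp]
    have h1 := hnorm t ht
    have h2 := hnorm 0 h0mem
    have hp0 : 0 < ‖h 0‖ := norm_pos_iff.2 hh0
    have hpt : 0 < ‖h t‖ := norm_pos_iff.2 (hne t ht)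
    rw [div_self hp0.ne', one_mul] at h2
    have h3 := hmax t ht
    have h4 : ‖ch t‖ ^ k ≤ ‖ch 0‖ ^ k := by
      rw [h1, h2]
      rw [div_le_div_iff₀ hpt hp0] at h3
      rw [div_mul_eq_mul_div, div_le_iff₀ hpt]
      linarith
    exact (pow_le_pow_iff_left₀ (norm_nonneg _) (norm_nonneg _) (by omega)).1 h4
  have hconst := Complex.eventually_eq_of_isLocalMax_norm hchd hmaxl
  have hc_eq : c =ᶠ[𝓝 0] fun t => Complex.exp (L t / k) • c 0 := by
    filter_upwards [hconst] with t ht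
    have h1 : Complex.exp (-(L t) / k) • c t = c 0 := by
      have := Φ.injective ht
      simpa [hL0] using this
    rw [← h1, smul_smul, ← Complex.exp_add]
    have : L t / k + -(L t) / k = 0 := by ring
    rw [this, Complex.exp_zero, one_smul]
  refine ⟨deriv (fun t => Complex.exp (L t / k)) 0, ?_⟩
  rw [hc_eq.deriv_eq]
  exact deriv_smul_const ((hLd.self_of_nhds.div_const _).cexp) _

/-- **The abstract maximum principle**: there is no nowhere vanishing 'section of `O (k)`', `k ≥ 1`, on a smooth quartic surface. -/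
theorem gmx_amp {F : MvPolynomial (Fin 4) ℂ} (hF : IsSmoothQuarticForm F) (k : ℕ) (hk : 1 ≤ k) (N : V4 → ℝ)
    (hpos : ∀ p ∈ Cone F, 0 < N p) (hhom : ∀ p ∈ Cone F, ∀ t : ℂ, t ≠ 0 → N (t • p) = ‖t‖ ^ k * N p)
    (hloc : ∀ p₀ ∈ Cone F, ∃ (W : Set V4) (H : V4 → ℂ), IsOpen W ∧ p₀ ∈ W ∧ DifferentiableOn ℂ H W ∧
      ∀ p ∈ W ∩ Cone F, N p = ‖H p‖) : False := by
  obtain ⟨p₀, hp₀, hmax⟩ := gmx_exists_max hF.1 k N hpos hhom hloc
  obtain ⟨W, H, hW, hp₀W, hH, hNH⟩ := hloc p₀ hp₀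
  obtain ⟨r, c, hr, hc, hcc, hc0, hli⟩ := gmx_curve hF hp₀
  -- shrink `r` so that the curve stays in `W`
  have hcont : ContinuousAt c 0 := (hc.differentiableAt (ball_mem_nhds 0 hr)).continuousAt
  have hev : ∀ᶠ t in 𝓝 (0 : ℂ), c t ∈ W := hcont.eventually (by rw [hc0]; exact hW.mem_nhds hp₀W)
  obtain ⟨r', hr', hsub⟩ := Metric.eventually_nhds_iff_ball.1 hev
  set ρ := min r r' with hρ
  have hρ0 : 0 < ρ := lt_min hr hr'
  have hb1 : ball (0 : ℂ) ρ ⊆ ball 0 r := ball_subset_ball (min_le_left _ _)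
  have hb2 : ball (0 : ℂ) ρ ⊆ ball 0 r' := ball_subset_ball (min_le_right _ _)
  have hN : ∀ t ∈ ball (0 : ℂ) ρ, N (c t) = ‖H (c t)‖ := fun t ht => hNH _ ⟨hsub t (hb2 ht), hcc t (hb1 ht)⟩
  obtain ⟨a, ha⟩ := gmx_local k hk hρ0 (hc.mono hb1) (h := fun t => H (c t))
    (hH.comp (hc.mono hb1) fun t ht => hsub t (hb2 ht))
    (fun t ht h0 => by
      have := hpos _ (hcc t (hb1 ht))
      rw [hN t ht, h0, norm_zero] at this
      exact lt_irrefl _ this)
    (fun t ht => by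
      rw [← hN t ht, ← hN 0 (mem_ball_self hρ0), hc0]
      exact hmax _ (hcc t (hb1 ht)))
  rw [hc0] at ha
  have h2 := LinearIndependent.pair_iff.1 hli a (-1) (by rw [ha]; simp)
  exact one_ne_zero (neg_eq_zero.1 h2.2)

/-! ### the function `N` -/

/-- the value of `|D| = |D6| |g·n|^30 / |vol|^30` computed in a frame -/
noncomputable def gmxNval (F : MvPolynomial (Fin 4) ℂ) (p v₁ v₂ n : V4) : ℝ :=
  ‖D6 F p v₁ v₂‖ * ‖dot (grad F p) n‖ ^ 30 / ‖det4 p v₁ v₂ n‖ ^ 30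

open Classical in
/-- `|D| (p)` -/
noncomputable def gmxN (F : MvPolynomial (Fin 4) ℂ) (p : V4) : ℝ :=
  if h : ∃ v₁ v₂ n, IsFr F p v₁ v₂ n then
    gmxNval F p h.choose h.choose_spec.choose h.choose_spec.choose_spec.choose else 0

theorem gmxNval_eq {F : MvPolynomial (Fin 4) ℂ} (hF : IsSmoothQuarticForm F) {p v₁ v₂ n v₁' v₂' n' : V4} (hp : p ∈ Cone F)
    (h : IsFr F p v₁ v₂ n) (h' : IsFr F p v₁' v₂' n') : gmxNval F p v₁' v₂' n' = gmxNval F p v₁ v₂ n := by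
  have hx := congrArg norm (gma_D6_cross hF hp h.1 h.2.1 h'.1 h'.2.1 n n')
  simp only [norm_mul, norm_pow] at hx
  have h1 : 0 < ‖det4 p v₁ v₂ n‖ ^ 30 := pow_pos (norm_pos_iff.2 h.2.2) _
  have h2 : 0 < ‖det4 p v₁' v₂' n'‖ ^ 30 := pow_pos (norm_pos_iff.2 h'.2.2) _
  unfold gmxNval
  rw [div_eq_div_iff h2.ne' h1.ne']
  rw [mul_pow, mul_pow] at hx
  linear_combination hx

theorem gmxN_eq {F : MvPolynomial (Fin 4) ℂ} (hF : IsSmoothQuarticForm F) {p v₁ v₂ n : V4} (hp : p ∈ Cone F)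
    (h : IsFr F p v₁ v₂ n) : gmxN F p = gmxNval F p v₁ v₂ n := by
  have hex : ∃ v₁ v₂ n, IsFr F p v₁ v₂ n := ⟨v₁, v₂, n, h⟩
  unfold gmxN
  rw [dif_pos hex]
  exact gmxNval_eq hF hp h hex.choose_spec.choose_spec.choose_spec

/-- **(M')**: the sextic has a multiple root at some point of the cone. -/
theorem gmx_exists_mult {F : MvPolynomial (Fin 4) ℂ} (hF : IsSmoothQuarticForm F) :
    ∃ p v₁ v₂ n : V4, p ∈ Cone F ∧ IsFr F p v₁ v₂ n ∧ D6 F p v₁ v₂ = 0 := by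
  by_contra hcon
  push Not at hcon
  have hgn : ∀ {p v₁ v₂ n : V4}, p ∈ Cone F → IsFr F p v₁ v₂ n → dot (grad F p) n ≠ 0 := by
    intro p v₁ v₂ n hp h h0
    have hpp : dot (grad F p) p = 0 := by rw [l2_euler hF.1, hp.2]; simp
    exact h.2.2 (gma_det4_hyperplane (l2_grad_ne_zero hF hp) hpp h.1 h.2.1 h0)
  refine gmx_amp hF 80 (by norm_num) (gmxN F) ?_ ?_ ?_
  · intro p hp
    obtain ⟨φ₁, φ₂, n, -, -, h₁, h₂, hdet⟩ := gmx_frame hF hp
    have hfr : IsFr F p (φ₁ p) (φ₂ p) n := ⟨h₁ p, h₂ p, hdet⟩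
    rw [gmxN_eq hF hp hfr]
    unfold gmxNval
    have := hcon p _ _ n hp hfr
    have := hgn hp hfr
    positivity
  · intro p hp t ht
    obtain ⟨φ₁, φ₂, n, -, -, h₁, h₂, hdet⟩ := gmx_frame hF hp
    have hfr : IsFr F p (φ₁ p) (φ₂ p) n := ⟨h₁ p, h₂ p, hdet⟩
    have hg : grad F (t • p) = t ^ 3 • grad F p := gg_grad_smul F hF t p
    have hdot : ∀ v, dot (grad F (t • p)) v = t ^ 3 * dot (grad F p) v := by
      intro v
      rw [hg]
      simp only [dot, Pi.smul_apply, smul_eq_mul, Finset.mul_sum]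
      exact Finset.sum_congr rfl fun i _ => by ring
    have hfr' : IsFr F (t • p) (φ₁ p) (φ₂ p) n := by
      refine ⟨by rw [hdot, hfr.1, mul_zero], by rw [hdot, hfr.2.1, mul_zero], ?_⟩
      rw [gma_det4_smul_left]
      exact mul_ne_zero ht hdet
    rw [gmxN_eq hF hp hfr, gmxN_eq hF (l2_smul_mem_cone hF.1 ht hp) hfr']
    unfold gmxNval
    rw [D6_smul_left hF.1, hdot, gma_det4_smul_left]
    simp only [norm_mul, norm_pow]
    have h1 : ‖t‖ ≠ 0 := norm_ne_zero_iff.2 ht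
    have h2 : ‖det4 p (φ₁ p) (φ₂ p) n‖ ≠ 0 := norm_ne_zero_iff.2 hdet
    field_simp
  · intro p₀ hp₀
    obtain ⟨φ₁, φ₂, n, hφ₁, hφ₂, h₁, h₂, hdet⟩ := gmx_frame hF hp₀
    have hd : Differentiable ℂ fun y : V4 => det4 y (φ₁ y) (φ₂ y) n :=
      differentiableOn_univ.1 (gma_det4_differentiableOn differentiableOn_id hφ₁.differentiableOn
        hφ₂.differentiableOn (differentiableOn_const n))
    have hD : Differentiable ℂ fun y : V4 => D6 F y (φ₁ y) (φ₂ y) :=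
      differentiableOn_univ.1 (D6_differentiableOn F differentiableOn_id hφ₁.differentiableOn hφ₂.differentiableOn)
    have hgd : Differentiable ℂ fun y : V4 => dot (grad F y) n := by
      unfold dot
      exact Differentiable.fun_sum fun i _ =>
        ((differentiable_pi.1 (l2_differentiable_grad F) i).mul (differentiable_const _))
    refine ⟨{y | det4 y (φ₁ y) (φ₂ y) n ≠ 0},
      fun y => D6 F y (φ₁ y) (φ₂ y) * dot (grad F y) n ^ 30 / det4 y (φ₁ y) (φ₂ y) n ^ 30,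
      isOpen_ne_fun hd.continuous continuous_const, hdet, ?_, ?_⟩
    · have h30 : Differentiable ℂ fun y : V4 => det4 y (φ₁ y) (φ₂ y) n ^ 30 := hd.pow 30
      have hnum : Differentiable ℂ fun y : V4 => D6 F y (φ₁ y) (φ₂ y) * dot (grad F y) n ^ 30 := hD.mul (hgd.pow 30)
      have hne : ∀ y ∈ {y : V4 | det4 y (φ₁ y) (φ₂ y) n ≠ 0}, det4 y (φ₁ y) (φ₂ y) n ^ 30 ≠ 0 :=
        fun y hy => pow_ne_zero 30 hy
      simp only [div_eq_mul_inv]
      exact hnum.differentiableOn.mul (h30.differentiableOn.fun_inv hne)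
    · rintro p ⟨hpW, hp⟩
      rw [gmxN_eq hF hp ⟨h₁ p, h₂ p, hpW⟩]
      unfold gmxNval
      simp only [norm_mul, norm_pow, norm_div]

end Claimed.Agent.R245
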