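/-
Row 245 / S0484, GEO block 4 = GEO-MULT (sub-architect helper139).   TOP of the block:  if the surface contains no line there is a non radial holomorphic disc `p (w)` in the cone, with a holomorphic frame `(v₁, v₂)` of `T_p / ℂ p`,
along which the sextic `f6 F (p w) (v₁ w + τ v₂ w)` has degree `6`, holomorphic roots with constant multiplicities, and at least one multiple root.
  gm_f6_ne  : (no line) the sextic is not identically zero, at any point of the cone        [double conic excluded by `gg_gauss`]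
  gm_disc0  : from one point with `D6 = 0` to a non radial disc in `{D6 = 0}`                [`gz_disc` in a chart]
  gm_bdisc  : the result in helper18's frozen form;   gm_bdisc_pat : with `gr_roots` applied (root pattern, some `m i ≥ 2`)
No paper.  Statements FROZEN; several owners: touch only your theorems; helper lemmas directly above your theorem, prefix `gm_`.
-/
import Claimed.Agent.R245.GeoMultMax
import Claimed.Agent.R245.GeoZero
import Claimed.Agent.R245.GeoRoots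

set_option autoImplicit false

namespace Claimed.Agent.R245

open MvPolynomial Metric Set Filter Topology Claims.C0412

/-! ### the sextic is not identically zero -/

/-- **GM-NZ-A.**  `lc F 4 p v = F v`  (`gma_lc_smul_left` with `t = 0`: `lc F 4 0 v = lc F 4 p v`; `gma_expand_one` at `p = 0`, `l = 1` together with `lc F k 0 v = 0` for `k < 4`; or directly). -/
theorem gm_lc_four {F : MvPolynomial (Fin 4) ℂ} (hF : F.IsHomogeneous 4) (p v : V4) : lc F 4 p v = eval v F := by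
  have h := gma_expand hF p v 0 1
  simp [Finset.sum_range_succ] at h
  exact h.symm

/-- **GM-NZ-A.**  a binary quartic has a root.  (If `F v = 0`: `(T, U) = (1, 0)`.  Otherwise `P = aeval (C (u i) + C (v i) X) F` has `coeff 4 = lc F 4 u v = F v ≠ 0`, so it has a root `T`; `U = 1`; `gma_expand_one`.) -/
theorem gm_binary_root {F : MvPolynomial (Fin 4) ℂ} (hF : F.IsHomogeneous 4) (u v : V4) :
    ∃ T U : ℂ, (T ≠ 0 ∨ U ≠ 0) ∧ eval (U • u + T • v) F = 0 := by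
  by_cases hv : eval v F = 0
  · exact ⟨1, 0, Or.inl one_ne_zero, by rw [zero_smul, one_smul, zero_add, hv]⟩
  · obtain ⟨P, hP⟩ : ∃ P : Polynomial ℂ, P = ∑ k ∈ Finset.range 5, Polynomial.C (lc F k u v) * Polynomial.X ^ k := ⟨_, rfl⟩
    have hc4 : P.coeff 4 = lc F 4 u v := by
      rw [hP]
      simp [Finset.sum_range_succ, Polynomial.coeff_C_mul, Polynomial.coeff_X_pow, Polynomial.coeff_X, Polynomial.coeff_one]
    have hdeg : P.degree ≠ 0 := by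
      intro h0
      have h1 := Polynomial.eq_C_of_degree_eq_zero h0
      have h2 : P.coeff 4 = 0 := by
        rw [h1, Polynomial.coeff_C]
        simp
      rw [hc4, gm_lc_four hF] at h2
      exact hv h2
    obtain ⟨T, hT⟩ := IsAlgClosed.exists_root P hdeg
    refine ⟨T, 1, Or.inr one_ne_zero, ?_⟩
    rw [one_smul, gma_expand_one hF]
    have h3 : P.eval T = ∑ k ∈ Finset.range 5, lc F k u v * T ^ k := by
      rw [hP, Polynomial.eval_finsetSum]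
      simp
    rw [← h3]
    exact hT

/-- a direction in which the residual quadratic vanishes identically spans a line of the surface -/
theorem gm_line_of_lc {F : MvPolynomial (Fin 4) ℂ} (hF : F.IsHomogeneous 4) {p v : V4} (hp : eval p F = 0)
    (hv : dot (grad F p) v = 0) (hli : LinearIndependent ℂ ![p, v]) (h2 : lc F 2 p v = 0) (h3 : lc F 3 p v = 0)
    (h4 : lc F 4 p v = 0) : HasLine F :=
  ⟨p, v, hli, fun s t => by rw [gma_expand_tangent hF hp hv, h2, h3, h4]; ring⟩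

theorem gmnb_three {p v₁ v₂ : V4} (hli : LinearIndependent ℂ ![p, v₁, v₂]) {a b c : ℂ}
    (h : a • p + b • v₁ + c • v₂ = 0) : a = 0 ∧ b = 0 ∧ c = 0 := by
  have h1 := Fintype.linearIndependent_iff.1 hli ![a, b, c] (by simpa [Fin.sum_univ_three] using h)
  exact ⟨h1 0, h1 1, h1 2⟩

/-- **GM-NZ-B.**  (linear algebra) -/
theorem gm_indep_dir {p v₁ v₂ : V4} (hli : LinearIndependent ℂ ![p, v₁, v₂]) {T U : ℂ} (h : T ≠ 0 ∨ U ≠ 0) :
    LinearIndependent ℂ ![p, U • v₁ + T • v₂] := by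
  rw [LinearIndependent.pair_iff]
  intro s t hst
  have h1 : s • p + (t * U) • v₁ + (t * T) • v₂ = 0 := by
    rw [← hst, smul_add, smul_smul, smul_smul, add_assoc]
  obtain ⟨hs, hU, hT⟩ := gmnb_three hli h1
  refine ⟨hs, ?_⟩
  rcases h with h | h
  · exact (mul_eq_zero.1 hT).resolve_right h
  · exact (mul_eq_zero.1 hU).resolve_right h

/-- **GM-NZ-B.**  (linear algebra) -/
theorem gm_indep_swap {p v₁ v₂ : V4} (hli : LinearIndependent ℂ ![p, v₁, v₂]) : LinearIndependent ℂ ![p, v₂, v₁] := by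
  have h := hli.comp ![0, 2, 1] (by decide)
  have e : ![p, v₁, v₂] ∘ ![0, 2, 1] = ![p, v₂, v₁] := by
    funext i
    fin_cases i <;> rfl
  rwa [e] at h

/-- independence of three vectors, explicit form -/
theorem gmnc_indep {p v₁ v₂ : V4} (hli : LinearIndependent ℂ ![p, v₁, v₂]) (a b c : ℂ)
    (h : a • p + b • v₁ + c • v₂ = 0) : a = 0 ∧ b = 0 ∧ c = 0 := by
  have := Fintype.linearIndependent_iff.1 hli ![a, b, c] (by
    simp only [Fin.sum_univ_three]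
    simp only [Matrix.cons_val]
    exact h)
  exact ⟨this 0, this 1, this 2⟩

/-- **GM-NZ-C.  No double conic.**   If `f6 ≡ 0` on the pencil and `a₂ (τ₀) ≠ 0`, the plane `T_p` is tangent to the surface along the arc of double residual points: impossible by `gg_gauss`.
Route.  `a_k τ = lc F k p (v₁ + τ v₂)` are holomorphic in `τ` (`gma_lc_differentiable`).  `S = ball τ₀ ε` on which `a₂ ≠ 0`.   `y τ = (- a₃ τ) • p + (2 a₂ τ) • (v₁ + τ • v₂)`.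
(1) `y` is holomorphic on `S`; `y τ ≠ 0` (independence, `2 a₂ ≠ 0`); `F (y τ) = l² (a₂ s² + a₃ s l + a₄ l²)` at `s = - a₃`, `l = 2 a₂`, which is `- l² a₂ f6 = 0` (`gma_expand_tangent`, `unfold f6`).  So `y τ ∈ Cone F`.
(2) `G = grad F (y τ)`: `G · p = l² (2 a₂ s + a₃ l) = 0` (`gma_grad_dot_p`);  `G · y = 0` (`l2_euler`), hence `2 a₂ (G · (v₁ + τ v₂)) = 0`, so `G · (v₁ + τ v₂) = 0`;
    differentiate `F (y τ) = 0` on `S` (`l2_hasFDerivAt_eval`, chain rule): `G · y' = 0` with `y' = (- a₃') p + (2 a₂') (v₁ + τ v₂) + (2 a₂) v₂`, hence `G · v₂ = 0`, and then `G · v₁ = 0`.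
(3) `gma_proportional` (with `a = grad F p ≠ 0`, `l2_grad_ne_zero`; `grad F p · p = 0` by Euler): `grad F (y τ) = c • grad F p`.
(4) `gg_gauss` on `S` (`(convex_ball _ _).isPreconnected`): `y τ' = c • y τ` for `τ ≠ τ'` in `S`.  Comparing the coefficients of `v₁` and `v₂` (independence): `2 a₂ τ' = c 2 a₂ τ` (as numbers `a₂ (τ')`, `a₂ (τ)`) and
    `2 a₂ (τ') τ' = c 2 a₂ (τ) τ`, so `τ' = τ`: contradiction. -/
theorem gm_no_double_conic {F : MvPolynomial (Fin 4) ℂ} (hF : IsSmoothQuarticForm F) {p v₁ v₂ : V4} (hp : p ∈ Cone F)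
    (h₁ : dot (grad F p) v₁ = 0) (h₂ : dot (grad F p) v₂ = 0) (hli : LinearIndependent ℂ ![p, v₁, v₂])
    (hf : ∀ τ : ℂ, f6 F p (v₁ + τ • v₂) = 0) {τ₀ : ℂ} (ha : lc F 2 p (v₁ + τ₀ • v₂) ≠ 0) : False := by
  have hH := gmnc_indep hli
  obtain ⟨a, had⟩ : ∃ a : ℕ → ℂ → ℂ, a = fun k τ => lc F k p (v₁ + τ • v₂) := ⟨_, rfl⟩
  have hae : ∀ k τ, lc F k p (v₁ + τ • v₂) = a k τ := fun k τ => by rw [had]
  have hadiff : ∀ k, Differentiable ℂ (a k) := by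
    intro k
    rw [had]
    have h1 : Differentiable ℂ fun τ : ℂ => (p, v₁ + τ • v₂) := by fun_prop
    have h2 := (gma_lc_differentiable F k).comp h1
    exact h2
  have htan : ∀ τ : ℂ, dot (grad F p) (v₁ + τ • v₂) = 0 := fun τ => by
    rw [gma_dot_add, gma_dot_smul, h₁, h₂]; ring
  rw [hae] at ha
  -- the ball
  have hev : ∀ᶠ τ in 𝓝 τ₀, a 2 τ ≠ 0 := (hadiff 2).continuous.continuousAt.eventually_ne ha
  obtain ⟨ε, hε, hball⟩ := Metric.eventually_nhds_iff_ball.1 hev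
  obtain ⟨y, hyd⟩ : ∃ y : ℂ → V4, y = fun τ => (-a 3 τ) • p + (2 * a 2 τ) • (v₁ + τ • v₂) := ⟨_, rfl⟩
  have hye : ∀ τ, y τ = (-a 3 τ) • p + (2 * a 2 τ) • (v₁ + τ • v₂) := fun τ => by rw [hyd]
  have hye' : ∀ τ, y τ = (-a 3 τ) • p + (2 * a 2 τ) • v₁ + (2 * a 2 τ * τ) • v₂ := fun τ => by
    rw [hye]; module
  have hFy : ∀ τ, eval (y τ) F = 0 := by
    intro τ
    rw [hye, gma_expand_tangent hF.1 hp.2 (htan τ), hae, hae, hae]
    have := hf τ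
    unfold f6 at this
    rw [hae, hae, hae] at this
    linear_combination (-(2 * a 2 τ) ^ 2 * a 2 τ) * this
  have hyne : ∀ τ ∈ ball τ₀ ε, y τ ≠ 0 := by
    intro τ hτ h0
    rw [hye'] at h0
    have := (hH _ _ _ h0).2.1
    exact hball τ hτ (by simpa using this)
  have hder : ∀ τ, HasDerivAt y ((-deriv (a 3) τ) • p +
      ((2 * a 2 τ) • v₂ + (2 * deriv (a 2) τ) • (v₁ + τ • v₂))) τ := by
    intro τ
    have h3 := ((hadiff 3) τ).hasDerivAt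
    have h2 := ((hadiff 2) τ).hasDerivAt
    have hV : HasDerivAt (fun τ : ℂ => v₁ + τ • v₂) v₂ τ := by
      simpa using ((hasDerivAt_id τ).smul_const v₂).const_add v₁
    have := (h3.neg.smul_const p).add ((h2.const_mul 2).smul hV)
    rw [hyd]
    exact this
  have hydiff : Differentiable ℂ y := fun τ => (hder τ).differentiableAt
  -- the gradient along the arc
  have hGp : ∀ τ, dot (grad F (y τ)) p = 0 := by
    intro τ
    rw [hye, gma_grad_dot_p hF.1 hp.2 (htan τ), hae, hae]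
    ring
  have hGV : ∀ τ ∈ ball τ₀ ε, dot (grad F (y τ)) (v₁ + τ • v₂) = 0 := by
    intro τ hτ
    have h1 : dot (grad F (y τ)) (y τ) = 0 := by rw [l2_euler hF.1, hFy, mul_zero]
    have h2 : dot (grad F (y τ)) (y τ) = (-a 3 τ) * dot (grad F (y τ)) p +
        (2 * a 2 τ) * dot (grad F (y τ)) (v₁ + τ • v₂) := by
      conv_lhs => rw [hye τ]
      rw [gma_dot_add, gma_dot_smul, gma_dot_smul, ← hye τ]
    rw [h1, hGp, mul_zero, zero_add] at h2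
    have h3 : (2 * a 2 τ) ≠ 0 := mul_ne_zero two_ne_zero (hball τ hτ)
    exact (mul_eq_zero.1 h2.symm).resolve_left h3
  have hGv2 : ∀ τ ∈ ball τ₀ ε, dot (grad F (y τ)) v₂ = 0 := by
    intro τ hτ
    have h1 := (l2_hasFDerivAt_eval F (y τ)).comp_hasDerivAt τ (hder τ)
    have h2 : ((fun y : V4 => eval y F) ∘ y) = fun _ => (0 : ℂ) := by
      funext t
      exact hFy t
    rw [h2] at h1
    have h3 := h1.unique (hasDerivAt_const τ (0 : ℂ))
    rw [l2dotL_apply, gma_dot_add, gma_dot_add, gma_dot_smul, gma_dot_smul, gma_dot_smul, hGp,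
      hGV τ hτ, mul_zero, mul_zero, zero_add, add_zero] at h3
    have h4 : (2 * a 2 τ) ≠ 0 := mul_ne_zero two_ne_zero (hball τ hτ)
    exact (mul_eq_zero.1 h3).resolve_left h4
  have hGv1 : ∀ τ ∈ ball τ₀ ε, dot (grad F (y τ)) v₁ = 0 := by
    intro τ hτ
    have h1 := hGV τ hτ
    rw [gma_dot_add, gma_dot_smul, hGv2 τ hτ, mul_zero, add_zero] at h1
    exact h1
  have hgp : dot (grad F p) p = 0 := by rw [l2_euler hF.1, hp.2, mul_zero]
  have hprop : ∀ τ ∈ ball τ₀ ε, ∃ c : ℂ, grad F (y τ) = c • grad F p := fun τ hτ =>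
    gma_proportional hli (l2_grad_ne_zero hF hp) hgp h₁ h₂ (hGp τ) (hGv1 τ hτ) (hGv2 τ hτ)
  have hrad := gg_gauss F hF isOpen_ball (convex_ball τ₀ ε).isPreconnected hydiff.differentiableOn
    (fun τ hτ => ⟨hyne τ hτ, hFy τ⟩) hprop
  have hτ' : τ₀ + ((ε / 2 : ℝ) : ℂ) ∈ ball τ₀ ε := by
    rw [mem_ball, dist_eq_norm, add_sub_cancel_left, Complex.norm_real, Real.norm_of_nonneg (by positivity)]
    linarith
  obtain ⟨c, hc⟩ := hrad τ₀ (mem_ball_self hε) _ hτ'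
  obtain ⟨τ', hτd⟩ : ∃ τ' : ℂ, τ' = τ₀ + ((ε / 2 : ℝ) : ℂ) := ⟨_, rfl⟩
  rw [← hτd] at hc hτ'
  rw [hye' τ', hye' τ₀] at hc
  obtain ⟨-, e1, e2⟩ := hH (-a 3 τ' - c * (-a 3 τ₀)) (2 * a 2 τ' - c * (2 * a 2 τ₀))
    (2 * a 2 τ' * τ' - c * (2 * a 2 τ₀ * τ₀)) (by
      have : (-a 3 τ') • p + (2 * a 2 τ') • v₁ + (2 * a 2 τ' * τ') • v₂
        - c • ((-a 3 τ₀) • p + (2 * a 2 τ₀) • v₁ + (2 * a 2 τ₀ * τ₀) • v₂) = 0 := sub_eq_zero.2 hc
      rw [← this]; module)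
  have e3 : 2 * a 2 τ' * (τ' - τ₀) = 0 := by linear_combination e2 - τ₀ * e1
  have h4 : (2 * a 2 τ') ≠ 0 := mul_ne_zero two_ne_zero (hball τ' hτ')
  have e4 : τ' - τ₀ = 0 := (mul_eq_zero.1 e3).resolve_left h4
  rw [hτd, add_sub_cancel_left] at e4
  have : (ε / 2 : ℝ) = 0 := by exact_mod_cast e4
  linarith

/-- **The sextic is not identically zero** (surface without lines). -/
theorem gm_f6_ne {F : MvPolynomial (Fin 4) ℂ} (hF : IsSmoothQuarticForm F) (hN : ¬ HasLine F) {p v₁ v₂ : V4}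
    (hp : p ∈ Cone F) (h₁ : dot (grad F p) v₁ = 0) (h₂ : dot (grad F p) v₂ = 0)
    (hli : LinearIndependent ℂ ![p, v₁, v₂]) : ∃ T U : ℂ, f6 F p (U • v₁ + T • v₂) ≠ 0 := by
  by_contra hcon
  push Not at hcon
  by_cases hA : ∃ T U : ℂ, lc F 2 p (U • v₁ + T • v₂) ≠ 0
  · obtain ⟨T, U, hTU⟩ := hA
    by_cases hU : U = 0
    · -- swap the frame
      refine gm_no_double_conic hF hp h₂ h₁ (gm_indep_swap hli) (fun τ => ?_) (τ₀ := 0) ?_
      · have := hcon 1 τ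
        rwa [one_smul, add_comm] at this
      · intro h0
        apply hTU
        rw [hU, zero_smul, zero_add, gma_lc_smul_right]
        rw [zero_smul, add_zero] at h0
        rw [h0, mul_zero]
    · refine gm_no_double_conic hF hp h₁ h₂ hli (fun τ => ?_) (τ₀ := T / U) ?_
      · have := hcon τ 1
        rwa [one_smul] at this
      · intro h0
        apply hTU
        have : U • v₁ + T • v₂ = U • (v₁ + (T / U) • v₂) := by
          rw [smul_add, smul_smul, mul_div_cancel₀ _ hU]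
        rw [this, gma_lc_smul_right, h0, mul_zero]
  · push Not at hA
    obtain ⟨T, U, hTU, hroot⟩ := gm_binary_root hF.1 v₁ v₂
    have hv : dot (grad F p) (U • v₁ + T • v₂) = 0 := by
      rw [gma_dot_add, gma_dot_smul, gma_dot_smul, h₁, h₂]; ring
    have h3 : lc F 3 p (U • v₁ + T • v₂) = 0 := by
      have := hcon T U
      unfold f6 at this
      rw [hA T U] at this
      have h : lc F 3 p (U • v₁ + T • v₂) ^ 2 = 0 := by linear_combination this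
      exact pow_eq_zero_iff (two_ne_zero) |>.1 h
    exact hN (gm_line_of_lc hF.1 hp.2 hv (gm_indep_dir hli hTU) (hA T U) h3 (by rw [gm_lc_four hF.1, hroot]))

/-! ### a disc in the discriminant locus -/

/-- **GM-D-A.**  regularity is an open condition.   (`ξ` is analytic on `Ω` (`scv_analyticOnNhd`), so `q ↦ fderiv ℂ ξ q` is continuous on `Ω` (`AnalyticOnNhd.fderiv`/`ContDiffOn.continuousOn_fderiv_of_isOpen`).
By `gma_exists_det4` there is `n` with `det4 (ξ q₀) (∂₁ξ q₀) (∂₂ξ q₀) n ≠ 0`; this stays `≠ 0` near `q₀` (continuity of `det4`: `gma_det4_differentiableOn` applied to the identity-type maps, or expand); `gma_indep_of_det4`.) -/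
theorem gm_isOpen_regAt {ξ : ℂ × ℂ → V4} {Ω : Set (ℂ × ℂ)} (hΩ : IsOpen Ω) (hξ : DifferentiableOn ℂ ξ Ω) :
    IsOpen {q | q ∈ Ω ∧ RegAt ξ q} := by
  have han : AnalyticOnNhd ℂ ξ Ω := scv_analyticOnNhd hΩ hξ
  have hd : ContinuousOn (fderiv ℂ ξ) Ω := (han.fderiv).continuousOn
  have hc : ContinuousOn (fun q => ![ξ q, fderiv ℂ ξ q (1, 0), fderiv ℂ ξ q (0, 1)]) Ω := by
    rw [continuousOn_pi]
    intro i
    fin_cases i
    · exact hξ.continuousOn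
    · exact hd.clm_apply continuousOn_const
    · exact hd.clm_apply continuousOn_const
  have h := hc.isOpen_inter_preimage hΩ (isOpen_setOfPred_linearIndependent (𝕜 := ℂ) (E := V4) (ι := Fin 3))
  exact h

/-- **GM-D-A.**  non radiality is an open condition.  (`deriv p` is holomorphic, hence continuous, on the ball (`DifferentiableOn.deriv`); some minor `p i * p' j - p j * p' i` is `≠ 0` at `0` (`LinearIndependent.pair_iff`), hence nearby.) -/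
theorem gm_indep_open {p : ℂ → V4} {r : ℝ} (hr : 0 < r) (hp : DifferentiableOn ℂ p (ball 0 r))
    (h0 : LinearIndependent ℂ ![p 0, deriv p 0]) :
    ∃ r' : ℝ, 0 < r' ∧ r' ≤ r ∧ ∀ w ∈ ball (0 : ℂ) r', LinearIndependent ℂ ![p w, deriv p w] := by
  have hd : ContinuousOn (deriv p) (ball 0 r) := (hp.deriv isOpen_ball).continuousOn
  have hc : ContinuousOn (fun w => ![p w, deriv p w]) (ball 0 r) := by
    rw [continuousOn_pi]
    intro i
    fin_cases i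
    · exact hp.continuousOn
    · exact hd
  have h := hc.isOpen_inter_preimage isOpen_ball (isOpen_setOfPred_linearIndependent (𝕜 := ℂ) (E := V4) (ι := Fin 2))
  obtain ⟨ε, hε, hsub⟩ := Metric.isOpen_iff.1 h 0 ⟨mem_ball_self hr, h0⟩
  refine ⟨min ε r, lt_min hε hr, min_le_right _ _, fun w hw => ?_⟩
  exact (hsub (ball_subset_ball (min_le_left _ _) hw)).2

/-- **GM-D-B.  From a point to a disc.**
Route.  `gmx_frame hF hp₀` gives `φ₁ φ₂ m`.  `D6 F p₀ (φ₁ p₀) (φ₂ p₀) = 0`: `gma_D6_cross` with `(v₁, v₂, n)` and `(φ₁ p₀, φ₂ p₀, m)`; the factor `(det4 p₀ v₁ v₂ n * dot (grad F p₀) m) ^ 30` is `≠ 0` (`dot (grad F p₀) m ≠ 0` by `gma_det4_hyperplane`).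
`gmx_chart hF hp₀` gives `r₀, ξ`.   `U = {q | (q ∈ ball 0 r₀ ×ˢ ball 0 r₀ ∧ RegAt ξ q)} ∩ {q ∈ bidisc | det4 (ξ q) (φ₁ (ξ q)) (φ₂ (ξ q)) m ≠ 0}` is open (`gm_isOpen_regAt`; `ContinuousOn.isOpen_inter_preimage`), contains `(0,0)`.
`h q = D6 F (ξ q) (φ₁ (ξ q)) (φ₂ (ξ q))` is holomorphic on `U` (`D6_differentiableOn`), `h (0,0) = 0`.   `gz_disc` gives `γ, r`.   `p = ξ ∘ γ`; `deriv p 0 = fderiv ℂ ξ (γ 0) (deriv γ 0)`, `deriv γ 0 = (a, b) ≠ 0`,
`fderiv ξ (γ 0) (a, b) = a • ∂₁ξ + b • ∂₂ξ`, independent of `ξ (γ 0)` by `RegAt ξ (γ 0)`.   Shrink `r` by `gm_indep_open`. -/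
theorem gm_disc0 {F : MvPolynomial (Fin 4) ℂ} (hF : IsSmoothQuarticForm F) {p₀ v₁ v₂ n : V4} (hp₀ : p₀ ∈ Cone F)
    (hfr : IsFr F p₀ v₁ v₂ n) (hD : D6 F p₀ v₁ v₂ = 0) :
    ∃ (r : ℝ) (p : ℂ → V4) (φ₁ φ₂ : V4 → V4) (m : V4), 0 < r ∧ DifferentiableOn ℂ p (ball 0 r) ∧ Differentiable ℂ φ₁ ∧
      Differentiable ℂ φ₂ ∧ (∀ y, dot (grad F y) (φ₁ y) = 0) ∧ (∀ y, dot (grad F y) (φ₂ y) = 0) ∧
      ∀ w ∈ ball (0 : ℂ) r, p w ∈ Cone F ∧ det4 (p w) (φ₁ (p w)) (φ₂ (p w)) m ≠ 0 ∧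
        D6 F (p w) (φ₁ (p w)) (φ₂ (p w)) = 0 ∧ LinearIndependent ℂ ![p w, deriv p w] := by
  obtain ⟨φ₁, φ₂, m, hφ₁, hφ₂, ht₁, ht₂, hdet0⟩ := gmx_frame hF hp₀
  have hg : grad F p₀ ≠ 0 := l2_grad_ne_zero hF hp₀
  have hpp : dot (grad F p₀) p₀ = 0 := by rw [l2_euler hF.1, hp₀.2]; simp
  have hgm : dot (grad F p₀) m ≠ 0 := fun h0 => hdet0 (gma_det4_hyperplane hg hpp (ht₁ _) (ht₂ _) h0)
  have hD0 : D6 F p₀ (φ₁ p₀) (φ₂ p₀) = 0 := by
    have h := gma_D6_cross hF hp₀ hfr.1 hfr.2.1 (ht₁ p₀) (ht₂ p₀) n m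
    rw [hD, zero_mul] at h
    exact (mul_eq_zero.1 h).resolve_right (pow_ne_zero _ (mul_ne_zero hfr.2.2 hgm))
  obtain ⟨r₀, ξ, hr₀, hhol, hξ0, hreg⟩ := gmx_chart hF hp₀
  set Q : Set (ℂ × ℂ) := ball (0 : ℂ) r₀ ×ˢ ball (0 : ℂ) r₀ with hQ
  have hQo : IsOpen Q := isOpen_ball.prod isOpen_ball
  have h0Q : ((0 : ℂ), (0 : ℂ)) ∈ Q := ⟨mem_ball_self hr₀, mem_ball_self hr₀⟩
  have hd1 : DifferentiableOn ℂ (fun q => φ₁ (ξ q)) Q := hφ₁.comp_differentiableOn hhol.1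
  have hd2 : DifferentiableOn ℂ (fun q => φ₂ (ξ q)) Q := hφ₂.comp_differentiableOn hhol.1
  have hdd : DifferentiableOn ℂ (fun q => det4 (ξ q) (φ₁ (ξ q)) (φ₂ (ξ q)) m) Q :=
    gma_det4_differentiableOn hhol.1 hd1 hd2 (differentiableOn_const m)
  have hU2 : IsOpen (Q ∩ (fun q => det4 (ξ q) (φ₁ (ξ q)) (φ₂ (ξ q)) m) ⁻¹' {0}ᶜ) :=
    hdd.continuousOn.isOpen_inter_preimage hQo isOpen_compl_singleton
  set U : Set (ℂ × ℂ) := {q | q ∈ Q ∧ RegAt ξ q} ∩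
    (Q ∩ (fun q => det4 (ξ q) (φ₁ (ξ q)) (φ₂ (ξ q)) m) ⁻¹' {0}ᶜ) with hU
  have hUo : IsOpen U := (gm_isOpen_regAt hQo hhol.1).inter hU2
  have hUQ : U ⊆ Q := fun q hq => hq.1.1
  have h0U : ((0 : ℂ), (0 : ℂ)) ∈ U := by
    refine ⟨⟨h0Q, hreg⟩, h0Q, ?_⟩
    show det4 (ξ (0, 0)) (φ₁ (ξ (0, 0))) (φ₂ (ξ (0, 0))) m ≠ 0
    rw [hξ0]
    exact hdet0
  have hh : DifferentiableOn ℂ (fun q => D6 F (ξ q) (φ₁ (ξ q)) (φ₂ (ξ q))) U :=
    (D6_differentiableOn F hhol.1 hd1 hd2).mono hUQ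
  obtain ⟨γ, r, hr, hγ, hγU, hγ'⟩ := gz_disc hUo hh h0U (by simp only [hξ0]; exact hD0)
  have hp : DifferentiableOn ℂ (fun w => ξ (γ w)) (ball 0 r) :=
    hhol.1.comp hγ (fun w hw => hUQ (hγU w hw).1)
  have hγ0 := hγU 0 (mem_ball_self hr)
  have hξd : DifferentiableAt ℂ ξ (γ 0) := hhol.1.differentiableAt (hQo.mem_nhds (hUQ hγ0.1))
  have hγd : DifferentiableAt ℂ γ 0 := hγ.differentiableAt (isOpen_ball.mem_nhds (mem_ball_self hr))
  have hder : deriv (fun w => ξ (γ w)) 0 = fderiv ℂ ξ (γ 0) (deriv γ 0) :=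
    (hξd.hasFDerivAt.comp_hasDerivAt 0 hγd.hasDerivAt).deriv
  have hli0 : LinearIndependent ℂ ![ξ (γ 0), deriv (fun w => ξ (γ w)) 0] := by
    rw [hder]
    have hR : RegAt ξ (γ 0) := hγ0.1.1.2
    have e : ∀ d : ℂ × ℂ, fderiv ℂ ξ (γ 0) d =
        d.1 • fderiv ℂ ξ (γ 0) (1, 0) + d.2 • fderiv ℂ ξ (γ 0) (0, 1) := by
      intro d
      rw [← map_smul, ← map_smul, ← map_add]
      congr 1
      ext <;> simp
    rw [e]
    refine gm_indep_dir hR ?_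
    by_contra hno
    push Not at hno
    exact hγ' (Prod.ext hno.2 hno.1)
  obtain ⟨r', hr', hr'r, hli⟩ := gm_indep_open hr hp hli0
  refine ⟨r', fun w => ξ (γ w), φ₁, φ₂, m, hr', hp.mono (ball_subset_ball hr'r), hφ₁, hφ₂, ht₁, ht₂, ?_⟩
  intro w hw
  have hw' := hγU w (ball_subset_ball hr'r hw)
  exact ⟨hhol.2 (hUQ hw'.1), hw'.1.2.2, hw'.2, hli w hw⟩

/-! ### the result -/

theorem gm_bsx_one (c : Fin 7 → ℂ) (τ : ℂ) : bsx c τ 1 = ∑ i : Fin 7, c i * τ ^ (i : ℕ) := by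
  simp [bsx]

theorem gm_bsx_lead (c : Fin 7 → ℂ) : bsx c 1 0 = c 6 := by
  simp [bsx, Fin.sum_univ_succ]

/-- a sextic of exact degree `6` with `R6 = 0` has a double root -/
theorem gm_double_root (c : Fin 7 → ℂ) (hc : c 6 ≠ 0) (hR : R6 c = 0) : ∃ τ : ℂ, bsx c τ 1 = 0 ∧ bsxT c τ 1 = 0 := by
  obtain ⟨T, U, hTU, hT, hU⟩ := (r6_zero_iff c).1 hR
  by_cases hU0 : U = 0
  · subst hU0
    rw [r6f_bsxT_zero] at hT
    have hT0 : T ≠ 0 := by simpa using hTU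
    exact absurd hT (mul_ne_zero (mul_ne_zero (by norm_num) hc) (pow_ne_zero 5 hT0))
  · have e1 : bsxT c (T / U) 1 = 0 := by
      have := r6f_bsxT_hom c U⁻¹ T U
      rw [hT, mul_zero, inv_mul_cancel₀ hU0, mul_comm, ← div_eq_mul_inv] at this
      exact this
    have e2 : bsxU c (T / U) 1 = 0 := by
      have := r6f_bsxU_hom c U⁻¹ T U
      rw [hU, mul_zero, inv_mul_cancel₀ hU0, mul_comm, ← div_eq_mul_inv] at this
      exact this
    refine ⟨T / U, ?_, e1⟩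
    have := bsx_euler c (T / U) 1
    rw [e1, e2] at this
    have h6 : (6 : ℂ) * bsx c (T / U) 1 = 0 := by rw [← this]; ring
    exact (mul_eq_zero.1 h6).resolve_left (by norm_num)

theorem gm_c6_lead (F : MvPolynomial (Fin 4) ℂ) (p v₁ v₂ : V4) : c6 F (p, v₁, v₂) 6 = f6 F p v₂ := by
  have := c6_spec F p v₁ v₂ 1 0
  rw [gm_bsx_lead, zero_smul, one_smul, zero_add] at this
  exact this.symm

/-- the disc in the discriminant locus, with a frame in which the sextic has exact degree `6` -/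
theorem gm_bdisc_pre {F : MvPolynomial (Fin 4) ℂ} (hF : IsSmoothQuarticForm F) (hN : ¬ HasLine F) :
    ∃ (r : ℝ) (p v₁ v₂ : ℂ → V4), 0 < r ∧ DifferentiableOn ℂ p (ball 0 r) ∧ DifferentiableOn ℂ v₁ (ball 0 r) ∧
      DifferentiableOn ℂ v₂ (ball 0 r) ∧ ∀ w ∈ ball (0 : ℂ) r,
        p w ∈ Cone F ∧ LinearIndependent ℂ ![p w, v₁ w, v₂ w] ∧ dot (grad F (p w)) (v₁ w) = 0 ∧
        dot (grad F (p w)) (v₂ w) = 0 ∧ LinearIndependent ℂ ![p w, deriv p w] ∧ f6 F (p w) (v₂ w) ≠ 0 ∧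
        D6 F (p w) (v₁ w) (v₂ w) = 0 := by
  obtain ⟨p₀, u₁, u₂, n, hp₀, hfr, hD⟩ := gmx_exists_mult hF
  obtain ⟨r, p, φ₁, φ₂, m₀, hr, hp, hφ₁, hφ₂, ht₁, ht₂, hall⟩ := gm_disc0 hF hp₀ hfr hD
  have h00 := hall 0 (mem_ball_self hr)
  obtain ⟨T₀, U₀, hTU⟩ := gm_f6_ne hF hN h00.1 (ht₁ _) (ht₂ _) (gma_indep_of_det4 h00.2.1)
  -- the new frame
  obtain ⟨a, b, hab⟩ : ∃ a b : ℂ, a * T₀ - b * U₀ ≠ 0 := by
    by_cases hT : T₀ = 0
    · refine ⟨0, 1, ?_⟩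
      intro h
      apply hTU
      have hU : U₀ = 0 := by linear_combination -h
      rw [hT, hU, zero_smul, zero_smul, add_zero]
      have := gma_f6_smul_right F (p 0) 0 0
      simpa using this
    · exact ⟨1, 0, by simpa using hT⟩
  set v₁ : ℂ → V4 := fun w => a • φ₁ (p w) + b • φ₂ (p w) with hv₁
  set v₂ : ℂ → V4 := fun w => U₀ • φ₁ (p w) + T₀ • φ₂ (p w) with hv₂
  have hφp₁ : DifferentiableOn ℂ (fun w => φ₁ (p w)) (ball 0 r) := hφ₁.comp_differentiableOn hp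
  have hφp₂ : DifferentiableOn ℂ (fun w => φ₂ (p w)) (ball 0 r) := hφ₂.comp_differentiableOn hp
  have hdv₁ : DifferentiableOn ℂ v₁ (ball 0 r) := (hφp₁.const_smul a).add (hφp₂.const_smul b)
  have hdv₂ : DifferentiableOn ℂ v₂ (ball 0 r) := (hφp₁.const_smul U₀).add (hφp₂.const_smul T₀)
  have hform₁ : ∀ w, v₁ w = a • φ₁ (p w) + b • φ₂ (p w) + (0 : ℂ) • p w := fun w => by simp [hv₁]
  have hform₂ : ∀ w, v₂ w = U₀ • φ₁ (p w) + T₀ • φ₂ (p w) + (0 : ℂ) • p w := fun w => by simp [hv₂]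
  have htv₁ : ∀ w, dot (grad F (p w)) (v₁ w) = 0 := fun w => by
    simp only [hv₁]; rw [gma_dot_add, gma_dot_smul, gma_dot_smul, ht₁, ht₂]; ring
  have htv₂ : ∀ w, dot (grad F (p w)) (v₂ w) = 0 := fun w => by
    simp only [hv₂]; rw [gma_dot_add, gma_dot_smul, gma_dot_smul, ht₁, ht₂]; ring
  have hdet : ∀ w ∈ ball (0 : ℂ) r, det4 (p w) (v₁ w) (v₂ w) m₀ ≠ 0 := fun w hw => by
    rw [hform₁, hform₂, gma_det4_add_smul]
    exact mul_ne_zero hab (hall w hw).2.1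
  have hD0 : ∀ w ∈ ball (0 : ℂ) r, D6 F (p w) (v₁ w) (v₂ w) = 0 := fun w hw => by
    rw [hform₁, hform₂, gma_D6_change hF.1 (hall w hw).1 (ht₁ _) (ht₂ _), (hall w hw).2.2.1, mul_zero]
  have hfd : DifferentiableOn ℂ (fun w => c6 F (p w, v₁ w, v₂ w) 6) (ball 0 r) := by
    have h0 : DifferentiableOn ℂ (fun w => (p w, v₁ w, v₂ w)) (ball 0 r) := hp.prodMk (hdv₁.prodMk hdv₂)
    have h1 : DifferentiableOn ℂ (fun w => c6 F (p w, v₁ w, v₂ w)) (ball 0 r) :=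
      (c6_differentiable F).comp_differentiableOn h0
    exact differentiableOn_pi.1 h1 6
  have hSo : IsOpen (ball (0 : ℂ) r ∩ (fun w => c6 F (p w, v₁ w, v₂ w) 6) ⁻¹' {0}ᶜ) :=
    hfd.continuousOn.isOpen_inter_preimage isOpen_ball (isOpen_compl_singleton (x := (0 : ℂ)))
  have h0S : (0 : ℂ) ∈ ball (0 : ℂ) r ∩ (fun w => c6 F (p w, v₁ w, v₂ w) 6) ⁻¹' {0}ᶜ := by
    refine ⟨mem_ball_self hr, ?_⟩
    show c6 F (p 0, v₁ 0, v₂ 0) 6 ≠ 0
    rw [gm_c6_lead]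
    exact hTU
  obtain ⟨r₂, hr₂, hsub⟩ := Metric.isOpen_iff.1 hSo 0 h0S
  have hsub' : ball (0 : ℂ) r₂ ⊆ ball (0 : ℂ) r := fun w hw => (hsub hw).1
  refine ⟨r₂, p, v₁, v₂, hr₂, hp.mono hsub', hdv₁.mono hsub', hdv₂.mono hsub', fun w hw => ?_⟩
  have hne : c6 F (p w, v₁ w, v₂ w) 6 ≠ 0 := (hsub hw).2
  rw [gm_c6_lead] at hne
  exact ⟨(hall w (hsub' hw)).1, gma_indep_of_det4 (hdet w (hsub' hw)), htv₁ w, htv₂ w,
    (hall w (hsub' hw)).2.2.2, hne, hD0 w (hsub' hw)⟩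

/-- **The disc of bitangent planes** (helper18's FROZEN form; consumer: GeoN.lean). -/
theorem gm_bdisc (F : MvPolynomial (Fin 4) ℂ) (hF : IsSmoothQuarticForm F) (hN : ¬ HasLine F) :
    ∃ (r : ℝ) (p v₁ v₂ : ℂ → V4), 0 < r ∧ DifferentiableOn ℂ p (ball 0 r) ∧ DifferentiableOn ℂ v₁ (ball 0 r) ∧
      DifferentiableOn ℂ v₂ (ball 0 r) ∧ ∀ w ∈ ball (0 : ℂ) r,
        p w ∈ Cone F ∧ LinearIndependent ℂ ![p w, v₁ w, v₂ w] ∧ dot (grad F (p w)) (v₁ w) = 0 ∧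
        dot (grad F (p w)) (v₂ w) = 0 ∧ LinearIndependent ℂ ![p w, deriv p w] ∧ f6 F (p w) (v₂ w) ≠ 0 ∧
        ∃ τ : ℂ, f6 F (p w) (v₁ w + τ • v₂ w) = 0 ∧ deriv (fun τ : ℂ => f6 F (p w) (v₁ w + τ • v₂ w)) τ = 0 := by
  obtain ⟨r, p, v₁, v₂, hr, hp, hv₁, hv₂, H⟩ := gm_bdisc_pre hF hN
  refine ⟨r, p, v₁, v₂, hr, hp, hv₁, hv₂, fun w hw => ?_⟩
  obtain ⟨h1, h2, h3, h4, h5, h6, h7⟩ := H w hw
  refine ⟨h1, h2, h3, h4, h5, h6, ?_⟩
  obtain ⟨τ, e1, e2⟩ := gm_double_root (c6 F (p w, v₁ w, v₂ w)) (by rw [gm_c6_lead]; exact h6) h7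
  have hfun : (fun τ : ℂ => f6 F (p w) (v₁ w + τ • v₂ w)) = fun τ => bsx (c6 F (p w, v₁ w, v₂ w)) τ 1 := by
    funext τ
    have := c6_spec F (p w) (v₁ w) (v₂ w) τ 1
    rwa [one_smul] at this
  refine ⟨τ, by rw [congrFun hfun τ]; exact e1, ?_⟩
  rw [hfun, (bsx_hasDerivAt_T _ τ 1).deriv, e2]

/-- **GEO-MULT**, second form: the bitangent disc with constant root pattern (`gr_roots` already applied). -/
theorem gm_bdisc_pat {F : MvPolynomial (Fin 4) ℂ} (hF : IsSmoothQuarticForm F) (hN : ¬ HasLine F) :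
    ∃ (w₁ : ℂ) (r : ℝ) (p v₁ v₂ : ℂ → V4) (k : ℕ) (ρ : Fin k → ℂ → ℂ) (m : Fin k → ℕ) (c : ℂ → ℂ),
      0 < r ∧ DifferentiableOn ℂ p (ball w₁ r) ∧ DifferentiableOn ℂ v₁ (ball w₁ r) ∧ DifferentiableOn ℂ v₂ (ball w₁ r) ∧
      DifferentiableOn ℂ c (ball w₁ r) ∧ (∀ i, DifferentiableOn ℂ (ρ i) (ball w₁ r)) ∧ (∀ i, 1 ≤ m i) ∧ ∑ i, m i = 6 ∧
      (∃ i, 2 ≤ m i) ∧
      ∀ w ∈ ball w₁ r, p w ∈ Cone F ∧ LinearIndependent ℂ ![p w, v₁ w, v₂ w] ∧ dot (grad F (p w)) (v₁ w) = 0 ∧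
        dot (grad F (p w)) (v₂ w) = 0 ∧ LinearIndependent ℂ ![p w, deriv p w] ∧ c w ≠ 0 ∧
        (Function.Injective fun i => ρ i w) ∧
        ∀ τ : ℂ, f6 F (p w) (v₁ w + τ • v₂ w) = c w * ∏ i, (τ - ρ i w) ^ m i := by
  obtain ⟨r, p, v₁, v₂, hr, hp, hdv₁, hdv₂, H⟩ := gm_bdisc_pre hF hN
  set cc : Fin 7 → ℂ → ℂ := fun i w => c6 F (p w, v₁ w, v₂ w) i with hcc
  have hcd : ∀ i, DifferentiableOn ℂ (cc i) (ball 0 r) := fun i => by
    have h0 : DifferentiableOn ℂ (fun w => (p w, v₁ w, v₂ w)) (ball 0 r) := hp.prodMk (hdv₁.prodMk hdv₂)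
    have h1 : DifferentiableOn ℂ (fun w => c6 F (p w, v₁ w, v₂ w)) (ball 0 r) :=
      (c6_differentiable F).comp_differentiableOn h0
    exact differentiableOn_pi.1 h1 i
  have hlead : ∀ w ∈ ball (0 : ℂ) r, cc 6 w ≠ 0 := fun w hw => by
    simp only [hcc]; rw [gm_c6_lead]; exact (H w hw).2.2.2.2.2.1
  obtain ⟨w₁, r₁, k, ρ, m, hr₁, hsub, hρ, hm1, hmsum, hinj, hfac⟩ := gr_roots isOpen_ball ⟨0, mem_ball_self hr⟩ 6 cc
    hcd hlead
  refine ⟨w₁, r₁, p, v₁, v₂, k, ρ, m, cc 6, hr₁, hp.mono hsub, hdv₁.mono hsub, hdv₂.mono hsub,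
    (hcd 6).mono hsub, hρ, hm1, hmsum, ?_, ?_⟩
  · have hw₁ : w₁ ∈ ball w₁ r₁ := mem_ball_self hr₁
    exact r6_pattern (fun i => cc i w₁) (fun i => ρ i w₁) m (hinj w₁ hw₁) (hlead _ (hsub hw₁)) (hfac w₁ hw₁)
      (H w₁ (hsub hw₁)).2.2.2.2.2.2
  · intro w hw
    obtain ⟨h1, h2, h3, h4, h5, -, -⟩ := H w (hsub hw)
    refine ⟨h1, h2, h3, h4, h5, hlead _ (hsub hw), hinj w hw, fun τ => ?_⟩
    have := c6_spec F (p w) (v₁ w) (v₂ w) τ 1
    rw [one_smul, gm_bsx_one] at this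
    rw [this]
    exact hfac w hw τ

end Claimed.Agent.R245
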