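/-
Row 245 / S0484, GEO (architect helper18).   BLOCK GEO-N (owner: helper98): the case without lines.   Prefixes `gn_`, `gnn_`.
`geo_caseN` is PROVED from `gn_leaf` (this file), `geo_strip` (GeoStrip.lean, helper292), `ge_typeI` (GeoEnd.lean, helper138).
`gn_leaf` is PROVED (glue) from `gm_bdisc` (GeoMult.lean, helper139), `gleg_leaf` (GeoLeg.lean, helper30) and the leaves of GeoNPat.lean (`gnn_*`; `gnn_div_i` = application of `gk_div`, GeoKI.lean).

MATH for `gn_leaf`.   `gm_bdisc` ⇒ `p, v₁, v₂` on `ball w₁ r`,  `f6 F (p w) (v₁ + τ v₂) = c (w) ∏ (τ - ρ_i (w)) ^ m_i`, holomorphic distinct roots `ρ_i`, constant multiplicities `m_i`, `∑ m_i = 6`, some `m_i ≥ 2`.   `G₀ = ġ · v₁`, `G₁ = ġ · v₂`.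
  (NR) `G₀ = G₁ = 0` on the disc is impossible (`gnn_NR`).   `gnn_div_i`:  `m_i ≥ 4` contradicts (NR);  two indices with `m ≥ 2` give `G₀ + ρ_i G₁ = 0 = G₀ + ρ_j G₁`, `ρ_i ≠ ρ_j`: contradicts (NR).
  So the pattern is `(2,1,1,1,1)` or `(3,1,1,1)` (`gnn_pattern`): the input of `gleg_leaf`.    Plane section: `gnn_plane`.
-/
import Claimed.Agent.R245.GeoStrip
import Claimed.Agent.R245.GeoEnd
import Claimed.Agent.R245.GeoMult
import Claimed.Agent.R245.GeoRoots
import Claimed.Agent.R245.GeoLegB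
import Claimed.Agent.R245.GeoNPat

set_option autoImplicit false

namespace Claimed.Agent.R245

open MvPolynomial Metric Set Filter Topology Claims.C0412

/-- **Leaf data in the case without lines**: a disc of bitangent planes; the leaves are the full plane sections. -/
theorem gn_leaf (F : MvPolynomial (Fin 4) ℂ) (hF : IsSmoothQuarticForm F) (hN : ¬ HasLine F) :
    ∃ (w₀ : ℂ) (b : ℝ) (D : LeafData F w₀ b), ∀ w ∈ ball w₀ b, ∀ x ∈ Cone F,
      dot (grad F (D.p w)) x = 0 → D.OnLeaf w x := by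
  obtain ⟨w₁, r₁, p, v₁, v₂, k, ρ, m, c, hr₁, hp', hv₁', hv₂', hc6, hρ, hm1, hsum, ⟨i₀, h2⟩, H⟩ :=
    gm_bdisc_pat hF hN
  have hw₁ : w₁ ∈ ball w₁ r₁ := mem_ball_self hr₁
  have cone : ∀ w ∈ ball w₁ r₁, p w ∈ Cone F := fun w hw => (H w hw).1
  have indep : ∀ w ∈ ball w₁ r₁, LinearIndependent ℂ ![p w, v₁ w, v₂ w] := fun w hw => (H w hw).2.1
  have tang₁ : ∀ w ∈ ball w₁ r₁, dot (grad F (p w)) (v₁ w) = 0 := fun w hw => (H w hw).2.2.1
  have tang₂ : ∀ w ∈ ball w₁ r₁, dot (grad F (p w)) (v₂ w) = 0 := fun w hw => (H w hw).2.2.2.1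
  have hind : LinearIndependent ℂ ![p w₁, deriv p w₁] := (H w₁ hw₁).2.2.2.2.1
  have hc60 : ∀ w ∈ ball w₁ r₁, c w ≠ 0 := fun w hw => (H w hw).2.2.2.2.2.1
  have hinj : ∀ w ∈ ball w₁ r₁, Function.Injective fun i => ρ i w := fun w hw => (H w hw).2.2.2.2.2.2.1
  have hfac' : ∀ w ∈ ball w₁ r₁, ∀ τ : ℂ, f6 F (p w) (v₁ w + τ • v₂ w) = c w * ∏ i, (τ - ρ i w) ^ m i :=
    fun w hw => (H w hw).2.2.2.2.2.2.2
  have hdiv := gnn_div_i hF hN hp' hv₁' hv₂' cone indep tang₁ tang₂ hc6 hc60 hρ hinj hfac'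
  have hNR := gnn_NR hF hr₁ hp' cone indep tang₁ tang₂ hind
  have h3 : m i₀ ≤ 3 := by
    by_contra hcon
    exact hNR ((hdiv i₀).2 (by omega))
  have h1 : ∀ j, j ≠ i₀ → m j = 1 := by
    intro j hj
    by_contra hcon
    have hj2 : 2 ≤ m j := by have := hm1 j; omega
    refine hNR fun w hw => ?_
    have e1 := (hdiv i₀).1 h2 w hw
    have e2 := (hdiv j).1 hj2 w hw
    have hne : ρ j w - ρ i₀ w ≠ 0 := sub_ne_zero.2 fun h => hj (hinj w hw h)
    have hG1 : dot (deriv (fun w => grad F (p w)) w) (v₂ w) = 0 := by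
      have : (ρ j w - ρ i₀ w) * dot (deriv (fun w => grad F (p w)) w) (v₂ w) = 0 := by
        linear_combination e2 - e1
      exact (mul_eq_zero.1 this).resolve_left hne
    refine ⟨?_, hG1⟩
    rw [hG1] at e1
    simpa using e1
  obtain ⟨e, he, hprod⟩ := gnn_pattern m hsum i₀ h2 h3 h1
  -- Legendre normalisation
  obtain ⟨w₀, b, L, hLsub, -, hLp, -, -, hκ, hA, -, -⟩ :=
    gleg_leaf F hF hN hr₁ hp' hv₁' hv₂' cone indep tang₁ tang₂ (c := c) (ρ₀ := ρ i₀)
      (rt := fun j => ρ (e j)) hc6 (hρ i₀) (fun j => hρ (e j)) hc60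
      (fun w hw a a' haa => he (hinj w hw haa))
      (fun w hw τ => by
        rw [hfac' w hw τ, hprod fun i => τ - ρ i w]
        ring)
      (fun w hw => by
        rw [gnn_dot_add, gnn_dot_smul]
        exact (hdiv i₀).1 h2 w hw)
      (gnn_not_radial hr₁ (hp'.differentiableAt (isOpen_ball.mem_nhds hw₁)) hind)
  refine ⟨w₀, b, L, fun w hw x hx hdot => ?_⟩
  refine gnn_plane hF L.toFrameData hκ (fun w T U => ?_) hw hx hdot
  rw [hA, hLp]

/-- points of a leaf lie in the tangent plane -/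
theorem gn_onLeaf_dot {F : MvPolynomial (Fin 4) ℂ} (hF : F.IsHomogeneous 4) {S : Set ℂ} (D : FrameData F S) {w : ℂ}
    (hw : w ∈ S) {x : V4} (hx : D.OnLeaf w x) : dot (grad F (D.p w)) x = 0 := by
  obtain ⟨s, l, T, U, -, -, rfl, -⟩ := hx
  have h0 : dot (grad F (D.p w)) (D.p w) = 0 := by
    rw [l2_euler hF, (D.cone w hw).2, mul_zero]
  have h1 := D.tang₁ w hw
  have h2 := D.tang₂ w hw
  have key : dot (grad F (D.p w)) (s • D.p w + l • D.dir w T U)
      = s * dot (grad F (D.p w)) (D.p w) + l * (U * dot (grad F (D.p w)) (D.v₁ w)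
        + T * dot (grad F (D.p w)) (D.v₂ w)) := by
    simp only [dot, FrameData.dir, Pi.add_apply, Pi.smul_apply, smul_eq_mul, Finset.mul_sum,
      ← Finset.sum_add_distrib]
    exact Finset.sum_congr rfl fun i _ => by ring
  rw [key, h0, h1, h2]
  ring

theorem geo_caseN (F : MvPolynomial (Fin 4) ℂ) (hF : IsSmoothQuarticForm F) (hN : ¬ HasLine F) :
    LEverywhere F := by
  obtain ⟨w₀, b, D, hD⟩ := gn_leaf F hF hN
  obtain ⟨σ, hσ, hon, hsurj⟩ := geo_strip F hF D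
  have hsub : ∀ w ∈ ball w₀ (b / 2), w ∈ ball w₀ b := fun w hw =>
    ball_subset_ball (by linarith [D.b_pos]) hw
  refine ge_typeI hF hσ (fun w => grad F (D.p w)) (fun w hw => l2_grad_ne_zero hF (D.cone w (hsub w hw)))
    (fun w hw z => gn_onLeaf_dot hF.1 D.toFrameData (hsub w hw) (hon w hw z)) ?_
  intro w hw x hx hdot
  obtain ⟨t, z, e⟩ := hsurj w hw x (hD w (hsub w hw) x hx hdot)
  refine ⟨z, t, ?_, e⟩
  rintro rfl
  exact hx.1 (by rw [e, zero_smul])

end Claimed.Agent.R245
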