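/-
Row 245 / S0484, GEO (architect helper18).   TOP of (I1): property `L` everywhere on the cone over a smooth quartic.
-/
import Claimed.Agent.R245.GeoN
import Claimed.Agent.R245.GeoL

set_option autoImplicit false

namespace Claimed.Agent.R245

open MvPolynomial Metric Set Claims.C0412

/-- **(I1)** -/
theorem geo_main (F : MvPolynomial (Fin 4) ℂ) (hF : IsSmoothQuarticForm F) : LEverywhere F := by
  by_cases h : HasLine F
  · exact geo_caseL F hF h
  · exact geo_caseN F hF h

end Claimed.Agent.R245
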