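/-
Row 245 / S0484, sec 2.3 (architect: helper98).  Package L2-COMP: the compactness step of Prop loc:planar.
ONE FILE = ONE PACKAGE = ONE OWNER.  Statement FROZEN; helper lemmas: prefix `l2cp_`, in this file.
-/
import Mathlib
import Claimed.Agent.R245.L2Defs

set_option autoImplicit false

namespace Claimed.Agent.R245

open MvPolynomial Metric Set

/-- uniform continuity near a compact subset of an open set. -/
theorem l2cp_unif {X Y : Type*} [PseudoMetricSpace X] [ProperSpace X] [PseudoMetricSpace Y]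
    {K W : Set X} (hK : IsCompact K) (hW : IsOpen W) (hKW : K ⊆ W) {f : X → Y}
    (hf : ContinuousOn f W) {ε : ℝ} (hε : 0 < ε) :
    ∃ δ > 0, ∀ z' ∈ K, ∀ z, dist z z' < δ → z ∈ W ∧ dist (f z) (f z') < ε := by
  obtain ⟨δ₁, hδ₁, h1⟩ := hK.exists_thickening_subset_open hW hKW
  have hK' : IsCompact (cthickening (δ₁ / 2) K) := hK.cthickening
  have hK'W : cthickening (δ₁ / 2) K ⊆ W :=
    (cthickening_subset_thickening' hδ₁ (half_lt_self hδ₁) K).trans h1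
  obtain ⟨δ₂, hδ₂, h2⟩ := Metric.uniformContinuousOn_iff.1
    (hK'.uniformContinuousOn_of_continuous (hf.mono hK'W)) ε hε
  refine ⟨min (δ₁ / 2) δ₂, lt_min (half_pos hδ₁) hδ₂, fun z' hz' z hz => ?_⟩
  have hzK : z ∈ cthickening (δ₁ / 2) K :=
    thickening_subset_cthickening _ _
      (mem_thickening_iff.2 ⟨z', hz', lt_of_lt_of_le hz (min_le_left _ _)⟩)
  exact ⟨hK'W hzK, h2 z hzK z' (self_subset_cthickening K hz') (lt_of_lt_of_le hz (min_le_right _ _))⟩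

theorem l2cp_isCompact_Ann (a r : ℝ) : IsCompact (Ann a r) := by
  have e : Ann a r = closedBall (0 : ℂ) r ∩ {s | a ≤ ‖s‖} := by
    ext s
    simp [Ann, and_comm]
  rw [e]
  exact (isCompact_closedBall _ _).inter_right (isClosed_le continuous_const continuous_norm)

/-- **Uniform margins.**  `f` continuous on the open set `W ⊇ Ann a r × closedBall 0 ρ`; every point `ζ` of the outer circle has a
witness neighbourhood containing `f ({ζ} × closedBall 0 ρ)`.  Then there are `δ, m > 0` such that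
(1) the `δ`-neighbourhood of `Ann a r` times `closedBall 0 ρ` lies in `W` and `f` moves by `< ε` there;
(2) for every `ζ` on the circle ONE witness neighbourhood contains the `m`-neighbourhood of `f (ball ζ δ × closedBall 0 ρ)`.
Route.  `K := Ann a r ×ˢ closedBall 0 ρ` is compact.  (1): for `z ∈ K` choose `η_z` with `ball z (2 η_z) ⊆ W` and oscillation `< ε/2`
on it; Lebesgue number / finite subcover by `ball z η_z` (sup metric on the product: `‖(s,t) - (s',t)‖ = ‖s - s'‖`).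
(2): for `ζ` on the circle, `f ({ζ} × closedBall 0 ρ)` is compact in the open `V_ζ`: `IsCompact.exists_thickening_subset_open` gives `2 m_ζ`;
by (1) with `ε := m_ζ` there is `δ_ζ` with `‖f (s,t) - f (ζ,t)‖ < m_ζ` for `‖s - ζ‖ < 2 δ_ζ`; cover the circle (compact) by finitely many
`ball ζ_i δ_{ζ_i}`; `δ := min`, `m := min`.  Given `ζ` pick `i` with `ζ ∈ ball ζ_i δ_i` and `V := V_{ζ_i}`. -/
theorem l2_planar_compact {F : MvPolynomial (Fin 4) ℂ} {q : ℕ} {a r ρ ε : ℝ} (har : a < r)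
    (hr : 0 < r) (hρ : 0 < ρ) {f : ℂ × (Fin q → ℂ) → V4} {W : Set (ℂ × (Fin q → ℂ))}
    (hW : IsOpen W) (hsub : Ann a r ×ˢ closedBall (0 : Fin q → ℂ) ρ ⊆ W) (hf : ContinuousOn f W)
    (hwit : ∀ ζ : ℂ, ‖ζ‖ = r → ∃ V : Set V4, IsWitness F V ∧
      ∀ t ∈ closedBall (0 : Fin q → ℂ) ρ, f (ζ, t) ∈ V) (hε : 0 < ε) :
    ∃ δ m : ℝ, 0 < δ ∧ 0 < m ∧
      (∀ (s s' : ℂ) (t : Fin q → ℂ), s' ∈ Ann a r → ‖s - s'‖ < δ → t ∈ closedBall (0 : Fin q → ℂ) ρ →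
        (s, t) ∈ W ∧ ‖f (s, t) - f (s', t)‖ < ε) ∧
      ∀ ζ : ℂ, ‖ζ‖ = r → ∃ V : Set V4, IsWitness F V ∧
        ∀ (s : ℂ) (t : Fin q → ℂ) (y : V4), ‖s - ζ‖ < δ → t ∈ closedBall (0 : Fin q → ℂ) ρ →
          ‖y - f (s, t)‖ < m → y ∈ V := by
  have hK : IsCompact (Ann a r ×ˢ closedBall (0 : Fin q → ℂ) ρ) :=
    (l2cp_isCompact_Ann a r).prod (isCompact_closedBall _ _)
  have hdist : ∀ (s s' : ℂ) (t : Fin q → ℂ), dist (s, t) (s', t) = ‖s - s'‖ := by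
    intro s s' t
    rw [Prod.dist_eq, dist_self, max_eq_left dist_nonneg, dist_eq_norm]
  obtain ⟨δ₁, hδ₁, h1⟩ := l2cp_unif hK hW hsub hf hε
  -- the circle
  have hP : ∃ δ m : ℝ, 0 < δ ∧ 0 < m ∧ ∀ ζ ∈ sphere (0 : ℂ) r, ∃ V : Set V4, IsWitness F V ∧
      ∀ (s : ℂ) (t : Fin q → ℂ) (y : V4), ‖s - ζ‖ < δ → t ∈ closedBall (0 : Fin q → ℂ) ρ →
        ‖y - f (s, t)‖ < m → y ∈ V := by
    refine IsCompact.induction_on (isCompact_sphere (0 : ℂ) r)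
      (p := fun S => ∃ δ m : ℝ, 0 < δ ∧ 0 < m ∧ ∀ ζ ∈ S, ∃ V : Set V4, IsWitness F V ∧
        ∀ (s : ℂ) (t : Fin q → ℂ) (y : V4), ‖s - ζ‖ < δ → t ∈ closedBall (0 : Fin q → ℂ) ρ →
          ‖y - f (s, t)‖ < m → y ∈ V) ?_ ?_ ?_ ?_
    · exact ⟨1, 1, one_pos, one_pos, fun ζ hζ => absurd hζ (Set.notMem_empty ζ)⟩
    · rintro S T hST ⟨δ, m, hδ, hm, h⟩
      exact ⟨δ, m, hδ, hm, fun ζ hζ => h ζ (hST hζ)⟩
    · rintro S T ⟨δ, m, hδ, hm, h⟩ ⟨δ', m', hδ', hm', h'⟩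
      refine ⟨min δ δ', min m m', lt_min hδ hδ', lt_min hm hm', fun ζ hζ => ?_⟩
      rcases hζ with hζ | hζ
      · obtain ⟨V, hV, hV'⟩ := h ζ hζ
        exact ⟨V, hV, fun s t y hs ht hy => hV' s t y (lt_of_lt_of_le hs (min_le_left _ _)) ht
          (lt_of_lt_of_le hy (min_le_left _ _))⟩
      · obtain ⟨V, hV, hV'⟩ := h' ζ hζ
        exact ⟨V, hV, fun s t y hs ht hy => hV' s t y (lt_of_lt_of_le hs (min_le_right _ _)) ht
          (lt_of_lt_of_le hy (min_le_right _ _))⟩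
    · intro ζ₀ hζ₀
      have hζ₀r : ‖ζ₀‖ = r := mem_sphere_zero_iff_norm.1 hζ₀
      have hζ₀A : ζ₀ ∈ Ann a r := ⟨by rw [hζ₀r]; exact har.le, hζ₀r.le⟩
      obtain ⟨V, hV, hVf⟩ := hwit ζ₀ hζ₀r
      have hLc : IsCompact (f '' ({ζ₀} ×ˢ closedBall (0 : Fin q → ℂ) ρ)) := by
        refine (isCompact_singleton.prod (isCompact_closedBall _ _)).image_of_continuousOn
          (hf.mono fun z hz => hsub ⟨?_, hz.2⟩)
        rw [Set.mem_singleton_iff.1 hz.1]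
        exact hζ₀A
      have hLV : f '' ({ζ₀} ×ˢ closedBall (0 : Fin q → ℂ) ρ) ⊆ V := by
        rintro _ ⟨⟨s, t⟩, ⟨hs, ht⟩, rfl⟩
        have hs' : s = ζ₀ := Set.mem_singleton_iff.1 hs
        rw [hs']
        exact hVf t ht
      obtain ⟨μ, hμ, hμV⟩ := hLc.exists_thickening_subset_open hV.1 hLV
      obtain ⟨δ', hδ', h2⟩ := l2cp_unif hK hW hsub hf (half_pos hμ)
      refine ⟨ball ζ₀ (δ' / 2), mem_nhdsWithin_of_mem_nhds (ball_mem_nhds _ (half_pos hδ')),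
        δ' / 2, μ / 2, half_pos hδ', half_pos hμ, fun ζ hζ => ⟨V, hV, fun s t y hs ht hy => ?_⟩⟩
      have h3 : ‖s - ζ₀‖ < δ' := by
        have h4 : ‖ζ - ζ₀‖ < δ' / 2 := by rwa [mem_ball, dist_eq_norm] at hζ
        have h5 : ‖s - ζ₀‖ ≤ ‖s - ζ‖ + ‖ζ - ζ₀‖ := by
          have := norm_add_le (s - ζ) (ζ - ζ₀)
          rwa [sub_add_sub_cancel] at this
        linarith
      have h6 := (h2 (ζ₀, t) ⟨hζ₀A, ht⟩ (s, t) (by rw [hdist]; exact h3)).2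
      refine hμV (mem_thickening_iff.2 ⟨f (ζ₀, t), ⟨(ζ₀, t), ⟨rfl, ht⟩, rfl⟩, ?_⟩)
      have h7 : dist y (f (ζ₀, t)) ≤ dist y (f (s, t)) + dist (f (s, t)) (f (ζ₀, t)) :=
        dist_triangle _ _ _
      have h8 : dist y (f (s, t)) < μ / 2 := by rw [dist_eq_norm]; exact hy
      linarith
  obtain ⟨δ₂, m, hδ₂, hm, h2⟩ := hP
  refine ⟨min δ₁ δ₂, m, lt_min hδ₁ hδ₂, hm, fun s s' t hs' hss ht => ?_, fun ζ hζ => ?_⟩
  · have h3 := h1 (s', t) ⟨hs', ht⟩ (s, t)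
      (by rw [hdist]; exact lt_of_lt_of_le hss (min_le_left _ _))
    rw [dist_eq_norm] at h3
    exact h3
  · obtain ⟨V, hV, hV'⟩ := h2 ζ (mem_sphere_zero_iff_norm.2 hζ)
    exact ⟨V, hV, fun s t y hs ht hy => hV' s t y (lt_of_lt_of_le hs (min_le_right _ _)) ht hy⟩

end Claimed.Agent.R245
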