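/-
Row 245 / S0484, sec 2.3 (architect: helper98).  Geometry of the ONE-SHOT proof of Prop loc:planar: definitions.

`N` spokes at the angles `θ_k = 2πk/N`; `h = π/(3N)`.
* the spoke map `Π (s) = s (1 + (s/p)^N)^{-1/N}` is holomorphic on `{|s| < p} ∪ {Re s^N > 0}`, close to the identity on `|s| ≤ r e^h < p`
  and maps the part `|s| ≥ r` of the thin sectors `|arg s - θ_k| ≤ h` into a small neighbourhood of `r e^{iθ_k}`;
* `UA` = (open annulus/disc of outer radius `r e^h`) ∪ (thin open sectors `cos (N arg s) > 1/2` around the spokes), inside `a₁ < |s| < R₁`;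
* `UB` = `{r e^{h/2} < |s| < R₁, cos (N arg s) < 3/4}` = disjoint union of the `N` open polar rectangles `UBk`;
* `K1` = compact set containing `UA`, inside the domain of `Π`;
* `l2Log` = the branch of the logarithm on `ℂ \ [0,∞)` with imaginary part in `(0, 2π)`.
(`cos (N arg s) = Re s^N / |s|^N`.)
-/
import Mathlib
import Claimed.Agent.R245.L2Defs

set_option autoImplicit false

namespace Claimed.Agent.R245

open Metric Set

/-- half width of the spoke bands -/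
noncomputable def l2h (N : ℕ) : ℝ := Real.pi / (3 * N)

/-- the angle of the `k`-th spoke -/
noncomputable def l2th (N k : ℕ) : ℝ := 2 * Real.pi * k / N

/-- the spoke map -/
noncomputable def l2Pi (p : ℝ) (N : ℕ) (s : ℂ) : ℂ :=
  s * Complex.exp (-(Complex.log (1 + (s / p) ^ N)) / N)

/-- a domain of holomorphy of the spoke map -/
def l2PiDom (p : ℝ) (N : ℕ) : Set ℂ := {s | ‖s‖ < p ∨ 0 < (s ^ N).re}

def l2UA (a₁ r R₁ : ℝ) (N : ℕ) : Set ℂ :=
  {s | a₁ < ‖s‖ ∧ ‖s‖ < R₁ ∧ (‖s‖ < r * Real.exp (l2h N) ∨ ‖s‖ ^ N / 2 < (s ^ N).re)}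

def l2UB (r R₁ : ℝ) (N : ℕ) : Set ℂ :=
  {s | r * Real.exp (l2h N / 2) < ‖s‖ ∧ ‖s‖ < R₁ ∧ (s ^ N).re < 3 / 4 * ‖s‖ ^ N}

def l2K1 (a₁ r R₁ : ℝ) (N : ℕ) : Set ℂ :=
  {s | a₁ ≤ ‖s‖ ∧ ‖s‖ ≤ R₁ ∧ (‖s‖ ≤ r * Real.exp (l2h N) ∨ ‖s‖ ^ N / 2 ≤ (s ^ N).re)}

/-- the branch of `log` on `ℂ \ [0,∞)` with `0 < Im < 2π` -/
noncomputable def l2Log (s : ℂ) : ℂ := Complex.log (-s) + Real.pi * Complex.I

/-- the `k`-th component of `UB` -/
def l2UBk (r R₁ : ℝ) (N k : ℕ) : Set ℂ :=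
  {s | s ∈ l2UB r R₁ N ∧ l2th N k < (l2Log s).im ∧ (l2Log s).im < l2th N (k + 1)}

end Claimed.Agent.R245
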