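/-
Row 245 / S0484, sec 2.3 (architect: helper98).  Package L2-GEO-B: the logarithm on the sectors `UBk`.
ONE FILE = ONE PACKAGE = ONE OWNER.  Statements FROZEN; helper lemmas: prefix `l2gb_`, in this file.

Basic facts to prove first (for `s ≠ 0`, `w` with `exp w = s`): `‖s‖ = exp (Re w)`, `s^N = exp (N w)`,
`Re s^N = ‖s‖^N cos (N Im w)`.  For `s ∈ UB`: `s ≠ 0` and `-s ∈ Complex.slitPlane` (otherwise `s > 0` real and `Re s^N = ‖s‖^N`);
`exp (l2Log s) = s`; `Re (l2Log s) = log ‖s‖`; `Im (l2Log s) = arg (-s) + π ∈ (0, 2π)`.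
`cos x ≤ 1/2` for `x ∈ [π/3, 5π/3]` (`Real.cos_pi_div_three`, monotonicity on `[0,π]`, `cos (2π - x) = cos x`).
-/
import Mathlib
import Claimed.Agent.R245.L2GeoDefs

set_option autoImplicit false

namespace Claimed.Agent.R245

open Metric Set

theorem l2gb_re_pow (N : ℕ) (w : ℂ) :
    ((Complex.exp w) ^ N).re = ‖Complex.exp w‖ ^ N * Real.cos (N * w.im) := by
  rw [← Complex.exp_nat_mul, Complex.exp_re, Complex.norm_exp, ← Real.exp_nat_mul]
  simp

theorem l2gb_half_le_cos {x : ℝ} (hx : |x| ≤ Real.pi / 3) : 1 / 2 ≤ Real.cos x := by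
  rw [← Real.cos_abs, ← Real.cos_pi_div_three]
  exact Real.cos_le_cos_of_nonneg_of_le_pi (abs_nonneg x) (by linarith [Real.pi_pos]) hx

theorem l2gb_cos_le_half {x : ℝ} (h1 : Real.pi / 3 ≤ x) (h2 : x ≤ 5 * Real.pi / 3) :
    Real.cos x ≤ 1 / 2 := by
  have hpi := Real.pi_pos
  rw [← Real.cos_pi_div_three]
  rcases le_total x Real.pi with h | h
  · exact Real.cos_le_cos_of_nonneg_of_le_pi (by positivity) h h1
  · rw [← Real.cos_two_pi_sub x]
    exact Real.cos_le_cos_of_nonneg_of_le_pi (by positivity) (by linarith) (by linarith)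

theorem l2gb_h_nonneg (N : ℕ) : 0 ≤ l2h N := by
  unfold l2h
  positivity

theorem l2gb_norm_pos {r R₁ : ℝ} {N : ℕ} (hr : 0 < r) {s : ℂ} (hs : s ∈ l2UB r R₁ N) :
    r < ‖s‖ := by
  have h1 : 1 ≤ Real.exp (l2h N / 2) := Real.one_le_exp (by linarith [l2gb_h_nonneg N])
  have h2 := hs.1
  nlinarith

theorem l2gb_ne_zero {r R₁ : ℝ} {N : ℕ} (hr : 0 < r) {s : ℂ} (hs : s ∈ l2UB r R₁ N) : s ≠ 0 :=
  norm_pos_iff.1 (hr.trans (l2gb_norm_pos hr hs))

theorem l2gb_mem_slit {r R₁ : ℝ} {N : ℕ} (hr : 0 < r) {s : ℂ} (hs : s ∈ l2UB r R₁ N) :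
    -s ∈ Complex.slitPlane := by
  rw [Complex.mem_slitPlane_iff]
  by_contra hcon
  rw [not_or, not_lt, not_not, Complex.neg_re, Complex.neg_im] at hcon
  have hre : 0 ≤ s.re := by linarith [hcon.1]
  have him : s.im = 0 := by linarith [hcon.2]
  have hs' : s = (s.re : ℂ) := Complex.ext (by simp) (by simp [him])
  have h1 : ‖s‖ = s.re := by
    rw [hs', Complex.norm_real, Real.norm_eq_abs, abs_of_nonneg]
    · simp
    · simpa using hre
  have h2 : (s ^ N).re = s.re ^ N := by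
    conv_lhs => rw [hs']
    rw [← Complex.ofReal_pow, Complex.ofReal_re]
  have h3 := hs.2.2
  rw [h2, h1] at h3
  have h4 : 0 < s.re := by
    rw [← h1]
    exact hr.trans (l2gb_norm_pos hr hs)
  have h5 : 0 < s.re ^ N := by positivity
  linarith

theorem l2gb_exp_log {s : ℂ} (hs : s ≠ 0) : Complex.exp (l2Log s) = s := by
  rw [l2Log, Complex.exp_add, Complex.exp_log (neg_ne_zero.2 hs), Complex.exp_pi_mul_I]
  ring

theorem l2gb_log_re (s : ℂ) : (l2Log s).re = Real.log ‖s‖ := by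
  rw [l2Log]
  simp [Complex.log_re]

theorem l2gb_log_im (s : ℂ) : (l2Log s).im = Complex.arg (-s) + Real.pi := by
  rw [l2Log]
  simp [Complex.log_im]

theorem l2gb_im_mem {r R₁ : ℝ} {N : ℕ} (hr : 0 < r) {s : ℂ} (hs : s ∈ l2UB r R₁ N) :
    0 < (l2Log s).im ∧ (l2Log s).im < 2 * Real.pi := by
  rw [l2gb_log_im]
  have h1 := Complex.neg_pi_lt_arg (-s)
  have h2 := Complex.arg_le_pi (-s)
  have h3 := (Complex.mem_slitPlane_iff_arg.1 (l2gb_mem_slit hr hs)).1
  have h4 : Complex.arg (-s) < Real.pi := lt_of_le_of_ne h2 h3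
  constructor <;> linarith

/-- `Re s^N = ‖s‖^N cos (N y)` -/
theorem l2gb_re_pow_log {s : ℂ} (hs : s ≠ 0) (N : ℕ) :
    (s ^ N).re = ‖s‖ ^ N * Real.cos (N * (l2Log s).im) := by
  have := l2gb_re_pow N (l2Log s)
  rwa [l2gb_exp_log hs] at this

theorem l2gb_cos_lt {r R₁ : ℝ} {N : ℕ} (hr : 0 < r) {s : ℂ} (hs : s ∈ l2UB r R₁ N) :
    Real.cos (N * (l2Log s).im) < 3 / 4 := by
  have h1 := hs.2.2
  rw [l2gb_re_pow_log (l2gb_ne_zero hr hs), mul_comm] at h1
  have h2 : 0 < ‖s‖ ^ N := pow_pos (hr.trans (l2gb_norm_pos hr hs)) N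
  exact lt_of_mul_lt_mul_right h1 h2.le

theorem l2geo_log {r R₁ : ℝ} {N : ℕ} (hr : 0 < r) {s : ℂ} (hs : s ∈ l2UB r R₁ N) :
    DifferentiableAt ℂ l2Log s ∧ Complex.exp (l2Log s) = s := by
  refine ⟨?_, l2gb_exp_log (l2gb_ne_zero hr hs)⟩
  exact (differentiableAt_id.neg.clog (l2gb_mem_slit hr hs)).add_const _

/-- every point of `UB` lies in one of the sectors (`k = ⌊N y / 2π⌋`, `y = Im (l2Log s) ∈ (0,2π)`; `N y ∉ 2πℤ` because
`cos (N y) < 3/4 < 1`). -/
theorem l2geo_UB_cover {r R₁ : ℝ} {N : ℕ} (hr : 0 < r) (hN : 0 < N) {s : ℂ}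
    (hs : s ∈ l2UB r R₁ N) : ∃ k < N, s ∈ l2UBk r R₁ N k := by
  obtain ⟨y0, y1⟩ := l2gb_im_mem hr hs
  have hcos := l2gb_cos_lt hr hs
  set y := (l2Log s).im with hy
  have hpi := Real.pi_pos
  have hn : (0 : ℝ) < N := by exact_mod_cast hN
  set q : ℝ := N * y / (2 * Real.pi) with hq
  have hq0 : 0 ≤ q := by positivity
  have k1 : (⌊q⌋₊ : ℝ) ≤ q := Nat.floor_le hq0
  have k2 : q < ⌊q⌋₊ + 1 := Nat.lt_floor_add_one q
  have hqy : y = 2 * Real.pi * q / N := by
    rw [hq]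
    field_simp
  refine ⟨⌊q⌋₊, ?_, hs, ?_, ?_⟩
  · have : q < N := by
      rw [hq, div_lt_iff₀ (by positivity)]
      nlinarith
    exact (Nat.floor_lt hq0).2 this
  · rw [← hy, l2th]
    have hne : (⌊q⌋₊ : ℝ) ≠ q := by
      intro heq
      have h1 : (N : ℝ) * y = ⌊q⌋₊ * (2 * Real.pi) := by
        rw [heq, hq]
        field_simp
      rw [h1, Real.cos_nat_mul_two_pi] at hcos
      norm_num at hcos
    have hlt : (⌊q⌋₊ : ℝ) < q := lt_of_le_of_ne k1 hne
    rw [hqy]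
    apply div_lt_div_of_pos_right _ hn
    apply mul_lt_mul_of_pos_left hlt (by positivity)
  · rw [← hy, l2th, hqy]
    apply div_lt_div_of_pos_right _ hn
    push_cast
    apply mul_lt_mul_of_pos_left k2 (by positivity)

theorem l2gb_th_lt {N k k' : ℕ} (hN : 0 < N) (h : l2th N k < l2th N (k' + 1)) : k ≤ k' := by
  have hn : (0 : ℝ) < N := by exact_mod_cast hN
  have hpi := Real.pi_pos
  rw [l2th, l2th, div_lt_div_iff_of_pos_right hn] at h
  have h2 : (k : ℝ) < ((k' + 1 : ℕ) : ℝ) := lt_of_mul_lt_mul_left h (by positivity)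
  have h3 : k < k' + 1 := by exact_mod_cast h2
  omega

theorem l2geo_UBk_unique {r R₁ : ℝ} {N k k' : ℕ} (hN : 0 < N) {s : ℂ} (hs : s ∈ l2UBk r R₁ N k)
    (hs' : s ∈ l2UBk r R₁ N k') : k = k' :=
  le_antisymm (l2gb_th_lt hN (hs.2.1.trans hs'.2.2)) (l2gb_th_lt hN (hs'.2.1.trans hs.2.2))

theorem l2gb_isOpen_UB (r R₁ : ℝ) (N : ℕ) : IsOpen (l2UB r R₁ N) := by
  have hc1 : Continuous fun s : ℂ => (s ^ N).re := Complex.continuous_re.comp (continuous_pow N)
  have hc2 : Continuous fun s : ℂ => ‖s‖ ^ N := continuous_norm.pow N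
  have h1 : IsOpen {s : ℂ | r * Real.exp (l2h N / 2) < ‖s‖} :=
    isOpen_lt continuous_const continuous_norm
  have h2 : IsOpen {s : ℂ | ‖s‖ < R₁} := isOpen_lt continuous_norm continuous_const
  have h4 : IsOpen {s : ℂ | (s ^ N).re < 3 / 4 * ‖s‖ ^ N} :=
    isOpen_lt hc1 (continuous_const.mul hc2)
  exact h1.inter (h2.inter h4)

/-- (`UB` is open, `l2Log` is continuous at the points of `UB`.) -/
theorem l2geo_isOpen_UBk {r R₁ : ℝ} {N : ℕ} (hr : 0 < r) (k : ℕ) : IsOpen (l2UBk r R₁ N k) := by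
  have hc : ContinuousOn (fun s => (l2Log s).im) (l2UB r R₁ N) := fun s hs =>
    (Complex.continuous_im.continuousAt.comp (l2geo_log hr hs).1.continuousAt).continuousWithinAt
  have := hc.isOpen_inter_preimage (l2gb_isOpen_UB r R₁ N)
    (isOpen_Ioo (a := l2th N k) (b := l2th N (k + 1)))
  exact this

theorem l2geo_log_rect {r R₁ : ℝ} {N k : ℕ} (hr : 0 < r) (hN : 0 < N) {s : ℂ}
    (hs : s ∈ l2UBk r R₁ N k) :
    l2Log s ∈ URect (Real.log r) (Real.log R₁) (l2th N k) (l2th N (k + 1)) := by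
  have h1 := l2gb_norm_pos hr hs.1
  refine ⟨?_, ?_, hs.2.1.le, hs.2.2.le⟩
  · rw [l2gb_log_re]
    exact Real.log_le_log hr h1.le
  · rw [l2gb_log_re]
    exact Real.log_le_log (hr.trans h1) hs.1.2.1.le

/-- on the overlap the logarithm lies in the `U`-band.  (`‖s‖ < r e^h` gives `Re w ≤ log r + h`; otherwise
`cos (N y) > 1/2` with `N y ∈ (2πk, 2π(k+1))`, so `N y - 2πk < π/3` or `> 5π/3`.) -/
theorem l2geo_log_band {a₁ r R₁ : ℝ} {N k : ℕ} (hr : 0 < r) (hN : 0 < N) {s : ℂ}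
    (hA : s ∈ l2UA a₁ r R₁ N) (hs : s ∈ l2UBk r R₁ N k) :
    l2Log s ∈ UBand (Real.log r) (Real.log R₁) (l2th N k) (l2th N (k + 1)) (l2h N) := by
  refine ⟨l2geo_log_rect hr hN hs, ?_⟩
  have h1 := l2gb_norm_pos hr hs.1
  have h0 : 0 < ‖s‖ := hr.trans h1
  have hn : (0 : ℝ) < N := by exact_mod_cast hN
  have hpi := Real.pi_pos
  rcases hA.2.2 with h | h
  · left
    rw [l2gb_log_re]
    calc Real.log ‖s‖ ≤ Real.log (r * Real.exp (l2h N)) := Real.log_le_log h0 h.le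
      _ = Real.log r + l2h N := by rw [Real.log_mul hr.ne' (Real.exp_pos _).ne', Real.log_exp]
  · right
    rw [l2gb_re_pow_log (l2gb_ne_zero hr hs.1)] at h
    have hp : 0 < ‖s‖ ^ N := by positivity
    have hcos : 1 / 2 < Real.cos (N * (l2Log s).im) := by
      have : ‖s‖ ^ N * (1 / 2) < ‖s‖ ^ N * Real.cos (N * (l2Log s).im) := by linarith
      exact lt_of_mul_lt_mul_left this hp.le
    set y := (l2Log s).im with hy
    rw [← Real.cos_sub_nat_mul_two_pi _ k] at hcos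
    by_contra hcon
    rw [not_or, not_le, not_le] at hcon
    obtain ⟨c1, c2⟩ := hcon
    rw [l2th, l2h] at c1 c2
    have e1 : 2 * Real.pi * k / N + Real.pi / (3 * N) = (2 * Real.pi * k + Real.pi / 3) / N := by
      field_simp
    have e2 : 2 * Real.pi * ((k + 1 : ℕ) : ℝ) / N - Real.pi / (3 * N)
        = (2 * Real.pi * k + 5 * Real.pi / 3) / N := by
      push_cast
      field_simp
      ring
    rw [e1, div_lt_iff₀ hn] at c1
    rw [e2, lt_div_iff₀ hn] at c2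
    have := l2gb_cos_le_half (x := N * y - k * (2 * Real.pi)) (by linarith) (by linarith)
    linarith

/-- the exponential maps the `U`-band into `K1`. -/
theorem l2geo_exp_band {a₁ r R₁ : ℝ} {N k : ℕ} (hr : 0 < r) (hR : r < R₁) (hN : 0 < N)
    (ha : a₁ ≤ r) {w : ℂ}
    (hw : w ∈ UBand (Real.log r) (Real.log R₁) (l2th N k) (l2th N (k + 1)) (l2h N)) :
    Complex.exp w ∈ l2K1 a₁ r R₁ N := by
  obtain ⟨⟨x0, x1, y0, y1⟩, hb⟩ := hw
  have hn : (0 : ℝ) < N := by exact_mod_cast hN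
  have hpi := Real.pi_pos
  have hnorm : ‖Complex.exp w‖ = Real.exp w.re := Complex.norm_exp w
  have hr' : r ≤ Real.exp w.re := by
    rw [← Real.exp_log hr]
    exact Real.exp_le_exp.2 x0
  have hR' : Real.exp w.re ≤ R₁ := by
    rw [← Real.exp_log (hr.trans hR)]
    exact Real.exp_le_exp.2 x1
  refine ⟨by rw [hnorm]; linarith, by rw [hnorm]; exact hR', ?_⟩
  have hp : 0 ≤ ‖Complex.exp w‖ ^ N := by positivity
  rw [l2th] at y0 y1
  rw [div_le_iff₀ hn] at y0
  rw [le_div_iff₀ hn] at y1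
  push_cast at y1
  rcases hb with hb | hb | hb
  · left
    rw [hnorm]
    calc Real.exp w.re ≤ Real.exp (Real.log r + l2h N) := Real.exp_le_exp.2 hb
      _ = r * Real.exp (l2h N) := by rw [Real.exp_add, Real.exp_log hr]
  · right
    rw [l2gb_re_pow, ← Real.cos_sub_nat_mul_two_pi _ k]
    rw [l2th, l2h] at hb
    have e1 : 2 * Real.pi * k / N + Real.pi / (3 * N) = (2 * Real.pi * k + Real.pi / 3) / N := by
      field_simp
    rw [e1, le_div_iff₀ hn] at hb
    have := l2gb_half_le_cos (x := N * w.im - k * (2 * Real.pi))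
      (abs_le.2 ⟨by linarith, by linarith⟩)
    nlinarith
  · right
    rw [l2gb_re_pow, ← Real.cos_sub_nat_mul_two_pi _ (k + 1)]
    rw [l2th, l2h] at hb
    have e2 : 2 * Real.pi * ((k + 1 : ℕ) : ℝ) / N - Real.pi / (3 * N)
        = (2 * Real.pi * (k + 1) - Real.pi / 3) / N := by
      push_cast
      field_simp
    rw [e2, div_le_iff₀ hn] at hb
    have := l2gb_half_le_cos (x := N * w.im - ((k + 1 : ℕ) : ℝ) * (2 * Real.pi))
      (abs_le.2 ⟨by push_cast; linarith, by push_cast; linarith⟩)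
    nlinarith

/-- the `U`-pair conditions -/
theorem l2geo_upair {r R₁ : ℝ} {N : ℕ} (hr : 0 < r) (hN : 0 < N) (hR : r * Real.exp (l2h N) < R₁)
    (k : ℕ) : 0 < l2h N ∧ Real.log r + l2h N < Real.log R₁ ∧
      l2th N k + 2 * l2h N < l2th N (k + 1) := by
  have hn : (0 : ℝ) < N := by exact_mod_cast hN
  have hpi := Real.pi_pos
  refine ⟨by unfold l2h; positivity, ?_, ?_⟩
  · have h1 : Real.log (r * Real.exp (l2h N)) = Real.log r + l2h N := by
      rw [Real.log_mul hr.ne' (Real.exp_pos _).ne', Real.log_exp]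
    rw [← h1]
    exact Real.log_lt_log (by positivity) hR
  · rw [l2th, l2th, l2h]
    have e1 : 2 * Real.pi * k / N + 2 * (Real.pi / (3 * N))
        = (2 * Real.pi * k + 2 * Real.pi / 3) / N := by
      field_simp
    rw [e1]
    apply div_lt_div_of_pos_right _ hn
    push_cast
    linarith

end Claimed.Agent.R245
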