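/-
Row 245 / S0484, sec 2.3 (architect: helper98).  Package L2-SECTOR: property `L` applied to a spray in the coordinate `w = log s`.
ONE FILE = ONE PACKAGE = ONE OWNER.  Statement FROZEN; helper lemmas: prefix `l2sc_`, in this file.
-/
import Mathlib
import Claimed.Agent.R245.L2Defs

set_option autoImplicit false

namespace Claimed.Agent.R245

open MvPolynomial Metric Set

/-- the source change `(w, τ) ↦ ((exp w, pt τ), c • pv τ)`. -/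
noncomputable def l2scA (q : ℕ) (c : ℝ) (z : ℂ × (Fin (q + 4) → ℂ)) : (ℂ × (Fin q → ℂ)) × V4 :=
  ((Complex.exp z.1, fun i => z.2 (Fin.castAdd 4 i)), fun j => (c : ℂ) * z.2 (Fin.natAdd q j))

/-- the inverse change `((w, t), v) ↦ (w, append t (c⁻¹ v))`. -/
noncomputable def l2scB (q : ℕ) (c : ℝ) (z : (ℂ × (Fin q → ℂ)) × V4) : ℂ × (Fin (q + 4) → ℂ) :=
  (z.1.1, Fin.append z.1.2 (fun j => (c : ℂ)⁻¹ * z.2 j))

theorem l2sc_differentiable_A (q : ℕ) (c : ℝ) : Differentiable ℂ (l2scA q c) := by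
  unfold l2scA
  fun_prop

theorem l2sc_differentiable_B (q : ℕ) (c : ℝ) : Differentiable ℂ (l2scB q c) := by
  unfold l2scB
  refine Differentiable.prodMk (by fun_prop) ?_
  rw [differentiable_pi]
  intro k
  refine Fin.addCases (fun i => ?_) (fun j => ?_) k
  · simp only [Fin.append_left]
    fun_prop
  · simp only [Fin.append_right]
    fun_prop

theorem l2sc_A_B {q : ℕ} {c : ℝ} (hc : c ≠ 0) (w : ℂ) (t : Fin q → ℂ) (v : V4) :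
    l2scA q c (l2scB q c ((w, t), v)) = ((Complex.exp w, t), v) := by
  have hc' : (c : ℂ) ≠ 0 := by exact_mod_cast hc
  unfold l2scA l2scB
  refine Prod.ext (Prod.ext rfl ?_) ?_
  · funext i; simp
  · funext j; simp [hc']

/-- **`IsWitness` with the passive parameters `(t, v) ∈ ℂ^q × ℂ⁴` and the source variable `s = exp w`.**
Route.  `c := β / ρ`.  Continuous linear maps `pt : (Fin (q+4) → ℂ) → (Fin q → ℂ)`, `pt τ i = τ (Fin.castAdd 4 i)`,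
`pv τ j = τ (Fin.natAdd q j)`, and `J (t, v) = Fin.append t v`.  Sup norms: `‖τ‖ ≤ ρ' ↔ ‖pt τ‖ ≤ ρ' ∧ ‖pv τ‖ ≤ ρ'`.
`φ (w, τ) := Φ ((exp w, pt τ), c • pv τ)` is holomorphic on the open set `W₀ := ` preimage of `𝒲`, maps it into `V`, and
`UBand ×ˢ closedBall 0 ρ ⊆ W₀` by `hsub`.  `hV.2` gives `g₀`, holomorphic near `URect ×ˢ closedBall 0 ρ₁`.
`g ((w, t), v) := g₀ (w, J (t, c⁻¹ • v))`; `‖J (t, c⁻¹ v)‖ ≤ ρ₁` iff `‖t‖ ≤ ρ₁`, `‖v‖ ≤ c ρ₁ = β ρ₁ / ρ`; `pt (J ..) = t`, `c • pv (J ..) = v`. -/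
theorem l2_sector {F : MvPolynomial (Fin 4) ℂ} {V : Set V4} (hV : IsWitness F V)
    {x₀ x₁ y₀ y₁ h : ℝ} (hh : 0 < h) (hx : x₀ + h < x₁) (hy : y₀ + 2 * h < y₁)
    {q : ℕ} {ρ₁ ρ β : ℝ} (hρ₁ : 0 < ρ₁) (hρ : ρ₁ < ρ) (hβ : 0 < β)
    {Φ : (ℂ × (Fin q → ℂ)) × V4 → V4} {𝒲 : Set ((ℂ × (Fin q → ℂ)) × V4)} (h𝒲 : IsOpen 𝒲)
    (hsub : ∀ w ∈ UBand x₀ x₁ y₀ y₁ h, ∀ t ∈ closedBall (0 : Fin q → ℂ) ρ,
      ∀ v ∈ closedBall (0 : V4) β, ((Complex.exp w, t), v) ∈ 𝒲)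
    (hhol : HolOn F Φ 𝒲) (hmaps : MapsTo Φ 𝒲 V) {ε : ℝ} (hε : 0 < ε) :
    ∃ g : (ℂ × (Fin q → ℂ)) × V4 → V4,
      HolNear F g ((URect x₀ x₁ y₀ y₁ ×ˢ closedBall (0 : Fin q → ℂ) ρ₁) ×ˢ
        closedBall (0 : V4) (β * ρ₁ / ρ)) ∧
      ∀ w ∈ UBand x₀ x₁ y₀ y₁ h, ∀ t ∈ closedBall (0 : Fin q → ℂ) ρ₁,
        ∀ v ∈ closedBall (0 : V4) (β * ρ₁ / ρ),
          ‖g ((w, t), v) - Φ ((Complex.exp w, t), v)‖ < ε := by
  have hρ0 : 0 < ρ := hρ₁.trans hρ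
  set c : ℝ := β / ρ with hc
  have hc0 : 0 < c := div_pos hβ hρ0
  have hAd := l2sc_differentiable_A q c
  have hBd := l2sc_differentiable_B q c
  -- the datum for `hV`
  have hdat : ∃ W : Set (ℂ × (Fin (q + 4) → ℂ)), IsOpen W ∧
      UBand x₀ x₁ y₀ y₁ h ×ˢ closedBall (0 : Fin (q + 4) → ℂ) ρ ⊆ W ∧ HolOn F (Φ ∘ l2scA q c) W ∧
        MapsTo (Φ ∘ l2scA q c) W V := by
    refine ⟨l2scA q c ⁻¹' 𝒲, h𝒲.preimage hAd.continuous, ?_, ⟨?_, fun z hz => hhol.2 hz⟩,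
      fun z hz => hmaps hz⟩
    · rintro ⟨w, τ⟩ ⟨hw, hτ⟩
      rw [mem_closedBall_zero_iff] at hτ
      refine hsub w hw _ ?_ _ ?_
      · rw [mem_closedBall_zero_iff]
        exact (pi_norm_le_iff_of_nonneg hρ0.le).2 fun i => (norm_le_pi_norm τ _).trans hτ
      · rw [mem_closedBall_zero_iff]
        refine (pi_norm_le_iff_of_nonneg hβ.le).2 fun j => ?_
        rw [norm_mul, Complex.norm_real, Real.norm_eq_abs, abs_of_pos hc0]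
        calc c * ‖τ (Fin.natAdd q j)‖ ≤ c * ρ :=
              mul_le_mul_of_nonneg_left ((norm_le_pi_norm τ _).trans hτ) hc0.le
          _ = β := by rw [hc]; field_simp
    · exact hhol.1.comp hAd.differentiableOn fun z hz => hz
  obtain ⟨g₀, ⟨W₁, hW₁o, hW₁s, hg₀d, hg₀m⟩, hg₀⟩ :=
    hV.2 x₀ x₁ y₀ y₁ h hh hx hy (q + 4) ρ₁ ρ hρ₁ hρ (Φ ∘ l2scA q c) hdat ε hε
  have hball : ∀ t ∈ closedBall (0 : Fin q → ℂ) ρ₁, ∀ v ∈ closedBall (0 : V4) (β * ρ₁ / ρ),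
      (Fin.append t (fun j => (c : ℂ)⁻¹ * v j) : Fin (q + 4) → ℂ) ∈ closedBall (0 : Fin (q + 4) → ℂ) ρ₁ := by
    intro t ht v hv
    rw [mem_closedBall_zero_iff] at ht hv ⊢
    refine (pi_norm_le_iff_of_nonneg hρ₁.le).2 fun k => ?_
    refine Fin.addCases (fun i => ?_) (fun j => ?_) k
    · rw [Fin.append_left]; exact (norm_le_pi_norm t i).trans ht
    · rw [Fin.append_right, norm_mul, norm_inv, Complex.norm_real, Real.norm_eq_abs, abs_of_pos hc0]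
      calc c⁻¹ * ‖v j‖ ≤ c⁻¹ * (β * ρ₁ / ρ) :=
            mul_le_mul_of_nonneg_left ((norm_le_pi_norm v j).trans hv) (inv_pos.2 hc0).le
        _ = ρ₁ := by rw [hc]; field_simp
  refine ⟨g₀ ∘ l2scB q c, ⟨l2scB q c ⁻¹' W₁, hW₁o.preimage hBd.continuous, ?_,
    hg₀d.comp hBd.differentiableOn fun z hz => hz, fun z hz => hg₀m hz⟩, fun w hw t ht v hv => ?_⟩
  · rintro ⟨⟨w, t⟩, v⟩ ⟨⟨hw, ht⟩, hv⟩
    exact hW₁s ⟨hw, hball t ht v hv⟩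
  · have h1 := hg₀ (l2scB q c ((w, t), v)) ⟨hw, hball t ht v hv⟩
    rw [Function.comp_apply, l2sc_A_B hc0.ne'] at h1
    exact h1

end Claimed.Agent.R245
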