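/-
Row 245 / S0484, sec 2.3 (architect: helper98).  The map `F_B` of the one-shot gluing: property `L` applied in each of the `N` sectors.
(Proved from `l2_sector` and `L2GeoB.lean`.)
-/
import Mathlib
import Claimed.Agent.R245.L2Sector
import Claimed.Agent.R245.L2GeoB

set_option autoImplicit false

namespace Claimed.Agent.R245

open MvPolynomial Metric Set Filter Topology

theorem l2_FB {F : MvPolynomial (Fin 4) ℂ} {q : ℕ} {a₁ r R₁ ρ₁ ρ β : ℝ} {N : ℕ} (hN : 0 < N)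
    (hr : 0 < r) (hR : r * Real.exp (l2h N) < R₁) (hρ₁ : 0 < ρ₁) (hρ : ρ₁ < ρ) (hβ : 0 < β)
    {Φ : (ℂ × (Fin q → ℂ)) × V4 → V4}
    (hyp : ∀ k < N, ∃ (V : Set V4) (𝒲 : Set ((ℂ × (Fin q → ℂ)) × V4)), IsWitness F V ∧ IsOpen 𝒲 ∧
      (∀ w ∈ UBand (Real.log r) (Real.log R₁) (l2th N k) (l2th N (k + 1)) (l2h N),
        ∀ t ∈ closedBall (0 : Fin q → ℂ) ρ, ∀ v ∈ closedBall (0 : V4) β,
          ((Complex.exp w, t), v) ∈ 𝒲) ∧ HolOn F Φ 𝒲 ∧ MapsTo Φ 𝒲 V)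
    {ε : ℝ} (hε : 0 < ε) :
    ∃ FB : (ℂ × (Fin q → ℂ)) × V4 → V4,
      HolOn F FB ((l2UB r R₁ N ×ˢ ball (0 : Fin q → ℂ) ρ₁) ×ˢ ball (0 : V4) (β * ρ₁ / ρ)) ∧
      ∀ s ∈ l2UA a₁ r R₁ N ∩ l2UB r R₁ N, ∀ t ∈ ball (0 : Fin q → ℂ) ρ₁,
        ∀ v ∈ ball (0 : V4) (β * ρ₁ / ρ), ‖FB ((s, t), v) - Φ ((s, t), v)‖ ≤ ε := by
  classical
  have hg : ∀ k : ℕ, ∃ g : (ℂ × (Fin q → ℂ)) × V4 → V4, k < N →
      (HolNear F g ((URect (Real.log r) (Real.log R₁) (l2th N k) (l2th N (k + 1)) ×ˢ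
        closedBall (0 : Fin q → ℂ) ρ₁) ×ˢ closedBall (0 : V4) (β * ρ₁ / ρ)) ∧
      ∀ w ∈ UBand (Real.log r) (Real.log R₁) (l2th N k) (l2th N (k + 1)) (l2h N),
        ∀ t ∈ closedBall (0 : Fin q → ℂ) ρ₁, ∀ v ∈ closedBall (0 : V4) (β * ρ₁ / ρ),
          ‖g ((w, t), v) - Φ ((Complex.exp w, t), v)‖ < ε) := by
    intro k
    by_cases hk : k < N
    · obtain ⟨V, 𝒲, hV, h𝒲, hsub, hhol, hmaps⟩ := hyp k hk
      obtain ⟨h1, h2, h3⟩ := l2geo_upair hr hN hR k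
      obtain ⟨g, hg1, hg2⟩ := l2_sector hV h1 h2 h3 hρ₁ hρ hβ h𝒲 hsub hhol hmaps hε
      exact ⟨g, fun _ => ⟨hg1, hg2⟩⟩
    · exact ⟨fun _ => 0, fun h => absurd h hk⟩
  choose g hg using hg
  let kk : ℂ → ℕ := fun s => if h : ∃ k, s ∈ l2UBk r R₁ N k then h.choose else 0
  have hkk : ∀ s k, s ∈ l2UBk r R₁ N k → kk s = k := by
    intro s k hs
    have h : ∃ k, s ∈ l2UBk r R₁ N k := ⟨k, hs⟩
    have : kk s = h.choose := by simp only [kk, dif_pos h]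
    rw [this]
    exact l2geo_UBk_unique hN h.choose_spec hs
  let T : (ℂ × (Fin q → ℂ)) × V4 → (ℂ × (Fin q → ℂ)) × V4 := fun p => ((l2Log p.1.1, p.1.2), p.2)
  refine ⟨fun p => g (kk p.1.1) (T p), ⟨?_, ?_⟩, ?_⟩
  · rintro ⟨⟨s, t⟩, v⟩ ⟨⟨hs, ht⟩, hv⟩
    simp only at hs ht hv
    obtain ⟨k, hk, hsk⟩ := l2geo_UB_cover hr hN hs
    obtain ⟨⟨Wk, hWk, hsubk, hholk⟩, -⟩ := hg k hk
    have hmem : T ((s, t), v) ∈ Wk := hsubk
      ⟨⟨l2geo_log_rect hr hN hsk, ball_subset_closedBall ht⟩, ball_subset_closedBall hv⟩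
    have hd1 : DifferentiableAt ℂ (g k) (T ((s, t), v)) :=
      hholk.1.differentiableAt (hWk.mem_nhds hmem)
    have hlog : DifferentiableAt ℂ l2Log s := (l2geo_log hr hs).1
    have hd2 : DifferentiableAt ℂ T ((s, t), v) := by
      have h1 : DifferentiableAt ℂ (fun p : (ℂ × (Fin q → ℂ)) × V4 => l2Log p.1.1) ((s, t), v) :=
        DifferentiableAt.comp (((s, t), v) : (ℂ × (Fin q → ℂ)) × V4) (g := l2Log)
          (f := fun p : (ℂ × (Fin q → ℂ)) × V4 => p.1.1) hlog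
          (differentiableAt_fst.comp _ differentiableAt_fst)
      exact (h1.prodMk (differentiableAt_snd.comp _ differentiableAt_fst)).prodMk
        differentiableAt_snd
    have hd3 : DifferentiableAt ℂ (fun p => g k (T p)) ((s, t), v) :=
      DifferentiableAt.comp (((s, t), v) : (ℂ × (Fin q → ℂ)) × V4) hd1 hd2
    refine (hd3.congr_of_eventuallyEq ?_).differentiableWithinAt
    have hopen : IsOpen {p : (ℂ × (Fin q → ℂ)) × V4 | p.1.1 ∈ l2UBk r R₁ N k} :=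
      (l2geo_isOpen_UBk hr k).preimage (continuous_fst.comp continuous_fst)
    filter_upwards [hopen.mem_nhds (show ((s, t), v) ∈ {p : (ℂ × (Fin q → ℂ)) × V4 |
      p.1.1 ∈ l2UBk r R₁ N k} from hsk)] with p hp
    simp only [hkk p.1.1 k hp]
  · rintro ⟨⟨s, t⟩, v⟩ ⟨⟨hs, ht⟩, hv⟩
    simp only at hs ht hv
    obtain ⟨k, hk, hsk⟩ := l2geo_UB_cover hr hN hs
    obtain ⟨⟨Wk, hWk, hsubk, hholk⟩, -⟩ := hg k hk
    have hmem : T ((s, t), v) ∈ Wk := hsubk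
      ⟨⟨l2geo_log_rect hr hN hsk, ball_subset_closedBall ht⟩, ball_subset_closedBall hv⟩
    have := hholk.2 hmem
    simpa only [hkk s k hsk] using this
  · rintro s ⟨hsA, hsB⟩ t ht v hv
    obtain ⟨k, hk, hsk⟩ := l2geo_UB_cover hr hN hsB
    have h1 := (hg k hk).2 (l2Log s) (l2geo_log_band hr hN hsA hsk) t (ball_subset_closedBall ht) v
      (ball_subset_closedBall hv)
    rw [(l2geo_log hr hsB).2] at h1
    simp only [hkk s k hsk, T]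
    exact h1.le

end Claimed.Agent.R245
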