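/-
Row 245 / S0484, sec 2.3 (architect: helper98).  Package L2-GEO-A: the planar sets `UA`, `UB`, `K1`.
ONE FILE = ONE PACKAGE = ONE OWNER.  Statements FROZEN; helper lemmas: prefix `l2ga_`, in this file.
Black box: `l2_cut_exists` (L2Cut.lean).
-/
import Mathlib
import Claimed.Agent.R245.L2GeoDefs
import Claimed.Agent.R245.L2Cut

set_option autoImplicit false

namespace Claimed.Agent.R245

open Metric Set

theorem l2h_pos {N : ℕ} (hN : 0 < N) : 0 < l2h N := by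
  unfold l2h; positivity

theorem l2ga_cont_re (N : ℕ) : Continuous fun s : ℂ => (s ^ N).re :=
  Complex.continuous_re.comp (continuous_pow N)

theorem l2ga_cont_norm (N : ℕ) : Continuous fun s : ℂ => ‖s‖ ^ N := continuous_norm.pow N

/-- All conditions are strict inequalities between continuous functions of `s`. -/
theorem l2geo_isOpen_UA (a₁ r R₁ : ℝ) (N : ℕ) : IsOpen (l2UA a₁ r R₁ N) := by
  have h1 : IsOpen {s : ℂ | a₁ < ‖s‖} := isOpen_lt continuous_const continuous_norm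
  have h2 : IsOpen {s : ℂ | ‖s‖ < R₁} := isOpen_lt continuous_norm continuous_const
  have h3 : IsOpen {s : ℂ | ‖s‖ < r * Real.exp (l2h N)} := isOpen_lt continuous_norm continuous_const
  have h4 : IsOpen {s : ℂ | ‖s‖ ^ N / 2 < (s ^ N).re} :=
    isOpen_lt ((l2ga_cont_norm N).div_const 2) (l2ga_cont_re N)
  exact h1.inter (h2.inter (h3.union h4))

theorem l2geo_isOpen_UB (r R₁ : ℝ) (N : ℕ) : IsOpen (l2UB r R₁ N) := by
  have h1 : IsOpen {s : ℂ | r * Real.exp (l2h N / 2) < ‖s‖} :=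
    isOpen_lt continuous_const continuous_norm
  have h2 : IsOpen {s : ℂ | ‖s‖ < R₁} := isOpen_lt continuous_norm continuous_const
  have h4 : IsOpen {s : ℂ | (s ^ N).re < 3 / 4 * ‖s‖ ^ N} :=
    isOpen_lt (l2ga_cont_re N) (continuous_const.mul (l2ga_cont_norm N))
  exact h1.inter (h2.inter h4)

theorem l2geo_isOpen_dom (p : ℝ) (N : ℕ) : IsOpen (l2PiDom p N) := by
  have h3 : IsOpen {s : ℂ | ‖s‖ < p} := isOpen_lt continuous_norm continuous_const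
  have h4 : IsOpen {s : ℂ | 0 < (s ^ N).re} := isOpen_lt continuous_const (l2ga_cont_re N)
  exact h3.union h4

/-- closed and contained in `closedBall 0 R₁`. -/
theorem l2geo_isCompact_K1 (a₁ r R₁ : ℝ) (N : ℕ) : IsCompact (l2K1 a₁ r R₁ N) := by
  have h1 : IsClosed {s : ℂ | a₁ ≤ ‖s‖} := isClosed_le continuous_const continuous_norm
  have h2 : IsClosed {s : ℂ | ‖s‖ ≤ R₁} := isClosed_le continuous_norm continuous_const
  have h3 : IsClosed {s : ℂ | ‖s‖ ≤ r * Real.exp (l2h N)} :=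
    isClosed_le continuous_norm continuous_const
  have h4 : IsClosed {s : ℂ | ‖s‖ ^ N / 2 ≤ (s ^ N).re} :=
    isClosed_le ((l2ga_cont_norm N).div_const 2) (l2ga_cont_re N)
  have hc : IsClosed (l2K1 a₁ r R₁ N) := h1.inter (h2.inter (h3.union h4))
  refine (isCompact_closedBall (0 : ℂ) R₁).of_isClosed_subset hc fun s hs => ?_
  rw [mem_closedBall_zero_iff]
  exact hs.2.1

theorem l2geo_UA_subset_K1 (a₁ r R₁ : ℝ) (N : ℕ) : l2UA a₁ r R₁ N ⊆ l2K1 a₁ r R₁ N := by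
  rintro s ⟨h1, h2, h3⟩
  exact ⟨h1.le, h2.le, h3.imp le_of_lt le_of_lt⟩

/-- (if `‖s‖ > r e^h > 0` then `0 < ‖s‖^N / 2 ≤ Re s^N`.) -/
theorem l2geo_K1_subset_dom {a₁ r R₁ p : ℝ} {N : ℕ} (hr : 0 < r) (hp : r * Real.exp (l2h N) < p) :
    l2K1 a₁ r R₁ N ⊆ l2PiDom p N := by
  rintro s ⟨h1, h2, h3⟩
  by_cases h : ‖s‖ ≤ r * Real.exp (l2h N)
  · exact Or.inl (h.trans_lt hp)
  · rcases h3 with h3 | h3
    · exact absurd h3 h
    · right
      have h0 : 0 < ‖s‖ := lt_trans (by positivity) (not_le.1 h)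
      have : 0 < ‖s‖ ^ N / 2 := by positivity
      linarith

/-- `UA ∪ UB` is the whole open annulus.  (If `s ∉ UA` then `‖s‖ ≥ r e^h > r e^{h/2}` and
`Re s^N ≤ ‖s‖^N / 2 < (3/4) ‖s‖^N` because `‖s‖ > 0`.) -/
theorem l2geo_cover {a₁ r R₁ : ℝ} {N : ℕ} (hr : 0 < r) (hN : 0 < N) {s : ℂ} (h1 : a₁ < ‖s‖)
    (h2 : ‖s‖ < R₁) : s ∈ l2UA a₁ r R₁ N ∪ l2UB r R₁ N := by
  by_cases h : ‖s‖ < r * Real.exp (l2h N) ∨ ‖s‖ ^ N / 2 < (s ^ N).re
  · exact Or.inl ⟨h1, h2, h⟩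
  · right
    rw [not_or, not_lt, not_lt] at h
    have hh := l2h_pos hN
    have h3 : r * Real.exp (l2h N / 2) < r * Real.exp (l2h N) :=
      mul_lt_mul_of_pos_left (Real.exp_lt_exp.2 (by linarith)) hr
    have h0 : 0 < ‖s‖ := lt_of_lt_of_le (by positivity) h.1
    have h4 : 0 < ‖s‖ ^ N := by positivity
    exact ⟨h3.trans_le h.1, h2, by linarith [h.2]⟩

theorem l2geo_Ann_subset_UA {a a₁ r R₁ : ℝ} {N : ℕ} (hr : 0 < r) (hN : 0 < N) (ha : a₁ < a)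
    (hR : r < R₁) : Ann a r ⊆ l2UA a₁ r R₁ N := by
  rintro s ⟨h1, h2⟩
  refine ⟨ha.trans_le h1, h2.trans_lt hR, Or.inl (h2.trans_lt ?_)⟩
  have hh := l2h_pos hN
  have : 1 < Real.exp (l2h N) := Real.one_lt_exp_iff.2 hh
  nlinarith

/-- **The cut datum of the one-shot gluing.**
Route: `l2_cut_exists`.  Both sets are open and contained in `ball 0 R₁`.  Fringes:
`UA \ UB ⊆ E₀ := {‖s‖ ≤ r e^{h/2} ∨ (3/4) ‖s‖^N ≤ Re s^N}`, `UB \ UA ⊆ E₁ := {r e^h ≤ ‖s‖ ∧ Re s^N ≤ ‖s‖^N / 2}`;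
`E₀`, `E₁` are closed (so they contain the closures) and disjoint (`‖s‖ > 0` on `E₁`).  (`a₁ ≤ r` is used for `UB \ UA ⊆ E₁`:
on `UB` we have `a₁ ≤ r < ‖s‖`.) -/
theorem l2geo_cut {a₁ r R₁ : ℝ} {N : ℕ} (hr : 0 < r) (hN : 0 < N) (ha : a₁ ≤ r) :
    ∃ (χ : ℂ → ℝ) (d M : ℝ), L2Cut (l2UA a₁ r R₁ N) (l2UB r R₁ N) χ d M := by
  have hh := l2h_pos hN
  have hbA : Bornology.IsBounded (l2UA a₁ r R₁ N) :=
    (isBounded_ball (x := (0 : ℂ)) (r := R₁)).subset fun s hs => by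
      rw [mem_ball_zero_iff]; exact hs.2.1
  have hbB : Bornology.IsBounded (l2UB r R₁ N) :=
    (isBounded_ball (x := (0 : ℂ)) (r := R₁)).subset fun s hs => by
      rw [mem_ball_zero_iff]; exact hs.2.1
  refine l2_cut_exists (l2geo_isOpen_UA a₁ r R₁ N) (l2geo_isOpen_UB r R₁ N) hbA hbB ?_
  have hE0 : IsClosed ({s : ℂ | ‖s‖ ≤ r * Real.exp (l2h N / 2)} ∪ {s : ℂ | 3 / 4 * ‖s‖ ^ N ≤ (s ^ N).re}) :=
    (isClosed_le continuous_norm continuous_const).union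
      (isClosed_le (continuous_const.mul (l2ga_cont_norm N)) (l2ga_cont_re N))
  have hE1 : IsClosed ({s : ℂ | r * Real.exp (l2h N) ≤ ‖s‖} ∩ {s : ℂ | (s ^ N).re ≤ ‖s‖ ^ N / 2}) :=
    (isClosed_le continuous_const continuous_norm).inter
      (isClosed_le (l2ga_cont_re N) ((l2ga_cont_norm N).div_const 2))
  have h0 : l2UA a₁ r R₁ N \ l2UB r R₁ N
      ⊆ {s : ℂ | ‖s‖ ≤ r * Real.exp (l2h N / 2)} ∪ {s : ℂ | 3 / 4 * ‖s‖ ^ N ≤ (s ^ N).re} := by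
    rintro s ⟨hA, hB⟩
    by_contra hcon
    rw [mem_union, not_or] at hcon
    exact hB ⟨not_le.1 hcon.1, hA.2.1, not_le.1 hcon.2⟩
  have h1 : l2UB r R₁ N \ l2UA a₁ r R₁ N
      ⊆ {s : ℂ | r * Real.exp (l2h N) ≤ ‖s‖} ∩ {s : ℂ | (s ^ N).re ≤ ‖s‖ ^ N / 2} := by
    rintro s ⟨hB, hA⟩
    have h2 : r < ‖s‖ := by
      have : 1 < Real.exp (l2h N / 2) := Real.one_lt_exp_iff.2 (by linarith)
      have h3 := hB.1
      nlinarith
    constructor
    · by_contra hcon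
      exact hA ⟨ha.trans_lt h2, hB.2.1, Or.inl (not_le.1 hcon)⟩
    · by_contra hcon
      exact hA ⟨ha.trans_lt h2, hB.2.1, Or.inr (not_le.1 hcon)⟩
  refine Disjoint.mono (closure_minimal h0 hE0) (closure_minimal h1 hE1) ?_
  rw [Set.disjoint_left]
  rintro s hs0 ⟨hs1, hs2⟩
  have h3 : r * Real.exp (l2h N / 2) < r * Real.exp (l2h N) :=
    mul_lt_mul_of_pos_left (Real.exp_lt_exp.2 (by linarith)) hr
  have hs1' : r * Real.exp (l2h N) ≤ ‖s‖ := hs1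
  have hs2' : (s ^ N).re ≤ ‖s‖ ^ N / 2 := hs2
  have hpos : 0 < ‖s‖ := lt_of_lt_of_le (by positivity) hs1'
  have h4 : 0 < ‖s‖ ^ N := by positivity
  rcases hs0 with hs0 | hs0
  · have : ‖s‖ ≤ r * Real.exp (l2h N / 2) := hs0
    linarith
  · have : 3 / 4 * ‖s‖ ^ N ≤ (s ^ N).re := hs0
    linarith

end Claimed.Agent.R245
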