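/-
Row 245 / S0484, sec 2.3 (architect: helper98).  Package L2-GEO-C: the spoke map `Π (s) = s (1 + (s/p)^N)^{-1/N}`.
ONE FILE = ONE PACKAGE = ONE OWNER.  Statements FROZEN; helper lemmas: prefix `l2gc_`, in this file.
-/
import Mathlib
import Claimed.Agent.R245.L2GeoDefs

set_option autoImplicit false

namespace Claimed.Agent.R245

open Metric Set

theorem l2gc_norm_pow {p : ℝ} (hp : 0 < p) (N : ℕ) (s : ℂ) : ‖(s / p) ^ N‖ = (‖s‖ / p) ^ N := by
  rw [norm_pow, norm_div, Complex.norm_real, Real.norm_eq_abs, abs_of_pos hp]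

theorem l2gc_mem_slit {p : ℝ} (hp : 0 < p) (N : ℕ) {s : ℂ} (hs : s ∈ l2PiDom p N) :
    1 + (s / p) ^ N ∈ Complex.slitPlane := by
  rw [Complex.mem_slitPlane_iff]
  left
  rcases hs with hs | hs
  · rcases Nat.eq_zero_or_pos N with rfl | hN
    · simp
    · have h1 : ‖(s / p) ^ N‖ < 1 := by
        rw [l2gc_norm_pow hp]
        exact pow_lt_one₀ (by positivity) ((div_lt_one hp).2 hs) hN.ne'
      have h2 := (abs_le.1 (Complex.abs_re_le_norm ((s / p) ^ N))).1
      rw [Complex.add_re, Complex.one_re]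
      linarith
  · have h1 : ((s / p) ^ N).re = (s ^ N).re / p ^ N := by
      rw [div_pow, ← Complex.ofReal_pow, Complex.div_ofReal_re]
    rw [Complex.add_re, Complex.one_re, h1]
    have : 0 < (s ^ N).re / p ^ N := by positivity
    linarith

/-- On `l2PiDom`, `1 + (s/p)^N ∈ Complex.slitPlane`: if `‖s‖ < p` then `‖(s/p)^N‖ < 1`; if `Re s^N > 0` then `Re (1 + (s/p)^N) > 1`. -/
theorem l2Pi_differentiableOn {p : ℝ} (hp : 0 < p) (N : ℕ) :
    DifferentiableOn ℂ (l2Pi p N) (l2PiDom p N) := by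
  intro s hs
  have hmem := l2gc_mem_slit hp N hs
  have h1 : DifferentiableAt ℂ (fun s : ℂ => 1 + (s / p) ^ N) s := by fun_prop
  have h2 := h1.clog hmem
  exact (differentiableAt_id.mul ((h2.neg.div_const _).cexp)).differentiableWithinAt

/-- **Near the identity.**  `u = (s/p)^N`, `‖u‖ ≤ 1/2`: `‖log (1+u)‖ ≤ (3/2) ‖u‖` (`Complex.norm_log_one_add_half_le_self`),
`‖exp z - 1‖ ≤ 2 ‖z‖` for `‖z‖ ≤ 1` (`Complex.norm_exp_sub_one_le`). -/
theorem l2Pi_near_id {p : ℝ} (hp : 0 < p) {N : ℕ} (hN : 0 < N) {s : ℂ}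
    (hs : (‖s‖ / p) ^ N ≤ 1 / 2) : ‖l2Pi p N s - s‖ ≤ 3 * ‖s‖ * (‖s‖ / p) ^ N := by
  set u : ℂ := (s / p) ^ N with hu
  have hun : ‖u‖ = (‖s‖ / p) ^ N := l2gc_norm_pow hp N s
  rw [← hun] at hs ⊢
  have h1 : ‖Complex.log (1 + u)‖ ≤ 3 / 2 * ‖u‖ := Complex.norm_log_one_add_half_le_self hs
  have hN1 : (1 : ℝ) ≤ N := by exact_mod_cast hN
  have h2 : ‖-(Complex.log (1 + u)) / N‖ ≤ 3 / 2 * ‖u‖ := by
    rw [norm_div, norm_neg, Complex.norm_natCast]
    exact (div_le_self (norm_nonneg _) hN1).trans h1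
  have h3 : ‖Complex.exp (-(Complex.log (1 + u)) / N) - 1‖ ≤ 2 * ‖-(Complex.log (1 + u)) / N‖ :=
    Complex.norm_exp_sub_one_le (by linarith)
  have e : l2Pi p N s - s = s * (Complex.exp (-(Complex.log (1 + u)) / N) - 1) := by
    rw [l2Pi, ← hu]
    ring
  rw [e, norm_mul]
  have h4 : ‖Complex.exp (-(Complex.log (1 + u)) / N) - 1‖ ≤ 3 * ‖u‖ := by linarith
  calc ‖s‖ * ‖Complex.exp (-(Complex.log (1 + u)) / N) - 1‖ ≤ ‖s‖ * (3 * ‖u‖) :=
        mul_le_mul_of_nonneg_left h4 (norm_nonneg _)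
    _ = 3 * ‖s‖ * ‖u‖ := by ring

theorem l2gc_re_bound {N : ℕ} (hN : 0 < N) {x lr lp lm : ℝ} (h1 : lr ≤ x) (h2 : lr < lp)
    (h3 : 0 ≤ lm) (h4 : N * (x - lp) ≤ lm) (h5 : lm ≤ Real.log 2 + max 0 (N * (x - lp))) :
    |x - lr - lm / N| ≤ (lp - lr) + 1 / N := by
  have hn : (0 : ℝ) < N := by exact_mod_cast hN
  have hl2 : Real.log 2 ≤ 1 := by
    have := Real.log_two_lt_d9
    linarith
  have q1 : x - lp ≤ lm / N := by
    rw [le_div_iff₀ hn]
    linarith
  have q0 : 0 ≤ lm / N := by positivity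
  have hn1 : 0 < 1 / (N : ℝ) := by positivity
  have q2 : lm / N ≤ 1 / N + max 0 (x - lp) := by
    rw [div_le_iff₀ hn, add_mul, one_div, inv_mul_cancel₀ hn.ne']
    have : max 0 (x - lp) * N = max 0 (N * (x - lp)) := by
      rw [max_mul_of_nonneg _ _ hn.le, zero_mul, mul_comm]
    rw [this]
    linarith
  rw [abs_le]
  constructor
  · rcases le_total 0 (x - lp) with h | h
    · rw [max_eq_right h] at q2
      linarith
    · rw [max_eq_left h] at q2
      linarith
  · linarith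

/-- **On the spokes.**  Let `exp (i N θ) = 1`, `Re w ≥ log r`, `|Im w - θ| ≤ h = π/(3N)`.  Put `e = (exp w / p)^N = exp ω`,
`ω = N (w - log p - iθ)`, `|Im ω| ≤ π/3`, so `Re e ≥ 0`, `max (1, ‖e‖) ≤ ‖1 + e‖ ≤ 2 max (1, ‖e‖)`, `|arg (1 + e)| ≤ π/2`.
`Π (exp w) = exp (w - log (1 + e) / N) = r exp (iθ) exp ξ`, `ξ = w - log r - iθ - log (1+e)/N`,
`Re ξ = Re w - log r - log ‖1+e‖ / N ∈ [- log 2 / N, log (p/r)]` (distinguish `Re w ≤ log p` and `≥ log p`),
`|Im ξ| ≤ (π/3 + π/2)/N ≤ 3/N`.  Hence `‖ξ‖ ≤ log (p/r) + 4/N ≤ 1` and `‖exp ξ - 1‖ ≤ 2 ‖ξ‖`. -/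
theorem l2Pi_spoke {r p : ℝ} (hr : 0 < r) (hp : r < p) {N : ℕ} (hN : 0 < N)
    (hsmall : Real.log (p / r) + 4 / N ≤ 1) {θ : ℝ} (hθ : Complex.exp (N * θ * Complex.I) = 1)
    {w : ℂ} (hw : Real.log r ≤ w.re) (hw' : |w.im - θ| ≤ l2h N) :
    ‖l2Pi p N (Complex.exp w) - r * Complex.exp (θ * Complex.I)‖
      ≤ 2 * r * (Real.log (p / r) + 4 / N) := by
  have hp0 : 0 < p := hr.trans hp
  have hn : (0 : ℝ) < N := by exact_mod_cast hN
  have hnC : (N : ℂ) ≠ 0 := by exact_mod_cast hN.ne'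
  set ω : ℂ := N * (w - Real.log p - θ * Complex.I) with hω
  set e : ℂ := Complex.exp ω with he
  have hpe : (p : ℂ) = Complex.exp (Real.log p) := by
    rw [← Complex.ofReal_exp, Real.exp_log hp0]
  have hre : (r : ℂ) = Complex.exp (Real.log r) := by
    rw [← Complex.ofReal_exp, Real.exp_log hr]
  have he' : (Complex.exp w / p) ^ N = e := by
    have h1 : Complex.exp w / p = Complex.exp (w - Real.log p) := by
      rw [Complex.exp_sub, ← hpe]
    have h2 : ω = N * (w - Real.log p) - N * θ * Complex.I := by rw [hω]; ring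
    rw [h1, ← Complex.exp_nat_mul, he, h2, Complex.exp_sub, hθ, div_one]
  have hωre : ω.re = N * (w.re - Real.log p) := by
    rw [hω]
    simp
  have hωim : ω.im = N * (w.im - θ) := by
    rw [hω]
    simp
  have hωim' : |ω.im| ≤ Real.pi / 3 := by
    rw [hωim, abs_mul, abs_of_pos hn]
    calc (N : ℝ) * |w.im - θ| ≤ N * l2h N := mul_le_mul_of_nonneg_left hw' hn.le
      _ = Real.pi / 3 := by
        rw [l2h]
        field_simp
  have hpi := Real.pi_pos
  have hcos : 0 ≤ Real.cos ω.im := by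
    apply Real.cos_nonneg_of_neg_pi_div_two_le_of_le
    · linarith [(abs_le.1 hωim').1]
    · linarith [(abs_le.1 hωim').2]
  have here : 0 ≤ e.re := by
    rw [he, Complex.exp_re]
    exact mul_nonneg (Real.exp_pos _).le hcos
  have hen : ‖e‖ = Real.exp ω.re := by rw [he, Complex.norm_exp]
  set M : ℝ := ‖1 + e‖ with hM
  have hre1 : (1 + e).re = 1 + e.re := by simp
  have hM1 : 1 ≤ M := by
    have := Complex.re_le_norm (1 + e)
    rw [hre1] at this
    linarith
  have hMe : Real.exp ω.re ≤ M := by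
    rw [← hen]
    have h1 : ‖e‖ ^ 2 ≤ ‖1 + e‖ ^ 2 := by
      rw [Complex.sq_norm, Complex.sq_norm, Complex.normSq_apply, Complex.normSq_apply, hre1]
      have : (1 + e).im = e.im := by simp
      rw [this]
      nlinarith
    exact (pow_le_pow_iff_left₀ (norm_nonneg _) (norm_nonneg _) (by norm_num)).1 h1
  have hMu : M ≤ 2 * Real.exp (max 0 ω.re) := by
    have h1 : M ≤ 1 + Real.exp ω.re := by
      rw [← hen]
      calc ‖1 + e‖ ≤ ‖(1 : ℂ)‖ + ‖e‖ := norm_add_le _ _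
        _ = 1 + ‖e‖ := by rw [norm_one]
    have h2 : Real.exp ω.re ≤ Real.exp (max 0 ω.re) := Real.exp_le_exp.2 (le_max_right _ _)
    have h3 : 1 ≤ Real.exp (max 0 ω.re) := Real.one_le_exp (le_max_left _ _)
    linarith
  have hM0 : 0 < M := by linarith
  have l3 : 0 ≤ Real.log M := Real.log_nonneg hM1
  have l4 : (N : ℝ) * (w.re - Real.log p) ≤ Real.log M := by
    rw [← hωre, Real.le_log_iff_exp_le hM0]
    exact hMe
  have l5 : Real.log M ≤ Real.log 2 + max 0 ((N : ℝ) * (w.re - Real.log p)) := by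
    rw [← hωre]
    calc Real.log M ≤ Real.log (2 * Real.exp (max 0 ω.re)) := Real.log_le_log hM0 hMu
      _ = Real.log 2 + max 0 ω.re := by
        rw [Real.log_mul (by norm_num) (Real.exp_pos _).ne', Real.log_exp]
  have hlog : Real.log r < Real.log p := Real.log_lt_log hr hp
  have hlpr : Real.log (p / r) = Real.log p - Real.log r := Real.log_div hp0.ne' hr.ne'
  set ξ : ℂ := w - Real.log r - θ * Complex.I - Complex.log (1 + e) / N with hξ
  have hξre : ξ.re = w.re - Real.log r - Real.log M / N := by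
    rw [hξ]
    simp [Complex.log_re, hM]
  have hξim : ξ.im = (w.im - θ) - Complex.arg (1 + e) / N := by
    rw [hξ]
    simp [Complex.log_im]
  have b1 : |ξ.re| ≤ (Real.log p - Real.log r) + 1 / N := by
    rw [hξre]
    exact l2gc_re_bound hN hw hlog l3 l4 l5
  have harg : |Complex.arg (1 + e)| ≤ Real.pi / 2 := by
    apply le_of_lt
    rw [Complex.abs_arg_lt_pi_div_two_iff]
    left
    rw [hre1]
    linarith
  have b2 : |ξ.im| ≤ 3 / N := by
    rw [hξim]
    have h1 : |Complex.arg (1 + e) / N| ≤ Real.pi / 2 / N := by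
      rw [abs_div, abs_of_pos hn]
      exact div_le_div_of_nonneg_right harg hn.le
    have h2 : |(w.im - θ) - Complex.arg (1 + e) / N| ≤ |w.im - θ| + |Complex.arg (1 + e) / N| :=
      abs_sub _ _
    have h3 : l2h N + Real.pi / 2 / N ≤ 3 / N := by
      rw [l2h]
      have hpi4 := Real.pi_lt_d2
      have h4 : Real.pi / (3 * N) + Real.pi / 2 / N = (5 * Real.pi / 6) / N := by
        field_simp
        ring
      rw [h4]
      exact div_le_div_of_nonneg_right (by linarith) hn.le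
    linarith
  have b3 : ‖ξ‖ ≤ Real.log (p / r) + 4 / N := by
    have h1 := Complex.norm_le_abs_re_add_abs_im ξ
    have h2 : (1 : ℝ) / N + 3 / N = 4 / N := by ring
    rw [hlpr]
    linarith
  have hid : l2Pi p N (Complex.exp w) - r * Complex.exp (θ * Complex.I)
      = r * Complex.exp (θ * Complex.I) * (Complex.exp ξ - 1) := by
    have h1 : l2Pi p N (Complex.exp w) = r * Complex.exp (θ * Complex.I) * Complex.exp ξ := by
      rw [l2Pi, he', hre, ← Complex.exp_add, ← Complex.exp_add, ← Complex.exp_add, hξ]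
      congr 1
      ring
    rw [h1]
    ring
  rw [hid, norm_mul, norm_mul, Complex.norm_real, Real.norm_eq_abs, abs_of_pos hr,
    Complex.norm_exp_ofReal_mul_I, mul_one]
  have h6 : ‖Complex.exp ξ - 1‖ ≤ 2 * ‖ξ‖ := Complex.norm_exp_sub_one_le (b3.trans hsmall)
  calc r * ‖Complex.exp ξ - 1‖ ≤ r * (2 * (Real.log (p / r) + 4 / N)) :=
        mul_le_mul_of_nonneg_left (by linarith) hr.le
    _ = 2 * r * (Real.log (p / r) + 4 / N) := by ring

end Claimed.Agent.R245
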