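/-
Row 245 / S0484, sec 2.3 (architect: helper98).  Package L2-GEO-D: choice of `p` and `N`.
ONE FILE = ONE PACKAGE = ONE OWNER.  Statement FROZEN; helper lemmas: prefix `l2gd_`, in this file.
Black boxes: `l2Pi_near_id`, `l2Pi_spoke` (L2GeoC.lean).
-/
import Mathlib
import Claimed.Agent.R245.L2GeoC

set_option autoImplicit false

namespace Claimed.Agent.R245

open Metric Set

/-- radial move -/
theorem l2gd_radial (s : ℂ) {ρ : ℝ} (hρ : 0 ≤ ρ) : ∃ s' : ℂ, ‖s'‖ = ρ ∧ ‖s - s'‖ = |‖s‖ - ρ| := by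
  by_cases hs : s = 0
  · refine ⟨ρ, ?_, ?_⟩
    · rw [Complex.norm_real, Real.norm_eq_abs, abs_of_nonneg hρ]
    · rw [hs, zero_sub, norm_neg, norm_zero, zero_sub, abs_neg, Complex.norm_real, Real.norm_eq_abs]
  · have h0 : 0 < ‖s‖ := norm_pos_iff.2 hs
    refine ⟨((ρ / ‖s‖ : ℝ) : ℂ) * s, ?_, ?_⟩
    · rw [norm_mul, Complex.norm_real, Real.norm_eq_abs, abs_of_nonneg (by positivity)]
      field_simp
    · have e : s - ((ρ / ‖s‖ : ℝ) : ℂ) * s = ((1 - ρ / ‖s‖ : ℝ) : ℂ) * s := by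
        push_cast
        ring
      rw [e, norm_mul, Complex.norm_real, Real.norm_eq_abs]
      have e2 : ‖s‖ - ρ = (1 - ρ / ‖s‖) * ‖s‖ := by field_simp
      rw [e2, abs_mul, abs_of_pos h0]

theorem l2gd_exp_sub (x y : ℝ) :
    ‖Complex.exp (x * Complex.I) - Complex.exp (y * Complex.I)‖ ≤ |x - y| := by
  have e : Complex.exp (x * Complex.I) - Complex.exp (y * Complex.I)
      = Complex.exp (y * Complex.I) * (Complex.exp (Complex.I * ((x - y : ℝ) : ℂ)) - 1) := by
    rw [mul_sub, ← Complex.exp_add, mul_one]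
    congr 2
    push_cast
    ring
  rw [e, norm_mul, Complex.norm_exp_ofReal_mul_I, one_mul]
  exact Real.norm_exp_I_mul_ofReal_sub_one_le

theorem l2gd_angle {x : ℝ} (hx : 1 / 2 ≤ Real.cos x) : ∃ m : ℤ, |x - m * (2 * Real.pi)| ≤ Real.pi / 3 := by
  have hpi := Real.pi_pos
  refine ⟨round (x / (2 * Real.pi)), ?_⟩
  set m := round (x / (2 * Real.pi)) with hm
  have h1 : |x / (2 * Real.pi) - m| ≤ 1 / 2 := abs_sub_round _
  have h2 : |x - m * (2 * Real.pi)| ≤ Real.pi := by
    have e : x - m * (2 * Real.pi) = (x / (2 * Real.pi) - m) * (2 * Real.pi) := by field_simp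
    rw [e, abs_mul, abs_of_pos (by positivity : 0 < 2 * Real.pi)]
    nlinarith
  by_contra hcon
  rw [not_le] at hcon
  have h3 : Real.cos |x - m * (2 * Real.pi)| < Real.cos (Real.pi / 3) :=
    Real.cos_lt_cos_of_nonneg_of_le_pi (by positivity) h2 hcon
  rw [Real.cos_abs, Real.cos_sub_int_mul_two_pi, Real.cos_pi_div_three] at h3
  linarith

theorem l2gd_re_pow (N : ℕ) (w : ℂ) :
    ((Complex.exp w) ^ N).re = ‖Complex.exp w‖ ^ N * Real.cos (N * w.im) := by
  rw [← Complex.exp_nat_mul, Complex.exp_re, Complex.norm_exp, ← Real.exp_nat_mul]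
  simp

/-- the smallness conditions on `p`, `N` -/
structure L2gdOk (r p d : ℝ) (N : ℕ) : Prop where
  N_pos : 0 < N
  lt_p : r * Real.exp (l2h N) < p
  small : Real.log (p / r) + 4 / N ≤ 1
  spoke : r * (Real.log (p / r) + 4 / N) < d
  rad : r * Real.exp (l2h N) < r + d
  ang : 2 * Real.pi * r / N < d
  q_half : (r * Real.exp (l2h N) / p) ^ N ≤ 1 / 2
  q_small : 3 * p * (r * Real.exp (l2h N) / p) ^ N < d

theorem L2gdOk.near {r p d : ℝ} {N : ℕ} (hr : 0 < r) (h : L2gdOk r p d N) {s : ℂ}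
    (hs : ‖s‖ ≤ r * Real.exp (l2h N)) : ‖l2Pi p N s - s‖ < d := by
  have hp : 0 < p := lt_trans (by positivity) h.lt_p
  have h1 : (‖s‖ / p) ^ N ≤ (r * Real.exp (l2h N) / p) ^ N :=
    pow_le_pow_left₀ (by positivity) (div_le_div_of_nonneg_right hs hp.le) N
  have h2 := l2Pi_near_id hp h.N_pos (h1.trans h.q_half)
  refine lt_of_le_of_lt (h2.trans ?_) h.q_small
  have h3 : ‖s‖ ≤ p := hs.trans h.lt_p.le
  calc 3 * ‖s‖ * (‖s‖ / p) ^ N ≤ 3 * p * (r * Real.exp (l2h N) / p) ^ N :=
    mul_le_mul (by linarith) h1 (by positivity) (by positivity)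

theorem L2gdOk.spoke' {r p d : ℝ} {N : ℕ} (hr : 0 < r) (h : L2gdOk r p d N) {θ : ℝ}
    (hθ : Complex.exp (N * θ * Complex.I) = 1) {w : ℂ} (hw : Real.log r ≤ w.re)
    (hw' : |w.im - θ| ≤ l2h N) :
    ‖l2Pi p N (Complex.exp w) - r * Complex.exp (θ * Complex.I)‖ < 2 * d := by
  have h1 : 1 ≤ Real.exp (l2h N) := Real.one_le_exp (by unfold l2h; positivity)
  have hp : r < p := lt_of_le_of_lt (by nlinarith) h.lt_p
  have h2 := l2Pi_spoke hr hp h.N_pos h.small hθ hw hw'
  have h3 := h.spoke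
  calc _ ≤ 2 * r * (Real.log (p / r) + 4 / N) := h2
    _ = 2 * (r * (Real.log (p / r) + 4 / N)) := by ring
    _ < 2 * d := by linarith

theorem l2gd_exp_th {N : ℕ} (hN : 0 < N) (k : ℕ) :
    Complex.exp (N * (l2th N k : ℝ) * Complex.I) = 1 := by
  have hn : (N : ℂ) ≠ 0 := by exact_mod_cast hN.ne'
  have e : (N : ℂ) * (l2th N k : ℝ) * Complex.I = k * (2 * Real.pi * Complex.I) := by
    rw [l2th]
    push_cast
    field_simp
  rw [e, Complex.exp_nat_mul_two_pi_mul_I]

theorem l2gd_th_succ {N : ℕ} (hN : 0 < N) (k : ℕ) :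
    l2th N (k + 1) - l2th N k = 2 * Real.pi / N := by
  have hn : (N : ℝ) ≠ 0 := by exact_mod_cast hN.ne'
  rw [l2th, l2th]
  push_cast
  field_simp
  ring

/-- part (1) -/
theorem L2gdOk.part1 {a r R₁ δ p d : ℝ} {N : ℕ} (har : a < r) (hr : 0 < r) (hd : 0 < d)
    (hdδ : 8 * d ≤ δ) (h : L2gdOk r p d N) {s : ℂ} (hs : s ∈ l2K1 (a - δ / 2) r R₁ N) :
    ∃ s' ∈ Ann a r, ‖l2Pi p N s - s'‖ < δ := by
  obtain ⟨s1, s2, s3⟩ := hs
  have hn : (0 : ℝ) < N := by exact_mod_cast h.N_pos
  by_cases hc : ‖s‖ ≤ r * Real.exp (l2h N)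
  · have h1 := h.near hr hc
    set ρ : ℝ := max (max a 0) (min ‖s‖ r) with hρ
    have hρ0 : 0 ≤ ρ := (le_max_right a 0).trans (le_max_left _ _)
    have hρa : a ≤ ρ := (le_max_left a 0).trans (le_max_left _ _)
    have hρr : ρ ≤ r := max_le (max_le har.le hr.le) (min_le_right _ _)
    obtain ⟨s', hs', hd'⟩ := l2gd_radial s hρ0
    refine ⟨s', ⟨by rw [hs']; exact hρa, by rw [hs']; exact hρr⟩, ?_⟩
    have h2 : |‖s‖ - ρ| ≤ δ / 2 + d := by
      have hrad := h.rad
      rw [abs_le]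
      constructor
      · have : ρ ≤ ‖s‖ + δ / 2 := by
          apply max_le
          · apply max_le
            · linarith
            · have := norm_nonneg s
              linarith
          · have := min_le_left ‖s‖ r
            linarith
        linarith
      · have : min ‖s‖ r ≤ ρ := le_max_right _ _
        rcases le_total ‖s‖ r with hh | hh
        · rw [min_eq_left hh] at this
          linarith
        · rw [min_eq_right hh] at this
          linarith
    calc ‖l2Pi p N s - s'‖ = ‖(l2Pi p N s - s) + (s - s')‖ := by congr 1; ring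
      _ ≤ ‖l2Pi p N s - s‖ + ‖s - s'‖ := norm_add_le _ _
      _ < δ := by rw [hd']; linarith
  · rw [not_le] at hc
    have s3' : ‖s‖ ^ N / 2 ≤ (s ^ N).re := by
      rcases s3 with s3 | s3
      · exact absurd s3 (not_le.2 hc)
      · exact s3
    have hE : 1 ≤ Real.exp (l2h N) := Real.one_le_exp (by unfold l2h; positivity)
    have hrs : r < ‖s‖ := lt_of_le_of_lt (by nlinarith) hc
    have h0 : 0 < ‖s‖ := hr.trans hrs
    have hs0 : s ≠ 0 := norm_pos_iff.1 h0
    set w := Complex.log s with hw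
    have hexp : Complex.exp w = s := Complex.exp_log hs0
    have hwre : w.re = Real.log ‖s‖ := Complex.log_re s
    have hcos : 1 / 2 ≤ Real.cos (N * w.im) := by
      have h1 := l2gd_re_pow N w
      rw [hexp] at h1
      rw [h1] at s3'
      have hp : 0 < ‖s‖ ^ N := by positivity
      have : ‖s‖ ^ N * (1 / 2) ≤ ‖s‖ ^ N * Real.cos (N * w.im) := by linarith
      exact le_of_mul_le_mul_left this hp
    obtain ⟨m, hm⟩ := l2gd_angle hcos
    set θ : ℝ := m * (2 * Real.pi) / N with hθ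
    have hθ1 : Complex.exp (N * θ * Complex.I) = 1 := by
      have hnC : (N : ℂ) ≠ 0 := by exact_mod_cast h.N_pos.ne'
      have e : (N : ℂ) * θ * Complex.I = m * (2 * Real.pi * Complex.I) := by
        rw [hθ]
        push_cast
        field_simp
      rw [e, Complex.exp_int_mul_two_pi_mul_I]
    have hw' : |w.im - θ| ≤ l2h N := by
      have e : w.im - θ = (N * w.im - m * (2 * Real.pi)) / N := by
        rw [hθ]
        field_simp
      rw [e, abs_div, abs_of_pos hn, l2h, div_le_iff₀ hn]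
      calc |N * w.im - m * (2 * Real.pi)| ≤ Real.pi / 3 := hm
        _ = Real.pi / (3 * N) * N := by field_simp
    have h2 := h.spoke' hr hθ1 (w := w) (by rw [hwre]; exact Real.log_le_log hr hrs.le) hw'
    rw [hexp] at h2
    refine ⟨r * Complex.exp (θ * Complex.I), ⟨?_, ?_⟩, by linarith⟩
    · rw [norm_mul, Complex.norm_exp_ofReal_mul_I, mul_one, Complex.norm_real, Real.norm_eq_abs,
        abs_of_pos hr]
      exact har.le
    · rw [norm_mul, Complex.norm_exp_ofReal_mul_I, mul_one, Complex.norm_real, Real.norm_eq_abs,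
        abs_of_pos hr]

/-- part (3) -/
theorem L2gdOk.part3 {r R₁ δ p d : ℝ} {N : ℕ} (hr : 0 < r) (hd : 0 < d)
    (hdδ : 8 * d ≤ δ) (h : L2gdOk r p d N) (k : ℕ) {w : ℂ}
    (hw : w ∈ UBand (Real.log r) (Real.log R₁) (l2th N k) (l2th N (k + 1)) (l2h N)) :
    ‖l2Pi p N (Complex.exp w) - r * Complex.exp (l2th N k * Complex.I)‖ < δ := by
  obtain ⟨⟨x0, x1, y0, y1⟩, hb⟩ := hw
  have hn : (0 : ℝ) < N := by exact_mod_cast h.N_pos
  have hsucc := l2gd_th_succ h.N_pos k
  have hang : r * (2 * Real.pi / N) < d := by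
    have := h.ang
    calc r * (2 * Real.pi / N) = 2 * Real.pi * r / N := by ring
      _ < d := this
  have hh0 : 0 ≤ l2h N := by unfold l2h; positivity
  rcases hb with hb | hb | hb
  · -- left band
    have hnorm : ‖Complex.exp w‖ = Real.exp w.re := Complex.norm_exp w
    have hle : Real.exp w.re ≤ r * Real.exp (l2h N) := by
      calc Real.exp w.re ≤ Real.exp (Real.log r + l2h N) := Real.exp_le_exp.2 hb
        _ = r * Real.exp (l2h N) := by rw [Real.exp_add, Real.exp_log hr]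
    have hge : r ≤ Real.exp w.re := by
      rw [← Real.exp_log hr]
      exact Real.exp_le_exp.2 x0
    have h1 := h.near hr (s := Complex.exp w) (by rw [hnorm]; exact hle)
    have e1 : Complex.exp w = (Real.exp w.re : ℂ) * Complex.exp (w.im * Complex.I) := by
      rw [Complex.ofReal_exp, ← Complex.exp_add, Complex.re_add_im]
    have h2 : ‖Complex.exp w - r * Complex.exp (l2th N k * Complex.I)‖
        ≤ (Real.exp w.re - r) + r * |w.im - l2th N k| := by
      have e2 : Complex.exp w - r * Complex.exp (l2th N k * Complex.I)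
          = ((Real.exp w.re - r : ℝ) : ℂ) * Complex.exp (w.im * Complex.I)
            + r * (Complex.exp (w.im * Complex.I) - Complex.exp (l2th N k * Complex.I)) := by
        conv_lhs => rw [e1]
        push_cast
        ring
      rw [e2]
      refine (norm_add_le _ _).trans ?_
      rw [norm_mul, norm_mul, Complex.norm_exp_ofReal_mul_I, mul_one, Complex.norm_real,
        Complex.norm_real, Real.norm_eq_abs, Real.norm_eq_abs, abs_of_pos hr,
        abs_of_nonneg (by linarith)]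
      have := l2gd_exp_sub w.im (l2th N k)
      nlinarith
    have h3 : |w.im - l2th N k| ≤ 2 * Real.pi / N := by
      rw [abs_of_nonneg (by linarith)]
      linarith
    have h4 : r * |w.im - l2th N k| ≤ r * (2 * Real.pi / N) := mul_le_mul_of_nonneg_left h3 hr.le
    have hrad := h.rad
    calc ‖l2Pi p N (Complex.exp w) - r * Complex.exp (l2th N k * Complex.I)‖
        = ‖(l2Pi p N (Complex.exp w) - Complex.exp w)
            + (Complex.exp w - r * Complex.exp (l2th N k * Complex.I))‖ := by congr 1; ring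
      _ ≤ ‖l2Pi p N (Complex.exp w) - Complex.exp w‖
            + ‖Complex.exp w - r * Complex.exp (l2th N k * Complex.I)‖ := norm_add_le _ _
      _ < δ := by linarith
  · -- bottom band
    have h1 := h.spoke' hr (l2gd_exp_th h.N_pos k) x0
      (by rw [abs_of_nonneg (by linarith)]; linarith)
    linarith
  · -- top band
    have h1 := h.spoke' hr (l2gd_exp_th h.N_pos (k + 1)) x0
      (by rw [abs_of_nonpos (by linarith)]; linarith)
    have h2 : ‖(r : ℂ) * Complex.exp (l2th N (k + 1) * Complex.I)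
        - r * Complex.exp (l2th N k * Complex.I)‖ ≤ r * (2 * Real.pi / N) := by
      rw [← mul_sub, norm_mul, Complex.norm_real, Real.norm_eq_abs, abs_of_pos hr]
      apply mul_le_mul_of_nonneg_left _ hr.le
      refine (l2gd_exp_sub _ _).trans ?_
      rw [hsucc, abs_of_nonneg (by positivity)]
    calc ‖l2Pi p N (Complex.exp w) - r * Complex.exp (l2th N k * Complex.I)‖
        = ‖(l2Pi p N (Complex.exp w) - r * Complex.exp (l2th N (k + 1) * Complex.I))
            + ((r : ℂ) * Complex.exp (l2th N (k + 1) * Complex.I)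
              - r * Complex.exp (l2th N k * Complex.I))‖ := by congr 1; ring
      _ ≤ _ := norm_add_le _ _
      _ < δ := by linarith

theorem l2gd_q_eq {r p : ℝ} {N : ℕ} (hN : 0 < N) :
    (r * Real.exp (l2h N) / p) ^ N = Real.exp (Real.pi / 3) * (r / p) ^ N := by
  have hn : (N : ℝ) ≠ 0 := by exact_mod_cast hN.ne'
  have e : r * Real.exp (l2h N) / p = Real.exp (l2h N) * (r / p) := by ring
  rw [e, mul_pow, ← Real.exp_nat_mul]
  congr 2
  rw [l2h]
  field_simp

open Filter Topology in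
theorem l2gd_exists_ok {r R₁ d : ℝ} (hr : 0 < r) (hR : r < R₁) (hd : 0 < d) :
    ∃ (p : ℝ) (N : ℕ), p < R₁ ∧ L2gdOk r p d N := by
  have hlogR : 0 < Real.log (R₁ / r) := Real.log_pos ((one_lt_div hr).2 hR)
  set μ : ℝ := min (1 / 2) (d / (2 * r)) with hμ
  have hμ0 : 0 < μ := lt_min (by norm_num) (by positivity)
  set lam : ℝ := min μ (Real.log (R₁ / r) / 2) with hlam
  have hlam0 : 0 < lam := lt_min hμ0 (by positivity)
  have hlam1 : lam ≤ 1 / 2 := (min_le_left _ _).trans (min_le_left _ _)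
  have hlam2 : lam ≤ d / (2 * r) := (min_le_left _ _).trans (min_le_right _ _)
  have hlam3 : lam < Real.log (R₁ / r) := lt_of_le_of_lt (min_le_right _ _) (by linarith)
  set p : ℝ := r * Real.exp lam with hp
  have hp0 : 0 < p := by positivity
  have hpr : r < p := by
    have : 1 < Real.exp lam := Real.one_lt_exp_iff.2 hlam0
    rw [hp]
    nlinarith
  have hlogp : Real.log (p / r) = lam := by
    have : p / r = Real.exp lam := by
      rw [hp]
      field_simp
    rw [this, Real.log_exp]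
  have hpR : p < R₁ := by
    have h1 : Real.exp lam < R₁ / r := by
      rw [← Real.exp_log (div_pos (hr.trans hR) hr : 0 < R₁ / r)]
      exact Real.exp_lt_exp.2 hlam3
    rw [lt_div_iff₀ hr] at h1
    rw [hp]
    linarith
  have T1 : Tendsto (fun N : ℕ => l2h N) atTop (𝓝 0) := by
    have := tendsto_const_div_atTop_nhds_zero_nat (Real.pi / 3)
    refine this.congr fun N => ?_
    rw [l2h, div_div]
  have T2 : Tendsto (fun N : ℕ => r * Real.exp (l2h N)) atTop (𝓝 r) := by
    have h1 : Tendsto (fun N : ℕ => Real.exp (l2h N)) atTop (𝓝 (Real.exp 0)) :=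
      (Real.continuous_exp.tendsto 0).comp T1
    have h2 := h1.const_mul r
    rwa [Real.exp_zero, mul_one] at h2
  have T3 : Tendsto (fun N : ℕ => (4 : ℝ) / N) atTop (𝓝 0) :=
    tendsto_const_div_atTop_nhds_zero_nat 4
  have T4 : Tendsto (fun N : ℕ => 2 * Real.pi * r / N) atTop (𝓝 0) :=
    tendsto_const_div_atTop_nhds_zero_nat _
  have T5 : Tendsto (fun N : ℕ => Real.exp (Real.pi / 3) * (r / p) ^ N) atTop (𝓝 0) := by
    have h1 := tendsto_pow_atTop_nhds_zero_of_lt_one (r := r / p) (by positivity)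
      ((div_lt_one hp0).2 hpr)
    have h2 := h1.const_mul (Real.exp (Real.pi / 3))
    rwa [mul_zero] at h2
  have E0 := eventually_gt_atTop (0 : ℕ)
  have E1 : ∀ᶠ N : ℕ in atTop, r * Real.exp (l2h N) < p := T2.eventually_lt_const hpr
  have E2 : ∀ᶠ N : ℕ in atTop, r * Real.exp (l2h N) < r + d :=
    T2.eventually_lt_const (by linarith)
  have E3 : ∀ᶠ N : ℕ in atTop, (4 : ℝ) / N < μ := T3.eventually_lt_const hμ0
  have E4 : ∀ᶠ N : ℕ in atTop, 2 * Real.pi * r / N < d := T4.eventually_lt_const hd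
  have E5 : ∀ᶠ N : ℕ in atTop, Real.exp (Real.pi / 3) * (r / p) ^ N < min (1 / 2) (d / (3 * p)) :=
    T5.eventually_lt_const (lt_min (by norm_num) (by positivity))
  obtain ⟨N, hN0, h1, h2, h3, h4, h5⟩ :=
    (E0.and (E1.and (E2.and (E3.and (E4.and E5))))).exists
  have h3a : (4 : ℝ) / N < 1 / 2 := h3.trans_le (min_le_left _ _)
  have h3b : (4 : ℝ) / N < d / (2 * r) := h3.trans_le (min_le_right _ _)
  have h5a := h5.trans_le (min_le_left _ _)
  have h5b := h5.trans_le (min_le_right _ _)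
  refine ⟨p, N, hpR, ⟨hN0, h1, ?_, ?_, h2, h4, ?_, ?_⟩⟩
  · rw [hlogp]
    linarith
  · rw [hlogp]
    have h6 : lam + 4 / N < d / (2 * r) + d / (2 * r) := by linarith
    calc r * (lam + 4 / N) < r * (d / (2 * r) + d / (2 * r)) := mul_lt_mul_of_pos_left h6 hr
      _ = d := by field_simp; ring
  · rw [l2gd_q_eq hN0]
    exact h5a.le
  · rw [l2gd_q_eq hN0]
    calc 3 * p * (Real.exp (Real.pi / 3) * (r / p) ^ N) < 3 * p * (d / (3 * p)) :=
          mul_lt_mul_of_pos_left h5b (by positivity)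
      _ = d := by field_simp

/-- **Choice of the spoke map.**
Route.  Let `δ' = min δ 1 / 8` (say).  Choose `p ∈ (r, R₁)` with `2 r log (p/r) < δ'`, `log (p/r) ≤ 1/2`.  Then `N` so large that
`r e^{h} < p` (`h = π/(3N) → 0`), `8 r / N < δ'`, `4/N ≤ 1/2`, `r (e^h - 1) < δ'`, `2π r / N < δ'`,
`(r e^h / p)^N = e^{π/3} (r/p)^N ≤ 1/2` and `3 r e^h e^{π/3} (r/p)^N < δ'`.
(1) `s ∈ K1`, `‖s‖ ≤ r e^h`: `‖Π s - s‖ < δ'` (`l2Pi_near_id`) and `s` is within `max (δ/2, r (e^h - 1))` of `Ann a r`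
(move `s` radially; if `s = 0` then `a - δ/2 ≤ 0`, take any point of norm `max a 0`).  `s ∈ K1`, `‖s‖ > r e^h`: write `s = exp w`, `w = log s`;
`cos (N Im w) ≥ 1/2` gives `m : ℤ` with `|N Im w - 2πm| ≤ π/3`; `l2Pi_spoke` with `θ = 2πm/N`; the point `r e^{iθ}` is in `Ann a r`.
(2) `l2Pi_near_id`.
(3) bottom band: `l2Pi_spoke` with `θ = θ_k`; top band: with `θ = θ_{k+1}` and `‖r e^{iθ_{k+1}} - r e^{iθ_k}‖ ≤ 2π r/N`; left band:
`l2Pi_near_id` and `‖exp w - r e^{iθ_k}‖ ≤ r (e^h - 1) + 2π r/N`·(const). -/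
theorem l2_spoke_choice {a r R₁ δ : ℝ} (har : a < r) (hr : 0 < r) (hR : r < R₁) (hδ : 0 < δ) :
    ∃ (p : ℝ) (N : ℕ), 0 < N ∧ r * Real.exp (l2h N) < p ∧ p < R₁ ∧
      (∀ s ∈ l2K1 (a - δ / 2) r R₁ N, ∃ s' ∈ Ann a r, ‖l2Pi p N s - s'‖ < δ) ∧
      (∀ s ∈ Ann a r, ‖l2Pi p N s - s‖ < δ) ∧
      ∀ k : ℕ, ∀ w ∈ UBand (Real.log r) (Real.log R₁) (l2th N k) (l2th N (k + 1)) (l2h N),
        ‖l2Pi p N (Complex.exp w) - r * Complex.exp (l2th N k * Complex.I)‖ < δ := by
  have hd : 0 < δ / 8 := by positivity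
  obtain ⟨p, N, hpR, h⟩ := l2gd_exists_ok hr hR hd
  refine ⟨p, N, h.N_pos, h.lt_p, hpR, fun s hs => h.part1 har hr hd (by linarith) hs, ?_,
    fun k w hw => h.part3 hr hd (by linarith) k hw⟩
  intro s hs
  have hE : 1 ≤ Real.exp (l2h N) := Real.one_le_exp (by unfold l2h; positivity)
  have h1 := h.near hr (s := s) (hs.2.trans (by nlinarith))
  linarith

end Claimed.Agent.R245
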