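/-
Row 245 / S0484, sec 2.2 (architect: helper98).  Package L2-GLUE0: the nonlinear Cousin problem `a = b + E(x, b)`.
ONE FILE = ONE PACKAGE = ONE OWNER.  Statement FROZEN; helper lemmas: prefix `l2g0_`, in this file.
Black boxes: `SCV.lean` (`scv_lipschitz`, `scv_tendsto`).
(If `R245/Glue.lean` of helper292 or GLUE0 of helper187 (`R245/Crit*.lean`) is on main and PROVED, derive this from it.)
-/
import Mathlib
import Claimed.Agent.R245.SCV
import Claimed.Agent.R245.L2Defs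

set_option autoImplicit false

namespace Claimed.Agent.R245

open MvPolynomial Metric Set Filter Topology

variable {X : Type*} [NormedAddCommGroup X] [NormedSpace ℂ X]

/-- the partial sums `∑_{j<k} 4^{-j}` in closed form -/
noncomputable def l2g0_c (k : ℕ) : ℝ := 4 / 3 * (1 - (1 / 4 : ℝ) ^ k)

theorem l2g0_c_succ (k : ℕ) : l2g0_c (k + 1) = l2g0_c k + (1 / 4 : ℝ) ^ k := by
  unfold l2g0_c
  rw [pow_succ]
  ring

theorem l2g0_c_le (k : ℕ) : l2g0_c k ≤ 4 / 3 := by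
  unfold l2g0_c
  have : (0 : ℝ) ≤ (1 / 4 : ℝ) ^ k := by positivity
  linarith

theorem l2g0_c_nonneg (k : ℕ) : 0 ≤ l2g0_c k := by
  unfold l2g0_c
  have : (1 / 4 : ℝ) ^ k ≤ 1 := pow_le_one₀ (by norm_num) (by norm_num)
  linarith

/-- the invariant of the iteration -/
def L2g0Inv (UA UB : Set X) (κ ε : ℝ) (E : X × V4 → V4) (k : ℕ) (p : (X → V4) × (X → V4)) : Prop :=
  DifferentiableOn ℂ p.1 UA ∧ DifferentiableOn ℂ p.2 UB ∧
    (∀ x ∈ UA, ‖p.1 x‖ ≤ κ * ε * l2g0_c k) ∧ (∀ x ∈ UB, ‖p.2 x‖ ≤ κ * ε * l2g0_c k) ∧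
    ∀ x ∈ UA ∩ UB, ‖E (x, p.2 x) - (p.1 x - p.2 x)‖ ≤ ε * (1 / 4 : ℝ) ^ k

theorem l2g0_small {κ ε β : ℝ} (hκ : 0 < κ) (hε : 0 ≤ ε) (hβ : 0 < β) (hsmall : 8 * κ * ε ≤ β)
    (k : ℕ) : κ * ε * l2g0_c k < β / 2 := by
  have h0 : 0 ≤ κ * ε := mul_nonneg hκ.le hε
  have := mul_le_mul_of_nonneg_left (l2g0_c_le k) h0
  nlinarith

theorem l2g0_step {UA UB : Set X} {κ : ℝ} (hκ : 0 < κ)
    (hsplit : L2Splits UA UB κ) {E : X × V4 → V4} {β ε : ℝ} (hβ : 0 < β) (hε : 0 ≤ ε)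
    (hE : DifferentiableOn ℂ E ((UA ∩ UB) ×ˢ ball (0 : V4) β))
    (hEb : ∀ p ∈ (UA ∩ UB) ×ˢ ball (0 : V4) β, ‖E p‖ ≤ ε) (hsmall : 8 * κ * ε ≤ β)
    (k : ℕ) (p : (X → V4) × (X → V4)) (hp : L2g0Inv UA UB κ ε E k p) :
    ∃ q : (X → V4) × (X → V4), L2g0Inv UA UB κ ε E (k + 1) q ∧
      (∀ x ∈ UA, ‖q.1 x - p.1 x‖ ≤ κ * ε * (1 / 4 : ℝ) ^ k) ∧
      (∀ x ∈ UB, ‖q.2 x - p.2 x‖ ≤ κ * ε * (1 / 4 : ℝ) ^ k) := by
  obtain ⟨a, b⟩ := p
  obtain ⟨ha, hb, hab, hbb, hρ⟩ := hp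
  simp only at ha hb hab hbb hρ
  have hpow : (0 : ℝ) ≤ (1 / 4 : ℝ) ^ k := by positivity
  have hmem : ∀ x ∈ UA ∩ UB, (x, b x) ∈ (UA ∩ UB) ×ˢ ball (0 : V4) β := by
    intro x hx
    refine ⟨hx, ?_⟩
    rw [mem_ball_zero_iff]
    have := l2g0_small hκ hε hβ hsmall k
    linarith [hbb x hx.2]
  have hρd : DifferentiableOn ℂ (fun x => E (x, b x) - (a x - b x)) (UA ∩ UB) := by
    refine DifferentiableOn.sub ?_ ((ha.mono inter_subset_left).sub (hb.mono inter_subset_right))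
    exact hE.comp (differentiableOn_id.prodMk (hb.mono inter_subset_right)) hmem
  obtain ⟨a', b', ha', hb', hab', hbb', hspl⟩ :=
    hsplit _ (ε * (1 / 4 : ℝ) ^ k) (mul_nonneg hε hpow) hρd hρ
  refine ⟨(fun x => a x + a' x, fun x => b x + b' x), ⟨ha.add ha', hb.add hb', ?_, ?_, ?_⟩, ?_, ?_⟩
  · intro x hx
    rw [l2g0_c_succ]
    calc ‖a x + a' x‖ ≤ ‖a x‖ + ‖a' x‖ := norm_add_le _ _
      _ ≤ κ * ε * l2g0_c k + κ * (ε * (1 / 4 : ℝ) ^ k) := add_le_add (hab x hx) (hab' x hx)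
      _ = κ * ε * (l2g0_c k + (1 / 4 : ℝ) ^ k) := by ring
  · intro x hx
    rw [l2g0_c_succ]
    calc ‖b x + b' x‖ ≤ ‖b x‖ + ‖b' x‖ := norm_add_le _ _
      _ ≤ κ * ε * l2g0_c k + κ * (ε * (1 / 4 : ℝ) ^ k) := add_le_add (hbb x hx) (hbb' x hx)
      _ = κ * ε * (l2g0_c k + (1 / 4 : ℝ) ^ k) := by ring
  · intro x hx
    show ‖E (x, b x + b' x) - (a x + a' x - (b x + b' x))‖ ≤ ε * (1 / 4 : ℝ) ^ (k + 1)
    have e : E (x, b x + b' x) - (a x + a' x - (b x + b' x)) = E (x, b x + b' x) - E (x, b x) := by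
      have := hspl x hx
      have e2 : a x + a' x - (b x + b' x) = (a x - b x) + (a' x - b' x) := by abel
      rw [e2, this]
      abel
    rw [e]
    have hg : DifferentiableOn ℂ (fun v => E (x, v)) (ball (0 : V4) β) :=
      hE.comp ((differentiableOn_const x).prodMk differentiableOn_id) (fun v hv => ⟨hx, hv⟩)
    have hgM : ∀ v ∈ ball (0 : V4) β, ‖(fun v => E (x, v)) v‖ ≤ ε := fun v hv => hEb _ ⟨hx, hv⟩
    have h1 : b x + b' x ∈ ball (0 : V4) (β / 2) := by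
      rw [mem_ball_zero_iff]
      have h3 := l2g0_small hκ hε hβ hsmall (k + 1)
      rw [l2g0_c_succ] at h3
      calc ‖b x + b' x‖ ≤ ‖b x‖ + ‖b' x‖ := norm_add_le _ _
        _ ≤ κ * ε * l2g0_c k + κ * (ε * (1 / 4 : ℝ) ^ k) := add_le_add (hbb x hx.2) (hbb' x hx.2)
        _ = κ * ε * (l2g0_c k + (1 / 4 : ℝ) ^ k) := by ring
        _ < β / 2 := h3
    have h2 : b x ∈ ball (0 : V4) (β / 2) := by
      rw [mem_ball_zero_iff]
      exact (hbb x hx.2).trans_lt (l2g0_small hκ hε hβ hsmall k)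
    have h3 := scv_lipschitz hg hgM h1 h2
    rw [add_sub_cancel_left] at h3
    have h4 : 2 * ε / β * κ ≤ 1 / 4 := by
      rw [div_mul_eq_mul_div, div_le_iff₀ hβ]
      linarith
    calc ‖E (x, b x + b' x) - E (x, b x)‖ ≤ 2 * ε / β * ‖b' x‖ := h3
      _ ≤ 2 * ε / β * (κ * (ε * (1 / 4 : ℝ) ^ k)) := by
          gcongr
          exact hbb' x hx.2
      _ = (2 * ε / β * κ) * (ε * (1 / 4 : ℝ) ^ k) := by ring
      _ ≤ 1 / 4 * (ε * (1 / 4 : ℝ) ^ k) := by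
          gcongr
      _ = ε * (1 / 4 : ℝ) ^ (k + 1) := by rw [pow_succ]; ring
  · intro x hx
    show ‖a x + a' x - a x‖ ≤ _
    rw [add_sub_cancel_left]
    exact (hab' x hx).trans_eq (by ring)
  · intro x hx
    show ‖b x + b' x - b x‖ ≤ _
    rw [add_sub_cancel_left]
    exact (hbb' x hx).trans_eq (by ring)

/-- a sequence of holomorphic maps with geometrically small increments on an open set converges to a holomorphic map -/
theorem l2g0_limit {U : Set X} (hU : IsOpen U) {f : ℕ → X → V4} {C D : ℝ}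
    (hf : ∀ k, DifferentiableOn ℂ (f k) U) (hb : ∀ k, ∀ x ∈ U, ‖f k x‖ ≤ D)
    (hinc : ∀ k, ∀ x ∈ U, ‖f (k + 1) x - f k x‖ ≤ C * (1 / 4 : ℝ) ^ k) :
    ∃ g : X → V4, DifferentiableOn ℂ g U ∧ (∀ x ∈ U, ‖g x‖ ≤ D) ∧
      ∀ x ∈ U, Tendsto (fun k => f k x) atTop (𝓝 (g x)) := by
  have hr : (1 / 4 : ℝ) < 1 := by norm_num
  have hd : ∀ x ∈ U, ∀ k, dist (f k x) (f (k + 1) x) ≤ C * (1 / 4 : ℝ) ^ k := by
    intro x hx k
    rw [dist_comm, dist_eq_norm]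
    exact hinc k x hx
  have hc : ∀ x ∈ U, CauchySeq (fun k => f k x) := fun x hx =>
    cauchySeq_of_le_geometric _ C hr (hd x hx)
  have hlim : ∀ x ∈ U, Tendsto (fun k => f k x) atTop (𝓝 (limUnder atTop (fun k => f k x))) :=
    fun x hx => (hc x hx).tendsto_limUnder
  refine ⟨fun x => limUnder atTop (fun k => f k x), ?_, ?_, hlim⟩
  · refine scv_tendsto (l := atTop) (F := f) hU (Eventually.of_forall hf) ?_
    refine TendstoUniformlyOn.tendstoLocallyUniformlyOn ?_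
    rw [Metric.tendstoUniformlyOn_iff]
    intro η hη
    have ht : Tendsto (fun k : ℕ => C * (1 / 4 : ℝ) ^ k / (1 - 1 / 4)) atTop (𝓝 0) := by
      have := (tendsto_pow_atTop_nhds_zero_of_lt_one (by norm_num : (0 : ℝ) ≤ 1 / 4) hr).const_mul C
      simpa using this.div_const (1 - 1 / 4)
    filter_upwards [ht.eventually (gt_mem_nhds hη)] with k hk x hx
    rw [dist_comm]
    exact (dist_le_of_le_geometric_of_tendsto _ C hr (hd x hx) (hlim x hx) k).trans_lt hk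
  · intro x hx
    exact le_of_tendsto (hlim x hx).norm (Eventually.of_forall fun k => hb k x hx)

/-- **Residual iteration.**  `E` holomorphic and `≤ ε` on `(UA ∩ UB) × ball 0 β`, `8 κ ε ≤ β`.  Then there are holomorphic
`a` on `UA`, `b` on `UB`, bounded by `2 κ ε`, with `a = b + E (x, b)` on the overlap.
Route.  For fixed `x`, `E (x, ·)` is `(2ε/β)`-Lipschitz on `ball 0 (β/2)` (`scv_lipschitz`).  Construct recursively
(`Nat.rec` on a subtype, or `exists_seq`-style choice) `a_k, b_k, ρ_k` with `a_0 = b_0 = 0`, `ρ_k = E (x, b_k) - (a_k - b_k)` on the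
overlap, holomorphic there, `‖ρ_k‖ ≤ ε 4^{-k}`, `‖a_k‖, ‖b_k‖ ≤ κ ε ∑_{j<k} 4^{-j} ≤ (4/3) κ ε < β/2`:
split `ρ_k = a' - b'` by `hsplit` with `B = ε 4^{-k}`, put `a_{k+1} = a_k + a'`, `b_{k+1} = b_k + b'`; then
`ρ_{k+1} = E (x, b_{k+1}) - E (x, b_k)`, so `‖ρ_{k+1}‖ ≤ (2ε/β) κ ε 4^{-k} ≤ ε 4^{-k-1}`.
`a_k → a` uniformly on `UA`, `b_k → b` uniformly on `UB` (Cauchy in sup norm; pointwise limits exist since `V4` is complete):
`scv_tendsto` gives holomorphy (this needs `UA`, `UB` open).  In the limit `E (x, b) - (a - b) = lim ρ_k = 0`. -/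
theorem l2_glue0 {UA UB : Set X} (hA : IsOpen UA) (hB : IsOpen UB) {κ : ℝ} (hκ : 0 < κ)
    (hsplit : L2Splits UA UB κ) {E : X × V4 → V4} {β ε : ℝ} (hβ : 0 < β) (hε : 0 ≤ ε)
    (hE : DifferentiableOn ℂ E ((UA ∩ UB) ×ˢ ball (0 : V4) β))
    (hEb : ∀ p ∈ (UA ∩ UB) ×ˢ ball (0 : V4) β, ‖E p‖ ≤ ε) (hsmall : 8 * κ * ε ≤ β) :
    ∃ a b : X → V4, DifferentiableOn ℂ a UA ∧ DifferentiableOn ℂ b UB ∧
      (∀ x ∈ UA, ‖a x‖ ≤ 2 * κ * ε) ∧ (∀ x ∈ UB, ‖b x‖ ≤ 2 * κ * ε) ∧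
      ∀ x ∈ UA ∩ UB, a x = b x + E (x, b x) := by
  have h0 : L2g0Inv UA UB κ ε E 0 ((fun _ => 0, fun _ => 0) : (X → V4) × (X → V4)) := by
    refine ⟨differentiableOn_const _, differentiableOn_const _, ?_, ?_, ?_⟩
    · intro x _
      simp [l2g0_c]
    · intro x _
      simp [l2g0_c]
    · intro x hx
      simpa using hEb (x, 0) ⟨hx, mem_ball_self hβ⟩
  choose! nxt hnxt using l2g0_step hκ hsplit hβ hε hE hEb hsmall
  let s : ℕ → (X → V4) × (X → V4) := fun k => Nat.rec (fun _ => 0, fun _ => 0) (fun k p => nxt k p) k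
  have hs1 : ∀ k, s (k + 1) = nxt k (s k) := fun k => rfl
  have hs : ∀ k, L2g0Inv UA UB κ ε E k (s k) := by
    intro k
    induction k with
    | zero => exact h0
    | succ k ih => rw [hs1]; exact (hnxt k _ ih).1
  have h0' : 0 ≤ κ * ε := mul_nonneg hκ.le hε
  have hcb : ∀ k, κ * ε * l2g0_c k ≤ κ * ε * (4 / 3) := fun k =>
    mul_le_mul_of_nonneg_left (l2g0_c_le k) h0'
  obtain ⟨a, had, hab, hat⟩ := l2g0_limit (f := fun k => (s k).1) (C := κ * ε) (D := κ * ε * (4 / 3)) hA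
    (fun k => (hs k).1) (fun k x hx => ((hs k).2.2.1 x hx).trans (hcb k))
    (fun k x hx => by rw [hs1]; exact (hnxt k _ (hs k)).2.1 x hx)
  obtain ⟨b, hbd, hbb, hbt⟩ := l2g0_limit (f := fun k => (s k).2) (C := κ * ε) (D := κ * ε * (4 / 3)) hB
    (fun k => (hs k).2.1) (fun k x hx => ((hs k).2.2.2.1 x hx).trans (hcb k))
    (fun k x hx => by rw [hs1]; exact (hnxt k _ (hs k)).2.2 x hx)
  refine ⟨a, b, had, hbd, fun x hx => (hab x hx).trans (by linarith),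
    fun x hx => (hbb x hx).trans (by linarith), fun x hx => ?_⟩
  have hbx : (x, b x) ∈ (UA ∩ UB) ×ˢ ball (0 : V4) β := by
    refine ⟨hx, ?_⟩
    rw [mem_ball_zero_iff]
    have := hbb x hx.2
    linarith
  have hEc : ContinuousAt E (x, b x) :=
    ((hE _ hbx).differentiableAt (((hA.inter hB).prod isOpen_ball).mem_nhds hbx)).continuousAt
  have ht1 : Tendsto (fun k => E (x, (s k).2 x)) atTop (𝓝 (E (x, b x))) :=
    hEc.tendsto.comp (tendsto_const_nhds.prodMk_nhds (hbt x hx.2))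
  have ht2 : Tendsto (fun k => E (x, (s k).2 x) - ((s k).1 x - (s k).2 x)) atTop
      (𝓝 (E (x, b x) - (a x - b x))) := ht1.sub ((hat x hx.1).sub (hbt x hx.2))
  have ht3 : Tendsto (fun k => E (x, (s k).2 x) - ((s k).1 x - (s k).2 x)) atTop (𝓝 0) := by
    refine squeeze_zero_norm (fun k => (hs k).2.2.2.2 x hx) ?_
    simpa using (tendsto_pow_atTop_nhds_zero_of_lt_one (by norm_num : (0 : ℝ) ≤ 1 / 4)
      (by norm_num)).const_mul ε
  have h := tendsto_nhds_unique ht2 ht3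
  have h' : E (x, b x) = a x - b x := sub_eq_zero.1 h
  rw [h']
  abel

end Claimed.Agent.R245
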