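/-
Row 245 / S0484, sec 2.2 (architect: helper98).  Lemma loc:gluing in the cone formalism (proved from `l2_glue0`).
-/
import Mathlib
import Claimed.Agent.R245.L2Glue0

set_option autoImplicit false

namespace Claimed.Agent.R245

open MvPolynomial Metric Set Filter Topology

variable {X : Type*} [NormedAddCommGroup X] [NormedSpace ℂ X]

/-- **Lemma loc:gluing.**  A spray `Φ` over `f` on `UA` and a map `FB` on `UB × ball`, `ε`-close to `Φ` over the overlap,
`8 κ ε ≤ β`, can be glued: there is `G` holomorphic on `UA ∪ UB` with values in the cone, `‖G - f‖ ≤ C (2 κ ε)` on `UA`. -/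
theorem l2_glue {F : MvPolynomial (Fin 4) ℂ} {UA UB : Set X} (hA : IsOpen UA) (hB : IsOpen UB)
    {κ : ℝ} (hκ : 0 < κ) (hsplit : L2Splits UA UB κ) {f : X → V4} {Φ : X × V4 → V4} {β C : ℝ}
    (hS : L2Spray F f Φ UA β C) {FB : X × V4 → V4} (hFB : HolOn F FB (UB ×ˢ ball (0 : V4) β))
    {ε : ℝ} (hε : 0 ≤ ε) (hsmall : 8 * κ * ε ≤ β)
    (hclose : ∀ x ∈ UA ∩ UB, ∀ v ∈ ball (0 : V4) β, ‖FB (x, v) - Φ (x, v)‖ ≤ ε) :
    ∃ G : X → V4, HolOn F G (UA ∪ UB) ∧ ∀ x ∈ UA, ‖G x - f x‖ ≤ C * (2 * κ * ε) := by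
  classical
  have hβ := hS.pos
  have hE : DifferentiableOn ℂ (fun p : X × V4 => FB p - Φ p) ((UA ∩ UB) ×ˢ ball (0 : V4) β) :=
    (hFB.1.mono (prod_mono inter_subset_right subset_rfl)).sub
      (hS.hol.1.mono (prod_mono inter_subset_left subset_rfl))
  obtain ⟨a, b, ha, hb, hab, hbb, hEq⟩ := l2_glue0 hA hB hκ hsplit hβ hε hE
    (fun p hp => hclose p.1 hp.1 p.2 hp.2) hsmall
  have hlt : 2 * κ * ε < β := by nlinarith [mul_nonneg hκ.le hε]
  have haB : ∀ x ∈ UA, a x ∈ ball (0 : V4) β := fun x hx => by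
    rw [mem_ball_zero_iff]; exact (hab x hx).trans_lt hlt
  have hbB : ∀ x ∈ UB, b x ∈ ball (0 : V4) β := fun x hx => by
    rw [mem_ball_zero_iff]; exact (hbb x hx).trans_lt hlt
  -- the two local formulas
  have hGA : HolOn F (fun x => Φ (x, a x)) UA := by
    have hm : MapsTo (fun x => (x, a x)) UA (UA ×ˢ ball (0 : V4) β) := fun x hx => ⟨hx, haB x hx⟩
    exact ⟨hS.hol.1.comp (differentiableOn_id.prodMk ha) hm, fun x hx => hS.hol.2 (hm hx)⟩
  have hGB : HolOn F (fun x => FB (x, b x)) UB := by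
    have hm : MapsTo (fun x => (x, b x)) UB (UB ×ˢ ball (0 : V4) β) := fun x hx => ⟨hx, hbB x hx⟩
    exact ⟨hFB.1.comp (differentiableOn_id.prodMk hb) hm, fun x hx => hFB.2 (hm hx)⟩
  have hagree : ∀ x ∈ UA ∩ UB, Φ (x, a x) = FB (x, b x) := by
    intro x hx
    have h1 : Φ (x, b x) + (a x - b x) = FB (x, b x) := by
      rw [hEq x hx]; abel
    have h2 := hS.trans x hx.1 (b x) (hbB x hx.2) (a x) (haB x hx.1)
      (by rw [h1]; exact hGB.2 hx.2)
    rw [h2, h1]
  refine ⟨fun x => if x ∈ UA then Φ (x, a x) else FB (x, b x), ⟨?_, ?_⟩, ?_⟩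
  · intro x hx
    rcases hx with hx | hx
    · have h1 : DifferentiableAt ℂ (fun x => Φ (x, a x)) x := hGA.1.differentiableAt (hA.mem_nhds hx)
      refine (h1.congr_of_eventuallyEq ?_).differentiableWithinAt
      filter_upwards [hA.mem_nhds hx] with y hy
      simp [hy]
    · have h1 : DifferentiableAt ℂ (fun x => FB (x, b x)) x := hGB.1.differentiableAt (hB.mem_nhds hx)
      refine (h1.congr_of_eventuallyEq ?_).differentiableWithinAt
      filter_upwards [hB.mem_nhds hx] with y hy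
      by_cases hyA : y ∈ UA
      · simp [hyA, hagree y ⟨hyA, hy⟩]
      · simp [hyA]
  · intro x hx
    by_cases hxA : x ∈ UA
    · simpa [hxA] using hGA.2 hxA
    · have hxB : x ∈ UB := hx.resolve_left hxA
      simpa [hxA] using hGB.2 hxB
  · intro x hx
    simp only [hx, if_true]
    calc ‖Φ (x, a x) - f x‖ ≤ C * ‖a x‖ := hS.lip x hx _ (haB x hx)
      _ ≤ C * (2 * κ * ε) := mul_le_mul_of_nonneg_left (hab x hx) hS.C_nonneg

end Claimed.Agent.R245
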