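/-
Row 245 / S0484, sec 2.2 (architect: helper98).  Package L2-SPRAY: Lemma loc:spray in the cone formalism (PROJ).
ONE FILE = ONE PACKAGE = ONE OWNER.  Statement FROZEN; helper lemmas: prefix `l2se_`, in this file.
Black boxes: `l2_root` (L2Root.lean), `L2Poly.lean`.
-/
import Mathlib
import Claimed.Agent.R245.L2Defs
import Claimed.Agent.R245.L2Poly
import Claimed.Agent.R245.L2Root

set_option autoImplicit false

namespace Claimed.Agent.R245

open MvPolynomial Metric Set Filter Topology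

variable {X : Type*} [NormedAddCommGroup X] [NormedSpace ℂ X] [FiniteDimensional ℂ X]

theorem l2se_norm_dot_le (a b : V4) : ‖dot a b‖ ≤ 4 * ‖a‖ * ‖b‖ := by
  unfold dot
  calc ‖∑ i, a i * b i‖ ≤ ∑ i, ‖a i * b i‖ := norm_sum_le _ _
    _ ≤ ∑ _i : Fin 4, ‖a‖ * ‖b‖ := by
        refine Finset.sum_le_sum fun i _ => ?_
        rw [norm_mul]
        exact mul_le_mul (norm_le_pi_norm a i) (norm_le_pi_norm b i) (norm_nonneg _) (norm_nonneg _)
    _ = 4 * ‖a‖ * ‖b‖ := by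
        simp
        ring

/-- `F` is Lipschitz on closed balls -/
theorem l2se_lip (F : MvPolynomial (Fin 4) ℂ) (R : ℝ) : ∃ L : ℝ, 0 ≤ L ∧
    ∀ y ∈ closedBall (0 : V4) R, ∀ y' ∈ closedBall (0 : V4) R,
      ‖eval y' F - eval y F‖ ≤ L * ‖y' - y‖ := by
  obtain ⟨G, hG⟩ := (isCompact_closedBall (0 : V4) R).exists_bound_of_continuousOn
    (l2_continuous_grad F).continuousOn
  refine ⟨4 * max G 0, by positivity, fun y hy y' hy' => ?_⟩
  refine Convex.norm_image_sub_le_of_norm_hasFDerivWithin_le (𝕜 := ℂ) (f := fun y : V4 => eval y F)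
    (f' := fun y => l2dotL (grad F y)) (s := closedBall 0 R)
    (fun z _ => (l2_hasFDerivAt_eval F z).hasFDerivWithinAt) (fun z hz => ?_)
    (convex_closedBall _ _) hy hy'
  refine ContinuousLinearMap.opNorm_le_bound _ (by positivity) fun b => ?_
  rw [l2dotL_apply]
  refine (l2se_norm_dot_le _ _).trans ?_
  gcongr
  exact (hG z hz).trans (le_max_left _ _)

/-- uniform continuity of `(y, n) ↦ dF_y (n)` on compact sets -/
theorem l2se_unif (F : MvPolynomial (Fin 4) ℂ) (R M : ℝ) : ∃ η : ℝ, 0 < η ∧ η ≤ 1 ∧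
    ∀ y ∈ closedBall (0 : V4) R, ∀ y' ∈ closedBall (0 : V4) R, ∀ n ∈ closedBall (0 : V4) M,
      ‖y' - y‖ ≤ η → ‖dot (grad F y') n - dot (grad F y) n‖ ≤ 1 / 2 := by
  have hc : Continuous (fun p : V4 × V4 => dot (grad F p.1) p.2) := by
    unfold dot
    refine continuous_finsetSum _ fun i _ => ?_
    exact ((continuous_apply i).comp ((l2_continuous_grad F).comp continuous_fst)).mul
      ((continuous_apply i).comp continuous_snd)
  have hK : IsCompact (closedBall (0 : V4) R ×ˢ closedBall (0 : V4) M) :=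
    (isCompact_closedBall _ _).prod (isCompact_closedBall _ _)
  have hu := hK.uniformContinuousOn_of_continuous hc.continuousOn
  obtain ⟨δ, hδ, h⟩ := Metric.uniformContinuousOn_iff.1 hu (1 / 2) (by norm_num)
  refine ⟨min (δ / 2) 1, by positivity, min_le_right _ _, fun y hy y' hy' n hn hyy => ?_⟩
  have h1 : dist ((y', n) : V4 × V4) (y, n) < δ := by
    rw [Prod.dist_eq, dist_self, dist_eq_norm, max_eq_left (norm_nonneg _)]
    have := hyy.trans (min_le_left _ _)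
    linarith
  have h2 := h (y', n) ⟨hy', hn⟩ (y, n) ⟨hy, hn⟩ h1
  rw [dist_eq_norm] at h2
  exact h2.le

/-- the derivative of `l ↦ F (y + l n)` -/
theorem l2se_hasDerivAt (F : MvPolynomial (Fin 4) ℂ) (y n : V4) (l : ℂ) :
    HasDerivAt (fun l : ℂ => eval (y + l • n) F) (dot (grad F (y + l • n)) n) l := by
  have h1 : HasDerivAt (fun l : ℂ => y + l • n) n l := by
    simpa using ((hasDerivAt_id l).smul_const n).const_add y
  have h2 := (l2_hasFDerivAt_eval F (y + l • n)).comp_hasDerivAt l h1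
  rw [l2dotL_apply] at h2
  exact h2

omit [FiniteDimensional ℂ X] in
/-- the quantitative core: all constants are given -/
theorem l2se_core (F : MvPolynomial (Fin 4) ℂ) {W' : Set X} {f ν : X → V4} (hW' : IsOpen W')
    (hf : HolOn F f W') (hν : DifferentiableOn ℂ ν W')
    (hdot : ∀ x ∈ W', dot (grad F (f x)) (ν x) = 1) {M₀ m₀ η₀ L : ℝ} (hM₀ : 0 ≤ M₀) (hm₀ : 0 < m₀)
    (hfM : ∀ x ∈ W', ‖f x‖ ≤ M₀) (hνM : ∀ x ∈ W', ‖ν x‖ ≤ M₀) (hfm : ∀ x ∈ W', m₀ ≤ ‖f x‖)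
    (hη₀ : 0 < η₀) (hη₁ : η₀ ≤ 1)
    (hη : ∀ y ∈ closedBall (0 : V4) (M₀ + 1), ∀ y' ∈ closedBall (0 : V4) (M₀ + 1),
      ∀ n ∈ closedBall (0 : V4) M₀, ‖y' - y‖ ≤ η₀ →
        ‖dot (grad F y') n - dot (grad F y) n‖ ≤ 1 / 2)
    (hL0 : 0 ≤ L)
    (hL : ∀ y ∈ closedBall (0 : V4) (M₀ + 1), ∀ y' ∈ closedBall (0 : V4) (M₀ + 1),
      ‖eval y' F - eval y F‖ ≤ L * ‖y' - y‖) :
    ∃ (β C C₀ : ℝ) (Φ : X × V4 → V4), L2Spray F f Φ W' β C ∧
      ∀ x ∈ W', ∀ v ∈ ball (0 : V4) β, ∃ μ : ℂ, ‖μ‖ ≤ C₀ * ‖eval (f x + v) F‖ ∧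
        Φ (x, v) = f x + v + μ • ν x := by
  set r₁ : ℝ := η₀ / (2 * (M₀ + 1)) with hr₁
  set r₀ : ℝ := r₁ / 2 with hr₀
  set C : ℝ := 1 + 2 * L * M₀ with hC
  set β : ℝ := min (min (η₀ / 2) (r₀ / (2 * (L + 1)))) (m₀ / (2 * (C + 1))) with hβdef
  have hr₁pos : 0 < r₁ := by positivity
  have hr₀pos : 0 < r₀ := by positivity
  have hC0 : 0 ≤ C := by positivity
  have hβ : 0 < β := by positivity
  have hβ1 : β ≤ η₀ / 2 := (min_le_left _ _).trans (min_le_left _ _)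
  have hβ2 : L * β ≤ r₀ / 2 := by
    have h1 : β ≤ r₀ / (2 * (L + 1)) := (min_le_left _ _).trans (min_le_right _ _)
    rw [le_div_iff₀ (by positivity)] at h1
    nlinarith
  have hβ3 : C * β < m₀ := by
    have h1 : β ≤ m₀ / (2 * (C + 1)) := min_le_right _ _
    rw [le_div_iff₀ (by positivity)] at h1
    nlinarith
  have hr₁M : r₁ * M₀ ≤ η₀ / 2 := by
    rw [hr₁, div_mul_eq_mul_div, div_le_iff₀ (by positivity)]
    nlinarith
  -- the point `f x + v + l ν x` stays close to `f x`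
  have hclose : ∀ x ∈ W', ∀ v ∈ ball (0 : V4) β, ∀ l : ℂ, ‖l‖ ≤ r₁ →
      ‖(f x + v + l • ν x) - f x‖ ≤ η₀ ∧ f x + v + l • ν x ∈ closedBall (0 : V4) (M₀ + 1) := by
    intro x hx v hv l hl
    rw [mem_ball_zero_iff] at hv
    have h1 : ‖(f x + v + l • ν x) - f x‖ ≤ η₀ := by
      have e : (f x + v + l • ν x) - f x = v + l • ν x := by abel
      rw [e]
      calc ‖v + l • ν x‖ ≤ ‖v‖ + ‖l‖ * ‖ν x‖ := by
            rw [← norm_smul]
            exact norm_add_le _ _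
        _ ≤ β + r₁ * M₀ := by
            gcongr
            exact hνM x hx
        _ ≤ η₀ := by linarith
    refine ⟨h1, ?_⟩
    rw [mem_closedBall_zero_iff]
    calc ‖f x + v + l • ν x‖ = ‖f x + ((f x + v + l • ν x) - f x)‖ := by
          congr 1
          abel
      _ ≤ ‖f x‖ + ‖(f x + v + l • ν x) - f x‖ := norm_add_le _ _
      _ ≤ M₀ + 1 := add_le_add (hfM x hx) (h1.trans hη₁)
  have hfball : ∀ x ∈ W', f x ∈ closedBall (0 : V4) (M₀ + 1) := by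
    intro x hx
    rw [mem_closedBall_zero_iff]
    linarith [hfM x hx]
  set D : Set (X × V4) := W' ×ˢ ball (0 : V4) β with hD
  have hDo : IsOpen D := hW'.prod isOpen_ball
  set P : (X × V4) × ℂ → ℂ := fun q => eval (f q.1.1 + q.1.2 + q.2 • ν q.1.1) F with hP
  have hfD : DifferentiableOn ℂ (fun p : X × V4 => f p.1) D :=
    hf.1.comp differentiableOn_fst (fun p hp => hp.1)
  have hνD : DifferentiableOn ℂ (fun p : X × V4 => ν p.1) D :=
    hν.comp differentiableOn_fst (fun p hp => hp.1)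
  have hPd : DifferentiableOn ℂ P (D ×ˢ ball (0 : ℂ) r₁) := by
    have h1 : DifferentiableOn ℂ (fun q : (X × V4) × ℂ => f q.1.1) (D ×ˢ ball (0 : ℂ) r₁) :=
      hfD.comp differentiableOn_fst (fun q hq => hq.1)
    have h2 : DifferentiableOn ℂ (fun q : (X × V4) × ℂ => ν q.1.1) (D ×ˢ ball (0 : ℂ) r₁) :=
      hνD.comp differentiableOn_fst (fun q hq => hq.1)
    have h3 : DifferentiableOn ℂ (fun q : (X × V4) × ℂ => q.1.2) (D ×ˢ ball (0 : ℂ) r₁) :=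
      (differentiable_snd.comp differentiable_fst).differentiableOn
    have h4 : DifferentiableOn ℂ (fun q : (X × V4) × ℂ => q.2) (D ×ˢ ball (0 : ℂ) r₁) :=
      differentiableOn_snd
    exact (l2_differentiable_eval F).comp_differentiableOn ((h1.add h3).add (h4.smul h2))
  have hP0 : ∀ p ∈ D, P (p, 0) = eval (f p.1 + p.2) F := by
    intro p _
    simp [hP]
  have hP0b : ∀ p ∈ D, ‖P (p, 0)‖ ≤ L * ‖p.2‖ := by
    intro p hp
    rw [hP0 p hp]
    have h1 := (hclose p.1 hp.1 p.2 hp.2 0 (by simpa using hr₁pos.le)).2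
    rw [zero_smul, add_zero] at h1
    have h2 := hL _ (hfball p.1 hp.1) _ h1
    rw [(hf.2 hp.1).2, sub_zero, add_sub_cancel_left] at h2
    exact h2
  have h0 : ∀ p ∈ D, ‖P (p, 0)‖ ≤ r₀ / 2 := by
    intro p hp
    have h1 : ‖p.2‖ ≤ β := (mem_ball_zero_iff.1 hp.2).le
    calc ‖P (p, 0)‖ ≤ L * ‖p.2‖ := hP0b p hp
      _ ≤ L * β := by gcongr
      _ ≤ r₀ / 2 := hβ2
  have hlip : ∀ p ∈ D, ∀ l₁ ∈ closedBall (0 : ℂ) r₀, ∀ l₂ ∈ closedBall (0 : ℂ) r₀,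
      ‖(P (p, l₁) - l₁) - (P (p, l₂) - l₂)‖ ≤ 1 / 2 * ‖l₁ - l₂‖ := by
    intro p hp l₁ hl₁ l₂ hl₂
    refine Convex.norm_image_sub_le_of_norm_hasDerivWithin_le (𝕜 := ℂ)
      (f := fun l : ℂ => P (p, l) - l)
      (f' := fun l : ℂ => dot (grad F (f p.1 + p.2 + l • ν p.1)) (ν p.1) - 1)
      (s := closedBall (0 : ℂ) r₀) (fun l _ => ?_) (fun l hl => ?_) (convex_closedBall _ _) hl₂ hl₁
    · exact ((l2se_hasDerivAt F (f p.1 + p.2) (ν p.1) l).sub (hasDerivAt_id l)).hasDerivWithinAt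
    · have hl' : ‖l‖ ≤ r₁ := by
        rw [mem_closedBall_zero_iff] at hl
        linarith
      obtain ⟨h1, h2⟩ := hclose p.1 hp.1 p.2 hp.2 l hl'
      rw [← hdot p.1 hp.1]
      exact hη _ (hfball p.1 hp.1) _ h2 _ (mem_closedBall_zero_iff.2 (hνM p.1 hp.1)) h1
  obtain ⟨μ, hμd, hμ, hμu⟩ := l2_root hDo hr₀pos (by rw [hr₀]; linarith) hPd hlip h0
  have hΦf : ∀ x ∈ W', ∀ v ∈ ball (0 : V4) β,
      ‖(f x + v + μ (x, v) • ν x) - f x‖ ≤ C * ‖v‖ := by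
    intro x hx v hv
    have hp : ((x, v) : X × V4) ∈ D := ⟨hx, hv⟩
    have e : (f x + v + μ (x, v) • ν x) - f x = v + μ (x, v) • ν x := by abel
    rw [e]
    calc ‖v + μ (x, v) • ν x‖ ≤ ‖v‖ + ‖μ (x, v)‖ * ‖ν x‖ := by
          rw [← norm_smul]
          exact norm_add_le _ _
      _ ≤ ‖v‖ + (2 * (L * ‖v‖)) * M₀ := by
          gcongr
          · exact ((hμ _ hp).1).trans (by linarith [hP0b _ hp])
          · exact hνM x hx
      _ = C * ‖v‖ := by rw [hC]; ring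
  refine ⟨β, C, 2, fun p => f p.1 + p.2 + μ p • ν p.1, ⟨hβ, hC0, ⟨?_, ?_⟩, ?_, hΦf, ?_⟩, ?_⟩
  · exact (hfD.add differentiableOn_snd).add (hμd.smul hνD)
  · intro p hp
    refine ⟨fun h => ?_, (hμ p hp).2⟩
    have h1 := hΦf p.1 hp.1 p.2 hp.2
    have h2 : f p.1 + p.2 + μ (p.1, p.2) • ν p.1 = 0 := h
    rw [h2, zero_sub, norm_neg] at h1
    have h3 : ‖p.2‖ ≤ β := (mem_ball_zero_iff.1 hp.2).le
    have h4 : C * ‖p.2‖ ≤ C * β := by gcongr
    linarith [hfm p.1 hp.1]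
  · intro x hx
    have hp : ((x, 0) : X × V4) ∈ D := ⟨hx, mem_ball_self hβ⟩
    have h1 := hΦf x hx 0 (mem_ball_self hβ)
    rw [norm_zero, mul_zero] at h1
    exact sub_eq_zero.1 (norm_le_zero_iff.1 h1)
  · intro x hx v hv a ha hcone
    have hpv : ((x, v) : X × V4) ∈ D := ⟨hx, hv⟩
    have hpa : ((x, a) : X × V4) ∈ D := ⟨hx, ha⟩
    have e : f x + v + μ (x, v) • ν x + (a - v) = f x + a + μ (x, v) • ν x := by abel
    show f x + a + μ (x, a) • ν x = f x + v + μ (x, v) • ν x + (a - v)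
    have hcone' : f x + v + μ (x, v) • ν x + (a - v) ∈ Cone F := hcone
    rw [e] at hcone' ⊢
    have h1 : μ (x, v) ∈ closedBall (0 : ℂ) r₀ := by
      rw [mem_closedBall_zero_iff]
      linarith [(hμ _ hpv).1, h0 _ hpv]
    rw [hμu _ hpa _ h1 hcone'.2]
  · intro x hx v hv
    have hp : ((x, v) : X × V4) ∈ D := ⟨hx, hv⟩
    refine ⟨μ (x, v), ?_, rfl⟩
    have := (hμ _ hp).1
    rwa [hP0 _ hp] at this

/-- **Sprays from a direction field.**  `f : W → Cone F` and `ν` holomorphic on the open set `W`, `dF_{f x}(ν x) = 1`, `S ⊆ W` compact.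
Then `Φ (x, v) = f x + v + μ (x, v) • ν x` (`μ` = the small root of `l ↦ F (f x + v + l ν x)`) is a spray over `f` on a
neighbourhood `W'` of `S`; moreover `‖μ‖ ≤ C₀ ‖F (f x + v)‖`.
Route.  (0) `W'` open, `S ⊆ W'`, `closure W'` compact `⊆ W` (`exists_isOpen_superset_and_isCompact_closure` + intersect, or
`IsCompact.exists_… cthickening`).  On `closure W'`: `‖f‖, ‖ν‖ ≤ M₀`, `m₀ ≤ ‖f‖`, `0 < m₀`.
(1) `(y, n) ↦ dot (grad F y) n` is uniformly continuous on the compact set `‖y‖ ≤ M₀ + 1`, `‖n‖ ≤ M₀`: there is `η₀ ∈ (0,1]` with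
`‖dot (grad F y') n - dot (grad F y) n‖ ≤ 1/2` for `‖y' - y‖ ≤ η₀`.  `F` is `L`-Lipschitz on `closedBall 0 (M₀+1)`.
(2) `r₁ := η₀ / (2 (M₀+1))`, `r₀ := r₁ / 2`, `β := min (η₀/2) (r₀ / (2 (L+1)))` and smaller so that `C β < m₀` below.
`P ((x, v), l) := eval (f x + v + l • ν x) F` on `D := W' ×ˢ ball 0 β`: holomorphic; `∂_l P = dot (grad F (f x + v + l ν x)) (ν x)`
is within `1/2` of `dot (grad F (f x)) (ν x) = 1`, so `l ↦ P - l` is `1/2`-Lipschitz on the convex set `closedBall 0 r₀`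
(`Convex.norm_image_sub_le_of_norm_hasDerivWithin_le`); `‖P ((x,v),0)‖ = ‖F (f x + v) - F (f x)‖ ≤ L ‖v‖ ≤ r₀/2`.
(3) `μ` from `l2_root`; `‖Φ - f‖ ≤ (1 + 2 L M₀) ‖v‖ =: C ‖v‖`; `Φ ≠ 0` because `C β < m₀`; `Φ (x,0) = f x` because `‖μ‖ ≤ 2‖P(.,0)‖ = 0`.
(4) `trans`: `Φ (x,v) + (a - v) = f x + a + μ (x,v) ν x` on the cone means `P ((x,a), μ (x,v)) = 0` with `‖μ (x,v)‖ ≤ r₀`:
uniqueness in `l2_root` gives `μ (x,v) = μ (x,a)`. -/
theorem l2_spray_of_nu (F : MvPolynomial (Fin 4) ℂ) {S W : Set X} {f ν : X → V4} (hS : IsCompact S)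
    (hW : IsOpen W) (hSW : S ⊆ W) (hf : HolOn F f W) (hν : DifferentiableOn ℂ ν W)
    (hdot : ∀ x ∈ W, dot (grad F (f x)) (ν x) = 1) :
    ∃ (W' : Set X) (β C C₀ : ℝ) (Φ : X × V4 → V4), IsOpen W' ∧ S ⊆ W' ∧ W' ⊆ W ∧
      L2Spray F f Φ W' β C ∧
      ∀ x ∈ W', ∀ v ∈ ball (0 : V4) β, ∃ μ : ℂ, ‖μ‖ ≤ C₀ * ‖eval (f x + v) F‖ ∧
        Φ (x, v) = f x + v + μ • ν x := by
  have : ProperSpace X := FiniteDimensional.proper ℂ X
  obtain ⟨K, hK, hSK, hKW⟩ := exists_compact_between hS hW hSW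
  have hfc : ContinuousOn f K := hf.1.continuousOn.mono hKW
  have hνc : ContinuousOn ν K := hν.continuousOn.mono hKW
  obtain ⟨C₁, hC₁⟩ := hK.exists_bound_of_continuousOn hfc
  obtain ⟨C₂, hC₂⟩ := hK.exists_bound_of_continuousOn hνc
  obtain ⟨m₀, hm₀, hm⟩ : ∃ m₀ : ℝ, 0 < m₀ ∧ ∀ x ∈ K, m₀ ≤ ‖f x‖ := by
    have hcl : IsClosed (f '' K) := (hK.image_of_continuousOn hfc).isClosed
    have h0 : (0 : V4) ∈ (f '' K)ᶜ := by
      rintro ⟨x, hx, hx0⟩
      exact (hf.2 (hKW hx)).1 hx0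
    obtain ⟨m₀, hm₀, hb⟩ := Metric.isOpen_iff.1 hcl.isOpen_compl 0 h0
    refine ⟨m₀, hm₀, fun x hx => ?_⟩
    by_contra hlt
    exact hb (mem_ball_zero_iff.2 (not_le.1 hlt)) ⟨x, hx, rfl⟩
  set M₀ : ℝ := max (max C₁ C₂) 0 with hM₀
  obtain ⟨η₀, hη₀, hη₁, hη⟩ := l2se_unif F (M₀ + 1) M₀
  obtain ⟨L, hL0, hL⟩ := l2se_lip F (M₀ + 1)
  have hsub : interior K ⊆ K := interior_subset
  have hsubW : interior K ⊆ W := hsub.trans hKW
  obtain ⟨β, C, C₀, Φ, h1, h2⟩ := l2se_core F (W' := interior K) (f := f) (ν := ν) isOpen_interior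
    ⟨hf.1.mono hsubW, hf.2.mono_left hsubW⟩ (hν.mono hsubW) (fun x hx => hdot x (hsubW hx))
    (le_max_right _ _) hm₀
    (fun x hx => (hC₁ x (hsub hx)).trans ((le_max_left _ _).trans (le_max_left _ _)))
    (fun x hx => (hC₂ x (hsub hx)).trans ((le_max_right _ _).trans (le_max_left _ _)))
    (fun x hx => hm x (hsub hx)) hη₀ hη₁ hη hL0 hL
  exact ⟨interior K, β, C, C₀, Φ, isOpen_interior, hSK, hsubW, h1, h2⟩

end Claimed.Agent.R245
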