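/-
Row 245 / S0484, sec 2.3 (architect: helper98).  **Prop loc:planar** (one planar enlargement with passive parameters), ONE-SHOT proof:
spoke map + property `L` in `N` sectors + one gluing.  Proved here from the leaves
`l2_spray_of_nu`, `l2_planar_compact`, `l2_spoke_choice`, `L2GeoA/B/C`, `l2_split`, `l2_FB`, `l2_glue`.

The direction field `ν` along `f` is a HYPOTHESIS (on discs × polydiscs it comes from NU on compact convex sets; for the annuli of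
Prop ana:polydisc it is the pull-back of such a field).
-/
import Mathlib
import Claimed.Agent.R245.L2Split
import Claimed.Agent.R245.L2Glue
import Claimed.Agent.R245.L2SprayEx
import Claimed.Agent.R245.L2GeoA
import Claimed.Agent.R245.L2GeoD
import Claimed.Agent.R245.L2Comp
import Claimed.Agent.R245.L2FB

set_option autoImplicit false

namespace Claimed.Agent.R245

open MvPolynomial Metric Set Filter Topology

theorem l2_isCompact_Ann (a r : ℝ) : IsCompact (Ann a r) := by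
  have h1 : IsClosed (Ann a r) := by
    have : Ann a r = {s : ℂ | a ≤ ‖s‖} ∩ {s : ℂ | ‖s‖ ≤ r} := rfl
    rw [this]
    exact (isClosed_le continuous_const continuous_norm).inter
      (isClosed_le continuous_norm continuous_const)
  refine (isCompact_closedBall (0 : ℂ) r).of_isClosed_subset h1 ?_
  intro s hs
  simpa using hs.2

/-- the planar splitting in the form `L2Splits` -/
theorem l2_splits_prod {UA UB : Set ℂ} {χ : ℂ → ℝ} {d M : ℝ} (h : L2Cut UA UB χ d M)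
    {T : Type*} [NormedAddCommGroup T] [NormedSpace ℂ T] [FiniteDimensional ℂ T] {P : Set T}
    (hP : IsOpen P) : L2Splits (UA ×ˢ P) (UB ×ˢ P) (1 + 2 * d * M) := by
  intro u B hB0 hu hB
  have hset : (UA ×ˢ P) ∩ (UB ×ˢ P) = (UA ∩ UB) ×ˢ P := by
    rw [prod_inter_prod, inter_self]
  rw [hset] at hu hB ⊢
  exact l2_split h hP hu hB0 hB

theorem l2_planar {F : MvPolynomial (Fin 4) ℂ} {q : ℕ} {a r R ρ₀ ρ : ℝ} (har : a < r) (hr : 0 < r)
    (hR : r < R) (hρ₀ : 0 < ρ₀) (hρ : ρ₀ < ρ) {f ν : ℂ × (Fin q → ℂ) → V4}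
    {W : Set (ℂ × (Fin q → ℂ))} (hW : IsOpen W)
    (hsub : Ann a r ×ˢ closedBall (0 : Fin q → ℂ) ρ ⊆ W) (hf : HolOn F f W)
    (hν : DifferentiableOn ℂ ν W) (hdot : ∀ x ∈ W, dot (grad F (f x)) (ν x) = 1)
    (hwit : ∀ ζ : ℂ, ‖ζ‖ = r → ∃ V : Set V4, IsWitness F V ∧
      ∀ t ∈ closedBall (0 : Fin q → ℂ) ρ, f (ζ, t) ∈ V)
    {ε : ℝ} (hε : 0 < ε) :
    ∃ G : ℂ × (Fin q → ℂ) → V4, HolNear F G (Ann a R ×ˢ closedBall (0 : Fin q → ℂ) ρ₀) ∧
      ∀ z ∈ Ann a r ×ˢ closedBall (0 : Fin q → ℂ) ρ₀, ‖G z - f z‖ < ε := by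
  have hρpos : 0 < ρ := hρ₀.trans hρ
  -- 1. the spray over `f`
  have hScomp : IsCompact (Ann a r ×ˢ closedBall (0 : Fin q → ℂ) ρ) :=
    (l2_isCompact_Ann a r).prod (isCompact_closedBall _ _)
  obtain ⟨W', β, C, C₀, Φ, hW'o, hSW', hW'W, hSp, -⟩ :=
    l2_spray_of_nu F hScomp hW hsub hf hν hdot
  -- 2. uniform margins
  obtain ⟨δ, m, hδ, hm, h1, h2⟩ := l2_planar_compact har hr hρpos hW'o hSW'
    (hf.1.continuousOn.mono hW'W) hwit (half_pos hε)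
  -- 3. the spoke map
  set R₁ : ℝ := R + 1 with hR₁
  have hrR₁ : r < R₁ := by rw [hR₁]; linarith
  obtain ⟨p, N, hN, hp1, hp2, hK, hA, hBand⟩ := l2_spoke_choice har hr hrR₁ hδ
  set a₁ : ℝ := a - δ / 2 with ha₁
  have ha₁a : a₁ < a := by rw [ha₁]; linarith
  have ha₁r : a₁ ≤ r := (ha₁a.trans har).le
  have hppos : 0 < p := lt_trans (by positivity) hp1
  have hRh : r * Real.exp (l2h N) < R₁ := hp1.trans hp2
  -- 4. pull back the spray
  let π : ℂ × (Fin q → ℂ) → ℂ × (Fin q → ℂ) := fun z => (l2Pi p N z.1, z.2)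
  let D₁ : Set (ℂ × (Fin q → ℂ)) := {z | z.1 ∈ l2PiDom p N}
  have hD₁o : IsOpen D₁ := (l2geo_isOpen_dom p N).preimage continuous_fst
  have hπD : DifferentiableOn ℂ π D₁ := by
    have e1 : DifferentiableOn ℂ (fun z : ℂ × (Fin q → ℂ) => l2Pi p N z.1) D₁ :=
      (l2Pi_differentiableOn hppos N).comp (s := D₁) differentiableOn_fst (fun z hz => hz)
    exact e1.prodMk differentiableOn_snd
  let W₁ : Set (ℂ × (Fin q → ℂ)) := D₁ ∩ π ⁻¹' W'
  have hW₁o : IsOpen W₁ := hπD.continuousOn.isOpen_inter_preimage hD₁o hW'o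
  have hSp₁ := hSp.comp (hπD.mono inter_subset_left) (fun z (hz : z ∈ W₁) => hz.2)
  set f₁ : ℂ × (Fin q → ℂ) → V4 := fun y => f (π y) with hf₁
  set Φ₁ : (ℂ × (Fin q → ℂ)) × V4 → V4 := fun x => Φ (π x.1, x.2) with hΦ₁
  have hK1W₁ : ∀ s ∈ l2K1 a₁ r R₁ N, ∀ t ∈ closedBall (0 : Fin q → ℂ) ρ, (s, t) ∈ W₁ := by
    intro s hs t ht
    refine ⟨l2geo_K1_subset_dom hr hp1 hs, ?_⟩
    obtain ⟨s', hs', hss'⟩ := hK s hs
    exact (h1 _ s' t hs' hss' ht).1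
  -- 5. the cut
  obtain ⟨χ, d, M, hcut⟩ := l2geo_cut (R₁ := R₁) hr hN ha₁r
  set κ : ℝ := 1 + 2 * d * M with hκdef
  have hκ : 0 < κ := by
    have := mul_nonneg (mul_nonneg (by norm_num : (0 : ℝ) ≤ 2) hcut.d_nonneg) hcut.M_nonneg
    rw [hκdef]; linarith
  set ρ₁ : ℝ := (ρ₀ + ρ) / 2 with hρ₁def
  have hρ₁0 : ρ₀ < ρ₁ := by rw [hρ₁def]; linarith
  have hρ₁ρ : ρ₁ < ρ := by rw [hρ₁def]; linarith
  have hρ₁pos : 0 < ρ₁ := hρ₀.trans hρ₁0
  let P : Set (Fin q → ℂ) := ball 0 ρ₁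
  have hsplit : L2Splits (l2UA a₁ r R₁ N ×ˢ P) (l2UB r R₁ N ×ˢ P) κ :=
    l2_splits_prod hcut isOpen_ball
  -- 6. the size of the auxiliary ball
  have hC := hSp.C_nonneg
  have hβ := hSp.pos
  set β' : ℝ := min (β / 2) (m / (2 * (C + 1))) with hβ'def
  have hβ'pos : 0 < β' := lt_min (half_pos hβ) (by positivity)
  have hβ'β : β' < β := (min_le_left _ _).trans_lt (half_lt_self hβ)
  have hCβ' : C * β' < m := by
    have h3 : β' ≤ m / (2 * (C + 1)) := min_le_right _ _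
    have h4 : C * β' ≤ C * (m / (2 * (C + 1))) := mul_le_mul_of_nonneg_left h3 hC
    have h5 : C * (m / (2 * (C + 1))) < m := by
      rw [mul_div_assoc', div_lt_iff₀ (by positivity)]
      nlinarith
    exact h4.trans_lt h5
  set β'' : ℝ := β' * ρ₁ / ρ with hβ''def
  have hβ''pos : 0 < β'' := by rw [hβ''def]; positivity
  have hβ''β : β'' ≤ β := by
    have : β'' ≤ β' := by
      rw [hβ''def, div_le_iff₀ hρpos]
      exact mul_le_mul_of_nonneg_left hρ₁ρ.le hβ'pos.le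
    exact this.trans hβ'β.le
  -- 7. the hypotheses of `l2_FB`
  have hyp : ∀ k < N, ∃ (V : Set V4) (𝒲 : Set ((ℂ × (Fin q → ℂ)) × V4)), IsWitness F V ∧ IsOpen 𝒲 ∧
      (∀ w ∈ UBand (Real.log r) (Real.log R₁) (l2th N k) (l2th N (k + 1)) (l2h N),
        ∀ t ∈ closedBall (0 : Fin q → ℂ) ρ, ∀ v ∈ closedBall (0 : V4) β',
          ((Complex.exp w, t), v) ∈ 𝒲) ∧ HolOn F Φ₁ 𝒲 ∧ MapsTo Φ₁ 𝒲 V := by
    intro k _
    have hζ : ‖(r : ℂ) * Complex.exp (l2th N k * Complex.I)‖ = r := by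
      rw [norm_mul, Complex.norm_exp_ofReal_mul_I, mul_one, Complex.norm_real, Real.norm_eq_abs,
        abs_of_pos hr]
    obtain ⟨V, hV, hVm⟩ := h2 _ hζ
    refine ⟨V, (W₁ ×ˢ ball (0 : V4) β) ∩ Φ₁ ⁻¹' V, hV,
      hSp₁.hol.1.continuousOn.isOpen_inter_preimage (hW₁o.prod isOpen_ball) hV.1, ?_,
      ⟨hSp₁.hol.1.mono inter_subset_left, hSp₁.hol.2.mono_left inter_subset_left⟩,
      fun x hx => hx.2⟩
    intro w hw t ht v hv
    have hwW : (Complex.exp w, t) ∈ W₁ := hK1W₁ _ (l2geo_exp_band hr hrR₁ hN ha₁r hw) t ht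
    have hvn : ‖v‖ ≤ β' := by simpa using hv
    have hvβ : v ∈ ball (0 : V4) β := by
      rw [mem_ball_zero_iff]; exact hvn.trans_lt hβ'β
    refine ⟨⟨hwW, hvβ⟩, ?_⟩
    refine hVm (l2Pi p N (Complex.exp w)) t _ (hBand k w hw) ht ?_
    calc ‖Φ₁ ((Complex.exp w, t), v) - f (l2Pi p N (Complex.exp w), t)‖ ≤ C * ‖v‖ :=
          hSp₁.lip _ hwW v hvβ
      _ ≤ C * β' := mul_le_mul_of_nonneg_left hvn hC
      _ < m := hCβ'
  -- 8. accuracy
  set ε' : ℝ := min (β'' / (8 * κ)) (ε / (4 * κ * (C + 1))) with hε'def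
  have hε'pos : 0 < ε' := lt_min (by positivity) (by positivity)
  have hε'1 : 8 * κ * ε' ≤ β'' := by
    have h3 : ε' ≤ β'' / (8 * κ) := min_le_left _ _
    rw [le_div_iff₀ (by positivity)] at h3
    linarith
  have hε'2 : C * (2 * κ * ε') < ε / 2 := by
    have h3 : ε' ≤ ε / (4 * κ * (C + 1)) := min_le_right _ _
    rw [le_div_iff₀ (by positivity)] at h3
    nlinarith [mul_pos hκ hε'pos]
  obtain ⟨FB, hFB, hFBc⟩ := l2_FB (a₁ := a₁) hN hr hRh hρ₁pos hρ₁ρ hβ'pos hyp hε'pos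
  -- 9. glue
  have hUAW₁ : l2UA a₁ r R₁ N ×ˢ P ⊆ W₁ := by
    rintro ⟨s, t⟩ ⟨hs, ht⟩
    refine hK1W₁ s (l2geo_UA_subset_K1 _ _ _ _ hs) t ?_
    exact ball_subset_closedBall (ball_subset_ball hρ₁ρ.le ht)
  obtain ⟨G, hG, hGf⟩ := l2_glue ((l2geo_isOpen_UA a₁ r R₁ N).prod isOpen_ball)
    ((l2geo_isOpen_UB r R₁ N).prod isOpen_ball) hκ hsplit (hSp₁.mono hUAW₁ hβ''pos hβ''β) hFB
    hε'pos.le hε'1 (fun x hx v hv => hFBc x.1 ⟨hx.1.1, hx.2.1⟩ x.2 hx.1.2 v hv)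
  -- 10. conclusion
  refine ⟨G, ⟨_, ((l2geo_isOpen_UA a₁ r R₁ N).prod isOpen_ball).union
    ((l2geo_isOpen_UB r R₁ N).prod isOpen_ball), ?_, hG⟩, ?_⟩
  · rintro ⟨s, t⟩ ⟨hs, ht⟩
    have htP : t ∈ P := closedBall_subset_ball hρ₁0 ht
    have hs1 : a₁ < ‖s‖ := ha₁a.trans_le hs.1
    have hs2 : ‖s‖ < R₁ := by rw [hR₁]; linarith [hs.2]
    rcases l2geo_cover (a₁ := a₁) (R₁ := R₁) hr hN hs1 hs2 with h | h
    · exact Or.inl ⟨h, htP⟩
    · exact Or.inr ⟨h, htP⟩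
  · rintro ⟨s, t⟩ ⟨hs, ht⟩
    have htP : t ∈ P := closedBall_subset_ball hρ₁0 ht
    have htρ : t ∈ closedBall (0 : Fin q → ℂ) ρ := closedBall_subset_closedBall hρ.le ht
    have hsA : s ∈ l2UA a₁ r R₁ N := l2geo_Ann_subset_UA hr hN ha₁a hrR₁ hs
    have e1 : ‖G (s, t) - f₁ (s, t)‖ < ε / 2 := (hGf (s, t) ⟨hsA, htP⟩).trans_lt hε'2
    have e2 : ‖f₁ (s, t) - f (s, t)‖ < ε / 2 := (h1 _ s t hs (hA s hs) htρ).2
    calc ‖G (s, t) - f (s, t)‖ = ‖(G (s, t) - f₁ (s, t)) + (f₁ (s, t) - f (s, t))‖ := by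
          congr 1; abel
      _ ≤ ‖G (s, t) - f₁ (s, t)‖ + ‖f₁ (s, t) - f (s, t)‖ := norm_add_le _ _
      _ < ε := by linarith

end Claimed.Agent.R245
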