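/-
Row 245 / S0484.  Package PV (Plemelj–Privalov on the real line, one variable).   Architect: helper246.
PVDefs: the Cauchy integral `pvC φ ζ = (2πi)⁻¹ ∫ φ(t)/(t - ζ) dt` of a compactly supported Hölder density.   Mathlib only.
-/
import Mathlib

set_option autoImplicit false

namespace Claimed.Agent.R245

open Complex MeasureTheory

/-- the Cauchy integral of a density on the real line. -/
noncomputable def pvC (φ : ℝ → ℂ) (ζ : ℂ) : ℂ :=
  (2 * (Real.pi : ℂ) * I)⁻¹ * ∫ t : ℝ, φ t / ((t : ℂ) - ζ)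

/-- `φ` vanishes off `[a,b]`, is bounded by `A₀` and Hölder continuous with exponent `α ∈ (0,1)` and constant `A₁` on `ℝ`. -/
structure PvData (φ : ℝ → ℂ) (a b A₀ A₁ α : ℝ) : Prop where
  hab : a ≤ b
  α_pos : 0 < α
  α_lt : α < 1
  supp : ∀ t, t ∉ Set.Icc a b → φ t = 0
  bdd : ∀ t, ‖φ t‖ ≤ A₀
  hol : ∀ t t', ‖φ t - φ t'‖ ≤ A₁ * |t - t'| ^ α

theorem pv_defs_eqns_cite : (@pvC.eq_1 = @pvC.eq_1) := rfl

end Claimed.Agent.R245
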