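/-
Row 245 / S0484.  Package PV.   Architect: helper246.     Mathlib only, no paper.
PVHL (leaf PV-C): the Hardy–Littlewood lemma:  `|F'(ζ)| ≤ K (Im ζ)^(α-1)` on a half plane  ⇒  `F` is Hölder-`α` there with constant `(2/α + 1) K`.
`σ = 1`: upper half plane, `σ = -1`: lower half plane.

PLAN.  `d := ‖ζ₁ - ζ₂‖` (if `d = 0` trivial).  `e := σ * I`.  Path `ζ₁ → ζ₁ + d e → ζ₂ + d e → ζ₂`.
 * vertical (`pv_hl_vertical`): `g s := F (ζ + s e)`, `s ∈ [0,d]`, `y := σ Im ζ > 0`: `‖g' s‖ ≤ K (y+s)^(α-1)`, which is the derivative of `B s := K ((y+s)^α - y^α)/α`;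
   `image_norm_le_of_norm_deriv_right_le_deriv_boundary` (applied to `g s - g 0`) gives `‖g d - g 0‖ ≤ B d ≤ K d^α/α` (`Real.rpow_add_le_add_rpow`: `(y+d)^α ≤ y^α + d^α`).
 * horizontal: the segment `[ζ₁ + d e, ζ₂ + d e]` lies in the convex set `{σ Im ≥ d}` where `‖F'‖ ≤ K d^(α-1)` (`Real.rpow_le_rpow_of_exponent_nonpos`/`rpow_le_rpow_of_nonpos`, exponent `α-1<0`);
   `Convex.norm_image_sub_le_of_norm_deriv_le` gives `≤ K d^(α-1) d = K d^α`.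
-/
import Claimed.Agent.R245.PVDefs

set_option autoImplicit false

namespace Claimed.Agent.R245

open Complex MeasureTheory

theorem pvc_sq_eq_one {σ : ℝ} (hσ : σ = 1 ∨ σ = -1) : σ * σ = 1 := by
  rcases hσ with h | h <;> rw [h] <;> norm_num

theorem pvc_im {σ : ℝ} (hσ : σ = 1 ∨ σ = -1) (ζ : ℂ) (s : ℝ) :
    σ * (ζ + s * (σ * I)).im = σ * ζ.im + s := by
  have h := pvc_sq_eq_one hσ
  have e : (ζ + s * (σ * I)).im = ζ.im + s * σ := by
    simp [Complex.add_im, Complex.mul_im]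
  rw [e]
  linear_combination s * h

theorem pvc_norm_e {σ : ℝ} (hσ : σ = 1 ∨ σ = -1) : ‖(σ : ℂ) * I‖ = 1 := by
  rcases hσ with h | h <;> rw [h] <;> simp

theorem pv_hl_vertical {F : ℂ → ℂ} {K α σ : ℝ} (hσ : σ = 1 ∨ σ = -1) (h0 : 0 < α) (h1 : α < 1)
    (hK : 0 ≤ K) (hF : ∀ ζ : ℂ, 0 < σ * ζ.im → DifferentiableAt ℂ F ζ)
    (hd : ∀ ζ : ℂ, 0 < σ * ζ.im → ‖deriv F ζ‖ ≤ K * (σ * ζ.im) ^ (α - 1))
    (ζ : ℂ) (hζ : 0 < σ * ζ.im) (d : ℝ) (hd0 : 0 ≤ d) :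
    ‖F (ζ + d * (σ * I)) - F ζ‖ ≤ K * d ^ α / α := by
  set y := σ * ζ.im with hy
  have hpos : ∀ s : ℝ, 0 ≤ s → 0 < σ * (ζ + s * (σ * I)).im := by
    intro s hs; rw [pvc_im hσ]; linarith
  -- derivative of `g`
  have hg : ∀ s : ℝ, 0 ≤ s → HasDerivAt (fun s : ℝ => F (ζ + s * (σ * I)) - F ζ)
      (((σ : ℂ) * I) • deriv F (ζ + s * (σ * I))) s := by
    intro s hs
    have hp : HasDerivAt (fun s : ℝ => ζ + (s : ℂ) * (σ * I)) ((σ : ℂ) * I) s := by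
      have := (((hasDerivAt_id s).ofReal_comp).mul_const ((σ : ℂ) * I)).const_add ζ
      simpa using this
    have := HasDerivAt.scomp s (hF _ (hpos s hs)).hasDerivAt hp
    exact this.sub_const (F ζ)
  have hB : ∀ s : ℝ, 0 ≤ s → HasDerivAt (fun s : ℝ => K * ((y + s) ^ α - y ^ α) / α)
      (K * (y + s) ^ (α - 1)) s := by
    intro s hs
    have h2 : HasDerivAt (fun s : ℝ => y + s) 1 s := (hasDerivAt_id s).const_add y
    have h3 := (h2.rpow_const (p := α) (Or.inl (by linarith : y + s ≠ 0)))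
    have h4 := ((h3.sub_const (y ^ α)).const_mul K).div_const α
    have e : K * (y + s) ^ (α - 1) = K * (1 * α * (y + s) ^ (α - 1)) / α := by
      field_simp
    rw [e]
    exact h4
  have key := image_norm_le_of_norm_deriv_right_le_deriv_boundary'
    (f := fun s : ℝ => F (ζ + s * (σ * I)) - F ζ) (a := 0) (b := d)
    (f' := fun s => ((σ : ℂ) * I) • deriv F (ζ + s * (σ * I)))
    (B := fun s : ℝ => K * ((y + s) ^ α - y ^ α) / α) (B' := fun s => K * (y + s) ^ (α - 1))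
    (fun s hs => (hg s hs.1).continuousAt.continuousWithinAt)
    (fun s hs => (hg s hs.1).hasDerivWithinAt)
    (by simp)
    (fun s hs => (hB s hs.1).continuousAt.continuousWithinAt)
    (fun s hs => (hB s hs.1).hasDerivWithinAt)
    (fun s hs => by
      rw [norm_smul, pvc_norm_e hσ, one_mul]
      have := hd _ (hpos s hs.1)
      rwa [pvc_im hσ] at this)
    (Set.right_mem_Icc.2 hd0)
  refine key.trans ?_
  have h5 := Real.rpow_add_le_add_rpow hζ.le hd0 h0.le h1.le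
  refine div_le_div_of_nonneg_right (mul_le_mul_of_nonneg_left ?_ hK) h0.le
  linarith

theorem pv_hardy_littlewood {F : ℂ → ℂ} {K α σ : ℝ} (hσ : σ = 1 ∨ σ = -1) (h0 : 0 < α) (h1 : α < 1)
    (hK : 0 ≤ K) (hF : ∀ ζ : ℂ, 0 < σ * ζ.im → DifferentiableAt ℂ F ζ)
    (hd : ∀ ζ : ℂ, 0 < σ * ζ.im → ‖deriv F ζ‖ ≤ K * (σ * ζ.im) ^ (α - 1))
    (ζ₁ ζ₂ : ℂ) (h₁ : 0 < σ * ζ₁.im) (h₂ : 0 < σ * ζ₂.im) :
    ‖F ζ₁ - F ζ₂‖ ≤ (2 / α + 1) * K * ‖ζ₁ - ζ₂‖ ^ α := by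
  set d := ‖ζ₁ - ζ₂‖ with hdd
  have hd0 : 0 ≤ d := norm_nonneg _
  rcases hd0.eq_or_lt with hz | hdpos
  · have : ζ₁ = ζ₂ := by
      rw [← sub_eq_zero, ← norm_eq_zero]; exact hz.symm
    rw [this, sub_self, norm_zero]
    have := Real.rpow_nonneg hd0 α
    positivity
  have v1 := pv_hl_vertical hσ h0 h1 hK hF hd ζ₁ h₁ d hd0
  have v2 := pv_hl_vertical hσ h0 h1 hK hF hd ζ₂ h₂ d hd0
  have hconv : Convex ℝ {ζ : ℂ | d ≤ σ * ζ.im} := by
    refine convex_halfSpace_ge (f := fun ζ : ℂ => σ * ζ.im) ⟨?_, ?_⟩ d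
    · intro x y; simp [mul_add]
    · intro c x; simp; ring
  have hhor := hconv.norm_image_sub_le_of_norm_deriv_le (f := F) (C := K * d ^ (α - 1))
    (x := ζ₂ + d * (σ * I)) (y := ζ₁ + d * (σ * I))
    (fun ζ hζ => hF ζ (lt_of_lt_of_le hdpos hζ))
    (fun ζ hζ => (hd ζ (lt_of_lt_of_le hdpos hζ)).trans (mul_le_mul_of_nonneg_left
      (Real.rpow_le_rpow_of_nonpos hdpos hζ (by linarith)) hK))
    (by show d ≤ _; rw [pvc_im hσ]; linarith) (by show d ≤ _; rw [pvc_im hσ]; linarith)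
  have e1 : ζ₁ + d * (σ * I) - (ζ₂ + d * (σ * I)) = ζ₁ - ζ₂ := by ring
  rw [e1, ← hdd] at hhor
  have e2 : K * d ^ (α - 1) * d = K * d ^ α := by
    rw [mul_assoc, ← Real.rpow_add_one hdpos.ne']
    congr 2; ring
  rw [e2] at hhor
  have tri : ‖F ζ₁ - F ζ₂‖ ≤ ‖F (ζ₁ + d * (σ * I)) - F ζ₁‖
      + ‖F (ζ₁ + d * (σ * I)) - F (ζ₂ + d * (σ * I))‖ + ‖F (ζ₂ + d * (σ * I)) - F ζ₂‖ := by
    have e3 : F ζ₁ - F ζ₂ = -(F (ζ₁ + d * (σ * I)) - F ζ₁)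
        + (F (ζ₁ + d * (σ * I)) - F (ζ₂ + d * (σ * I))) + (F (ζ₂ + d * (σ * I)) - F ζ₂) := by ring
    rw [e3]
    refine (norm_add_le _ _).trans (add_le_add_left ((norm_add_le _ _).trans ?_) _)
    rw [norm_neg]
  have e4 : (2 / α + 1) * K * d ^ α = K * d ^ α / α + K * d ^ α + K * d ^ α / α := by
    field_simp; ring
  rw [e4]
  linarith

end Claimed.Agent.R245
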