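/-
Row 245 / S0484.  Package PV.   Architect: helper246.     Mathlib only, no paper.
PVKer: integrability, derivative of the Cauchy integral, the kernel estimate, `|F'(ζ)| ≤ c A₁ |Im ζ|^(α-1)`.
Leaves:  PV-A = `pv_continuous`, `pv_norm_sub_ge`, `pv_integrable`, `pv_integrable_sq`, `pv_hasDerivAt`;
         PV-B = `pv_integral_inv_sq`, `pv_kernel_bound`, `pv_norm_deriv_le`.

PLANS.
 * `pv_norm_sub_ge`: `|Im ζ| = |Im (t - ζ)| ≤ ‖t - ζ‖` (`Complex.abs_im_le_norm`).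
 * `pv_integrable(_sq)`: the integrand is continuous (denominator `≠ 0`) and vanishes off the compact `Icc a b`: `Continuous.integrable_of_hasCompactSupport`
   (`HasCompactSupport.intro isCompact_Icc`).
 * `pv_hasDerivAt`: `hasDerivAt_integral_of_dominated_loc_of_deriv_le` on `ball ζ (|Im ζ|/2)`, `F' w t = φ t / (t - w)^2`, bound `(Icc a b).indicator (A₀ / (|Im ζ|/2)^2)`.
 * `pv_integral_inv_sq`: `integral_of_hasDerivAt_of_tendsto` with the primitive `t ↦ -1/(t - ζ)`, which tends to `0` at `±∞` (`‖t - ζ‖ ≥ |t - Re ζ|`); integrable: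
   `‖1/(t-ζ)^2‖ = 1/((t-x)^2+y^2)`, compare with `integrable_inv_one_add_sq` after translation/scaling, or `≤ min (1/y²) (1/(t-x)²)`.
 * `pv_kernel_bound`: after the translation `t ↦ t + x` (`integral_add_right_eq_self`/`integral_sub_right_eq_self`): `|s|^α/(s²+y²) ≤ |s|^α/y²` for `|s| ≤ y`, `≤ |s|^(α-2)` for `|s| > y`;
   `∫_{|s|≤y} = 2 y^(α+1)/((α+1) y²)`, `∫_{|s|>y} |s|^(α-2) = 2 y^(α-1)/(1-α)` (`integral_rpow`, `integral_Ioi_rpow_of_lt`, `integrableOn_Ioi_rpow_of_lt`); `c = 2 + 2/(1-α)`.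
   (Alternative: scaling `s = y r` and the finite constant `∫ |r|^α/(1+r²)`.)
 * `pv_norm_deriv_le`: `deriv = (2πi)⁻¹ ∫ φ t/(t-ζ)^2 = (2πi)⁻¹ ∫ (φ t - φ x)/(t-ζ)^2` (`x = Re ζ`, `pv_integral_inv_sq`, `integral_sub`), `‖(t-ζ)^2‖ = (t-x)²+y²` (`Complex.sq_norm`, `normSq_apply`),
   `norm_integral_le_of_norm_le`, `pv_kernel_bound` with `y = |Im ζ|`.
-/
import Claimed.Agent.R245.PVDefs

set_option autoImplicit false

namespace Claimed.Agent.R245

open Complex MeasureTheory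

variable {φ : ℝ → ℂ} {a b A₀ A₁ α : ℝ}

theorem pv_continuous (h : PvData φ a b A₀ A₁ α) : Continuous φ := by
  rw [continuous_iff_continuousAt]
  intro t0
  rw [ContinuousAt, tendsto_iff_norm_sub_tendsto_zero]
  have h1 : Filter.Tendsto (fun t : ℝ => A₁ * |t - t0| ^ α) (nhds t0) (nhds 0) := by
    have hc : Continuous (fun t : ℝ => A₁ * |t - t0| ^ α) :=
      continuous_const.mul (Continuous.rpow_const (by fun_prop) (fun _ => Or.inr h.α_pos.le))
    have := hc.tendsto t0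
    simpa [Real.zero_rpow h.α_pos.ne'] using this
  exact squeeze_zero (fun _ => norm_nonneg _) (fun t => h.hol t t0) h1

theorem pv_norm_sub_ge (t : ℝ) (ζ : ℂ) : |ζ.im| ≤ ‖(t : ℂ) - ζ‖ := by
  have := Complex.abs_im_le_norm ((t : ℂ) - ζ)
  simpa using this

theorem pva_sub_ne {ζ : ℂ} (hζ : ζ.im ≠ 0) (t : ℝ) : (t : ℂ) - ζ ≠ 0 := by
  intro h0
  apply hζ
  have := congrArg Complex.im h0
  simpa using this

theorem pv_integrable (h : PvData φ a b A₀ A₁ α) {ζ : ℂ} (hζ : ζ.im ≠ 0) :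
    Integrable (fun t : ℝ => φ t / ((t : ℂ) - ζ)) := by
  have hc : Continuous (fun t : ℝ => φ t / ((t : ℂ) - ζ)) :=
    (pv_continuous h).div (by fun_prop) (pva_sub_ne hζ)
  exact hc.integrable_of_hasCompactSupport
    (HasCompactSupport.intro (isCompact_Icc (a := a) (b := b)) (fun t ht => by simp [h.supp t ht]))

theorem pv_integrable_sq (h : PvData φ a b A₀ A₁ α) {ζ : ℂ} (hζ : ζ.im ≠ 0) :
    Integrable (fun t : ℝ => φ t / ((t : ℂ) - ζ) ^ 2) := by
  have hc : Continuous (fun t : ℝ => φ t / ((t : ℂ) - ζ) ^ 2) :=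
    (pv_continuous h).div (by fun_prop) (fun t => pow_ne_zero 2 (pva_sub_ne hζ t))
  exact hc.integrable_of_hasCompactSupport
    (HasCompactSupport.intro (isCompact_Icc (a := a) (b := b)) (fun t ht => by simp [h.supp t ht]))

theorem pva_im_of_mem_ball {ζ w : ℂ} (hw : w ∈ Metric.ball ζ (|ζ.im| / 2)) :
    |ζ.im| / 2 ≤ |w.im| := by
  have h1 : ‖w - ζ‖ < |ζ.im| / 2 := by simpa [dist_eq_norm] using hw
  have h2 : |(w - ζ).im| ≤ ‖w - ζ‖ := Complex.abs_im_le_norm _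
  have h3 : |ζ.im| ≤ |w.im| + |(w - ζ).im| := by
    have : ζ.im = w.im - (w - ζ).im := by simp
    calc |ζ.im| = |w.im - (w - ζ).im| := by rw [← this]
      _ ≤ |w.im| + |(w - ζ).im| := abs_sub _ _
  linarith

theorem pv_hasDerivAt (h : PvData φ a b A₀ A₁ α) {ζ : ℂ} (hζ : ζ.im ≠ 0) :
    HasDerivAt (pvC φ) ((2 * (Real.pi : ℂ) * I)⁻¹ * ∫ t : ℝ, φ t / ((t : ℂ) - ζ) ^ 2) ζ := by
  have hpos : 0 < |ζ.im| / 2 := by positivity
  have hA0 : 0 ≤ A₀ := (norm_nonneg _).trans (h.bdd 0)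
  have hne : ∀ w ∈ Metric.ball ζ (|ζ.im| / 2), w.im ≠ 0 := by
    intro w hw h0
    have := pva_im_of_mem_ball hw
    rw [h0, abs_zero] at this
    linarith
  have key := hasDerivAt_integral_of_dominated_loc_of_deriv_le (μ := volume) (𝕜 := ℂ)
    (F := fun (w : ℂ) (t : ℝ) => φ t / ((t : ℂ) - w))
    (F' := fun (w : ℂ) (t : ℝ) => φ t / ((t : ℂ) - w) ^ 2) (x₀ := ζ)
    (s := Metric.ball ζ (|ζ.im| / 2))
    (bound := (Set.Icc a b).indicator (fun _ => A₀ / (|ζ.im| / 2) ^ 2))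
    (Metric.ball_mem_nhds ζ hpos)
    (by
      filter_upwards [Metric.ball_mem_nhds ζ hpos] with w hw
      exact (pv_integrable h (hne w hw)).aestronglyMeasurable)
    (pv_integrable h hζ)
    (pv_integrable_sq h hζ).aestronglyMeasurable
    (by
      refine Filter.Eventually.of_forall (fun t w hw => ?_)
      by_cases ht : t ∈ Set.Icc a b
      · rw [Set.indicator_of_mem ht, norm_div, norm_pow]
        have h1 : |ζ.im| / 2 ≤ ‖(t : ℂ) - w‖ :=
          (pva_im_of_mem_ball hw).trans (pv_norm_sub_ge t w)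
        exact div_le_div₀ hA0 (h.bdd t) (by positivity) (pow_le_pow_left₀ hpos.le h1 2)
      · rw [Set.indicator_of_notMem ht, h.supp t ht]
        simp)
    ((integrable_indicator_iff measurableSet_Icc).2
      (integrableOn_const (by simp) (by simp)))
    (by
      refine Filter.Eventually.of_forall (fun t w hw => ?_)
      have hn : (t : ℂ) - w ≠ 0 := pva_sub_ne (hne w hw) t
      have h1 : HasDerivAt (fun w : ℂ => (t : ℂ) - w) (-1) w := by
        simpa using (hasDerivAt_id w).const_sub (t : ℂ)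
      have h2 := (hasDerivAt_const w (φ t)).div h1 hn
      have e : (0 * ((t : ℂ) - w) - φ t * -1) / ((t : ℂ) - w) ^ 2 = φ t / ((t : ℂ) - w) ^ 2 := by
        congr 1
        ring
      rw [e] at h2
      exact h2)
  have := key.2.const_mul ((2 * (Real.pi : ℂ) * I)⁻¹)
  exact this

theorem pvb_normSq (t : ℝ) (ζ : ℂ) : ‖((t : ℂ) - ζ) ^ 2‖ = (t - ζ.re) ^ 2 + ζ.im ^ 2 := by
  rw [norm_pow, Complex.sq_norm, Complex.normSq_apply]
  simp
  ring

theorem pvb_ne_zero (t : ℝ) {ζ : ℂ} (hζ : ζ.im ≠ 0) : (t : ℂ) - ζ ≠ 0 := by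
  intro h
  have := congrArg Complex.im h
  simp at this
  exact hζ this

theorem pvb_integrable_inv (x : ℝ) {y : ℝ} (hy : y ≠ 0) :
    Integrable (fun t : ℝ => ((t - x) ^ 2 + y ^ 2)⁻¹) := by
  have h1 := ((integrable_inv_one_add_sq.comp_mul_left' (inv_ne_zero hy)).comp_sub_right x).const_mul
    (y ^ 2)⁻¹
  refine h1.congr (Filter.Eventually.of_forall fun t => ?_)
  have hy2 : y ^ 2 ≠ 0 := pow_ne_zero 2 hy
  have h3 : (t - x) ^ 2 + y ^ 2 ≠ 0 := by positivity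
  have h4 : 1 + (y⁻¹ * (t - x)) ^ 2 ≠ 0 := by positivity
  simp only
  field_simp
  ring

theorem pvb_tendsto_cobounded (ζ : ℂ) (l : Filter ℝ) (hl : Filter.Tendsto (fun t : ℝ => |t|) l Filter.atTop) :
    Filter.Tendsto (fun t : ℝ => -((t : ℂ) - ζ)⁻¹) l (nhds 0) := by
  have h1 : Filter.Tendsto (fun t : ℝ => (t : ℂ) - ζ) l (Bornology.cobounded ℂ) := by
    rw [← tendsto_norm_atTop_iff_cobounded]
    have h2 : Filter.Tendsto (fun t : ℝ => |t| - ‖ζ‖) l Filter.atTop :=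
      Filter.tendsto_atTop_add_const_right _ _ hl
    refine Filter.tendsto_atTop_mono (fun t => ?_) h2
    have := norm_sub_norm_le (t : ℂ) ζ
    rwa [Complex.norm_real, Real.norm_eq_abs] at this
  have h3 := (Filter.tendsto_inv₀_cobounded.comp h1).neg
  simpa using h3

theorem pv_integral_inv_sq {ζ : ℂ} (hζ : ζ.im ≠ 0) :
    Integrable (fun t : ℝ => 1 / ((t : ℂ) - ζ) ^ 2) ∧ ∫ t : ℝ, 1 / ((t : ℂ) - ζ) ^ 2 = 0 := by
  have hint : Integrable (fun t : ℝ => 1 / ((t : ℂ) - ζ) ^ 2) := by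
    refine (pvb_integrable_inv ζ.re hζ).mono' ?_ (Filter.Eventually.of_forall fun t => ?_)
    · refine Continuous.aestronglyMeasurable ?_
      refine continuous_const.div (by fun_prop) fun t => pow_ne_zero 2 (pvb_ne_zero t hζ)
    · rw [norm_div, norm_one, pvb_normSq, one_div]
  refine ⟨hint, ?_⟩
  have hder : ∀ t : ℝ, HasDerivAt (fun t : ℝ => -((t : ℂ) - ζ)⁻¹) (1 / ((t : ℂ) - ζ) ^ 2) t := by
    intro t
    have hp : HasDerivAt (fun s : ℝ => (s : ℂ) - ζ) 1 t := by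
      have := ((hasDerivAt_id t).ofReal_comp).sub_const ζ
      simpa using this
    have h2 := (HasDerivAt.scomp t (hasDerivAt_inv (pvb_ne_zero t hζ)) hp).neg
    have e : 1 / ((t : ℂ) - ζ) ^ 2 = -((1 : ℂ) • -(((t : ℂ) - ζ) ^ 2)⁻¹) := by
      simp
    rw [e]
    exact h2
  have := integral_of_hasDerivAt_of_tendsto hder hint
    (pvb_tendsto_cobounded ζ _ Filter.tendsto_abs_atBot_atTop)
    (pvb_tendsto_cobounded ζ _ Filter.tendsto_abs_atTop_atTop)
  simpa using this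

/-- the normalised kernel. -/
noncomputable def pvbK (α : ℝ) (r : ℝ) : ℝ := |r| ^ α / (1 + r ^ 2)

theorem pvbK_nonneg (α r : ℝ) : 0 ≤ pvbK α r := by
  unfold pvbK
  have := Real.rpow_nonneg (abs_nonneg r) α
  positivity

theorem pvbK_integrable {α : ℝ} (h0 : 0 < α) (h1 : α < 1) : Integrable (pvbK α) := by
  have hmaj := integrable_rpow_neg_one_add_norm_sq (E := ℝ) (μ := volume) (r := 2 - α)
    (by simp; linarith)
  refine hmaj.mono' ?_ (Filter.Eventually.of_forall fun r => ?_)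
  · refine Continuous.aestronglyMeasurable ?_
    unfold pvbK
    refine Continuous.div (continuous_abs.rpow_const fun _ => Or.inr h0.le) (by fun_prop)
      fun r => by positivity
  · rw [Real.norm_of_nonneg (pvbK_nonneg α r)]
    unfold pvbK
    have hb : (0 : ℝ) < 1 + r ^ 2 := by positivity
    have e1 : |r| ^ α ≤ (1 + r ^ 2) ^ (α / 2) := by
      have : |r| ^ α = (r ^ 2) ^ (α / 2) := by
        rw [← sq_abs, ← Real.rpow_natCast, ← Real.rpow_mul (abs_nonneg r)]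
        congr 1; push_cast; ring
      rw [this]
      exact Real.rpow_le_rpow (sq_nonneg r) (by linarith) (by positivity)
    have e2 : (1 + ‖r‖ ^ 2) ^ (-(2 - α) / 2) = (1 + r ^ 2) ^ (α / 2) / (1 + r ^ 2) := by
      rw [Real.norm_eq_abs, sq_abs]
      have : -(2 - α) / 2 = α / 2 - 1 := by ring
      rw [this, Real.rpow_sub_one hb.ne']
    rw [e2]
    exact div_le_div_of_nonneg_right e1 hb.le

theorem pvb_kernel_eq {α : ℝ} (x : ℝ) {y : ℝ} (hy : 0 < y) (t : ℝ) :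
    |t - x| ^ α / ((t - x) ^ 2 + y ^ 2) = y ^ (α - 2) * pvbK α ((t - x) / y) := by
  unfold pvbK
  rw [abs_div, abs_of_pos hy, Real.div_rpow (abs_nonneg _) hy.le, Real.rpow_sub hy, Real.rpow_two]
  have h1 : 0 < y ^ α := Real.rpow_pos_of_pos hy α
  have h3 : (t - x) ^ 2 + y ^ 2 ≠ 0 := by positivity
  have h4 : 1 + ((t - x) / y) ^ 2 ≠ 0 := by positivity
  field_simp
  ring

theorem pv_kernel_bound {α : ℝ} (h0 : 0 < α) (h1 : α < 1) : ∃ c : ℝ, 0 < c ∧ ∀ x y : ℝ, 0 < y →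
    Integrable (fun t : ℝ => |t - x| ^ α / ((t - x) ^ 2 + y ^ 2)) ∧
      ∫ t : ℝ, |t - x| ^ α / ((t - x) ^ 2 + y ^ 2) ≤ c * y ^ (α - 1) := by
  have hK := pvbK_integrable h0 h1
  have hc0 : 0 ≤ ∫ r, pvbK α r := integral_nonneg (pvbK_nonneg α)
  refine ⟨(∫ r, pvbK α r) + 1, by linarith, fun x y hy => ?_⟩
  have e : (fun t : ℝ => |t - x| ^ α / ((t - x) ^ 2 + y ^ 2))
      = fun t => y ^ (α - 2) * pvbK α ((t - x) / y) := funext (pvb_kernel_eq x hy)
  rw [e]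
  refine ⟨((hK.comp_div hy.ne').comp_sub_right x).const_mul _, ?_⟩
  rw [integral_const_mul, integral_sub_right_eq_self (fun t => pvbK α (t / y)) x,
    Measure.integral_comp_div, abs_of_pos hy, smul_eq_mul, ← mul_assoc]
  have e2 : y ^ (α - 2) * y = y ^ (α - 1) := by
    rw [← Real.rpow_add_one hy.ne']; congr 1; ring
  rw [e2, mul_comm]
  exact mul_le_mul_of_nonneg_right (by linarith) (Real.rpow_nonneg hy.le _)

theorem pv_norm_deriv_le {α : ℝ} (h0 : 0 < α) (h1 : α < 1) : ∃ c : ℝ, 0 < c ∧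
    ∀ (φ : ℝ → ℂ) (a b A₀ A₁ : ℝ), PvData φ a b A₀ A₁ α → ∀ ζ : ℂ, ζ.im ≠ 0 →
      ‖deriv (pvC φ) ζ‖ ≤ c * A₁ * |ζ.im| ^ (α - 1) := by
  obtain ⟨c, hc, H⟩ := pv_kernel_bound h0 h1
  refine ⟨c, hc, fun φ a b A₀ A₁ h ζ hζ => ?_⟩
  have hy : 0 < |ζ.im| := abs_pos.2 hζ
  obtain ⟨hKi, hKb⟩ := H ζ.re |ζ.im| hy
  have hA₁ : 0 ≤ A₁ := by
    have := (norm_nonneg _).trans (h.hol 1 0)
    simpa using this
  rw [(pv_hasDerivAt h hζ).deriv, norm_mul]
  obtain ⟨hi, hz⟩ := pv_integral_inv_sq hζ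
  have e1 : ∫ t : ℝ, φ t / ((t : ℂ) - ζ) ^ 2 = ∫ t : ℝ, (φ t - φ ζ.re) / ((t : ℂ) - ζ) ^ 2 := by
    have e2 : (fun t : ℝ => (φ t - φ ζ.re) / ((t : ℂ) - ζ) ^ 2)
        = fun t : ℝ => φ t / ((t : ℂ) - ζ) ^ 2 - φ ζ.re * (1 / ((t : ℂ) - ζ) ^ 2) := by
      funext t; ring
    rw [e2, integral_sub (pv_integrable_sq h hζ) (hi.const_mul _), integral_const_mul, hz, mul_zero,
      sub_zero]
  have e3 : ‖∫ t : ℝ, φ t / ((t : ℂ) - ζ) ^ 2‖ ≤ A₁ * (c * |ζ.im| ^ (α - 1)) := by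
    rw [e1]
    calc _ ≤ ∫ t : ℝ, A₁ * (|t - ζ.re| ^ α / ((t - ζ.re) ^ 2 + |ζ.im| ^ 2)) := by
          refine norm_integral_le_of_norm_le (hKi.const_mul A₁) (Filter.Eventually.of_forall fun t => ?_)
          rw [norm_div, pvb_normSq, sq_abs, ← mul_div_assoc]
          exact div_le_div_of_nonneg_right (h.hol t ζ.re) (by positivity)
      _ = A₁ * ∫ t : ℝ, |t - ζ.re| ^ α / ((t - ζ.re) ^ 2 + |ζ.im| ^ 2) := integral_const_mul _ _
      _ ≤ _ := mul_le_mul_of_nonneg_left hKb hA₁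
  have e4 : ‖(2 * (Real.pi : ℂ) * I)⁻¹‖ ≤ 1 := by
    rw [norm_inv, norm_mul, norm_mul, Complex.norm_I, Complex.norm_real, mul_one]
    have hpi : (3 : ℝ) < Real.pi := Real.pi_gt_three
    have : (1 : ℝ) ≤ ‖(2 : ℂ)‖ * ‖Real.pi‖ := by
      rw [Real.norm_of_nonneg Real.pi_pos.le]
      simp
      linarith
    exact inv_le_one_of_one_le₀ this
  have hnn : 0 ≤ A₁ * (c * |ζ.im| ^ (α - 1)) := by
    have := Real.rpow_nonneg hy.le (α - 1)
    positivity
  calc _ ≤ 1 * (A₁ * (c * |ζ.im| ^ (α - 1))) := mul_le_mul e4 e3 (norm_nonneg _) zero_le_one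
    _ = _ := by ring

end Claimed.Agent.R245
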