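/-
Row 245 / S0484.  Package PV: PUBLIC STATEMENTS.   Architect: helper246.     Mathlib only, no paper.
Leaves:  PV-D = `pv_holder`, `pv_far`, `pv_sup`;      PV-E = `pv_poisson`, `pv_jump`.

PLANS.
 * `pv_holder`: `ζ₁.im * ζ₂.im > 0`: both `> 0` (`σ = 1`) or both `< 0` (`σ = -1`); `pv_hardy_littlewood` with `F = pvC φ`, `K = c A₁` (`pv_norm_deriv_le`; `|Im ζ| = σ Im ζ`), differentiability from `pv_hasDerivAt`.
   `A₁ ≥ 0` from `h.hol 0 1`.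
 * `pv_far`: `‖φ t/(t-ζ)‖ ≤ A₀ / |Im ζ|` on `Icc a b`, `0` elsewhere; `norm_integral_le_of_norm_le` / `norm_setIntegral_le_of_norm_le_const`; `‖(2πi)⁻¹‖ ≤ 1`.
 * `pv_sup`: if `|Im ζ| ≥ 1` use `pv_far`; otherwise compare with `ζ' = ζ ± I` (same side, `‖ζ - ζ'‖ = 1`): `pv_holder` + `pv_far`.
 * `pv_poisson`: `∫ y/((t-x)²+y²) dt = π`: `integral_univ_inv_one_add_sq` + `integral_comp_div`/`integral_comp_mul_left` + translation.
 * `pv_jump`: `1/(t-x-iy) - 1/(t-x+iy) = 2 i y/((t-x)²+y²)`; so the difference of the two Cauchy integrals is `π⁻¹ ∫ φ t · y/((t-x)²+y²)`, subtract `φ x = π⁻¹ ∫ φ x · y/(..)` (`pv_poisson`),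
   estimate by `π⁻¹ A₁ y ∫ |t-x|^α/((t-x)²+y²) ≤ π⁻¹ A₁ c y^α` (`pv_kernel_bound`, `y * y^(α-1) = y^α`).
-/
import Claimed.Agent.R245.PVKer
import Claimed.Agent.R245.PVHL

set_option autoImplicit false

namespace Claimed.Agent.R245

open Complex MeasureTheory

theorem pvd_A1_nonneg {φ : ℝ → ℂ} {a b A₀ A₁ α : ℝ} (h : PvData φ a b A₀ A₁ α) : 0 ≤ A₁ := by
  have := h.hol 0 1
  simp at this
  exact (norm_nonneg _).trans this

/-- **Privalov**: Hölder continuity of the Cauchy integral on each open half plane, uniformly up to the boundary. -/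
theorem pv_holder {α : ℝ} (h0 : 0 < α) (h1 : α < 1) : ∃ c : ℝ, 0 < c ∧
    ∀ (φ : ℝ → ℂ) (a b A₀ A₁ : ℝ), PvData φ a b A₀ A₁ α → ∀ ζ₁ ζ₂ : ℂ, 0 < ζ₁.im * ζ₂.im →
      ‖pvC φ ζ₁ - pvC φ ζ₂‖ ≤ c * A₁ * ‖ζ₁ - ζ₂‖ ^ α := by
  obtain ⟨c, hc, hd⟩ := pv_norm_deriv_le h0 h1
  refine ⟨(2 / α + 1) * c, by positivity, ?_⟩
  intro φ a b A₀ A₁ h ζ₁ ζ₂ hpos
  have hA1 : 0 ≤ A₁ := pvd_A1_nonneg h
  obtain ⟨σ, hσ, hs1, hs2⟩ : ∃ σ : ℝ, (σ = 1 ∨ σ = -1) ∧ 0 < σ * ζ₁.im ∧ 0 < σ * ζ₂.im := by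
    rcases mul_pos_iff.1 hpos with ⟨h1, h2⟩ | ⟨h1, h2⟩
    · exact ⟨1, Or.inl rfl, by simpa using h1, by simpa using h2⟩
    · exact ⟨-1, Or.inr rfl, by simpa using h1, by simpa using h2⟩
  have habs : ∀ ζ : ℂ, 0 < σ * ζ.im → |ζ.im| = σ * ζ.im ∧ ζ.im ≠ 0 := by
    intro ζ hζ
    rcases hσ with rfl | rfl
    · have : 0 < ζ.im := by simpa using hζ
      exact ⟨by rw [abs_of_pos this, one_mul], this.ne'⟩
    · have : ζ.im < 0 := by simpa using hζ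
      exact ⟨by rw [abs_of_neg this]; ring, this.ne⟩
  have := pv_hardy_littlewood (F := pvC φ) (K := c * A₁) hσ h0 h1 (by positivity)
    (fun ζ hζ => (pv_hasDerivAt h (habs ζ hζ).2).differentiableAt)
    (fun ζ hζ => by rw [← (habs ζ hζ).1]; exact hd φ a b A₀ A₁ h ζ (habs ζ hζ).2) ζ₁ ζ₂ hs1 hs2
  calc _ ≤ _ := this
    _ = _ := by ring

theorem pvd_norm_const : ‖(2 * (Real.pi : ℂ) * I)⁻¹‖ ≤ 1 := by
  rw [norm_inv, norm_mul, norm_mul, Complex.norm_I, Complex.norm_real, mul_one]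
  have h3 : (3 : ℝ) < Real.pi := Real.pi_gt_three
  have : (1 : ℝ) ≤ ‖(2 : ℂ)‖ * ‖Real.pi‖ := by
    rw [Real.norm_of_nonneg Real.pi_pos.le]
    simp
    linarith
  exact inv_le_one_of_one_le₀ this

theorem pv_far {φ : ℝ → ℂ} {a b A₀ A₁ α : ℝ} (h : PvData φ a b A₀ A₁ α) {ζ : ℂ} (hζ : ζ.im ≠ 0) :
    ‖pvC φ ζ‖ ≤ A₀ * (b - a) / |ζ.im| := by
  have hA0 : 0 ≤ A₀ := (norm_nonneg _).trans (h.bdd 0)
  have hpos : 0 < |ζ.im| := abs_pos.2 hζ
  have e1 : ∫ t : ℝ, φ t / ((t : ℂ) - ζ) = ∫ t in Set.Icc a b, φ t / ((t : ℂ) - ζ) := by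
    symm
    apply setIntegral_eq_integral_of_forall_compl_eq_zero
    intro t ht
    simp [h.supp t ht]
  have e2 : ‖∫ t in Set.Icc a b, φ t / ((t : ℂ) - ζ)‖ ≤ A₀ / |ζ.im| * volume.real (Set.Icc a b) := by
    apply norm_setIntegral_le_of_norm_le_const (by simp)
    intro t _
    rw [norm_div]
    exact div_le_div₀ hA0 (h.bdd t) hpos (pv_norm_sub_ge t ζ)
  rw [Real.volume_real_Icc_of_le h.hab] at e2
  unfold pvC
  rw [norm_mul, e1]
  calc _ ≤ 1 * (A₀ / |ζ.im| * (b - a)) :=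
        mul_le_mul pvd_norm_const e2 (norm_nonneg _) zero_le_one
    _ = _ := by ring

/-- sup bound of the Cauchy integral. -/
theorem pv_sup {α : ℝ} (h0 : 0 < α) (h1 : α < 1) : ∃ c : ℝ, 0 < c ∧
    ∀ (φ : ℝ → ℂ) (a b A₀ A₁ : ℝ), PvData φ a b A₀ A₁ α → ∀ ζ : ℂ, ζ.im ≠ 0 →
      ‖pvC φ ζ‖ ≤ c * (A₀ * (b - a) + A₁) := by
  obtain ⟨c, hc, hh⟩ := pv_holder h0 h1
  refine ⟨c + 1, by positivity, ?_⟩
  intro φ a b A₀ A₁ h ζ hζ
  have hA0 : 0 ≤ A₀ := (norm_nonneg _).trans (h.bdd 0)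
  have hA1 : 0 ≤ A₁ := pvd_A1_nonneg h
  have hba : 0 ≤ b - a := sub_nonneg.2 h.hab
  obtain ⟨σ, hσ, hs⟩ : ∃ σ : ℝ, |σ| = 1 ∧ |ζ.im| = σ * ζ.im := by
    rcases lt_or_gt_of_ne hζ with h | h
    · exact ⟨-1, by simp, by rw [abs_of_neg h]; ring⟩
    · exact ⟨1, by simp, by rw [abs_of_pos h]; ring⟩
  have hσ2 : σ * σ = 1 := by
    have := abs_mul_abs_self σ
    rw [hσ] at this
    linarith
  have hpos : 0 < |ζ.im| := abs_pos.2 hζ
  set ζ' : ℂ := ζ + σ * I with hζ'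
  have him : ζ'.im = ζ.im + σ := by simp [hζ']
  have him2 : σ * ζ'.im = |ζ.im| + 1 := by rw [him, hs]; linear_combination hσ2
  have habs : |ζ'.im| = |ζ.im| + 1 := by
    have : |σ * ζ'.im| = |ζ.im| + 1 := by rw [him2]; exact abs_of_pos (by positivity)
    rwa [abs_mul, hσ, one_mul] at this
  have hne : ζ'.im ≠ 0 := by
    intro h0
    rw [h0, abs_zero] at habs
    linarith
  have hprod : 0 < ζ.im * ζ'.im := by
    have : ζ.im * ζ'.im = (σ * ζ.im) * (σ * ζ'.im) := by linear_combination (-(ζ.im * ζ'.im)) * hσ2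
    rw [this, ← hs, him2]
    positivity
  have b1 := hh φ a b A₀ A₁ h ζ ζ' hprod
  have hn : ‖ζ - ζ'‖ = 1 := by
    have : ζ - ζ' = -((σ : ℂ) * I) := by rw [hζ']; ring
    rw [this, norm_neg, norm_mul, Complex.norm_I, Complex.norm_real, Real.norm_eq_abs, hσ, one_mul]
  rw [hn, Real.one_rpow, mul_one] at b1
  have b2 := pv_far h hne
  have b3 : A₀ * (b - a) / |ζ'.im| ≤ A₀ * (b - a) := by
    apply div_le_self (by positivity)
    rw [habs]; linarith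
  have b4 : ‖pvC φ ζ‖ ≤ ‖pvC φ ζ - pvC φ ζ'‖ + ‖pvC φ ζ'‖ := by
    have := norm_add_le (pvC φ ζ - pvC φ ζ') (pvC φ ζ')
    simpa using this
  have : 0 ≤ c * (A₀ * (b - a)) := by positivity
  nlinarith

theorem pv_poisson (x : ℝ) {y : ℝ} (hy : 0 < y) :
    Integrable (fun t : ℝ => y / ((t - x) ^ 2 + y ^ 2)) ∧
      ∫ t : ℝ, y / ((t - x) ^ 2 + y ^ 2) = Real.pi := by
  have e : (fun t : ℝ => y / ((t - x) ^ 2 + y ^ 2))
      = fun t : ℝ => y⁻¹ * (fun s : ℝ => (fun r : ℝ => (1 + r ^ 2)⁻¹) (s / y)) (t - x) := by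
    funext t
    have : (t - x) ^ 2 + y ^ 2 ≠ 0 := by positivity
    have h2 : 1 + ((t - x) / y) ^ 2 ≠ 0 := by positivity
    field_simp
    ring
  rw [e]
  constructor
  · exact ((integrable_inv_one_add_sq.comp_div hy.ne').comp_sub_right x).const_mul _
  · rw [integral_const_mul,
      integral_sub_right_eq_self (fun s : ℝ => (fun r : ℝ => (1 + r ^ 2)⁻¹) (s / y)) x,
      Measure.integral_comp_div (fun r : ℝ => (1 + r ^ 2)⁻¹) y, integral_univ_inv_one_add_sq, abs_of_pos hy, smul_eq_mul]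
    field_simp

/-- **Plemelj**: the jump of the Cauchy integral across the real line, with a rate. -/
theorem pv_jump {α : ℝ} (h0 : 0 < α) (h1 : α < 1) : ∃ c : ℝ, 0 < c ∧
    ∀ (φ : ℝ → ℂ) (a b A₀ A₁ : ℝ), PvData φ a b A₀ A₁ α → ∀ x y : ℝ, 0 < y →
      ‖pvC φ ((x : ℂ) + y * I) - pvC φ ((x : ℂ) - y * I) - φ x‖ ≤ c * A₁ * y ^ α := by
  obtain ⟨c, hc, hk⟩ := pv_kernel_bound h0 h1
  refine ⟨Real.pi⁻¹ * c, by positivity, ?_⟩
  intro φ a b A₀ A₁ h x y hy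
  have hA1 : 0 ≤ A₁ := pvd_A1_nonneg h
  obtain ⟨hPi, hP⟩ := pv_poisson x hy
  obtain ⟨hKi, hK⟩ := hk x y hy
  have him1 : ((x : ℂ) + y * I).im ≠ 0 := by simp [hy.ne']
  have him2 : ((x : ℂ) - y * I).im ≠ 0 := by simp [hy.ne']
  have i1 := pv_integrable h him1
  have i2 := pv_integrable h him2
  -- the Poisson kernel, complex valued
  have hPc : Integrable (fun t : ℝ => ((y / ((t - x) ^ 2 + y ^ 2) : ℝ) : ℂ)) := hPi.ofReal
  have hPv : ∫ t : ℝ, ((y / ((t - x) ^ 2 + y ^ 2) : ℝ) : ℂ) = (Real.pi : ℂ) := by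
    rw [integral_complex_ofReal, hP]
  have hpi : (Real.pi : ℂ) ≠ 0 := by exact_mod_cast Real.pi_ne_zero
  have ek : ∀ t : ℝ, φ t / ((t : ℂ) - ((x : ℂ) + y * I)) - φ t / ((t : ℂ) - ((x : ℂ) - y * I))
      = (2 * I) * (φ t * ((y / ((t - x) ^ 2 + y ^ 2) : ℝ) : ℂ)) := by
    intro t
    have n1 := pva_sub_ne him1 t
    have n2 := pva_sub_ne him2 t
    have n3 : (((t - x) ^ 2 + y ^ 2 : ℝ) : ℂ) ≠ 0 := by
      have : (t - x) ^ 2 + y ^ 2 ≠ 0 := by positivity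
      exact_mod_cast this
    have e3 : (((t - x) ^ 2 + y ^ 2 : ℝ) : ℂ)
        = ((t : ℂ) - ((x : ℂ) + y * I)) * ((t : ℂ) - ((x : ℂ) - y * I)) := by
      push_cast
      linear_combination ((y : ℂ) ^ 2) * Complex.I_sq
    rw [Complex.ofReal_div, e3]
    field_simp
    ring
  have main : pvC φ ((x : ℂ) + y * I) - pvC φ ((x : ℂ) - y * I) - φ x
      = (Real.pi : ℂ)⁻¹ * ∫ t : ℝ, (φ t - φ x) * ((y / ((t - x) ^ 2 + y ^ 2) : ℝ) : ℂ) := by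
    have iφ : Integrable (fun t : ℝ => φ t * ((y / ((t - x) ^ 2 + y ^ 2) : ℝ) : ℂ)) := by
      have := (i1.sub i2).const_mul ((2 * I)⁻¹)
      refine this.congr (Filter.Eventually.of_forall (fun t => ?_))
      simp only [Pi.sub_apply]
      rw [ek t]
      have : (2 * I : ℂ) ≠ 0 := by simp
      field_simp
    have s1 : ∫ t : ℝ, (φ t - φ x) * ((y / ((t - x) ^ 2 + y ^ 2) : ℝ) : ℂ)
        = (∫ t : ℝ, φ t * ((y / ((t - x) ^ 2 + y ^ 2) : ℝ) : ℂ)) - φ x * Real.pi := by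
      rw [← hPv, ← integral_const_mul, ← integral_sub iφ (hPc.const_mul _)]
      congr 1
      funext t
      ring
    have s2 : (∫ t : ℝ, φ t / ((t : ℂ) - ((x : ℂ) + y * I)))
        - ∫ t : ℝ, φ t / ((t : ℂ) - ((x : ℂ) - y * I))
        = (2 * I) * ∫ t : ℝ, φ t * ((y / ((t - x) ^ 2 + y ^ 2) : ℝ) : ℂ) := by
      rw [← integral_sub i1 i2, ← integral_const_mul]
      congr 1
      funext t
      exact ek t
    unfold pvC
    rw [s1, ← mul_sub, s2]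
    have : (I : ℂ) ≠ 0 := Complex.I_ne_zero
    field_simp
  rw [main, norm_mul, norm_inv, Complex.norm_real, Real.norm_of_nonneg Real.pi_pos.le]
  have bd : ‖∫ t : ℝ, (φ t - φ x) * ((y / ((t - x) ^ 2 + y ^ 2) : ℝ) : ℂ)‖
      ≤ ∫ t : ℝ, A₁ * y * (|t - x| ^ α / ((t - x) ^ 2 + y ^ 2)) := by
    apply norm_integral_le_of_norm_le (hKi.const_mul _)
    refine Filter.Eventually.of_forall (fun t => ?_)
    have hp : 0 < (t - x) ^ 2 + y ^ 2 := by positivity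
    rw [norm_mul, Complex.norm_real, Real.norm_of_nonneg (by positivity)]
    calc ‖φ t - φ x‖ * (y / ((t - x) ^ 2 + y ^ 2))
        ≤ (A₁ * |t - x| ^ α) * (y / ((t - x) ^ 2 + y ^ 2)) :=
          mul_le_mul_of_nonneg_right (h.hol t x) (by positivity)
      _ = _ := by ring
  rw [integral_const_mul] at bd
  have e5 : y * y ^ (α - 1) = y ^ α := by
    rw [Real.rpow_sub_one hy.ne']
    field_simp
  calc Real.pi⁻¹ * ‖∫ t : ℝ, (φ t - φ x) * ((y / ((t - x) ^ 2 + y ^ 2) : ℝ) : ℂ)‖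
      ≤ Real.pi⁻¹ * (A₁ * y * (c * y ^ (α - 1))) := by
        apply mul_le_mul_of_nonneg_left _ (by positivity)
        exact bd.trans (mul_le_mul_of_nonneg_left hK (by positivity))
    _ = Real.pi⁻¹ * c * A₁ * (y * y ^ (α - 1)) := by ring
    _ = _ := by rw [e5]

end Claimed.Agent.R245
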