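/-
Row 245 / S0484.  Package LT (Lemma 4.4 of the paper: additive splitting at a real interface).   Architect: helper246.
LTDefs: definitions.   Space `Cn (N+1) = Fin (N+1) → ℂ` (sup norm), normal coordinate `z 0`, interface `M = {Im z 0 = 0}`.
-/
import Claimed.Agent.R245.DB
import Claimed.Agent.R245.PV
import Claimed.Agent.R245.SCV

set_option autoImplicit false

namespace Claimed.Agent.R245

open Claimed.Agent.R242 (Cn dz dzb levi PshOn)
open Complex MeasureTheory

variable {N : ℕ}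

/-- replace the normal coordinate `z 0` by the real number `t`. -/
noncomputable def ltUp (z : Cn (N + 1)) (t : ℝ) : Cn (N + 1) := Function.update z 0 (t : ℂ)

/-- `f` is bounded by `A` and Hölder continuous with exponent `α` and constant `A` on `S`. -/
def LtHol {E : Type*} [NormedAddCommGroup E] (S : Set E) (f : E → ℂ) (A α : ℝ) : Prop :=
  (∀ z ∈ S, ‖f z‖ ≤ A) ∧ ∀ z ∈ S, ∀ z' ∈ S, ‖f z - f z'‖ ≤ A * ‖z - z'‖ ^ α

/-- `u` is a CR function on `D ∩ M`: holomorphic in the variables `z 1, …, z N` on every slice `z 0 = t`, `t` real. -/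
def LtCR (D : Set (Cn (N + 1))) (u : Cn (N + 1) → ℂ) : Prop :=
  ∀ t : ℝ, DifferentiableOn ℂ (fun z => u (ltUp z t)) {z | ltUp z t ∈ D}

/-- the data of the jump problem: a Hölder CR function on `D ∩ M`. -/
structure LtData (D : Set (Cn (N + 1))) (u : Cn (N + 1) → ℂ) (A α : ℝ) : Prop where
  A_nonneg : 0 ≤ A
  hol : LtHol (D ∩ {z | (z 0).im = 0}) u A α
  cr : LtCR D u

/-- the Cauchy integral of `ψ u` along the real line of the coordinate `z 0`. -/
noncomputable def ltK (u : Cn (N + 1) → ℂ) (ψ : ℝ → ℝ) (z : Cn (N + 1)) : ℂ :=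
  pvC (fun t => (ψ t : ℂ) * u (ltUp z t)) (z 0)

theorem lt_defs_eqns_cite : (@ltUp.eq_1 = @ltUp.eq_1) ∧ (@LtHol.eq_1 = @LtHol.eq_1) ∧
    (@LtCR.eq_1 = @LtCR.eq_1) ∧ (@ltK.eq_1 = @ltK.eq_1) := ⟨rfl, rfl, rfl, rfl⟩

end Claimed.Agent.R245
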