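/-
Row 245 / S0484.  Package LT.   Architect: helper246.     Mathlib only (+ R242 `dzb`), no paper.
LTCut: the explicit cut-off functions, built from `σ = Real.smoothTransition` (`σ x = 0` for `x ≤ 0`, `σ x = 1` for `x ≥ 1`, monotone, smooth).
     `ltChi x = σ (5 - x) σ (5 + x)`   (`= 1` on `|x| ≤ 4`, `= 0` on `|x| ≥ 5`),
     `ltKap y = σ (2 - y) σ (2 + y)`   (`= 1` on `|y| ≤ 1`, `= 0` on `|y| ≥ 2`),
     `ltTh  x = σ (x + 1) - σ x`       (`≥ 0`, `= 0` on `|x| ≥ 1`, `∑_k ltTh (y - k)` telescopes).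
Leaves:  LT-CUT-A = section `Real` (one real variable);      LT-CUT-B = section `Part` (the partition of unity on `Cn (N+1)`).

HINTS (A).  `Real.smoothTransition.zero_of_nonpos`, `.one_of_one_le`, `.nonneg`, `.le_one`, `.contDiff`, monotonicity: `Real.smoothTransition.monotone` if present, otherwise from
  the formula; bounded derivative: `Claimed.Agent.R242.hor_deriv_smoothTransition_bdd` (R242/SCV/HorReal.lean, PROVED; import it) ⇒ `σ` is Lipschitz (`lipschitzWith_of_nnnorm_deriv_le` / mean value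
  `Convex.norm_image_sub_le_of_norm_deriv_le`); products of functions with values in `[0,1]`: `|f g - f' g'| ≤ |f - f'| + |g - g'|`.
  Telescoping: `Finset.sum_range_sub'` with `f k = σ (y - k + 1)`.
HINTS (B).  `z ↦ (z 0).re`, `(z 0).im` are continuous ℝ-linear (`Complex.reCLM.comp (ContinuousLinearMap.proj 0)` after `restrictScalars`), `|(z 0).re - (z' 0).re| ≤ ‖z - z'‖` (`norm_le_pi_norm`, `Complex.abs_re_le_norm`).
  `tsupport`: the function vanishes off the CLOSED set on the right (`closure_minimal`).   `dzb` bound: `Θ` is Lipschitz with constant `2 Λ / s`, so `‖fderiv ℝ Θ z‖ ≤ 2 Λ / s` (`norm_fderiv_le_of_lipschitz`),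
  `fderiv ℝ (fun y => (Θ y : ℂ)) z v = (fderiv ℝ Θ z v : ℂ)` (Θ differentiable), `‖Pi.single j 1‖ = ‖Pi.single j I‖ = 1`, `dzb j g z = (Dg e_j + i Dg (i e_j))/2`.
-/
import Claimed.Agent.R245.LTDefs
import Claimed.Agent.R242.SCV.HorReal

set_option autoImplicit false

namespace Claimed.Agent.R245

open Claimed.Agent.R242 (Cn dz dzb levi PshOn)
open Complex MeasureTheory
open scoped ContDiff

noncomputable def ltChi (x : ℝ) : ℝ := Real.smoothTransition (5 - x) * Real.smoothTransition (5 + x)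
noncomputable def ltKap (y : ℝ) : ℝ := Real.smoothTransition (2 - y) * Real.smoothTransition (2 + y)
noncomputable def ltTh (x : ℝ) : ℝ := Real.smoothTransition (x + 1) - Real.smoothTransition x

section Real

theorem ltChi_contDiff : ContDiff ℝ ∞ ltChi := by
  unfold ltChi
  exact (Real.smoothTransition.contDiff.comp (contDiff_const.sub contDiff_id)).mul
    (Real.smoothTransition.contDiff.comp (contDiff_const.add contDiff_id))

theorem ltKap_contDiff : ContDiff ℝ ∞ ltKap := by
  unfold ltKap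
  exact (Real.smoothTransition.contDiff.comp (contDiff_const.sub contDiff_id)).mul
    (Real.smoothTransition.contDiff.comp (contDiff_const.add contDiff_id))

theorem ltTh_contDiff : ContDiff ℝ ∞ ltTh := by
  unfold ltTh
  exact (Real.smoothTransition.contDiff.comp (contDiff_id.add contDiff_const)).sub
    Real.smoothTransition.contDiff

theorem ltChi_mem (x : ℝ) : 0 ≤ ltChi x ∧ ltChi x ≤ 1 := by
  unfold ltChi
  exact ⟨mul_nonneg (Real.smoothTransition.nonneg _) (Real.smoothTransition.nonneg _),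
    mul_le_one₀ (Real.smoothTransition.le_one _) (Real.smoothTransition.nonneg _)
      (Real.smoothTransition.le_one _)⟩

theorem ltKap_mem (y : ℝ) : 0 ≤ ltKap y ∧ ltKap y ≤ 1 := by
  unfold ltKap
  exact ⟨mul_nonneg (Real.smoothTransition.nonneg _) (Real.smoothTransition.nonneg _),
    mul_le_one₀ (Real.smoothTransition.le_one _) (Real.smoothTransition.nonneg _)
      (Real.smoothTransition.le_one _)⟩

theorem ltTh_mem (x : ℝ) : 0 ≤ ltTh x ∧ ltTh x ≤ 1 := by
  unfold ltTh
  have h1 : Real.smoothTransition x ≤ Real.smoothTransition (x + 1) :=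
    Real.smoothTransition.monotone (by linarith)
  have h2 := Real.smoothTransition.le_one (x + 1)
  have h3 := Real.smoothTransition.nonneg x
  constructor <;> linarith

theorem ltChi_eq_one {x : ℝ} (hx : |x| ≤ 4) : ltChi x = 1 := by
  obtain ⟨h1, h2⟩ := abs_le.1 hx
  unfold ltChi
  rw [Real.smoothTransition.one_of_one_le (by linarith),
    Real.smoothTransition.one_of_one_le (by linarith), mul_one]

theorem ltChi_eq_zero {x : ℝ} (hx : 5 ≤ |x|) : ltChi x = 0 := by
  unfold ltChi
  rcases le_abs.1 hx with h | h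
  · rw [Real.smoothTransition.zero_of_nonpos (by linarith : 5 - x ≤ 0), zero_mul]
  · rw [Real.smoothTransition.zero_of_nonpos (by linarith : 5 + x ≤ 0), mul_zero]

theorem ltKap_eq_one {y : ℝ} (hy : |y| ≤ 1) : ltKap y = 1 := by
  obtain ⟨h1, h2⟩ := abs_le.1 hy
  unfold ltKap
  rw [Real.smoothTransition.one_of_one_le (by linarith),
    Real.smoothTransition.one_of_one_le (by linarith), mul_one]

theorem ltKap_eq_zero {y : ℝ} (hy : 2 ≤ |y|) : ltKap y = 0 := by
  unfold ltKap
  rcases le_abs.1 hy with h | h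
  · rw [Real.smoothTransition.zero_of_nonpos (by linarith : 2 - y ≤ 0), zero_mul]
  · rw [Real.smoothTransition.zero_of_nonpos (by linarith : 2 + y ≤ 0), mul_zero]

theorem ltTh_eq_zero {x : ℝ} (hx : 1 ≤ |x|) : ltTh x = 0 := by
  unfold ltTh
  rcases le_abs.1 hx with h | h
  · rw [Real.smoothTransition.one_of_one_le (by linarith),
      Real.smoothTransition.one_of_one_le h, sub_self]
  · rw [Real.smoothTransition.zero_of_nonpos (by linarith),
      Real.smoothTransition.zero_of_nonpos (by linarith), sub_self]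

theorem ltca_sigma_lipschitz : ∃ Θ : ℝ, 0 ≤ Θ ∧ ∀ x x' : ℝ,
    |Real.smoothTransition x - Real.smoothTransition x'| ≤ Θ * |x - x'| := by
  obtain ⟨Θ, hΘ, hb⟩ := Claimed.Agent.R242.hor_deriv_smoothTransition_bdd
  refine ⟨Θ, hΘ, fun x x' => ?_⟩
  have hd : Differentiable ℝ Real.smoothTransition :=
    (Real.smoothTransition.contDiff (n := 1)).differentiable (by simp)
  have := Convex.norm_image_sub_le_of_norm_deriv_le (f := Real.smoothTransition) (s := Set.univ)
    (C := Θ) (fun y _ => hd y) (fun y _ => by simpa using hb y) convex_univ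
    (Set.mem_univ x') (Set.mem_univ x)
  simpa [Real.norm_eq_abs] using this

theorem ltca_mul_sub {f g f' g' : ℝ} (hg : |g| ≤ 1) (hf' : |f'| ≤ 1) :
    |f * g - f' * g'| ≤ |f - f'| + |g - g'| := by
  have e : f * g - f' * g' = (f - f') * g + f' * (g - g') := by ring
  rw [e]
  calc |(f - f') * g + f' * (g - g')| ≤ |(f - f') * g| + |f' * (g - g')| := abs_add_le _ _
    _ = |f - f'| * |g| + |f'| * |g - g'| := by rw [abs_mul, abs_mul]
    _ ≤ |f - f'| * 1 + 1 * |g - g'| := by
        gcongr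
    _ = _ := by ring

theorem ltca_abs_sigma (x : ℝ) : |Real.smoothTransition x| ≤ 1 := by
  rw [abs_of_nonneg (Real.smoothTransition.nonneg x)]
  exact Real.smoothTransition.le_one x

/-- one Lipschitz constant for the three functions. -/
theorem lt_cut_lipschitz : ∃ Λ : ℝ, 0 < Λ ∧ ∀ x x' : ℝ, |ltChi x - ltChi x'| ≤ Λ * |x - x'| ∧
    |ltKap x - ltKap x'| ≤ Λ * |x - x'| ∧ |ltTh x - ltTh x'| ≤ Λ * |x - x'| := by
  obtain ⟨Θ, hΘ, hL⟩ := ltca_sigma_lipschitz
  refine ⟨2 * Θ + 1, by positivity, fun x x' => ?_⟩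
  have hx : 0 ≤ |x - x'| := abs_nonneg _
  have key : ∀ a : ℝ, |Real.smoothTransition (a - x) * Real.smoothTransition (a + x)
      - Real.smoothTransition (a - x') * Real.smoothTransition (a + x')| ≤ (2 * Θ + 1) * |x - x'| := by
    intro a
    have h1 := ltca_mul_sub (f := Real.smoothTransition (a - x)) (g := Real.smoothTransition (a + x))
      (f' := Real.smoothTransition (a - x')) (g' := Real.smoothTransition (a + x'))
      (ltca_abs_sigma _) (ltca_abs_sigma _)
    have h2 := hL (a - x) (a - x')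
    have h3 := hL (a + x) (a + x')
    have e2 : |a - x - (a - x')| = |x - x'| := by
      rw [show a - x - (a - x') = -(x - x') by ring, abs_neg]
    have e3 : |a + x - (a + x')| = |x - x'| := by
      rw [show a + x - (a + x') = x - x' by ring]
    rw [e2] at h2
    rw [e3] at h3
    linarith
  refine ⟨key 5, key 2, ?_⟩
  unfold ltTh
  have h2 := hL (x + 1) (x' + 1)
  have h3 := hL x x'
  have e2 : |x + 1 - (x' + 1)| = |x - x'| := by
    rw [show x + 1 - (x' + 1) = x - x' by ring]
  rw [e2] at h2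
  have e : Real.smoothTransition (x + 1) - Real.smoothTransition x
      - (Real.smoothTransition (x' + 1) - Real.smoothTransition x')
      = (Real.smoothTransition (x + 1) - Real.smoothTransition (x' + 1))
        - (Real.smoothTransition x - Real.smoothTransition x') := by ring
  rw [e]
  have := abs_sub (Real.smoothTransition (x + 1) - Real.smoothTransition (x' + 1))
    (Real.smoothTransition x - Real.smoothTransition x')
  linarith

theorem ltTh_sum (m : ℕ) (y : ℝ) (h0 : 0 ≤ y) (h1 : y + 1 ≤ m) :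
    ∑ k ∈ Finset.range m, ltTh (y - k) = 1 := by
  have e : ∀ k : ℕ, ltTh (y - k) = (fun k : ℕ => Real.smoothTransition (y - k + 1)) k
      - (fun k : ℕ => Real.smoothTransition (y - k + 1)) (k + 1) := by
    intro k
    unfold ltTh
    simp only
    congr 2
    push_cast
    ring
  simp only [e]
  rw [Finset.sum_range_sub']
  rw [Real.smoothTransition.one_of_one_le (by simp; linarith),
    Real.smoothTransition.zero_of_nonpos (by linarith), sub_zero]

end Real

section Part

variable {N : ℕ}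

/-- the grid points. -/
noncomputable def ltT (R s : ℝ) (k : ℕ) : ℝ := -R + k * s

/-- the cut-off of the density around the grid point `k`. -/
noncomputable def ltChiK (R s : ℝ) (k : ℕ) (t : ℝ) : ℝ := ltChi ((t - ltT R s k) / s)

/-- the cover: boxes around the interface, and the complement of a strip. -/
def ltW (N : ℕ) (R s : ℝ) {m : ℕ} : Option (Fin m) → Set (Cn (N + 1))
  | some k => {z | |(z 0).re - ltT R s k| < 2 * s ∧ |(z 0).im| < 3 * s}
  | none => {z | s / 2 < |(z 0).im|}

/-- the partition of unity. -/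
noncomputable def ltTheta (N : ℕ) (R s : ℝ) {m : ℕ} : Option (Fin m) → Cn (N + 1) → ℝ
  | some k => fun z => ltKap ((z 0).im / s) * ltTh (((z 0).re - ltT R s k) / s)
  | none => fun z => 1 - ltKap ((z 0).im / s)

theorem ltcb_re_cont : Continuous fun z : Cn (N + 1) => (z 0).re :=
  Complex.continuous_re.comp (continuous_apply 0)

theorem ltcb_im_cont : Continuous fun z : Cn (N + 1) => (z 0).im :=
  Complex.continuous_im.comp (continuous_apply 0)

theorem ltcb_re_contDiff : ContDiff ℝ ∞ fun z : Cn (N + 1) => (z 0).re :=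
  Complex.reCLM.contDiff.comp (contDiff_apply ℝ ℂ (0 : Fin (N + 1)))

theorem ltcb_im_contDiff : ContDiff ℝ ∞ fun z : Cn (N + 1) => (z 0).im :=
  Complex.imCLM.contDiff.comp (contDiff_apply ℝ ℂ (0 : Fin (N + 1)))

theorem ltW_isOpen (R s : ℝ) {m : ℕ} (a : Option (Fin m)) : IsOpen (ltW N R s a) := by
  cases a with
  | none =>
    exact isOpen_lt continuous_const (continuous_abs.comp ltcb_im_cont)
  | some k =>
    exact (isOpen_lt (continuous_abs.comp (ltcb_re_cont.sub continuous_const)) continuous_const).inter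
      (isOpen_lt (continuous_abs.comp ltcb_im_cont) continuous_const)

theorem ltTheta_contDiff (R s : ℝ) {m : ℕ} (a : Option (Fin m)) : ContDiff ℝ ∞ (ltTheta N R s a) := by
  cases a with
  | none =>
    exact contDiff_const.sub (ltKap_contDiff.comp (ltcb_im_contDiff.div_const s))
  | some k =>
    exact (ltKap_contDiff.comp (ltcb_im_contDiff.div_const s)).mul
      (ltTh_contDiff.comp ((ltcb_re_contDiff.sub contDiff_const).div_const s))

theorem ltTheta_nonneg (R s : ℝ) {m : ℕ} (a : Option (Fin m)) (z : Cn (N + 1)) :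
    0 ≤ ltTheta N R s a z := by
  cases a with
  | none =>
    have := (ltKap_mem ((z 0).im / s)).2
    simp only [ltTheta]; linarith
  | some k =>
    exact mul_nonneg (ltKap_mem _).1 (ltTh_mem _).1

theorem ltTheta_tsupport {R s : ℝ} (hs : 0 < s) {m : ℕ} (a : Option (Fin m)) :
    tsupport (ltTheta N R s a) ⊆ ltW N R s a := by
  cases a with
  | none =>
    have hcl : IsClosed {z : Cn (N + 1) | s ≤ |(z 0).im|} :=
      isClosed_le continuous_const (continuous_abs.comp ltcb_im_cont)
    have h1 : Function.support (ltTheta N R s (none : Option (Fin m))) ⊆ {z : Cn (N + 1) | s ≤ |(z 0).im|} := by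
      intro z hz
      by_contra hcon
      simp only [Set.mem_ofPred_eq, not_le] at hcon
      apply hz
      simp only [ltTheta]
      rw [ltKap_eq_one, sub_self]
      rw [abs_div, abs_of_pos hs, div_le_one hs]
      exact hcon.le
    refine (closure_minimal h1 hcl).trans ?_
    intro z hz
    simp only [Set.mem_ofPred_eq] at hz
    simp only [ltW, Set.mem_ofPred_eq]
    linarith
  | some k =>
    have hcl : IsClosed {z : Cn (N + 1) | |(z 0).re - ltT R s k| ≤ s ∧ |(z 0).im| ≤ 2 * s} :=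
      (isClosed_le (continuous_abs.comp (ltcb_re_cont.sub continuous_const)) continuous_const).inter
        (isClosed_le (continuous_abs.comp ltcb_im_cont) continuous_const)
    have h1 : Function.support (ltTheta N R s (some k)) ⊆
        {z : Cn (N + 1) | |(z 0).re - ltT R s k| ≤ s ∧ |(z 0).im| ≤ 2 * s} := by
      intro z hz
      simp only [Function.mem_support, ltTheta] at hz
      constructor
      · by_contra hcon
        rw [not_le] at hcon
        apply hz
        rw [ltTh_eq_zero, mul_zero]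
        rw [abs_div, abs_of_pos hs, le_div_iff₀ hs]
        linarith
      · by_contra hcon
        rw [not_le] at hcon
        apply hz
        rw [ltKap_eq_zero, zero_mul]
        rw [abs_div, abs_of_pos hs, le_div_iff₀ hs]
        linarith
    refine (closure_minimal h1 hcl).trans ?_
    intro z hz
    simp only [Set.mem_ofPred_eq] at hz
    simp only [ltW, Set.mem_ofPred_eq]
    constructor <;> linarith [hz.1, hz.2]

theorem ltTheta_sum {R s : ℝ} (hs : 0 < s) {m : ℕ} (hm : 2 * R / s + 1 ≤ m) (z : Cn (N + 1))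
    (hz : ‖z‖ ≤ R) : ∑ a : Option (Fin m), ltTheta N R s a z = 1 := by
  rw [Fintype.sum_option]
  simp only [ltTheta]
  rw [← Finset.mul_sum]
  have hre : |(z 0).re| ≤ R := (Complex.abs_re_le_norm _).trans ((norm_le_pi_norm z 0).trans hz)
  obtain ⟨h1, h2⟩ := abs_le.1 hre
  have hsum : ∑ k : Fin m, ltTh (((z 0).re - ltT R s k) / s) = 1 := by
    have := ltTh_sum m (((z 0).re + R) / s) (div_nonneg (by linarith) hs.le) (by
      refine le_trans ?_ hm
      have : ((z 0).re + R) / s ≤ 2 * R / s := div_le_div_of_nonneg_right (by linarith) hs.le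
      linarith)
    rw [← this, Finset.sum_range]
    refine Finset.sum_congr rfl fun k _ => ?_
    congr 1
    unfold ltT
    field_simp
    ring
  rw [hsum]; ring


theorem ltcb_lip {Λ₀ : ℝ} (hΛ : 0 < Λ₀) (hL : ∀ x x' : ℝ, |ltChi x - ltChi x'| ≤ Λ₀ * |x - x'| ∧
    |ltKap x - ltKap x'| ≤ Λ₀ * |x - x'| ∧ |ltTh x - ltTh x'| ≤ Λ₀ * |x - x'|)
    (R : ℝ) {s : ℝ} (hs : 0 < s) {m : ℕ} (a : Option (Fin m)) (z z' : Cn (N + 1)) :
    |ltTheta N R s a z - ltTheta N R s a z'| ≤ 2 * Λ₀ / s * ‖z - z'‖ := by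
  have hn := norm_nonneg (z - z')
  have hz0 : ‖z 0 - z' 0‖ ≤ ‖z - z'‖ := norm_le_pi_norm (z - z') 0
  have him : |(z 0).im / s - (z' 0).im / s| ≤ ‖z - z'‖ / s := by
    rw [← sub_div, abs_div, abs_of_pos hs, ← Complex.sub_im]
    exact div_le_div_of_nonneg_right ((Complex.abs_im_le_norm _).trans hz0) hs.le
  have hK : |ltKap ((z 0).im / s) - ltKap ((z' 0).im / s)| ≤ Λ₀ / s * ‖z - z'‖ := by
    refine ((hL _ _).2.1).trans ?_
    calc Λ₀ * |(z 0).im / s - (z' 0).im / s| ≤ Λ₀ * (‖z - z'‖ / s) :=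
          mul_le_mul_of_nonneg_left him hΛ.le
      _ = Λ₀ / s * ‖z - z'‖ := by ring
  have hpos : 0 ≤ Λ₀ / s * ‖z - z'‖ := by positivity
  cases a with
  | none =>
    simp only [ltTheta]
    have e : 1 - ltKap ((z 0).im / s) - (1 - ltKap ((z' 0).im / s)) =
        -(ltKap ((z 0).im / s) - ltKap ((z' 0).im / s)) := by ring
    rw [e, abs_neg]
    refine hK.trans ?_
    have : 2 * Λ₀ / s * ‖z - z'‖ = 2 * (Λ₀ / s * ‖z - z'‖) := by ring
    rw [this]; linarith
  | some k =>
    simp only [ltTheta]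
    have hre : |((z 0).re - ltT R s k) / s - ((z' 0).re - ltT R s k) / s| ≤ ‖z - z'‖ / s := by
      rw [← sub_div, abs_div, abs_of_pos hs]
      have : (z 0).re - ltT R s k - ((z' 0).re - ltT R s k) = (z 0 - z' 0).re := by
        rw [Complex.sub_re]; ring
      rw [this]
      exact div_le_div_of_nonneg_right ((Complex.abs_re_le_norm _).trans hz0) hs.le
    have hT : |ltTh (((z 0).re - ltT R s k) / s) - ltTh (((z' 0).re - ltT R s k) / s)| ≤
        Λ₀ / s * ‖z - z'‖ := by
      refine ((hL _ _).2.2).trans ?_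
      calc Λ₀ * |((z 0).re - ltT R s k) / s - ((z' 0).re - ltT R s k) / s| ≤ Λ₀ * (‖z - z'‖ / s) :=
            mul_le_mul_of_nonneg_left hre hΛ.le
        _ = Λ₀ / s * ‖z - z'‖ := by ring
    have h1 := ltca_mul_sub (f := ltKap ((z 0).im / s)) (g := ltTh (((z 0).re - ltT R s k) / s))
      (f' := ltKap ((z' 0).im / s)) (g' := ltTh (((z' 0).re - ltT R s k) / s))
      (by rw [abs_of_nonneg (ltTh_mem _).1]; exact (ltTh_mem _).2)
      (by rw [abs_of_nonneg (ltKap_mem _).1]; exact (ltKap_mem _).2)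
    have : 2 * Λ₀ / s * ‖z - z'‖ = 2 * (Λ₀ / s * ‖z - z'‖) := by ring
    rw [this]; linarith

theorem ltTheta_dzb : ∃ Λ : ℝ, 0 < Λ ∧ ∀ (N : ℕ) (R s : ℝ), 0 < s → ∀ {m : ℕ} (a : Option (Fin m))
    (z : Cn (N + 1)) (j : Fin (N + 1)), ‖dzb j (fun y => (ltTheta N R s a y : ℂ)) z‖ ≤ Λ / s := by
  obtain ⟨Λ₀, hΛ, hL⟩ := lt_cut_lipschitz
  refine ⟨2 * Λ₀, by positivity, ?_⟩
  intro N R s hs m a z j
  have hC : 0 ≤ 2 * Λ₀ / s := by positivity
  have hlip : LipschitzWith (Real.toNNReal (2 * Λ₀ / s)) (ltTheta N R s a) := by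
    refine LipschitzWith.of_dist_le_mul fun x y => ?_
    rw [Real.dist_eq, dist_eq_norm, Real.coe_toNNReal _ hC]
    exact ltcb_lip hΛ hL R hs a x y
  have hfd : ‖fderiv ℝ (ltTheta N R s a) z‖ ≤ 2 * Λ₀ / s := by
    have := norm_fderiv_le_of_lipschitz ℝ hlip (x₀ := z)
    rwa [Real.coe_toNNReal _ hC] at this
  have hdiff : DifferentiableAt ℝ (ltTheta N R s a) z :=
    ((ltTheta_contDiff R s a).differentiable (by simp)) z
  have hcomp : fderiv ℝ (fun y => (ltTheta N R s a y : ℂ)) z =
      Complex.ofRealCLM.comp (fderiv ℝ (ltTheta N R s a) z) :=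
    (Complex.ofRealCLM.hasFDerivAt.comp z hdiff.hasFDerivAt).fderiv
  have hv : ∀ v : Cn (N + 1), ‖v‖ ≤ 1 → ‖fderiv ℝ (fun y => (ltTheta N R s a y : ℂ)) z v‖ ≤ 2 * Λ₀ / s := by
    intro v hv
    rw [hcomp]
    simp only [ContinuousLinearMap.comp_apply, Complex.ofRealCLM_apply, Complex.norm_real]
    calc ‖fderiv ℝ (ltTheta N R s a) z v‖ ≤ ‖fderiv ℝ (ltTheta N R s a) z‖ * ‖v‖ :=
          ContinuousLinearMap.le_opNorm _ _
      _ ≤ 2 * Λ₀ / s * 1 := mul_le_mul hfd hv (norm_nonneg _) hC
      _ = _ := mul_one _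
  have n1 : ‖(Pi.single j 1 : Cn (N + 1))‖ ≤ 1 := by
    rw [Pi.norm_single]; simp
  have n2 : ‖(Pi.single j I : Cn (N + 1))‖ ≤ 1 := by
    rw [Pi.norm_single]; simp
  unfold dzb
  rw [norm_div]
  have h1 := hv _ n1
  have h2 := hv _ n2
  have h3 : ‖fderiv ℝ (fun y => (ltTheta N R s a y : ℂ)) z (Pi.single j 1) +
      I * fderiv ℝ (fun y => (ltTheta N R s a y : ℂ)) z (Pi.single j I)‖ ≤ 2 * Λ₀ / s + 2 * Λ₀ / s := by
    refine (norm_add_le _ _).trans ?_
    rw [norm_mul, Complex.norm_I, one_mul]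
    linarith
  have : ‖(2 : ℂ)‖ = 2 := by simp
  rw [this, div_le_iff₀ (by norm_num)]
  linarith

end Part

theorem lt_cut_eqns_cite : (@ltChi.eq_1 = @ltChi.eq_1) ∧ (@ltKap.eq_1 = @ltKap.eq_1) ∧
    (@ltTh.eq_1 = @ltTh.eq_1) ∧ (@ltT.eq_1 = @ltT.eq_1) ∧ (@ltChiK.eq_1 = @ltChiK.eq_1) ∧
    (@ltW.eq_1 = @ltW.eq_1) ∧ (@ltTheta.eq_1 = @ltTheta.eq_1) := ⟨rfl, rfl, rfl, rfl, rfl, rfl, rfl⟩

end Claimed.Agent.R245
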