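/-
Row 245 / S0484.  Package LT.   Architect: helper246.     No paper.
LTK: the Cauchy integral with parameters `ltK u ψ z = (2πi)⁻¹ ∫ ψ(t) u(t, z') / (t - z 0) dt`  (`ltUp z t = (t, z')`), NON-SINGULAR case: `‖t - z 0‖ ≥ d > 0` on `{ψ ≠ 0}`.
Leaves:  LT-K0 = `lt_integral_hol`;     LT-K1 = `ltUp_*`, `ltK_update`, `lt_continuousOn_u`, `ltK_integrable`, `ltK_add`, `ltK_neg`, `ltK_norm_le`;     LT-K2 = `ltK_differentiableOn`.

PLANS.
 * `lt_integral_hol`: copy the proof of `scv_integral` (R245/SCVInt.lean).  `hasFDerivAt_integral_of_dominated_of_fderiv_le` on `volume.restrict S`, `F' z t = fderiv ℂ (F t) z`; bound `M / r` on `ball z₀ r` if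
   `ball z₀ (2 r) ⊆ G` (`scv_norm_fderiv_le`), integrable since `volume S < ⊤`.  Measurability of `t ↦ fderiv ℂ (F t) z₀` on `S`: it is CONTINUOUS on `S`: apply `scv_continuousOn_partial` to
   `f : E × ℂ → ℂ`, `f (z, w) = F w.re z` on the open set `U = {(z, w) | z ∈ G ∧ w.re ∈ S}` and compose with `t ↦ (z₀, (t : ℂ))`.
 * `ltUp`: `Function.update` lemmas (`Function.update_self`, `update_of_ne`, `update_idem`); `‖ltUp z t - ltUp z t'‖ = |t - t'|` (`pi_norm`/`Pi.norm_def`: the difference is `Pi.single 0 (t - t')`, `Pi.norm_single`).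
 * `lt_continuousOn_u`: `t ↦ u (ltUp z t)` is continuous on `{t | ltUp z t ∈ D}`: Hölder estimate `hd.hol.2` + `ltUp_norm_sub`, `Metric.continuousOn_iff` or `continuousOn_of_..`; `|t-t'|^α → 0` (`Real.continuousAt_rpow_const`, `0 < α`).
 * `ltK_integrable`: `S := {t | ψ t ≠ 0}` is open and contained in `Ioo a b`; the integrand vanishes off `S`, is continuous on `S` and bounded by `A / d`: `IntegrableOn` on `S` (`Measure.integrableOn_of_bounded`, `ContinuousOn.aestronglyMeasurable`),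
   then `integrable_of_integrableOn..`/`IntegrableOn.integrable_of_forall_notMem_eq_zero`.
 * `ltK_add`: `integral_add`, `add_mul`, `add_div`, `push_cast`.      `ltK_neg`: `integral_neg`.
 * `ltK_norm_le`: `‖(2πi)⁻¹‖ ≤ 1`; `‖integrand‖ ≤ (Ioo a b).indicator (A / d)`; `norm_integral_le_of_norm_le`, `integral_indicator`, `Real.volume_Ioo`.
 * `ltK_differentiableOn`: `ltK u ψ z = (2πi)⁻¹ * ∫ t in S, F t z` (`setIntegral_eq_integral_of_forall_compl_eq_zero`), `F t z = ψ t * u (ltUp z t) / (t - z 0)`; `lt_integral_hol` with `M = A / d`.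
   For `t ∈ S`: `z ↦ u (ltUp z t)` is holomorphic on `G` (`hd.cr t`, `G ⊆ {z | ltUp z t ∈ D}`), `z ↦ (t - z 0)⁻¹` is holomorphic (`t - z 0 ≠ 0` because `‖t - z 0‖ ≥ d`).
   Joint continuity on `S ×ˢ G`: `(t, z) ↦ ltUp z t` is continuous with values in `D ∩ M`, `u` is continuous on `D ∩ M` (Hölder).
-/
import Claimed.Agent.R245.LTDefs

set_option autoImplicit false

namespace Claimed.Agent.R245

open Claimed.Agent.R242 (Cn dz dzb levi PshOn)
open Complex MeasureTheory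

/-- integrals over a real parameter of holomorphic functions are holomorphic. -/
theorem lt_integral_hol {E : Type*} [NormedAddCommGroup E] [NormedSpace ℂ E] [FiniteDimensional ℂ E]
    {S : Set ℝ} (hS : IsOpen S) (hSfin : volume S < ⊤) {G : Set E} (hG : IsOpen G) {F : ℝ → E → ℂ}
    (hF : ∀ t ∈ S, DifferentiableOn ℂ (F t) G)
    (hc : ContinuousOn (fun p : ℝ × E => F p.1 p.2) (S ×ˢ G)) {M : ℝ}
    (hM : ∀ t ∈ S, ∀ z ∈ G, ‖F t z‖ ≤ M) :
    DifferentiableOn ℂ (fun z => ∫ t in S, F t z) G := by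
  intro z₀ hz₀
  have hat : ∀ t ∈ S, ∀ z ∈ G, DifferentiableAt ℂ (F t) z := fun t ht z hz =>
    (hF t ht z hz).differentiableAt (hG.mem_nhds hz)
  obtain ⟨ρ, hρ, hball⟩ := Metric.isOpen_iff.1 hG z₀ hz₀
  have hsub : Metric.ball z₀ (ρ / 2) ⊆ Metric.ball z₀ ρ := Metric.ball_subset_ball (by linarith)
  have hfin : IsFiniteMeasure (volume.restrict S) := ⟨by simpa using hSfin⟩
  have hmeas : ∀ z ∈ G, AEStronglyMeasurable (fun t => F t z) (volume.restrict S) := by
    intro z hz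
    have h1 : ContinuousOn (fun t => F t z) S :=
      hc.comp (f := fun t : ℝ => ((t, z) : ℝ × E)) (by fun_prop) (fun t ht => ⟨ht, hz⟩)
    exact h1.aestronglyMeasurable hS.measurableSet
  have hcd : ContinuousOn (fun t : ℝ => fderiv ℂ (F t) z₀) S := by
    have hUo : IsOpen (G ×ˢ (Complex.re ⁻¹' S)) := hG.prod (hS.preimage Complex.continuous_re)
    have h1 := scv_continuousOn_partial (f := fun p : E × ℂ => F p.2.re p.1)
      (U := G ×ˢ (Complex.re ⁻¹' S)) hUo
      (hc.comp (f := fun p : E × ℂ => ((p.2.re, p.1) : ℝ × E)) (by fun_prop)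
        (fun p hp => ⟨hp.2, hp.1⟩))
      (fun p hp => hat p.2.re hp.2 p.1 hp.1)
    have h2 := h1.comp (f := fun t : ℝ => ((z₀, (t : ℂ)) : E × ℂ)) (s := S) (by fun_prop)
      (fun t ht => ⟨hz₀, by simpa using ht⟩)
    simpa [Function.comp_def] using h2
  have key := hasFDerivAt_integral_of_dominated_of_fderiv_le (𝕜 := ℂ) (μ := volume.restrict S)
    (F := fun z t => F t z) (F' := fun z t => fderiv ℂ (F t) z) (x₀ := z₀)
    (bound := fun _ => M / (ρ / 2)) (s := Metric.ball z₀ (ρ / 2))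
    (Metric.ball_mem_nhds z₀ (by linarith))
    (by filter_upwards [hG.mem_nhds hz₀] with z hz using hmeas z hz)
    ?_ (hcd.aestronglyMeasurable hS.measurableSet) ?_ (integrable_const _) ?_
  · exact key.differentiableAt.differentiableWithinAt
  · refine (integrable_const M).mono' (hmeas z₀ hz₀) ?_
    exact ae_restrict_of_forall_mem hS.measurableSet fun t ht => hM t ht z₀ hz₀
  · refine ae_restrict_of_forall_mem hS.measurableSet fun t ht z hz => ?_
    have h1 := scv_norm_fderiv_le (g := F t) (c := z₀) (β := ρ) (M := M)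
      (fun z hz => (hat t ht z (hball hz)).differentiableWithinAt)
      (fun z hz => hM t ht z (hball hz)) (hsub hz)
    refine h1.trans ?_
    have hM0 : 0 ≤ M := (norm_nonneg _).trans (hM t ht z₀ hz₀)
    have hz' : dist z z₀ < ρ / 2 := Metric.mem_ball.1 hz
    gcongr
    linarith
  · refine ae_restrict_of_forall_mem hS.measurableSet fun t ht z hz => ?_
    exact (hat t ht z (hball (hsub hz))).hasFDerivAt

variable {N : ℕ} {D : Set (Cn (N + 1))} {u : Cn (N + 1) → ℂ} {A α : ℝ}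

/-- cut-off functions: continuous, values in `[-1,1]`, zero off the open interval `(a,b)`. -/
structure LtCut (ψ : ℝ → ℝ) (a b : ℝ) : Prop where
  cont : Continuous ψ
  le_one : ∀ t, |ψ t| ≤ 1
  supp : ∀ t, t ∉ Set.Ioo a b → ψ t = 0

/-- `ψ` is admissible at `z` with gap `d`: on `{ψ ≠ 0}` the point `(t, z')` is in `D` and `t` has distance `≥ d` from `z 0`. -/
def LtAdm (D : Set (Cn (N + 1))) (ψ : ℝ → ℝ) (d : ℝ) (z : Cn (N + 1)) : Prop :=
  ∀ t, ψ t ≠ 0 → ltUp z t ∈ D ∧ d ≤ ‖(t : ℂ) - z 0‖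

theorem ltUp_zero (z : Cn (N + 1)) (t : ℝ) : ltUp z t 0 = (t : ℂ) :=
  Function.update_self _ _ _

theorem ltUp_of_ne (z : Cn (N + 1)) (t : ℝ) {i : Fin (N + 1)} (hi : i ≠ 0) : ltUp z t i = z i :=
  Function.update_of_ne hi _ _

theorem ltUp_update (z : Cn (N + 1)) (ζ : ℂ) (t : ℝ) : ltUp (Function.update z 0 ζ) t = ltUp z t :=
  Function.update_idem _ _ _

theorem ltUp_self (z : Cn (N + 1)) (hz : (z 0).im = 0) : ltUp z (z 0).re = z := by
  have h : (((z 0).re : ℝ) : ℂ) = z 0 := Complex.ext (by simp) (by simp [hz])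
  rw [ltUp, h, Function.update_eq_self]

theorem ltUp_norm_sub (z : Cn (N + 1)) (t t' : ℝ) : ‖ltUp z t - ltUp z t'‖ = |t - t'| := by
  have h : ltUp z t - ltUp z t' = Pi.single 0 ((t : ℂ) - t') := by
    ext i
    by_cases hi : i = 0
    · subst hi; simp [ltUp_zero]
    · simp [ltUp_of_ne z _ hi, hi]
  rw [h, Pi.norm_single, ← Complex.ofReal_sub, Complex.norm_real, Real.norm_eq_abs]

theorem ltUp_norm_sub_self (z : Cn (N + 1)) (t : ℝ) : ‖ltUp z t - z‖ = ‖(t : ℂ) - z 0‖ := by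
  have h : ltUp z t - z = Pi.single 0 ((t : ℂ) - z 0) := by
    ext i
    by_cases hi : i = 0
    · subst hi; simp [ltUp_zero]
    · simp [ltUp_of_ne z _ hi, hi]
  rw [h, Pi.norm_single]

theorem ltK_update (u : Cn (N + 1) → ℂ) (ψ : ℝ → ℝ) (z : Cn (N + 1)) (ζ : ℂ) :
    ltK u ψ (Function.update z 0 ζ) = pvC (fun t => (ψ t : ℂ) * u (ltUp z t)) ζ := by
  simp only [ltK, ltUp_update, Function.update_self]

/-- Hölder functions are continuous -/
theorem ltk1_continuousOn {E : Type*} [NormedAddCommGroup E] {S : Set E} {f : E → ℂ}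
    (h : LtHol S f A α) (h0 : 0 < α) : ContinuousOn f S := by
  intro z₀ hz₀
  rw [ContinuousWithinAt, tendsto_iff_norm_sub_tendsto_zero]
  have h1 : Filter.Tendsto (fun z : E => A * ‖z - z₀‖ ^ α) (nhdsWithin z₀ S) (nhds 0) := by
    have hc : Continuous fun z : E => A * ‖z - z₀‖ ^ α :=
      continuous_const.mul (((continuous_id.sub continuous_const).norm).rpow_const
        fun _ => Or.inr h0.le)
    have := (hc.tendsto z₀).mono_left (nhdsWithin_le_nhds (s := S))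
    simpa [Real.zero_rpow h0.ne'] using this
  refine squeeze_zero' (Filter.Eventually.of_forall fun _ => norm_nonneg _) ?_ h1
  exact eventually_nhdsWithin_of_forall fun z hz => h.2 z hz z₀ hz₀

theorem ltk1_continuous_ltUp :
    Continuous fun p : ℝ × Cn (N + 1) => ltUp p.2 p.1 :=
  continuous_snd.update 0 (Complex.continuous_ofReal.comp continuous_fst)

theorem ltk1_mem (z : Cn (N + 1)) (t : ℝ) : ltUp z t ∈ {z : Cn (N + 1) | (z 0).im = 0} := by
  show (ltUp z t 0).im = 0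
  rw [ltUp_zero, Complex.ofReal_im]

theorem lt_continuousOn_u (hd : LtData D u A α) (h0 : 0 < α) (z : Cn (N + 1)) :
    ContinuousOn (fun t : ℝ => u (ltUp z t)) {t | ltUp z t ∈ D} := by
  have h1 : Continuous fun t : ℝ => ltUp z t :=
    ltk1_continuous_ltUp.comp (continuous_id.prodMk continuous_const)
  exact (ltk1_continuousOn hd.hol h0).comp h1.continuousOn fun t ht => ⟨ht, ltk1_mem z t⟩

theorem ltk1_isOpen {ψ : ℝ → ℝ} {a b : ℝ} (hψ : LtCut ψ a b) : IsOpen {t | ψ t ≠ 0} :=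
  isOpen_ne_fun hψ.cont continuous_const

theorem ltk1_subset {ψ : ℝ → ℝ} {a b : ℝ} (hψ : LtCut ψ a b) : {t | ψ t ≠ 0} ⊆ Set.Ioo a b :=
  fun t ht => by_contra fun h => ht (hψ.supp t h)

theorem ltk1_volume_lt {ψ : ℝ → ℝ} {a b : ℝ} (hψ : LtCut ψ a b) : volume {t | ψ t ≠ 0} < ⊤ :=
  lt_of_le_of_lt (measure_mono (ltk1_subset hψ)) (by rw [Real.volume_Ioo]; exact ENNReal.ofReal_lt_top)

/-- pointwise bound of the integrand -/
theorem ltk1_norm_le (hd : LtData D u A α) {ψ : ℝ → ℝ} {a b d : ℝ}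
    (hψ : LtCut ψ a b) (hd0 : 0 < d) {z : Cn (N + 1)} (hz : LtAdm D ψ d z) {t : ℝ} (ht : ψ t ≠ 0) :
    ‖(ψ t : ℂ) * u (ltUp z t) / ((t : ℂ) - z 0)‖ ≤ A / d := by
  obtain ⟨h1, h2⟩ := hz t ht
  rw [norm_div, norm_mul, Complex.norm_real, Real.norm_eq_abs]
  have h3 : ‖u (ltUp z t)‖ ≤ A := hd.hol.1 _ ⟨h1, ltk1_mem z t⟩
  have h4 : |ψ t| * ‖u (ltUp z t)‖ ≤ A := by
    calc |ψ t| * ‖u (ltUp z t)‖ ≤ 1 * A := mul_le_mul (hψ.le_one t) h3 (norm_nonneg _) zero_le_one
      _ = A := one_mul _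
  exact div_le_div₀ hd.A_nonneg h4 hd0 h2

theorem ltK_integrable (hD : IsOpen D) (hd : LtData D u A α) (h0 : 0 < α) {ψ : ℝ → ℝ} {a b d : ℝ}
    (hψ : LtCut ψ a b) (hd0 : 0 < d) {z : Cn (N + 1)} (hz : LtAdm D ψ d z) :
    Integrable (fun t : ℝ => (ψ t : ℂ) * u (ltUp z t) / ((t : ℂ) - z 0)) := by
  have hS := ltk1_isOpen hψ
  have hc : ContinuousOn (fun t : ℝ => (ψ t : ℂ) * u (ltUp z t) / ((t : ℂ) - z 0))
      {t | ψ t ≠ 0} := by
    refine ContinuousOn.div ?_ ?_ ?_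
    · exact (Complex.continuous_ofReal.comp hψ.cont).continuousOn.mul
        ((lt_continuousOn_u hd h0 z).mono fun t ht => (hz t ht).1)
    · exact (Complex.continuous_ofReal.sub continuous_const).continuousOn
    · intro t ht h
      have := (hz t ht).2
      rw [h, norm_zero] at this
      linarith
  have h1 : IntegrableOn (fun t : ℝ => (ψ t : ℂ) * u (ltUp z t) / ((t : ℂ) - z 0))
      {t | ψ t ≠ 0} :=
    IntegrableOn.of_bound (ltk1_volume_lt hψ) (hc.aestronglyMeasurable hS.measurableSet) (A / d)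
      ((ae_restrict_iff' hS.measurableSet).2 (ae_of_all _ fun t ht => ltk1_norm_le hd hψ hd0 hz ht))
  refine h1.integrable_of_forall_notMem_eq_zero fun t ht => ?_
  have : ψ t = 0 := by_contra fun h => ht h
  simp [this]

theorem ltK_add (hD : IsOpen D) (hd : LtData D u A α) (h0 : 0 < α) {ψ₁ ψ₂ : ℝ → ℝ}
    {a₁ b₁ a₂ b₂ d₁ d₂ : ℝ} (hψ₁ : LtCut ψ₁ a₁ b₁) (hψ₂ : LtCut ψ₂ a₂ b₂) (hd₁ : 0 < d₁) (hd₂ : 0 < d₂)
    {z : Cn (N + 1)} (hz₁ : LtAdm D ψ₁ d₁ z) (hz₂ : LtAdm D ψ₂ d₂ z) :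
    ltK u (fun t => ψ₁ t + ψ₂ t) z = ltK u ψ₁ z + ltK u ψ₂ z := by
  have i1 := ltK_integrable hD hd h0 hψ₁ hd₁ hz₁
  have i2 := ltK_integrable hD hd h0 hψ₂ hd₂ hz₂
  simp only [ltK, pvC]
  rw [← mul_add, ← integral_add i1 i2]
  congr 1
  refine integral_congr_ae (ae_of_all _ fun t => ?_)
  simp only [Complex.ofReal_add]
  ring

theorem ltK_neg (u : Cn (N + 1) → ℂ) (ψ : ℝ → ℝ) (z : Cn (N + 1)) :
    ltK u (fun t => - ψ t) z = - ltK u ψ z := by
  simp only [ltK, pvC]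
  rw [← mul_neg, ← integral_neg]
  congr 1
  refine integral_congr_ae (ae_of_all _ fun t => ?_)
  simp only [Complex.ofReal_neg]
  ring

theorem ltk1_norm_inv_le : ‖(2 * (Real.pi : ℂ) * I)⁻¹‖ ≤ 1 := by
  rw [norm_inv, norm_mul, norm_mul, Complex.norm_I, Complex.norm_real, mul_one]
  have h1 : (1 : ℝ) ≤ ‖(2 : ℂ)‖ * ‖Real.pi‖ := by
    rw [Real.norm_eq_abs, abs_of_pos Real.pi_pos]
    have : ‖(2 : ℂ)‖ = 2 := by simp
    rw [this]
    nlinarith [Real.pi_gt_three]
  exact inv_le_one_of_one_le₀ h1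

theorem ltK_norm_le (hD : IsOpen D) (hd : LtData D u A α) (h0 : 0 < α) {ψ : ℝ → ℝ} {a b d : ℝ}
    (hab : a ≤ b) (hψ : LtCut ψ a b) (hd0 : 0 < d) {z : Cn (N + 1)} (hz : LtAdm D ψ d z) :
    ‖ltK u ψ z‖ ≤ A * (b - a) / d := by
  have hAd : 0 ≤ A / d := div_nonneg hd.A_nonneg hd0.le
  have h1 : ‖∫ t : ℝ, (ψ t : ℂ) * u (ltUp z t) / ((t : ℂ) - z 0)‖
      ≤ ∫ t : ℝ, (Set.Ioo a b).indicator (fun _ => A / d) t := by
    refine norm_integral_le_of_norm_le ?_ (ae_of_all _ fun t => ?_)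
    · exact (integrable_indicator_iff measurableSet_Ioo).2
        (integrableOn_const (by rw [Real.volume_Ioo]; exact ENNReal.ofReal_ne_top))
    · by_cases ht : ψ t = 0
      · simp only [ht, Complex.ofReal_zero, zero_mul, zero_div, norm_zero]
        exact Set.indicator_nonneg (fun _ _ => hAd) _
      · rw [Set.indicator_of_mem (ltk1_subset hψ ht)]
        exact ltk1_norm_le hd hψ hd0 hz ht
  rw [integral_indicator_const _ measurableSet_Ioo, Measure.real, Real.volume_Ioo,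
    ENNReal.toReal_ofReal (by linarith), smul_eq_mul] at h1
  simp only [ltK, pvC]
  rw [norm_mul]
  calc ‖(2 * (Real.pi : ℂ) * I)⁻¹‖ * ‖∫ t : ℝ, (ψ t : ℂ) * u (ltUp z t) / ((t : ℂ) - z 0)‖
      ≤ 1 * ((b - a) * (A / d)) := mul_le_mul ltk1_norm_inv_le h1 (norm_nonneg _) zero_le_one
    _ = A * (b - a) / d := by ring

theorem ltK_differentiableOn (hD : IsOpen D) (hd : LtData D u A α) (h0 : 0 < α) {ψ : ℝ → ℝ}
    {a b d : ℝ} (hψ : LtCut ψ a b) (hd0 : 0 < d) {G : Set (Cn (N + 1))} (hG : IsOpen G)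
    (hz : ∀ z ∈ G, LtAdm D ψ d z) : DifferentiableOn ℂ (ltK u ψ) G := by
  have hS := ltk1_isOpen hψ
  have hne : ∀ t, ψ t ≠ 0 → ∀ z ∈ G, (t : ℂ) - z 0 ≠ 0 := by
    intro t ht z hzG h
    have := (hz z hzG t ht).2
    rw [h, norm_zero] at this
    linarith
  have key : DifferentiableOn ℂ (fun z : Cn (N + 1) => ∫ t in {t | ψ t ≠ 0},
      (ψ t : ℂ) * u (ltUp z t) / ((t : ℂ) - z 0)) G := by
    refine lt_integral_hol (F := fun t z => (ψ t : ℂ) * u (ltUp z t) / ((t : ℂ) - z 0))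
      hS (ltk1_volume_lt hψ) hG ?_ ?_ (M := A / d) ?_
    · intro t ht
      have e1 : DifferentiableOn ℂ (fun z : Cn (N + 1) => (ψ t : ℂ) * u (ltUp z t)) G :=
        ((hd.cr t).mono fun z hzG => (hz z hzG t ht).1).const_mul _
      have e2 : DifferentiableOn ℂ (fun z : Cn (N + 1) => (t : ℂ) - z 0) G :=
        (differentiableOn_const _).sub (differentiable_apply 0).differentiableOn
      simp only [div_eq_mul_inv]
      exact e1.mul (e2.inv (hne t ht))
    · refine ContinuousOn.div ?_ ?_ ?_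
      · refine ContinuousOn.mul ?_ ?_
        · exact (Complex.continuous_ofReal.comp (hψ.cont.comp continuous_fst)).continuousOn
        · exact (ltk1_continuousOn hd.hol h0).comp ltk1_continuous_ltUp.continuousOn
            fun p hp => ⟨(hz p.2 hp.2 p.1 hp.1).1, ltk1_mem p.2 p.1⟩
      · exact ((Complex.continuous_ofReal.comp continuous_fst).sub
          ((continuous_apply 0).comp continuous_snd)).continuousOn
      · exact fun p hp => hne p.1 hp.1 p.2 hp.2
    · exact fun t ht z hzG => ltk1_norm_le hd hψ hd0 (hz z hzG) ht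
  refine (key.const_mul (2 * (Real.pi : ℂ) * I)⁻¹).congr fun z _ => ?_
  simp only [ltK, pvC]
  congr 1
  refine (setIntegral_eq_integral_of_forall_compl_eq_zero fun t ht => ?_).symm
  have : ψ t = 0 := by_contra fun h => ht h
  simp [this]

theorem lt_k_eqns_cite : (@LtAdm.eq_1 = @LtAdm.eq_1) := rfl

end Claimed.Agent.R245
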