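/-
Row 245 / S0484.  Package LT.   Architect: helper246.     No paper.
LTPv: the SINGULAR Cauchy integrals `c_k = ltK u (ltChiK R s k)` near the interface: holomorphy off `M`, sup bound, joint Hölder bound on each side, jump.  All from the PV kit (R245/PV.lean, PROVED),
LTK.lean and LTCut.lean (use their statements).
Leaves:  LT-PV-A = `lt_chiK_cut`, `lt_chiK_lip`, `lt_chiK_sub_cut`, `lt_pvData`, `lt_pvData_chiK`;     LT-PV-B = `lt_c_hol`, `lt_c_sup`, `lt_c_jump`;     LT-PV-C = `lt_c_holder`.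

PLANS.
 * `lt_chiK_cut`: `ltChi_contDiff.continuous`, `ltChi_mem`, `ltChi_eq_zero` (`t ∉ Ioo (T-5s) (T+5s)` ⇒ `5 ≤ |(t-T)/s|`, `abs_div`, `le_div_iff₀`).   `lt_chiK_lip`: `lt_cut_lipschitz`, `|(t-T)/s - (t'-T)/s| = |t-t'|/s`.
 * `lt_chiK_sub_cut`: both functions have values in `[0,1]`, so the difference has absolute value `≤ 1`.
 * `lt_pvData`: `φ t = ψ t * u (ltUp z t)`.  `A ≥ 0`, `Λ ≥ 0`.  Hölder bound, cases:  `t, t' ∈ Ioo a b`: `‖φ t - φ t'‖ ≤ |ψ t| ‖u_t - u_t'‖ + ‖u_t'‖ |ψ t - ψ t'| ≤ A |t-t'|^α + A Λ |t-t'|` and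
   `|t-t'| ≤ (1 + (b-a)) |t-t'|^α`  (if `|t-t'| ≤ 1`: `x ≤ x^α` (`Real.rpow_le_rpow_of_exponent_ge`); otherwise `|t-t'| ≤ b-a ≤ (b-a) |t-t'|^α` since `1 ≤ x^α`);
   `t ∈ Ioo a b`, `t' ∉ Ioo a b` (and symmetric): `φ t' = 0 = ψ t'`, `‖φ t‖ ≤ A |ψ t - ψ t'| ≤ A min 1 (Λ |t-t'|) ≤ A (1 + Λ) |t-t'|^α`;  both outside: `0`.   (`ltUp_norm_sub`.)
 * `lt_pvData_chiK`: `lt_pvData` with `a = T-5s`, `b = T+5s`, `Λ/s`; `A (1 + (Λ/s)(1+10 s)) ≤ A (1 + 11 Λ)/s` for `s ≤ 1`; `PvData` is monotone in `A₁` (rebuild the structure).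
 * `lt_c_hol`: local: at `z₀ ∈ G` put `d = |Im (z₀ 0)|/2`, `G' = G ∩ {z | d < |Im (z 0)|}` open; `ltK_differentiableOn` on `G'` (`LtAdm`: tube + `pv_norm_sub_ge`).
 * `lt_c_sup`: `ltK u ψ z = pvC φ (z 0)` by definition; `pv_sup` + `lt_pvData_chiK`; `A * 10 s + A c'/s ≤ (10 + c') A / s`.
 * `lt_c_jump`: `ltK_update`, `pv_jump` at `x = Re (z 0)`; `z 0 = (x : ℂ)` because `Im (z 0) = 0`; `ltUp_self`.
 * `lt_c_holder`: `z, z' ∈ ball p (r/2)` on the same side.  `z'' := Function.update z 0 (z' 0)`.  (1) `‖c z - c z''‖ ≤ c₁ A₁ ‖z 0 - z' 0‖^α` (`ltK_update` with `z = update z 0 (z 0)`, `pv_holder`).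
   (2) `g y := c (Function.update y 0 (z' 0))` is holomorphic on `ball p r` (`lt_c_hol` on `G = {y | (∀ t ∈ Ioo .., ltUp y t ∈ D) ...}`: simplest `G := (fun y => update y 0 (p 0)) ⁻¹' ball p r ∩ {Im (y 0) ≠ 0}`, tube by `ltUp_update`;
   compose with the affine map `y ↦ update y 0 (z' 0)`, which is `ℂ`-differentiable: `differentiable_pi`, or `update y 0 ζ = y + Pi.single 0 (ζ - y 0)`), bounded by `lt_c_sup`; `scv_lipschitz`: `‖g z - g z'‖ ≤ 2 M / r ‖z - z'‖`, `g z = c z''`, `g z' = c z'`;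
   `‖z - z'‖ ≤ ‖z - z'‖^α` since `‖z - z'‖ < r ≤ 1`;  `‖z 0 - z' 0‖ ≤ ‖z - z'‖`.
-/
import Claimed.Agent.R245.LTK
import Claimed.Agent.R245.LTCut

set_option autoImplicit false

namespace Claimed.Agent.R245

open Claimed.Agent.R242 (Cn dz dzb levi PshOn)
open Complex MeasureTheory

variable {N : ℕ} {D : Set (Cn (N + 1))} {u : Cn (N + 1) → ℂ} {A α : ℝ}

theorem lt_chiK_cut (R : ℝ) {s : ℝ} (hs : 0 < s) (k : ℕ) :
    LtCut (ltChiK R s k) (ltT R s k - 5 * s) (ltT R s k + 5 * s) := by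
  refine ⟨?_, fun t => ?_, fun t ht => ?_⟩
  · exact ltChi_contDiff.continuous.comp ((continuous_id.sub continuous_const).div_const s)
  · have := ltChi_mem ((t - ltT R s k) / s)
    unfold ltChiK
    rw [abs_of_nonneg this.1]
    exact this.2
  · unfold ltChiK
    refine ltChi_eq_zero ?_
    rw [abs_div, abs_of_pos hs, le_div_iff₀ hs]
    by_contra h
    push Not at h
    obtain ⟨h1, h2⟩ := abs_lt.1 h
    exact ht ⟨by linarith, by linarith⟩

theorem lt_chiK_lip : ∃ Λ : ℝ, 0 < Λ ∧ ∀ (R s : ℝ), 0 < s → ∀ (k : ℕ) (t t' : ℝ),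
    |ltChiK R s k t - ltChiK R s k t'| ≤ Λ / s * |t - t'| := by
  obtain ⟨Λ, hΛ, H⟩ := lt_cut_lipschitz
  refine ⟨Λ, hΛ, fun R s hs k t t' => ?_⟩
  have h1 := (H ((t - ltT R s k) / s) ((t' - ltT R s k) / s)).1
  have e : (t - ltT R s k) / s - (t' - ltT R s k) / s = (t - t') / s := by ring
  rw [e, abs_div, abs_of_pos hs] at h1
  unfold ltChiK
  calc _ ≤ Λ * (|t - t'| / s) := h1
    _ = Λ / s * |t - t'| := by ring

theorem lt_chiK_sub_cut (R : ℝ) {s : ℝ} (hs : 0 < s) (k k' : ℕ) {a b : ℝ}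
    (ha : a ≤ ltT R s k - 5 * s) (ha' : a ≤ ltT R s k' - 5 * s) (hb : ltT R s k + 5 * s ≤ b)
    (hb' : ltT R s k' + 5 * s ≤ b) : LtCut (fun t => ltChiK R s k t - ltChiK R s k' t) a b := by
  have c1 := lt_chiK_cut R hs k
  have c2 := lt_chiK_cut R hs k'
  refine ⟨c1.cont.sub c2.cont, fun t => ?_, fun t ht => ?_⟩
  · have h1 := ltChi_mem ((t - ltT R s k) / s)
    have h2 := ltChi_mem ((t - ltT R s k') / s)
    unfold ltChiK
    rw [abs_le]
    constructor <;> linarith [h1.1, h1.2, h2.1, h2.2]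
  · rw [c1.supp t fun h => ht ⟨by linarith [h.1], by linarith [h.2]⟩,
      c2.supp t fun h => ht ⟨by linarith [h.1], by linarith [h.2]⟩, sub_zero]

theorem ltpa_le_rpow {x : ℝ} (hx : 0 ≤ x) (hx1 : x ≤ 1) (h0 : 0 < α) (h1 : α < 1) : x ≤ x ^ α := by
  have := Real.rpow_le_rpow_of_exponent_ge' hx hx1 h0.le h1.le
  rwa [Real.rpow_one] at this

theorem ltpa_K1 {x L : ℝ} (hx : 0 ≤ x) (hxL : x ≤ L) (h0 : 0 < α) (h1 : α < 1) :
    x ≤ (1 + L) * x ^ α := by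
  have hp : 0 ≤ x ^ α := Real.rpow_nonneg hx _
  have hL : 0 ≤ L := hx.trans hxL
  rcases le_total x 1 with h | h
  · have := ltpa_le_rpow hx h h0 h1
    nlinarith
  · have := Real.one_le_rpow h h0.le
    nlinarith

theorem ltpa_K2 {x L Λ v : ℝ} (hx : 0 ≤ x) (hL : 0 ≤ L) (hΛ : 0 ≤ Λ) (hv1 : v ≤ 1)
    (hv : v ≤ Λ * x) (h0 : 0 < α) (h1 : α < 1) : v ≤ (1 + Λ * (1 + L)) * x ^ α := by
  have hp : 0 ≤ x ^ α := Real.rpow_nonneg hx _
  have hΛL : 0 ≤ Λ * L := mul_nonneg hΛ hL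
  rcases le_total x 1 with h | h
  · have := ltpa_le_rpow hx h h0 h1
    nlinarith [mul_le_mul_of_nonneg_left this hΛ, mul_nonneg hΛL hp]
  · have := Real.one_le_rpow h h0.le
    nlinarith [mul_nonneg hΛL hp, mul_nonneg hΛ hp]

theorem lt_pvData (hd : LtData D u A α) (h0 : 0 < α) (h1 : α < 1) {ψ : ℝ → ℝ} {a b Λ : ℝ} (hab : a ≤ b)
    (hψ : LtCut ψ a b) (hΛ : ∀ t t', |ψ t - ψ t'| ≤ Λ * |t - t'|) {z : Cn (N + 1)}
    (htube : ∀ t ∈ Set.Ioo a b, ltUp z t ∈ D) :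
    PvData (fun t => (ψ t : ℂ) * u (ltUp z t)) a b A (A * (1 + Λ * (1 + (b - a)))) α := by
  have hA := hd.A_nonneg
  have hΛ0 : 0 ≤ Λ := by
    have := (abs_nonneg _).trans (hΛ 1 0)
    simpa using this
  have hL : 0 ≤ b - a := by linarith
  have hmem : ∀ t, ψ t ≠ 0 → t ∈ Set.Ioo a b := fun t ht => by_contra fun h => ht (hψ.supp t h)
  have hin : ∀ t, ψ t ≠ 0 → ltUp z t ∈ D ∩ {z | (z 0).im = 0} := fun t ht =>
    ⟨htube t (hmem t ht), ltk1_mem z t⟩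
  have hu : ∀ t, ψ t ≠ 0 → ‖u (ltUp z t)‖ ≤ A := fun t ht => hd.hol.1 _ (hin t ht)
  -- one-sided case
  have hone : ∀ t t', ψ t ≠ 0 → ψ t' = 0 →
      ‖(ψ t : ℂ) * u (ltUp z t)‖ ≤ A * (1 + Λ * (1 + (b - a))) * |t - t'| ^ α := by
    intro t t' ht ht'
    have e1 : |ψ t| ≤ Λ * |t - t'| := by
      have := hΛ t t'
      rwa [ht', sub_zero] at this
    have e2 := ltpa_K2 (abs_nonneg (t - t')) hL hΛ0 (hψ.le_one t) e1 h0 h1
    rw [norm_mul, Complex.norm_real, Real.norm_eq_abs]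
    calc |ψ t| * ‖u (ltUp z t)‖ ≤ ((1 + Λ * (1 + (b - a))) * |t - t'| ^ α) * A :=
          mul_le_mul e2 (hu t ht) (norm_nonneg _) ((abs_nonneg _).trans e2)
      _ = _ := by ring
  refine ⟨hab, h0, h1, fun t ht => ?_, fun t => ?_, fun t t' => ?_⟩
  · rw [hψ.supp t fun h => ht ⟨h.1.le, h.2.le⟩]; simp
  · by_cases ht : ψ t = 0
    · simp [ht, hA]
    · rw [norm_mul, Complex.norm_real, Real.norm_eq_abs]
      calc |ψ t| * ‖u (ltUp z t)‖ ≤ 1 * A :=
            mul_le_mul (hψ.le_one t) (hu t ht) (norm_nonneg _) zero_le_one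
        _ = A := one_mul _
  · by_cases ht : ψ t = 0
    · by_cases ht' : ψ t' = 0
      · simp only [ht, ht', Complex.ofReal_zero, zero_mul, sub_zero, norm_zero]
        have := Real.rpow_nonneg (abs_nonneg (t - t')) α
        positivity
      · have := hone t' t ht' ht
        rw [abs_sub_comm] at this
        simpa [ht] using this
    · by_cases ht' : ψ t' = 0
      · have := hone t t' ht ht'
        simpa [ht'] using this
      · -- both inside
        set x := |t - t'| with hx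
        have hx0 : 0 ≤ x := abs_nonneg _
        have hxL : x ≤ b - a := by
          have m1 := hmem t ht
          have m2 := hmem t' ht'
          rw [hx, abs_le]
          constructor <;> linarith [m1.1, m1.2, m2.1, m2.2]
        have e1 : ‖u (ltUp z t) - u (ltUp z t')‖ ≤ A * x ^ α := by
          have := hd.hol.2 _ (hin t ht) _ (hin t' ht')
          rwa [ltUp_norm_sub] at this
        have e2 := ltpa_K1 hx0 hxL h0 h1
        have e3 : (ψ t : ℂ) * u (ltUp z t) - (ψ t' : ℂ) * u (ltUp z t')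
            = (ψ t : ℂ) * (u (ltUp z t) - u (ltUp z t'))
              + ((ψ t - ψ t' : ℝ) : ℂ) * u (ltUp z t') := by
          push_cast; ring
        have hp : 0 ≤ x ^ α := Real.rpow_nonneg hx0 _
        rw [e3]
        refine (norm_add_le _ _).trans ?_
        rw [norm_mul, norm_mul, Complex.norm_real, Complex.norm_real, Real.norm_eq_abs,
          Real.norm_eq_abs]
        have f1 : |ψ t| * ‖u (ltUp z t) - u (ltUp z t')‖ ≤ 1 * (A * x ^ α) :=
          mul_le_mul (hψ.le_one t) e1 (norm_nonneg _) zero_le_one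
        have f2 : |ψ t - ψ t'| * ‖u (ltUp z t')‖ ≤ (Λ * ((1 + (b - a)) * x ^ α)) * A :=
          mul_le_mul ((hΛ t t').trans (mul_le_mul_of_nonneg_left e2 hΛ0)) (hu t' ht')
            (norm_nonneg _) (by positivity)
        calc _ ≤ 1 * (A * x ^ α) + (Λ * ((1 + (b - a)) * x ^ α)) * A := add_le_add f1 f2
          _ = _ := by ring

/-- the whole segment `{(t, z') : |t - T_k| < 5 s}` lies in `D`. -/
def LtTube (D : Set (Cn (N + 1))) (R s : ℝ) (k : ℕ) (z : Cn (N + 1)) : Prop :=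
  ∀ t ∈ Set.Ioo (ltT R s k - 5 * s) (ltT R s k + 5 * s), ltUp z t ∈ D

theorem lt_pvData_chiK : ∃ c : ℝ, 0 < c ∧ ∀ {N : ℕ} {D : Set (Cn (N + 1))} {u : Cn (N + 1) → ℂ}
    {A α : ℝ}, LtData D u A α → 0 < α → α < 1 → ∀ (R s : ℝ), 0 < s → s ≤ 1 → ∀ (k : ℕ)
    (z : Cn (N + 1)), LtTube D R s k z →
    PvData (fun t => (ltChiK R s k t : ℂ) * u (ltUp z t)) (ltT R s k - 5 * s) (ltT R s k + 5 * s) A
      (c * A / s) α := by
  obtain ⟨Λ, hΛ, H⟩ := lt_chiK_lip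
  refine ⟨1 + 11 * Λ, by positivity, ?_⟩
  intro N D u A α hd h0 h1 R s hs hs1 k z htube
  have hA := hd.A_nonneg
  have P := lt_pvData hd h0 h1 (a := ltT R s k - 5 * s) (b := ltT R s k + 5 * s) (by linarith)
    (lt_chiK_cut R hs k) (H R s hs k) htube
  refine ⟨P.hab, P.α_pos, P.α_lt, P.supp, P.bdd, fun t t' => (P.hol t t').trans ?_⟩
  refine mul_le_mul_of_nonneg_right ?_ (Real.rpow_nonneg (abs_nonneg _) _)
  have e1 : ltT R s k + 5 * s - (ltT R s k - 5 * s) = 10 * s := by ring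
  rw [e1, le_div_iff₀ hs]
  have e2 : A * (1 + Λ / s * (1 + 10 * s)) * s = A * (s + Λ * (1 + 10 * s)) := by
    field_simp
  rw [e2]
  have : s + Λ * (1 + 10 * s) ≤ 1 + 11 * Λ := by nlinarith
  calc A * (s + Λ * (1 + 10 * s)) ≤ A * (1 + 11 * Λ) := mul_le_mul_of_nonneg_left this hA
    _ = (1 + 11 * Λ) * A := by ring

theorem ltpb_adm (R : ℝ) {s : ℝ} (hs : 0 < s) (k : ℕ) {z : Cn (N + 1)} (hz : LtTube D R s k z)
    {d : ℝ} (hd : d ≤ |(z 0).im|) : LtAdm D (ltChiK R s k) d z := by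
  intro t ht
  have hmem : t ∈ Set.Ioo (ltT R s k - 5 * s) (ltT R s k + 5 * s) := by
    by_contra hcon
    exact ht ((lt_chiK_cut R hs k).supp t hcon)
  exact ⟨hz t hmem, hd.trans (pv_norm_sub_ge t (z 0))⟩

theorem lt_c_hol (hD : IsOpen D) (hd : LtData D u A α) (h0 : 0 < α) (R : ℝ) {s : ℝ} (hs : 0 < s) (k : ℕ)
    {G : Set (Cn (N + 1))} (hG : IsOpen G) (hz : ∀ z ∈ G, LtTube D R s k z ∧ (z 0).im ≠ 0) :
    DifferentiableOn ℂ (ltK u (ltChiK R s k)) G := by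
  intro z₀ hz₀
  have hpos : 0 < |(z₀ 0).im| := abs_pos.2 (hz z₀ hz₀).2
  set d : ℝ := |(z₀ 0).im| / 2 with hd_def
  have hd0 : 0 < d := by positivity
  set G' : Set (Cn (N + 1)) := G ∩ {z | d < |(z 0).im|} with hG'
  have hcont : Continuous (fun z : Cn (N + 1) => |(z 0).im|) :=
    (Complex.continuous_im.comp (continuous_apply 0)).abs
  have hG'o : IsOpen G' := hG.inter (isOpen_lt continuous_const hcont)
  have hmem : z₀ ∈ G' := ⟨hz₀, by
    change d < |(z₀ 0).im|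
    rw [hd_def]; linarith⟩
  have := ltK_differentiableOn hD hd h0 (lt_chiK_cut R hs k) hd0 hG'o
    (fun z hz' => ltpb_adm R hs k (hz z hz'.1).1 (le_of_lt hz'.2))
  exact ((this z₀ hmem).differentiableAt (hG'o.mem_nhds hmem)).differentiableWithinAt

theorem lt_c_sup {α : ℝ} (h0 : 0 < α) (h1 : α < 1) : ∃ c : ℝ, 0 < c ∧ ∀ {N : ℕ}
    {D : Set (Cn (N + 1))} {u : Cn (N + 1) → ℂ} {A : ℝ}, LtData D u A α → ∀ (R s : ℝ), 0 < s → s ≤ 1 →
    ∀ (k : ℕ) (z : Cn (N + 1)), LtTube D R s k z → (z 0).im ≠ 0 →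
    ‖ltK u (ltChiK R s k) z‖ ≤ c * A / s := by
  obtain ⟨c', hc', hsup⟩ := pv_sup h0 h1
  obtain ⟨c₁, hc₁, hpv⟩ := lt_pvData_chiK
  refine ⟨c' * (10 + c₁), by positivity, ?_⟩
  intro N D u A hd R s hs hs1 k z hz him
  have hA := hd.A_nonneg
  have h := hsup _ _ _ _ _ (hpv hd h0 h1 R s hs hs1 k z hz) (z 0) him
  have e : ltK u (ltChiK R s k) z = pvC (fun t => (ltChiK R s k t : ℂ) * u (ltUp z t)) (z 0) := rfl
  rw [e]
  refine h.trans ?_
  have h2 : A * (ltT R s k + 5 * s - (ltT R s k - 5 * s)) + c₁ * A / s ≤ (10 + c₁) * A / s := by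
    rw [add_div' _ _ _ hs.ne', div_le_div_iff_of_pos_right hs]
    have : A * s * s ≤ A * 1 * 1 := by gcongr
    nlinarith
  calc _ ≤ c' * ((10 + c₁) * A / s) := by gcongr
    _ = _ := by ring

theorem lt_c_jump {α : ℝ} (h0 : 0 < α) (h1 : α < 1) : ∃ c : ℝ, 0 < c ∧ ∀ {N : ℕ}
    {D : Set (Cn (N + 1))} {u : Cn (N + 1) → ℂ} {A : ℝ}, LtData D u A α → ∀ (R s : ℝ), 0 < s → s ≤ 1 →
    ∀ (k : ℕ) (z : Cn (N + 1)), LtTube D R s k z → (z 0).im = 0 → ∀ y : ℝ, 0 < y →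
    ‖ltK u (ltChiK R s k) (Function.update z 0 (z 0 + y * I))
        - ltK u (ltChiK R s k) (Function.update z 0 (z 0 - y * I))
        - (ltChiK R s k (z 0).re : ℂ) * u z‖ ≤ c * A / s * y ^ α := by
  obtain ⟨c', hc', hj⟩ := pv_jump h0 h1
  obtain ⟨c₁, hc₁, hpv⟩ := lt_pvData_chiK
  refine ⟨c' * c₁, by positivity, ?_⟩
  intro N D u A hd R s hs hs1 k z hz him y hy
  have h := hj _ _ _ _ _ (hpv hd h0 h1 R s hs hs1 k z hz) (z 0).re y hy
  have e0 : ((z 0).re : ℂ) = z 0 := by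
    apply Complex.ext <;> simp [him]
  rw [ltK_update, ltK_update]
  simp only [e0, ltUp_self z him] at h
  calc _ ≤ _ := h
    _ = _ := by ring

theorem ltpc_update_mem {p y : Cn (N + 1)} {r : ℝ} (hy : y ∈ Metric.ball p r) :
    Function.update y 0 (p 0) ∈ Metric.ball p r := by
  have hr : 0 < r := dist_nonneg.trans_lt (Metric.mem_ball.1 hy)
  rw [Metric.mem_ball, dist_pi_lt_iff hr] at hy ⊢
  intro i
  by_cases hi : i = 0
  · subst hi
    simpa using hr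
  · rw [Function.update_of_ne hi]
    exact hy i

theorem ltpc_differentiable_update (ζ : ℂ) :
    Differentiable ℂ (fun y : Cn (N + 1) => Function.update y 0 ζ) := by
  rw [differentiable_pi]
  intro i
  by_cases hi : i = 0
  · subst hi
    simp
  · simp only [Function.update_of_ne hi]
    exact differentiable_apply i

theorem lt_c_holder {α : ℝ} (h0 : 0 < α) (h1 : α < 1) : ∃ c : ℝ, 0 < c ∧ ∀ {N : ℕ}
    {D : Set (Cn (N + 1))} {u : Cn (N + 1) → ℂ} {A : ℝ}, IsOpen D → LtData D u A α → ∀ (R s : ℝ),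
    0 < s → s ≤ 1 → ∀ (k : ℕ) (p : Cn (N + 1)) (r : ℝ), 0 < r → r ≤ 1 →
    (∀ z ∈ Metric.ball p r, LtTube D R s k z) →
    ∀ z ∈ Metric.ball p (r / 2), ∀ z' ∈ Metric.ball p (r / 2), 0 < (z 0).im * (z' 0).im →
    ‖ltK u (ltChiK R s k) z - ltK u (ltChiK R s k) z'‖ ≤ c * A / (s * r) * ‖z - z'‖ ^ α := by
  obtain ⟨c₁, hc₁, hh⟩ := pv_holder h0 h1
  obtain ⟨c₂, hc₂, hsup⟩ := lt_c_sup h0 h1
  obtain ⟨c₃, hc₃, hpv⟩ := lt_pvData_chiK
  refine ⟨c₁ * c₃ + 2 * c₂, by positivity, ?_⟩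
  intro N D u A hD hd R s hs hs1 k p r hr hr1 htube z hz z' hz' hside
  have hA := hd.A_nonneg
  have hsub : Metric.ball p (r / 2) ⊆ Metric.ball p r := Metric.ball_subset_ball (by linarith)
  have him' : (z' 0).im ≠ 0 := by
    intro h
    rw [h, mul_zero] at hside
    exact lt_irrefl _ hside
  set c := ltK u (ltChiK R s k) with hc
  -- step 1
  have s1 : ‖c z - c (Function.update z 0 (z' 0))‖ ≤ c₁ * (c₃ * A / s) * ‖z 0 - z' 0‖ ^ α := by
    have e1 : c z = pvC (fun t => (ltChiK R s k t : ℂ) * u (ltUp z t)) (z 0) := rfl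
    rw [e1, hc, ltK_update]
    exact hh _ _ _ _ _ (hpv hd h0 h1 R s hs hs1 k z (htube z (hsub hz))) _ _ hside
  -- step 2
  set G : Set (Cn (N + 1)) := (fun y : Cn (N + 1) => Function.update y 0 (p 0)) ⁻¹' Metric.ball p r ∩
    {y | (y 0).im ≠ 0} with hG
  have hGo : IsOpen G := by
    apply IsOpen.inter
    · exact Metric.isOpen_ball.preimage (ltpc_differentiable_update (p 0)).continuous
    · exact isOpen_ne_fun (Complex.continuous_im.comp (continuous_apply 0)) continuous_const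
  have hGt : ∀ y ∈ G, LtTube D R s k y ∧ (y 0).im ≠ 0 := by
    intro y hy
    refine ⟨?_, hy.2⟩
    intro t ht
    rw [← ltUp_update y (p 0) t]
    exact htube _ hy.1 t ht
  have hmaps : ∀ y ∈ Metric.ball p r, Function.update y 0 (z' 0) ∈ G := by
    intro y hy
    refine ⟨?_, ?_⟩
    · change Function.update (Function.update y 0 (z' 0)) 0 (p 0) ∈ Metric.ball p r
      rw [Function.update_idem]
      exact ltpc_update_mem hy
    · change ((Function.update y 0 (z' 0)) 0).im ≠ 0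
      rw [Function.update_self]
      exact him'
  have hhol : DifferentiableOn ℂ (fun y => c (Function.update y 0 (z' 0))) (Metric.ball p r) :=
    (lt_c_hol hD hd h0 R hs k hGo hGt).comp
      (ltpc_differentiable_update (z' 0)).differentiableOn hmaps
  have s2 := scv_lipschitz hhol (M := c₂ * A / s)
    (fun y hy => hsup hd R s hs hs1 k _ (hGt _ (hmaps y hy)).1 (hGt _ (hmaps y hy)).2) hz hz'
  simp only [Function.update_eq_self] at s2
  -- combine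
  have hn0 : ‖z 0 - z' 0‖ ≤ ‖z - z'‖ := norm_le_pi_norm (z - z') 0
  have hn1 : ‖z - z'‖ ≤ 1 := by
    have h1 := Metric.mem_ball.1 hz
    have h2 := Metric.mem_ball.1 hz'
    have := dist_triangle_right z z' p
    rw [← dist_eq_norm]
    linarith
  have hp1 : ‖z 0 - z' 0‖ ^ α ≤ ‖z - z'‖ ^ α := Real.rpow_le_rpow (norm_nonneg _) hn0 h0.le
  have hp2 : ‖z - z'‖ ≤ ‖z - z'‖ ^ α := by
    have := Real.rpow_le_rpow_of_exponent_ge' (norm_nonneg (z - z')) hn1 h0.le h1.le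
    simpa using this
  have hP : 0 ≤ ‖z - z'‖ ^ α := Real.rpow_nonneg (norm_nonneg _) _
  have tri : ‖c z - c z'‖ ≤ ‖c z - c (Function.update z 0 (z' 0))‖ +
      ‖c (Function.update z 0 (z' 0)) - c z'‖ := by
    have := norm_add_le (c z - c (Function.update z 0 (z' 0))) (c (Function.update z 0 (z' 0)) - c z')
    simpa using this
  have b1 : c₁ * (c₃ * A / s) * ‖z 0 - z' 0‖ ^ α ≤ c₁ * c₃ * A / (s * r) * ‖z - z'‖ ^ α := by
    have : c₁ * (c₃ * A / s) ≤ c₁ * c₃ * A / (s * r) := by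
      rw [← mul_div_assoc, ← mul_assoc]
      apply div_le_div_of_nonneg_left (by positivity) (by positivity)
      nlinarith
    exact mul_le_mul this hp1 (Real.rpow_nonneg (norm_nonneg _) _) (by positivity)
  have b2 : 2 * (c₂ * A / s) / r * ‖z - z'‖ ≤ 2 * c₂ * A / (s * r) * ‖z - z'‖ ^ α := by
    have : 2 * (c₂ * A / s) / r = 2 * c₂ * A / (s * r) := by
      field_simp
    rw [this]
    exact mul_le_mul_of_nonneg_left hp2 (by positivity)
  calc _ ≤ _ := tri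
    _ ≤ c₁ * c₃ * A / (s * r) * ‖z - z'‖ ^ α + 2 * c₂ * A / (s * r) * ‖z - z'‖ ^ α :=
      add_le_add (s1.trans b1) (s2.trans b2)
    _ = _ := by ring

theorem lt_pv_eqns_cite : (@LtTube.eq_1 = @LtTube.eq_1) := rfl

end Claimed.Agent.R245
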