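/-
Row 245 / S0484.  Package LT.   Architect: helper246.     No paper.
LTCou: the Cousin step.  Grid `T_k = -R + k s`, `k < m = ltM R s`; cover `ltW (some k) = {|Re z0 - T_k| < 2s, |Im z0| < 3s}`, `ltW none = {|Im z0| > s/2}`; local solutions of the jump problem `c_k = ltK u χ_k` on `ltW (some k)`, `0` on `ltW none`;
their differences form the holomorphic cocycle `ltHH`, bounded by `20 A`; `db_cousin_hol` solves it.
Leaves:  LT-COU-A = `lt_tube_of_mem`, `lt_adm_kk`, `lt_adm_kn`, `ltHH_differentiableOn`, `ltHH_norm_le`;     LT-COU-B = `ltHH_cocycle`;     LT-COU-C = `lt_cousin`.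

PLANS.   (`χ_k = ltChiK R s k`, `T_k = ltT R s k`;  `S : LtSetup …` gives `ball z (10 s) ⊆ D` for `z ∈ Ω`.)
 * `lt_tube_of_mem`: `‖ltUp z t - z‖ = ‖t - z 0‖ ≤ |t - Re z0| + |Im z0| < (5s + 2s) + 3s` (`ltUp_norm_sub_self`, `Complex.norm_le_abs_re_add_abs_im`).
 * `lt_adm_kk`: `χ_k t - χ_k' t ≠ 0` ⇒ not both `= 1` ⇒ `4 s < |t - T_k|` or `4 s < |t - T_k'|` (`ltChi_eq_one`) ⇒ `|t - Re z0| > 2 s` ⇒ `‖t - z0‖ ≥ |Re (t - z0)| ≥ 2s`;  and one of `χ_k t`, `χ_k' t` is `≠ 0` ⇒ `t` in the corresponding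
   interval (`ltChi_eq_zero`) ⇒ `ltUp z t ∈ D` by `lt_tube_of_mem`.       `lt_adm_kn`: `‖t - z0‖ ≥ |Im z0| > s/2` (`pv_norm_sub_ge`).
 * `ltHH_differentiableOn`: cases on `a, b`; `ltK_differentiableOn` (cut: `lt_chiK_sub_cut` with `a = min T_k T_k' - 5s`, `b = max .. + 5s`; `lt_chiK_cut`), `.neg`, constants.   The sets are open (`ltW_isOpen`, `S.Ω_open`).
 * `ltHH_norm_le`: `ltK_norm_le`; (k,k'): interval `(Re z0 - 7s, Re z0 + 7s)`, `d = 2s`: `A * 14 s / (2 s) = 7 A`;  (k,none): `A * 10 s / (s/2) = 20 A`.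
 * `ltHH_cocycle`: two identities, everything else is `ring`/`simp`:  (I1) on `W k ∩ W k' ∩ W k''`: `K(χ_k-χ_k') + K(χ_k'-χ_k'') = K(χ_k-χ_k'')` (`ltK_add`, then `congrArg`/`funext; ring`);
   (I2) on `W k ∩ W k' ∩ W none`: `K(χ_k-χ_k') + K χ_k' = K χ_k`.    Do `rcases a, b, c` (8 cases).
 * `lt_cousin`: `C` from `db_cousin_hol (N+1) R`, `Λ` from `ltTheta_dzb`;  apply it with `ι = Option (Fin (ltM R s))`, `W = ltW`, `Θ = ltTheta`, `hh = ltHH`, `L = Λ/s`, `B = 20 A`; `hsupp` from `ltTheta_tsupport`; `ltTheta_sum` (`‖z‖ ≤ R` on `Ω ⊆ D ⊆ ball 0 R`: `z ∈ ball z (10 s) ⊆ D`;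
   `2R/s + 1 ≤ ltM R s` by `Nat.le_ceil`).   Bound with `d = s/4`: `card ι = ltM R s + 1 ≤ 2R/s + 4 ≤ (2|R|+4)/s` (`Nat.ceil_lt_add_one` if `0 ≤ R`; if `R < 0` there is no `p`), so
   `C ((2|R|+4)/s) (Λ/s) (20 A) 4^(N+1)/s^(N+1) + 40 A ≤ c A / s^(N+3)` with `c = C (2|R|+4) Λ 20 · 4^(N+1) + 40` (`s ≤ 1`).
-/
import Claimed.Agent.R245.LTPv
import Claimed.Agent.R245.DBCousin

set_option autoImplicit false

namespace Claimed.Agent.R245

open Claimed.Agent.R242 (Cn dz dzb levi PshOn)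
open Complex MeasureTheory

/-- the number of grid points. -/
noncomputable def ltM (R s : ℝ) : ℕ := ⌈2 * R / s⌉₊ + 2

/-- the standing hypotheses of the construction at scale `s`. -/
structure LtSetup (N : ℕ) (R s α A : ℝ) (D Ω : Set (Cn (N + 1))) (u : Cn (N + 1) → ℂ) : Prop where
  α_pos : 0 < α
  α_lt : α < 1
  s_pos : 0 < s
  s_le : s ≤ 1
  D_open : IsOpen D
  D_sub : D ⊆ Metric.ball 0 R
  Ω_open : IsOpen Ω
  Ω_exh : DbExh Ω
  margin : ∀ z ∈ Ω, Metric.ball z (10 * s) ⊆ D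
  data : LtData D u A α

/-- the cocycle. -/
noncomputable def ltHH {N : ℕ} (u : Cn (N + 1) → ℂ) (R s : ℝ) {m : ℕ} :
    Option (Fin m) → Option (Fin m) → Cn (N + 1) → ℂ
  | some k, some k' => ltK u (fun t => ltChiK R s k t - ltChiK R s k' t)
  | some k, none => ltK u (ltChiK R s k)
  | none, some k => fun z => - ltK u (ltChiK R s k) z
  | none, none => fun _ => 0

/-- a solution of the Cousin problem with bound `c A / s^(N+3)`. -/
structure LtSol {N : ℕ} (R s A : ℝ) (Ω : Set (Cn (N + 1))) (u : Cn (N + 1) → ℂ) (c : ℝ)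
    (H : Option (Fin (ltM R s)) → Cn (N + 1) → ℂ) : Prop where
  hol : ∀ a, DifferentiableOn ℂ (H a) (ltW N R s a ∩ Ω)
  diff : ∀ a b, ∀ z ∈ ltW N R s a ∩ ltW N R s b ∩ Ω, H a z - H b z = ltHH u R s a b z
  bound : ∀ a p, Metric.ball p (s / 4) ⊆ ltW N R s a ∩ Ω → ‖H a p‖ ≤ c * A / s ^ (N + 3)

variable {N : ℕ} {R s α A : ℝ} {D Ω : Set (Cn (N + 1))} {u : Cn (N + 1) → ℂ}

theorem lt_tube_of_mem (S : LtSetup N R s α A D Ω u) {m : ℕ} (k : Fin m) {z : Cn (N + 1)}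
    (hz : z ∈ ltW N R s (some k) ∩ Ω) : LtTube D R s k z := by
  intro t ht
  obtain ⟨⟨h1, h2⟩, hΩ⟩ := hz
  apply S.margin z hΩ
  rw [Metric.mem_ball, dist_eq_norm, ltUp_norm_sub_self]
  have h3 := Complex.norm_le_abs_re_add_abs_im ((t : ℂ) - z 0)
  have e1 : ((t : ℂ) - z 0).re = t - (z 0).re := by simp
  have e2 : |((t : ℂ) - z 0).im| = |(z 0).im| := by simp
  rw [e1, e2] at h3
  have h4 : |t - (z 0).re| < 7 * s := by
    rw [abs_lt] at h1 ⊢
    constructor <;> linarith [ht.1, ht.2, h1.1, h1.2]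
  linarith

theorem ltua_mem_of_ne (R : ℝ) {s : ℝ} (hs : 0 < s) (k : ℕ) {t : ℝ} (h : ltChiK R s k t ≠ 0) :
    t ∈ Set.Ioo (ltT R s k - 5 * s) (ltT R s k + 5 * s) := by
  by_contra hcon
  exact h ((lt_chiK_cut R hs k).supp t hcon)

theorem ltua_eq_one (R : ℝ) {s : ℝ} (hs : 0 < s) (k : ℕ) {t : ℝ} (h : |t - ltT R s k| ≤ 4 * s) :
    ltChiK R s k t = 1 := by
  unfold ltChiK
  apply ltChi_eq_one
  rw [abs_div, abs_of_pos hs, div_le_iff₀ hs]
  exact h

theorem ltua_re_le (t : ℝ) (ζ : ℂ) : |t - ζ.re| ≤ ‖(t : ℂ) - ζ‖ := by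
  have := Complex.abs_re_le_norm ((t : ℂ) - ζ)
  simpa using this

theorem lt_adm_kk (S : LtSetup N R s α A D Ω u) {m : ℕ} (k k' : Fin m) {z : Cn (N + 1)}
    (hz : z ∈ ltW N R s (some k) ∩ ltW N R s (some k') ∩ Ω) :
    LtAdm D (fun t => ltChiK R s k t - ltChiK R s k' t) (2 * s) z := by
  intro t ht
  have hs := S.s_pos
  obtain ⟨⟨hk, hk'⟩, hΩ⟩ := hz
  constructor
  · by_cases h : ltChiK R s k t = 0
    · have h' : ltChiK R s k' t ≠ 0 := by
        intro h'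
        apply ht
        simp only [h, h', sub_self]
      exact lt_tube_of_mem S k' ⟨hk', hΩ⟩ t (ltua_mem_of_ne R hs k' h')
    · exact lt_tube_of_mem S k ⟨hk, hΩ⟩ t (ltua_mem_of_ne R hs k h)
  · refine le_trans ?_ (ltua_re_le t (z 0))
    have hor : 4 * s < |t - ltT R s k| ∨ 4 * s < |t - ltT R s k'| := by
      by_contra hcon
      push Not at hcon
      apply ht
      simp only [ltua_eq_one R hs k hcon.1, ltua_eq_one R hs k' hcon.2, sub_self]
    rcases hor with h | h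
    · have h1 := hk.1
      have := abs_sub_le t (z 0).re (ltT R s k)
      linarith
    · have h1 := hk'.1
      have := abs_sub_le t (z 0).re (ltT R s k')
      linarith

theorem lt_adm_kn (S : LtSetup N R s α A D Ω u) {m : ℕ} (k : Fin m) {z : Cn (N + 1)}
    (hz : z ∈ ltW N R s (some k) ∩ ltW N R s (none : Option (Fin m)) ∩ Ω) :
    LtAdm D (ltChiK R s k) (s / 2) z := by
  intro t ht
  obtain ⟨⟨hk, hn⟩, hΩ⟩ := hz
  refine ⟨lt_tube_of_mem S k ⟨hk, hΩ⟩ t (ltua_mem_of_ne R S.s_pos k ht), ?_⟩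
  exact (le_of_lt hn).trans (pv_norm_sub_ge t (z 0))

theorem ltua_sub_cut (R : ℝ) {s : ℝ} (hs : 0 < s) (k k' : ℕ) :
    LtCut (fun t => ltChiK R s k t - ltChiK R s k' t) (min (ltT R s k) (ltT R s k') - 5 * s)
      (max (ltT R s k) (ltT R s k') + 5 * s) :=
  lt_chiK_sub_cut R hs k k' (by linarith [min_le_left (ltT R s k) (ltT R s k')])
    (by linarith [min_le_right (ltT R s k) (ltT R s k')])
    (by linarith [le_max_left (ltT R s k) (ltT R s k')])
    (by linarith [le_max_right (ltT R s k) (ltT R s k')])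

theorem ltHH_differentiableOn (S : LtSetup N R s α A D Ω u) {m : ℕ} (a b : Option (Fin m)) :
    DifferentiableOn ℂ (ltHH u R s a b) (ltW N R s a ∩ ltW N R s b ∩ Ω) := by
  have hs := S.s_pos
  have hopen : ∀ a b : Option (Fin m), IsOpen (ltW N R s a ∩ ltW N R s b ∩ Ω) := fun a b =>
    ((ltW_isOpen R s a).inter (ltW_isOpen R s b)).inter S.Ω_open
  rcases a with _ | k <;> rcases b with _ | k'
  · exact differentiableOn_const _
  · have := ltK_differentiableOn S.D_open S.data S.α_pos (lt_chiK_cut R hs k') (by positivity : 0 < s / 2)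
      (hopen (some k') none) (fun z hz => lt_adm_kn S k' hz)
    have h2 : DifferentiableOn ℂ (ltK u (ltChiK R s k'))
        (ltW N R s (none : Option (Fin m)) ∩ ltW N R s (some k') ∩ Ω) :=
      this.mono (fun z hz => ⟨⟨hz.1.2, hz.1.1⟩, hz.2⟩)
    exact h2.neg
  · exact ltK_differentiableOn S.D_open S.data S.α_pos (lt_chiK_cut R hs k) (by positivity : 0 < s / 2)
      (hopen (some k) none) (fun z hz => lt_adm_kn S k hz)
  · exact ltK_differentiableOn S.D_open S.data S.α_pos (ltua_sub_cut R hs k k')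
      (by positivity : 0 < 2 * s) (hopen (some k) (some k')) (fun z hz => lt_adm_kk S k k' hz)

theorem ltua_norm_kn (S : LtSetup N R s α A D Ω u) {m : ℕ} (k : Fin m) {z : Cn (N + 1)}
    (hz : z ∈ ltW N R s (some k) ∩ ltW N R s (none : Option (Fin m)) ∩ Ω) :
    ‖ltK u (ltChiK R s k) z‖ ≤ 20 * A := by
  have hs := S.s_pos
  have := ltK_norm_le S.D_open S.data S.α_pos (by linarith) (lt_chiK_cut R hs k)
    (by positivity : 0 < s / 2) (lt_adm_kn S k hz)
  refine this.trans (le_of_eq ?_)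
  field_simp
  ring

theorem ltHH_norm_le (S : LtSetup N R s α A D Ω u) {m : ℕ} (a b : Option (Fin m)) :
    ∀ z ∈ ltW N R s a ∩ ltW N R s b ∩ Ω, ‖ltHH u R s a b z‖ ≤ 20 * A := by
  have hs := S.s_pos
  have hA := S.data.A_nonneg
  intro z hz
  rcases a with _ | k <;> rcases b with _ | k'
  · change ‖(0 : ℂ)‖ ≤ 20 * A
    rw [norm_zero]; positivity
  · change ‖- ltK u (ltChiK R s k') z‖ ≤ 20 * A
    rw [norm_neg]
    exact ltua_norm_kn S k' ⟨⟨hz.1.2, hz.1.1⟩, hz.2⟩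
  · exact ltua_norm_kn S k hz
  · change ‖ltK u (fun t => ltChiK R s k t - ltChiK R s k' t) z‖ ≤ 20 * A
    have h1 := abs_lt.1 hz.1.1.1
    have h2 := abs_lt.1 hz.1.2.1
    have hcut : LtCut (fun t => ltChiK R s k t - ltChiK R s k' t) ((z 0).re - 7 * s)
        ((z 0).re + 7 * s) :=
      lt_chiK_sub_cut R hs k k' (by linarith [h1.2]) (by linarith [h2.2]) (by linarith [h1.1])
        (by linarith [h2.1])
    have := ltK_norm_le S.D_open S.data S.α_pos (by linarith) hcut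
      (by positivity : 0 < 2 * s) (lt_adm_kk S k k' hz)
    refine this.trans ?_
    have e : A * ((z 0).re + 7 * s - ((z 0).re - 7 * s)) / (2 * s) = 7 * A := by
      field_simp
      ring
    rw [e]
    linarith

theorem ltub_I1 (S : LtSetup N R s α A D Ω u) {m : ℕ} (k k' k'' : Fin m) {z : Cn (N + 1)}
    (hk : z ∈ ltW N R s (some k)) (hk' : z ∈ ltW N R s (some k')) (hk'' : z ∈ ltW N R s (some k''))
    (hΩ : z ∈ Ω) :
    ltK u (fun t => ltChiK R s k t - ltChiK R s k' t) z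
      + ltK u (fun t => ltChiK R s k' t - ltChiK R s k'' t) z
      = ltK u (fun t => ltChiK R s k t - ltChiK R s k'' t) z := by
  have hs := S.s_pos
  rw [← ltK_add S.D_open S.data S.α_pos (ltua_sub_cut R hs k k') (ltua_sub_cut R hs k' k'')
    (by positivity : 0 < 2 * s) (by positivity : 0 < 2 * s) (lt_adm_kk S k k' ⟨⟨hk, hk'⟩, hΩ⟩)
    (lt_adm_kk S k' k'' ⟨⟨hk', hk''⟩, hΩ⟩)]
  congr 1
  funext t
  ring

theorem ltub_I2 (S : LtSetup N R s α A D Ω u) {m : ℕ} (k k' : Fin m) {z : Cn (N + 1)}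
    (hk : z ∈ ltW N R s (some k)) (hk' : z ∈ ltW N R s (some k'))
    (hn : z ∈ ltW N R s (none : Option (Fin m))) (hΩ : z ∈ Ω) :
    ltK u (fun t => ltChiK R s k t - ltChiK R s k' t) z + ltK u (ltChiK R s k') z
      = ltK u (ltChiK R s k) z := by
  have hs := S.s_pos
  rw [← ltK_add S.D_open S.data S.α_pos (ltua_sub_cut R hs k k') (lt_chiK_cut R hs k')
    (by positivity : 0 < 2 * s) (by positivity : 0 < s / 2) (lt_adm_kk S k k' ⟨⟨hk, hk'⟩, hΩ⟩)
    (lt_adm_kn S k' ⟨⟨hk', hn⟩, hΩ⟩)]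
  congr 1
  funext t
  ring

theorem ltHH_cocycle (S : LtSetup N R s α A D Ω u) {m : ℕ} (a b c : Option (Fin m)) :
    ∀ z ∈ ltW N R s a ∩ ltW N R s b ∩ ltW N R s c ∩ Ω,
      ltHH u R s a b z + ltHH u R s b c z = ltHH u R s a c z := by
  rintro z ⟨⟨⟨ha, hb⟩, hc⟩, hΩ⟩
  rcases a with _ | k <;> rcases b with _ | k' <;> rcases c with _ | k''
  · change (0 : ℂ) + 0 = 0
    simp
  · change (0 : ℂ) + - ltK u (ltChiK R s k'') z = - ltK u (ltChiK R s k'') z
    simp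
  · change - ltK u (ltChiK R s k') z + ltK u (ltChiK R s k') z = 0
    simp
  · change - ltK u (ltChiK R s k') z + ltK u (fun t => ltChiK R s k' t - ltChiK R s k'' t) z
      = - ltK u (ltChiK R s k'') z
    rw [← ltub_I2 S k' k'' hb hc ha hΩ]
    ring
  · change ltK u (ltChiK R s k) z + 0 = ltK u (ltChiK R s k) z
    simp
  · change ltK u (ltChiK R s k) z + - ltK u (ltChiK R s k'') z
      = ltK u (fun t => ltChiK R s k t - ltChiK R s k'' t) z
    rw [← ltub_I2 S k k'' ha hc hb hΩ]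
    ring
  · exact ltub_I2 S k k' ha hb hc hΩ
  · exact ltub_I1 S k k' k'' ha hb hc hΩ

/-- **the Cousin step.** -/
theorem lt_cousin (N : ℕ) (R : ℝ) : ∃ c : ℝ, 0 < c ∧ ∀ {s α A : ℝ} {D Ω : Set (Cn (N + 1))}
    {u : Cn (N + 1) → ℂ}, LtSetup N R s α A D Ω u →
    ∃ H : Option (Fin (ltM R s)) → Cn (N + 1) → ℂ, LtSol R s A Ω u c H := by
  obtain ⟨C, hC, hcou⟩ := db_cousin_hol (N + 1) R
  obtain ⟨Λ, hΛ, hdzb⟩ := ltTheta_dzb
  refine ⟨C * (2 * |R| + 4) * Λ * 20 * 4 ^ (N + 1) + 40, by positivity, ?_⟩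
  intro s α A D Ω u S
  have hs := S.s_pos
  have hA := S.data.A_nonneg
  have hΩR : Ω ⊆ Metric.ball 0 R := fun z hz =>
    S.D_sub (S.margin z hz (Metric.mem_ball_self (by positivity)))
  have hm : 2 * R / s + 1 ≤ (ltM R s : ℝ) := by
    unfold ltM
    push_cast
    have := Nat.le_ceil (2 * R / s)
    linarith
  obtain ⟨H, hH1, hH2, hH3⟩ := hcou Ω S.Ω_open hΩR S.Ω_exh (ltW N R s (m := ltM R s))
    (ltTheta N R s) (ltHH u R s) (Λ / s) (20 * A) (by positivity) (by positivity)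
    (ltW_isOpen R s) (ltTheta_contDiff R s)
    (fun a => Set.inter_subset_left.trans (ltTheta_tsupport hs a)) (ltTheta_nonneg R s)
    (fun z hz => ltTheta_sum hs hm z (mem_ball_zero_iff.1 (hΩR hz)).le)
    (fun a z j => hdzb N R s hs a z j) (ltHH_differentiableOn S) (ltHH_norm_le S) (ltHH_cocycle S)
  refine ⟨H, hH1, hH2, fun a p hball => ?_⟩
  have hp : p ∈ Ω := (hball (Metric.mem_ball_self (by positivity))).2
  have hR : 0 < R := (norm_nonneg p).trans_lt (mem_ball_zero_iff.1 (hΩR hp))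
  have h1 := hH3 a p (s / 4) (by positivity) hball
  have hcard : (Fintype.card (Option (Fin (ltM R s))) : ℝ) ≤ (2 * |R| + 4) / s := by
    rw [Fintype.card_option, Fintype.card_fin, abs_of_pos hR]
    unfold ltM
    push_cast
    have h2 := Nat.ceil_lt_add_one (a := 2 * R / s) (by positivity)
    have h3 : (4 : ℝ) ≤ 4 / s := by
      rw [le_div_iff₀ hs]
      linarith [S.s_le]
    have h4 : (2 * R + 4) / s = 2 * R / s + 4 / s := by ring
    rw [h4]
    linarith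
  have hP : 0 < s ^ (N + 3) := by positivity
  have hP1 : s ^ (N + 3) ≤ 1 := pow_le_one₀ hs.le S.s_le
  have t1 : C * ((Fintype.card (Option (Fin (ltM R s))) : ℝ) * (Λ / s) * (20 * A)) / (s / 4) ^ (N + 1)
      ≤ C * ((2 * |R| + 4) / s * (Λ / s) * (20 * A)) / (s / 4) ^ (N + 1) := by
    gcongr
  have t2 : C * ((2 * |R| + 4) / s * (Λ / s) * (20 * A)) / (s / 4) ^ (N + 1)
      = C * (2 * |R| + 4) * Λ * 20 * 4 ^ (N + 1) * A / s ^ (N + 3) := by
    rw [div_pow]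
    field_simp
    ring
  have t3 : 2 * (20 * A) ≤ 40 * A / s ^ (N + 3) := by
    rw [le_div_iff₀ hP]
    have : 40 * A * s ^ (N + 3) ≤ 40 * A * 1 := mul_le_mul_of_nonneg_left hP1 (by positivity)
    linarith
  have t4 : (C * (2 * |R| + 4) * Λ * 20 * 4 ^ (N + 1) + 40) * A / s ^ (N + 3)
      = C * (2 * |R| + 4) * Λ * 20 * 4 ^ (N + 1) * A / s ^ (N + 3) + 40 * A / s ^ (N + 3) := by ring
  rw [t4, ← t2]
  exact h1.trans (add_le_add t1 t3)

theorem lt_cou_eqns_cite : (@ltM.eq_1 = @ltM.eq_1) ∧ (@ltHH.eq_1 = @ltHH.eq_1) := ⟨rfl, rfl⟩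

end Claimed.Agent.R245
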