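/-
Row 245 / S0484.  Package LT.   Architect: helper246.     Mathlib + R245/SCV, no paper.
LTExt: extension of a Hölder function to the closure;  traces of one-sided holomorphic Hölder functions are CR.
Leaves:  LT-EXT = `lt_extend`;     LT-CR = `lt_trace_cr`.

PLANS.
 * `lt_extend`: `g := extendFrom S f`.  For `x ∈ closure S` the filter `𝓝[S] x` is `NeBot` (`mem_closure_iff_nhdsWithin_neBot`) and `map f (𝓝[S] x)` is Cauchy: given `ε`, choose `δ` with `Hc (2δ)^α < ε`; the set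
   `S ∩ ball x δ ∈ 𝓝[S] x` has image of diameter `≤ ε` (`Metric.cauchy_iff`).  `ℂ` complete ⇒ limit `y` (`cauchy_iff_exists_le_nhds`/`CompleteSpace.complete`), `extendFrom_eq`.  (If `Hc < 0` then `S` has at most.. just note `0 ≤ Hc ‖x-x'‖^α`
   forces what is needed; or replace `Hc` by `max Hc 0` in the Cauchy argument.)   On `S`: `f` is continuous within `S` at `x` (Hölder), so the limit is `f x`.
   Inequalities on the closure: `le_of_tendsto` for the product filter `𝓝[S] x ×ˢ 𝓝[S] x'` (`Tendsto.prodMk`, `Filter.Tendsto.norm`, `tendsto_fst/snd`, continuity of `(a,b) ↦ Hc ‖a - b‖^α` (`Real.continuous_rpow_const`‑type, `0 < α`), `eventually` from `self_mem_nhdsWithin`).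
 * `lt_trace_cr`: fix `t`, `U := {z | ltUp z t ∈ D'}` (open: `z ↦ ltUp z t` is continuous), `y₀ ∈ U`.  Choose `r > 0` with `ball (ltUp y₀ t) (2 r) ⊆ D'`.  For `0 < ε < r` and `y ∈ ball y₀ r`:
   `q ε y := Function.update y 0 ((t : ℂ) + ε * (σ * I)) ∈ D' ∩ {0 < σ Im}` (`‖q ε y - ltUp y₀ t‖ ≤ max ‖y - y₀‖ ε`), `F ε y := f (q ε y)` is holomorphic on `ball y₀ r` (composition with an affine map), and
   `‖F ε y - f (ltUp y t)‖ ≤ Hc ε^α` (`‖q ε y - ltUp y t‖ = ε`): uniform convergence as `ε → 0+` on `ball y₀ r`; `scv_tendsto` with the filter `𝓝[>] 0` (`TendstoUniformlyOn.tendstoLocallyUniformlyOn`, `Metric.tendstoUniformlyOn_iff`).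
   Then `DifferentiableOn` on `ball y₀ r` gives `DifferentiableWithinAt` at `y₀`.
-/
import Claimed.Agent.R245.LTK

set_option autoImplicit false

namespace Claimed.Agent.R245

open Claimed.Agent.R242 (Cn dz dzb levi PshOn)
open Complex MeasureTheory Filter Topology

/-- smallness of `H t^α` for small `t` -/
theorem ltx_small {H α ε : ℝ} (hH : 0 ≤ H) (h0 : 0 < α) (hε : 0 < ε) :
    ∃ δ : ℝ, 0 < δ ∧ ∀ t : ℝ, 0 ≤ t → t ≤ δ → H * t ^ α < ε := by
  refine ⟨(ε / (H + 1)) ^ α⁻¹, by positivity, fun t ht htδ => ?_⟩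
  have h1 : t ^ α ≤ ε / (H + 1) := by
    calc t ^ α ≤ ((ε / (H + 1)) ^ α⁻¹) ^ α := Real.rpow_le_rpow ht htδ h0.le
      _ = ε / (H + 1) := Real.rpow_inv_rpow (by positivity) h0.ne'
  calc H * t ^ α ≤ H * (ε / (H + 1)) := mul_le_mul_of_nonneg_left h1 hH
    _ < ε := by
      rw [mul_div_assoc', div_lt_iff₀ (by positivity)]
      nlinarith

theorem lt_extend {E : Type*} [NormedAddCommGroup E] {S : Set E} {f : E → ℂ} {Hc α : ℝ} (h0 : 0 < α)
    (hH : ∀ x ∈ S, ∀ x' ∈ S, ‖f x - f x'‖ ≤ Hc * ‖x - x'‖ ^ α) :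
    ∃ g : E → ℂ, (∀ x ∈ S, g x = f x) ∧
      (∀ x ∈ closure S, ∀ x' ∈ closure S, ‖g x - g x'‖ ≤ Hc * ‖x - x'‖ ^ α) ∧
      (∀ x ∈ closure S, Tendsto f (𝓝[S] x) (𝓝 (g x))) ∧
      ∀ Bc : ℝ, (∀ x ∈ S, ‖f x‖ ≤ Bc) → ∀ x ∈ closure S, ‖g x‖ ≤ Bc := by
  have hH' : ∀ x ∈ S, ∀ x' ∈ S, ‖f x - f x'‖ ≤ max Hc 0 * ‖x - x'‖ ^ α := fun x hx x' hx' =>
    (hH x hx x' hx').trans (mul_le_mul_of_nonneg_right (le_max_left _ _) (by positivity))
  have hM : (0 : ℝ) ≤ max Hc 0 := le_max_right _ _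
  have ex : ∀ x ∈ closure S, ∃ y, Tendsto f (𝓝[S] x) (𝓝 y) := by
    intro x hx
    have : (𝓝[S] x).NeBot := mem_closure_iff_nhdsWithin_neBot.1 hx
    have hc : Cauchy (map f (𝓝[S] x)) := by
      rw [Metric.cauchy_iff]
      refine ⟨inferInstance, fun ε hε => ?_⟩
      obtain ⟨δ, hδ, hs⟩ := ltx_small hM h0 hε
      refine ⟨f '' (S ∩ Metric.ball x (δ / 2)), image_mem_map (inter_mem self_mem_nhdsWithin
        (mem_nhdsWithin_of_mem_nhds (Metric.ball_mem_nhds x (by positivity)))), ?_⟩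
      rintro _ ⟨p, ⟨hp, hp'⟩, rfl⟩ _ ⟨q, ⟨hq, hq'⟩, rfl⟩
      rw [dist_eq_norm]
      refine (hH' p hp q hq).trans_lt (hs _ (norm_nonneg _) ?_)
      rw [← dist_eq_norm]
      have h1 := dist_triangle_right p q x
      rw [Metric.mem_ball] at hp' hq'
      linarith
    exact CompleteSpace.complete hc
  have hT : ∀ x ∈ closure S, Tendsto f (𝓝[S] x) (𝓝 (extendFrom S f x)) := fun x hx =>
    tendsto_extendFrom (ex x hx)
  refine ⟨extendFrom S f, fun x hx => ?_, fun x hx x' hx' => ?_, hT, fun Bc hB x hx => ?_⟩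
  · have : (𝓝[S] x).NeBot := mem_closure_iff_nhdsWithin_neBot.1 (subset_closure hx)
    refine tendsto_nhds_unique (hT x (subset_closure hx)) ?_
    rw [Metric.tendsto_nhdsWithin_nhds]
    intro ε hε
    obtain ⟨δ, hδ, hs⟩ := ltx_small hM h0 hε
    refine ⟨δ, hδ, fun x' hx' hd => ?_⟩
    rw [dist_eq_norm]
    refine (hH' x' hx' x hx).trans_lt (hs _ (norm_nonneg _) ?_)
    rw [← dist_eq_norm]
    exact hd.le
  · have : (𝓝[S] x).NeBot := mem_closure_iff_nhdsWithin_neBot.1 hx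
    have : (𝓝[S] x').NeBot := mem_closure_iff_nhdsWithin_neBot.1 hx'
    have t1 : Tendsto (fun p : E × E => ‖f p.1 - f p.2‖) (𝓝[S] x ×ˢ 𝓝[S] x')
        (𝓝 ‖extendFrom S f x - extendFrom S f x'‖) :=
      (((hT x hx).comp tendsto_fst).sub ((hT x' hx').comp tendsto_snd)).norm
    have c2 : Continuous fun p : E × E => Hc * ‖p.1 - p.2‖ ^ α :=
      continuous_const.mul ((continuous_fst.sub continuous_snd).norm.rpow_const
        fun _ => Or.inr h0.le)
    have t2 : Tendsto (fun p : E × E => Hc * ‖p.1 - p.2‖ ^ α) (𝓝[S] x ×ˢ 𝓝[S] x')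
        (𝓝 (Hc * ‖x - x'‖ ^ α)) := by
      have := c2.tendsto (x, x')
      rw [nhds_prod_eq] at this
      exact this.mono_left (Filter.prod_mono nhdsWithin_le_nhds nhdsWithin_le_nhds)
    refine le_of_tendsto_of_tendsto t1 t2 ?_
    filter_upwards [prod_mem_prod (self_mem_nhdsWithin (a := x) (s := S))
      (self_mem_nhdsWithin (a := x') (s := S))] with p hp
    exact hH p.1 hp.1 p.2 hp.2
  · have : (𝓝[S] x).NeBot := mem_closure_iff_nhdsWithin_neBot.1 hx
    exact le_of_tendsto (hT x hx).norm (eventually_of_mem self_mem_nhdsWithin fun y hy => hB y hy)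

/-- replacing the normal coordinate by a constant is holomorphic -/
theorem ltx_differentiable_update {N : ℕ} (c : ℂ) :
    Differentiable ℂ fun y : Cn (N + 1) => Function.update y 0 c := by
  rw [differentiable_pi]
  intro i
  by_cases hi : i = 0
  · subst hi
    simp only [Function.update_self]
    exact differentiable_const c
  · simp only [Function.update_of_ne hi]
    exact differentiable_apply i

/-- distance of two updates -/
theorem ltx_norm_update_sub_lt {N : ℕ} {y y₀ : Cn (N + 1)} {c c₀ : ℂ} {r : ℝ} (hr : 0 < r)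
    (hy : ‖y - y₀‖ < r) (hc : ‖c - c₀‖ < r) :
    ‖Function.update y 0 c - Function.update y₀ 0 c₀‖ < r := by
  rw [pi_norm_lt_iff hr]
  intro i
  by_cases hi : i = 0
  · subst hi
    simpa using hc
  · rw [Pi.sub_apply, Function.update_of_ne hi, Function.update_of_ne hi]
    exact (norm_le_pi_norm (y - y₀) i).trans_lt hy

theorem ltx_norm_update_sub_le {N : ℕ} (y : Cn (N + 1)) (c c₀ : ℂ) :
    ‖Function.update y 0 c - Function.update y 0 c₀‖ ≤ ‖c - c₀‖ := by
  rw [pi_norm_le_iff_of_nonneg (norm_nonneg _)]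
  intro i
  by_cases hi : i = 0
  · subst hi
    simp
  · rw [Pi.sub_apply, Function.update_of_ne hi, Function.update_of_ne hi, sub_self, norm_zero]
    exact norm_nonneg _

theorem lt_trace_cr {N : ℕ} {D' : Set (Cn (N + 1))} (hD' : IsOpen D') {f : Cn (N + 1) → ℂ}
    {Hc α σ : ℝ} (hσ : σ = 1 ∨ σ = -1) (h0 : 0 < α)
    (hf : DifferentiableOn ℂ f (D' ∩ {z | 0 < σ * (z 0).im}))
    (hH : ∀ z ∈ D' ∩ {z | 0 ≤ σ * (z 0).im}, ∀ z' ∈ D' ∩ {z | 0 ≤ σ * (z 0).im},
      ‖f z - f z'‖ ≤ Hc * ‖z - z'‖ ^ α) : LtCR D' f := by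
  intro t y₀ hy₀
  have hy₀' : ltUp y₀ t ∈ D' := hy₀
  obtain ⟨r, hr, hball⟩ := Metric.isOpen_iff.1 hD' _ hy₀'
  have hσ2 : σ * σ = 1 := by rcases hσ with h | h <;> rw [h] <;> norm_num
  have hσa : |σ| = 1 := by rcases hσ with h | h <;> rw [h] <;> norm_num
  have hM : (0 : ℝ) ≤ max Hc 0 := le_max_right _ _
  -- the shifted points
  have hnorm : ∀ ε : ℝ, 0 ≤ ε → ‖((t : ℂ) + ε * (σ * I)) - (t : ℂ)‖ = ε := fun ε hε => by
    rw [add_sub_cancel_left, norm_mul, norm_mul, norm_I, mul_one, Complex.norm_real, Complex.norm_real,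
      Real.norm_eq_abs, Real.norm_eq_abs, hσa, mul_one, abs_of_nonneg hε]
  have hqD : ∀ ε : ℝ, 0 ≤ ε → ε < r → ∀ y ∈ Metric.ball y₀ r,
      Function.update y 0 ((t : ℂ) + ε * (σ * I)) ∈ D' := fun ε hε hεr y hy => by
    apply hball
    rw [Metric.mem_ball, dist_eq_norm]
    rw [Metric.mem_ball, dist_eq_norm] at hy
    exact ltx_norm_update_sub_lt hr hy (by rw [hnorm ε hε]; exact hεr)
  have him : ∀ (ε : ℝ) (y : Cn (N + 1)),
      σ * (Function.update y 0 ((t : ℂ) + ε * (σ * I)) 0).im = ε := fun ε y => by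
    rw [Function.update_self]
    simp only [add_im, ofReal_im, mul_im, ofReal_re, I_im, I_re, mul_zero, mul_one, add_zero,
      zero_add, mul_re, sub_zero]
    calc σ * (ε * σ) = ε * (σ * σ) := by ring
      _ = ε := by rw [hσ2, mul_one]
  have hup : ∀ y ∈ Metric.ball y₀ r, ltUp y t ∈ D' ∩ {z | 0 ≤ σ * (z 0).im} := fun y hy => by
    have h1 := hqD 0 le_rfl hr y hy
    have h2 := him 0 y
    have e : ((t : ℂ) + ((0 : ℝ) : ℂ) * (σ * I)) = (t : ℂ) := by simp
    rw [e] at h1 h2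
    exact ⟨h1, h2.ge⟩
  have hdiff : DifferentiableOn ℂ (fun y => f (ltUp y t)) (Metric.ball y₀ r) := by
    refine scv_tendsto (l := 𝓝[>] (0 : ℝ))
      (F := fun (ε : ℝ) (y : Cn (N + 1)) => f (Function.update y 0 ((t : ℂ) + ε * (σ * I))))
      Metric.isOpen_ball ?_ ?_
    · filter_upwards [Ioo_mem_nhdsGT hr] with ε hε
      refine hf.comp (ltx_differentiable_update _).differentiableOn fun y hy => ?_
      refine ⟨hqD ε hε.1.le hε.2 y hy, ?_⟩
      show 0 < σ * (Function.update y 0 ((t : ℂ) + ε * (σ * I)) 0).im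
      rw [him]
      exact hε.1
    · refine TendstoUniformlyOn.tendstoLocallyUniformlyOn ?_
      rw [Metric.tendstoUniformlyOn_iff]
      intro η hη
      obtain ⟨δ, hδ, hs⟩ := ltx_small hM h0 hη
      filter_upwards [Ioo_mem_nhdsGT (lt_min hδ hr)] with ε hε y hy
      have hε0 : 0 ≤ ε := hε.1.le
      have hεδ : ε ≤ δ := hε.2.le.trans (min_le_left _ _)
      have hεr : ε < r := hε.2.trans_le (min_le_right _ _)
      rw [dist_eq_norm]
      have hq : Function.update y 0 ((t : ℂ) + ε * (σ * I)) ∈ D' ∩ {z | 0 ≤ σ * (z 0).im} :=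
        ⟨hqD ε hε0 hεr y hy, by
          show 0 ≤ σ * (Function.update y 0 ((t : ℂ) + ε * (σ * I)) 0).im
          rw [him]; exact hε0⟩
      have h1 := hH _ (hup y hy) _ hq
      have h2 : ‖ltUp y t - Function.update y 0 ((t : ℂ) + ε * (σ * I))‖ ≤ ε := by
        rw [norm_sub_rev]
        exact (ltx_norm_update_sub_le y _ _).trans (hnorm ε hε0).le
      refine h1.trans_lt (lt_of_le_of_lt ?_ (hs ε hε0 hεδ))
      calc Hc * ‖ltUp y t - Function.update y 0 ((t : ℂ) + ε * (σ * I))‖ ^ α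
          ≤ max Hc 0 * ‖ltUp y t - Function.update y 0 ((t : ℂ) + ε * (σ * I))‖ ^ α :=
            mul_le_mul_of_nonneg_right (le_max_left _ _) (by positivity)
        _ ≤ max Hc 0 * ε ^ α :=
            mul_le_mul_of_nonneg_left (Real.rpow_le_rpow (norm_nonneg _) h2 h0.le) hM
  exact ((hdiff y₀ (Metric.mem_ball_self hr)).differentiableAt
    (Metric.ball_mem_nhds y₀ hr)).differentiableWithinAt

end Claimed.Agent.R245
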