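/-
Row 245 / S0484.  Package LT.   Architect: helper246.     No paper.
LTAsm: from the Cousin solution `H` to the function `a` on `Ω \ M` (`a = c_k - H_k` near `M`, `a = - H_∞` away from `M`) and its estimates.
Leaves:  LT-ASM-A = `lt_grid`, `lt_a_exists`, `lt_a_hol`;    LT-ASM-B = `lt_ball_far`, `lt_ball_near`, `lt_a_sup`;    LT-ASM-C = `lt_a_holder`;    LT-ASM-D = `lt_a_jump`;    LT-SIDE = `lt_mem_closure`, `lt_tendsto_shift`, `lt_side`.

NOTATION.  `T_k = ltT R s k = -R + k s`, `c_k = ltK u (ltChiK R s k)`, `W k = ltW N R s (some k)`, `W∞ = ltW N R s none`, `m = ltM R s`.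
PLANS.
 * `lt_grid`: `y := (x + R)/s ∈ [0, 2R/s]`, `k := ⌊y + 1/2⌋₊` (`Nat.floor_le`, `Nat.lt_floor_add_one`): `|y - k| ≤ 1/2`, `k ≤ 2R/s + 1/2 < ⌈2R/s⌉₊ + 2`; multiply by `s`.
 * `lt_a_exists`: `classical`; `a z := if z ∈ W∞ then - H none z else if h : ∃ k, z ∈ W k then c_(h.choose) z - H (some h.choose) z else 0`.   `far`: `if_pos`.   `near` for `k`, `z ∈ W k ∩ Ω`, `Im z0 ≠ 0`:
   if `z ∈ W∞`: `hH.diff (some k) none` gives `H_k z - H_∞ z = c_k z`;   otherwise with `k' = h.choose`: `hH.diff (some k) (some k')` gives `H_k - H_k' = ltK u (χ_k - χ_k') z = c_k z - c_k' z`; the last equality: `ltK_add`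
   for `ψ₁ = χ_k - χ_k'` (`lt_adm_kk`) and `ψ₂ = χ_k'` with gap `|Im z0| > 0` (`LtAdm` from `lt_tube_of_mem`, `ltChi_eq_zero`, `pv_norm_sub_ge`).
 * `lt_a_hol`: at `z ∈ Ω`, `Im z0 ≠ 0`: if `|Im z0| > s/2`: near `z` (on the open `W∞ ∩ Ω`) `a = - H none`;   otherwise `lt_grid` (`|Re z0| ≤ ‖z‖ < R`) gives `k` with `z ∈ W k`; on the open set `W k ∩ Ω ∩ {Im ≠ 0}`, `a = c_k - H_k`,
   `lt_c_hol` (tube: `lt_tube_of_mem`), `hH.hol`.   (`DifferentiableOn.congr`, `DifferentiableWithinAt` from an open neighbourhood.)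
 * `lt_ball_far`: `|Im y0| ≥ |Im z0| - ‖y - z‖ > s - r ≥ s/2`.      `lt_ball_near`: `|Re y0 - T_k| < s/2 + r ≤ s`, `|Im y0| < s + r < 3 s`.
 * `lt_a_sup`: `c₁` from `lt_c_sup`.   If `s ≤ |Im z0|`: `lt_ball_far` (`r = s/4`), `hA.far`, `hH.bound`.   Otherwise `lt_grid`, `lt_ball_near` (`r = s/4`), `hA.near`, `hH.bound`, `lt_c_sup`; `A/s ≤ A/s^(N+3)` (`s ≤ 1`).
 * `lt_a_holder`: `c₂` from `lt_c_holder`, answer `c₁ := 4 c₂`.   In both cases `Hx := H none` resp. `H (some k)` is holomorphic on `ball z (s/4)` and bounded there by `c A/s^(N+3)`: for `q ∈ ball z (s/4)`, `ball q (s/4) ⊆ ball z (s/2) ⊆ W ∩ Ω` (`lt_ball_far/near` with `r = s/2`);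
   `scv_lipschitz` (`β = s/4`): `‖Hx z - Hx z'‖ ≤ 2 (c A/s^(N+3))/(s/4) ‖z - z'‖ = 8 c A / s^(N+4) ‖z - z'‖`, and `‖z - z'‖ ≤ ‖z - z'‖^α` (`< 1`).   Near case: `lt_c_holder` with `p = z`, `r = s/4`: `c₂ A/(s (s/4)) = 4 c₂ A/s² ≤ 4 c₂ A/s^(N+4)`.
   `z'` is on the same side, in particular `Im z'0 ≠ 0`, and `z' ∈ W ∩ Ω`.
 * `lt_a_jump`: `lt_grid` ⇒ `k`, `|Re z0 - T_k| ≤ s/2`, so `ltChiK R s k (Re z0) = 1` (`ltChi_eq_one`).  For `0 < y < s/4` the points `z± = update z 0 (z0 ± y I)` are in `ball z (s/4) ⊆ W k ∩ Ω`, `Im ≠ 0`: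
   `a z₊ - a z₋ = (c_k z₊ - c_k z₋) - (H_k z₊ - H_k z₋)`.  First bracket → `u z` (`lt_c_jump`: distance `≤ c A/s y^α → 0`, `squeeze_zero_norm'`), second → `0` (`H_k` continuous at `z`; `z± → z`).
 * `lt_mem_closure`, `lt_tendsto_shift`: `q y := update z 0 (z0 + y (σ I)) → z` as `y → 0+` (`‖q y - z‖ = y`), `q y ∈ D'` eventually (open), `σ Im (q y 0) = σ Im z0 + y > 0`.  (`tendsto_nhdsWithin_iff`, `mem_closure_of_tendsto`.)
 * `lt_side`: `S := D' ∩ {0 < σ Im}`; `lt_extend` gives `g`; `D' ∩ {0 ≤ σ Im} ⊆ closure S` (`lt_mem_closure`); holomorphic: `hol.congr`; `LtCR`: `lt_trace_cr`; the limit: `(lt_extend …).tendsto.comp lt_tendsto_shift`.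
-/
import Claimed.Agent.R245.LTCou
import Claimed.Agent.R245.LTExt

set_option autoImplicit false

namespace Claimed.Agent.R245

open Claimed.Agent.R242 (Cn dz dzb levi PshOn)
open Complex MeasureTheory Filter Topology

/-- `a` is the solution of the jump problem built from `H`. -/
structure LtA {N : ℕ} (R s : ℝ) (Ω : Set (Cn (N + 1))) (u : Cn (N + 1) → ℂ)
    (H : Option (Fin (ltM R s)) → Cn (N + 1) → ℂ) (a : Cn (N + 1) → ℂ) : Prop where
  near : ∀ k : Fin (ltM R s), ∀ z ∈ ltW N R s (some k) ∩ Ω, (z 0).im ≠ 0 →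
    a z = ltK u (ltChiK R s k) z - H (some k) z
  far : ∀ z ∈ ltW N R s (none : Option (Fin (ltM R s))) ∩ Ω, a z = - H none z

variable {N : ℕ} {R s α A c : ℝ} {D Ω : Set (Cn (N + 1))} {u : Cn (N + 1) → ℂ}
  {H : Option (Fin (ltM R s)) → Cn (N + 1) → ℂ} {a : Cn (N + 1) → ℂ}

theorem lt_grid (R : ℝ) {s : ℝ} (hs : 0 < s) (x : ℝ) (hx : |x| ≤ R) :
    ∃ k : Fin (ltM R s), |x - ltT R s k| ≤ s / 2 := by
  obtain ⟨hx1, hx2⟩ := abs_le.1 hx
  set y : ℝ := (x + R) / s with hy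
  have hy0 : 0 ≤ y := div_nonneg (by linarith) hs.le
  have hy1 : y ≤ 2 * R / s := by
    rw [hy]; gcongr; linarith
  have h1 : ((⌊y + 1 / 2⌋₊ : ℕ) : ℝ) ≤ y + 1 / 2 := Nat.floor_le (by linarith)
  have h2 : y + 1 / 2 < (⌊y + 1 / 2⌋₊ : ℕ) + 1 := Nat.lt_floor_add_one _
  have h3 : ⌊y + 1 / 2⌋₊ < ltM R s := by
    have h4 := Nat.le_ceil (2 * R / s)
    have : ((⌊y + 1 / 2⌋₊ : ℕ) : ℝ) < ((⌈2 * R / s⌉₊ + 2 : ℕ) : ℝ) := by
      push_cast; linarith
    exact_mod_cast this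
  refine ⟨⟨⌊y + 1 / 2⌋₊, h3⟩, ?_⟩
  have e : x - ltT R s (⌊y + 1 / 2⌋₊ : ℕ) = s * (y - (⌊y + 1 / 2⌋₊ : ℕ)) := by
    rw [ltT, hy]; field_simp; ring
  show |x - ltT R s (⌊y + 1 / 2⌋₊ : ℕ)| ≤ s / 2
  rw [e, abs_mul, abs_of_pos hs]
  have : |y - (⌊y + 1 / 2⌋₊ : ℕ)| ≤ 1 / 2 := by
    rw [abs_le]; constructor <;> linarith
  nlinarith

theorem ltaa_adm (S : LtSetup N R s α A D Ω u) {m : ℕ} (k : Fin m) {z : Cn (N + 1)}
    (hz : z ∈ ltW N R s (some k) ∩ Ω) : LtAdm D (ltChiK R s k) |(z 0).im| z := fun t ht =>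
  ⟨lt_tube_of_mem S k hz t (ltua_mem_of_ne R S.s_pos k ht), pv_norm_sub_ge t (z 0)⟩

theorem ltaa_I2 (S : LtSetup N R s α A D Ω u) {m : ℕ} (k k' : Fin m) {z : Cn (N + 1)}
    (hk : z ∈ ltW N R s (some k)) (hk' : z ∈ ltW N R s (some k')) (hΩ : z ∈ Ω)
    (him : (z 0).im ≠ 0) :
    ltK u (fun t => ltChiK R s k t - ltChiK R s k' t) z + ltK u (ltChiK R s k') z
      = ltK u (ltChiK R s k) z := by
  have hs := S.s_pos
  rw [← ltK_add S.D_open S.data S.α_pos (ltua_sub_cut R hs k k') (lt_chiK_cut R hs k')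
    (by positivity : 0 < 2 * s) (abs_pos.2 him) (lt_adm_kk S k k' ⟨⟨hk, hk'⟩, hΩ⟩)
    (ltaa_adm S k' ⟨hk', hΩ⟩)]
  congr 1
  funext t
  ring

theorem lt_a_exists (S : LtSetup N R s α A D Ω u) (hH : LtSol R s A Ω u c H) :
    ∃ a : Cn (N + 1) → ℂ, LtA R s Ω u H a := by
  classical
  refine ⟨fun z => if z ∈ ltW N R s (none : Option (Fin (ltM R s))) then - H none z
    else if h : ∃ k : Fin (ltM R s), z ∈ ltW N R s (some k) then
      ltK u (ltChiK R s h.choose) z - H (some h.choose) z else 0, ?_, ?_⟩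
  · rintro k z ⟨hk, hΩ⟩ him
    by_cases hn : z ∈ ltW N R s (none : Option (Fin (ltM R s)))
    · simp only [if_pos hn]
      have h1 : H (some k) z - H none z = ltK u (ltChiK R s k) z :=
        hH.diff (some k) none z ⟨⟨hk, hn⟩, hΩ⟩
      rw [← h1]; ring
    · have h : ∃ k : Fin (ltM R s), z ∈ ltW N R s (some k) := ⟨k, hk⟩
      simp only [if_neg hn, dif_pos h]
      have h1 : H (some k) z - H (some h.choose) z
          = ltK u (fun t => ltChiK R s k t - ltChiK R s h.choose t) z :=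
        hH.diff (some k) (some h.choose) z ⟨⟨hk, h.choose_spec⟩, hΩ⟩
      have h2 := ltaa_I2 S k h.choose hk h.choose_spec hΩ him
      rw [← h2, ← h1]; ring
  · rintro z ⟨hn, -⟩
    simp only [if_pos hn]

theorem ltaa_isOpen_im : IsOpen {z : Cn (N + 1) | (z 0).im ≠ 0} :=
  isOpen_ne_fun (Complex.continuous_im.comp (continuous_apply 0)) continuous_const

theorem ltaa_abs_re_le (S : LtSetup N R s α A D Ω u) {z : Cn (N + 1)} (hz : z ∈ Ω) :
    |(z 0).re| ≤ R := by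
  have h1 : z ∈ Metric.ball (0 : Cn (N + 1)) R :=
    S.D_sub (S.margin z hz (Metric.mem_ball_self (by have := S.s_pos; positivity)))
  rw [mem_ball_zero_iff] at h1
  exact ((Complex.abs_re_le_norm _).trans (norm_le_pi_norm z 0)).trans h1.le

theorem lt_a_hol (S : LtSetup N R s α A D Ω u) (hH : LtSol R s A Ω u c H) (hA : LtA R s Ω u H a) :
    DifferentiableOn ℂ a (Ω ∩ {z | (z 0).im ≠ 0}) := by
  have hs := S.s_pos
  rintro z ⟨hΩ, him⟩
  by_cases hfar : s / 2 < |(z 0).im|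
  · have hU : IsOpen (ltW N R s (none : Option (Fin (ltM R s))) ∩ Ω) :=
      (ltW_isOpen R s _).inter S.Ω_open
    have h1 : DifferentiableOn ℂ a (ltW N R s (none : Option (Fin (ltM R s))) ∩ Ω) :=
      (hH.hol none).neg.congr fun y hy => hA.far y hy
    exact (h1.differentiableAt (hU.mem_nhds ⟨hfar, hΩ⟩)).differentiableWithinAt
  · push Not at hfar
    obtain ⟨k, hk⟩ := lt_grid R hs (z 0).re (ltaa_abs_re_le S hΩ)
    have hzk : z ∈ ltW N R s (some k) := ⟨by linarith, by linarith⟩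
    have hU : IsOpen (ltW N R s (some k) ∩ Ω ∩ {z : Cn (N + 1) | (z 0).im ≠ 0}) :=
      ((ltW_isOpen R s _).inter S.Ω_open).inter ltaa_isOpen_im
    have h0 : DifferentiableOn ℂ (ltK u (ltChiK R s k))
        (ltW N R s (some k) ∩ Ω ∩ {z : Cn (N + 1) | (z 0).im ≠ 0}) :=
      lt_c_hol S.D_open S.data S.α_pos R hs k hU fun y hy => ⟨lt_tube_of_mem S k hy.1, hy.2⟩
    have h1 : DifferentiableOn ℂ a (ltW N R s (some k) ∩ Ω ∩ {z : Cn (N + 1) | (z 0).im ≠ 0}) :=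
      (h0.sub ((hH.hol (some k)).mono Set.inter_subset_left)).congr
        fun y hy => hA.near k y hy.1 hy.2
    exact (h1.differentiableAt (hU.mem_nhds ⟨⟨hzk, hΩ⟩, him⟩)).differentiableWithinAt

theorem ltab_coord {z y : Cn (N + 1)} {r : ℝ} (hy : y ∈ Metric.ball z r) :
    |(y 0).re - (z 0).re| < r ∧ |(y 0).im - (z 0).im| < r := by
  rw [Metric.mem_ball, dist_eq_norm] at hy
  have h1 : ‖y 0 - z 0‖ < r := lt_of_le_of_lt (norm_le_pi_norm (y - z) 0) hy
  constructor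
  · have := Complex.abs_re_le_norm (y 0 - z 0)
    rw [Complex.sub_re] at this
    linarith
  · have := Complex.abs_im_le_norm (y 0 - z 0)
    rw [Complex.sub_im] at this
    linarith

theorem lt_ball_far {m : ℕ} {z : Cn (N + 1)} {r : ℝ} (hz : s ≤ |(z 0).im|) (hr : r ≤ s / 2) :
    Metric.ball z r ⊆ ltW N R s (none : Option (Fin m)) := by
  intro y hy
  have h1 := (ltab_coord hy).2
  show s / 2 < |(y 0).im|
  have h2 : |(z 0).im| ≤ |(y 0).im| + |(y 0).im - (z 0).im| := by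
    have := abs_sub_le (z 0).im (y 0).im 0
    rw [sub_zero, sub_zero, abs_sub_comm] at this
    linarith
  linarith

theorem lt_ball_near {m : ℕ} (k : Fin m) {z : Cn (N + 1)} {r : ℝ} (hs : 0 < s)
    (hk : |(z 0).re - ltT R s k| ≤ s / 2) (hz : |(z 0).im| < s) (hr : r ≤ s / 2) :
    Metric.ball z r ⊆ ltW N R s (some k) := by
  intro y hy
  obtain ⟨h1, h2⟩ := ltab_coord hy
  refine ⟨?_, ?_⟩
  · have := abs_sub_le (y 0).re (z 0).re (ltT R s k)
    linarith
  · have := abs_sub_le (y 0).im (z 0).im 0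
    rw [sub_zero, sub_zero] at this
    linarith

theorem lt_a_sup {α : ℝ} (h0 : 0 < α) (h1 : α < 1) : ∃ c₁ : ℝ, 0 < c₁ ∧ ∀ {N : ℕ} {R s A c : ℝ}
    {D Ω : Set (Cn (N + 1))} {u : Cn (N + 1) → ℂ} {H : Option (Fin (ltM R s)) → Cn (N + 1) → ℂ}
    {a : Cn (N + 1) → ℂ}, LtSetup N R s α A D Ω u → 0 ≤ c → LtSol R s A Ω u c H → LtA R s Ω u H a →
    ∀ z, Metric.ball z s ⊆ Ω → (z 0).im ≠ 0 → ‖a z‖ ≤ (c + c₁) * A / s ^ (N + 3) := by
  obtain ⟨c₁, hc₁, Hc⟩ := lt_c_sup h0 h1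
  refine ⟨c₁, hc₁, ?_⟩
  intro N R s A c D Ω u H a S hc hH hA z hball him
  have hs := S.s_pos
  have hA0 := S.data.A_nonneg
  have hzΩ : z ∈ Ω := hball (Metric.mem_ball_self hs)
  have hsub : Metric.ball z (s / 4) ⊆ Ω := (Metric.ball_subset_ball (by linarith)).trans hball
  have hP : 0 < s ^ (N + 3) := by positivity
  have hsplit : (c + c₁) * A / s ^ (N + 3) = c * A / s ^ (N + 3) + c₁ * A / s ^ (N + 3) := by ring
  have hpos2 : 0 ≤ c₁ * A / s ^ (N + 3) := by positivity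
  by_cases hfar : s ≤ |(z 0).im|
  · have hb : Metric.ball z (s / 4) ⊆ ltW N R s (none : Option (Fin (ltM R s))) ∩ Ω :=
      Set.subset_inter (lt_ball_far hfar (by linarith)) hsub
    rw [hA.far z (hb (Metric.mem_ball_self (by positivity))), norm_neg, hsplit]
    have := hH.bound none z hb
    linarith
  · push Not at hfar
    obtain ⟨k, hk⟩ := lt_grid R hs (z 0).re (ltaa_abs_re_le S hzΩ)
    have hb : Metric.ball z (s / 4) ⊆ ltW N R s (some k) ∩ Ω :=
      Set.subset_inter (lt_ball_near k hs hk hfar (by linarith)) hsub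
    have hzk := hb (Metric.mem_ball_self (by positivity))
    rw [hA.near k z hzk him, hsplit]
    have e1 := hH.bound (some k) z hb
    have e2 := Hc S.data R s hs S.s_le k z (lt_tube_of_mem S k hzk) him
    have e3 : c₁ * A / s ≤ c₁ * A / s ^ (N + 3) := by
      refine div_le_div_of_nonneg_left (by positivity) hP ?_
      calc s ^ (N + 3) ≤ s ^ 1 := pow_le_pow_of_le_one hs.le S.s_le (by omega)
        _ = s := pow_one s
    have := norm_sub_le (ltK u (ltChiK R s k) z) (H (some k) z)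
    linarith

/-- (LT-ASM-C helper) Lipschitz estimate of one Cousin piece. -/
theorem ltac_H_lip (hs : 0 < s) (hH : LtSol R s A Ω u c H)
    (x : Option (Fin (ltM R s))) {z z' : Cn (N + 1)}
    (hsub : Metric.ball z (s / 2) ⊆ ltW N R s x ∩ Ω) (hzz : ‖z - z'‖ < s / 8) :
    ‖H x z - H x z'‖ ≤ 8 * c * A / s ^ (N + 4) * ‖z - z'‖ := by
  have h4 : Metric.ball z (s / 4) ⊆ Metric.ball z (s / 2) := Metric.ball_subset_ball (by linarith)
  have hol : DifferentiableOn ℂ (H x) (Metric.ball z (s / 4)) := (hH.hol x).mono (h4.trans hsub)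
  have hbd : ∀ q ∈ Metric.ball z (s / 4), ‖H x q‖ ≤ c * A / s ^ (N + 3) := by
    intro q hq
    apply hH.bound x q
    refine Set.Subset.trans ?_ hsub
    intro w hw
    rw [Metric.mem_ball] at hw hq ⊢
    have := dist_triangle w q z
    linarith
  have e8 : s / 4 / 2 = s / 8 := by ring
  have hz1 : z ∈ Metric.ball z (s / 4 / 2) := Metric.mem_ball_self (by positivity)
  have hz2 : z' ∈ Metric.ball z (s / 4 / 2) := by
    rw [Metric.mem_ball, dist_comm, dist_eq_norm, e8]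
    exact hzz
  have := scv_lipschitz hol hbd hz1 hz2
  refine this.trans (le_of_eq ?_)
  congr 1
  rw [pow_succ s (N + 3)]
  field_simp
  ring

theorem ltac_re_le (S : LtSetup N R s α A D Ω u) {z : Cn (N + 1)} (hz : z ∈ Ω) :
    |(z 0).re| ≤ R := by
  have h1 : z ∈ D := S.margin z hz (Metric.mem_ball_self (by linarith [S.s_pos]))
  have h2 := S.D_sub h1
  rw [Metric.mem_ball, dist_zero_right] at h2
  exact ((Complex.abs_re_le_norm (z 0)).trans (norm_le_pi_norm z 0)).trans h2.le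

theorem lt_a_holder {α : ℝ} (h0 : 0 < α) (h1 : α < 1) : ∃ c₁ : ℝ, 0 < c₁ ∧ ∀ {N : ℕ} {R s A c : ℝ}
    {D Ω : Set (Cn (N + 1))} {u : Cn (N + 1) → ℂ} {H : Option (Fin (ltM R s)) → Cn (N + 1) → ℂ}
    {a : Cn (N + 1) → ℂ}, LtSetup N R s α A D Ω u → 0 ≤ c → LtSol R s A Ω u c H → LtA R s Ω u H a →
    ∀ z z', Metric.ball z s ⊆ Ω → ‖z - z'‖ < s / 8 → 0 < (z 0).im * (z' 0).im →
      ‖a z - a z'‖ ≤ (8 * c + c₁) * A / s ^ (N + 4) * ‖z - z'‖ ^ α := by
  obtain ⟨c₂, hc₂, hhol⟩ := lt_c_holder h0 h1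
  refine ⟨4 * c₂, by positivity, ?_⟩
  intro N R s A c D Ω u H a S hc hH hA z z' hz hzz hside
  have hs := S.s_pos
  have hs1 := S.s_le
  have hA0 := S.data.A_nonneg
  have hzΩ : z ∈ Ω := hz (Metric.mem_ball_self hs)
  have hb2 : Metric.ball z (s / 2) ⊆ Ω := (Metric.ball_subset_ball (by linarith)).trans hz
  have hzb : z ∈ Metric.ball z (s / 2) := Metric.mem_ball_self (by positivity)
  have hz'b : z' ∈ Metric.ball z (s / 2) := by
    rw [Metric.mem_ball, dist_comm, dist_eq_norm]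
    linarith
  have him : (z 0).im ≠ 0 := by
    intro h
    rw [h, zero_mul] at hside
    exact lt_irrefl _ hside
  have him' : (z' 0).im ≠ 0 := by
    intro h
    rw [h, mul_zero] at hside
    exact lt_irrefl _ hside
  have hx0 : 0 ≤ ‖z - z'‖ := norm_nonneg _
  have hx1 : ‖z - z'‖ ≤ 1 := by linarith
  have hxα : ‖z - z'‖ ≤ ‖z - z'‖ ^ α := ltpa_le_rpow hx0 hx1 h0 h1
  have hxα0 : 0 ≤ ‖z - z'‖ ^ α := Real.rpow_nonneg hx0 _
  have hsp : 0 < s ^ (N + 4) := by positivity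
  have hK0 : 0 ≤ 8 * c * A / s ^ (N + 4) := by positivity
  have hK1 : 0 ≤ 4 * c₂ * A / s ^ (N + 4) := by positivity
  have esplit : (8 * c + 4 * c₂) * A / s ^ (N + 4) * ‖z - z'‖ ^ α
      = 8 * c * A / s ^ (N + 4) * ‖z - z'‖ ^ α + 4 * c₂ * A / s ^ (N + 4) * ‖z - z'‖ ^ α := by
    ring
  by_cases hfar : s ≤ |(z 0).im|
  · have hW : Metric.ball z (s / 2) ⊆ ltW N R s (none : Option (Fin (ltM R s))) :=
      lt_ball_far hfar le_rfl
    have hsub : Metric.ball z (s / 2) ⊆ ltW N R s (none : Option (Fin (ltM R s))) ∩ Ω :=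
      fun w hw => ⟨hW hw, hb2 hw⟩
    rw [hA.far z (hsub hzb), hA.far z' (hsub hz'b)]
    have e : - H none z - - H none z' = - (H none z - H none z') := by ring
    rw [e, norm_neg, esplit]
    have h3 := ltac_H_lip hs hH none hsub hzz
    have h4 : 8 * c * A / s ^ (N + 4) * ‖z - z'‖ ≤ 8 * c * A / s ^ (N + 4) * ‖z - z'‖ ^ α :=
      mul_le_mul_of_nonneg_left hxα hK0
    have h5 : 0 ≤ 4 * c₂ * A / s ^ (N + 4) * ‖z - z'‖ ^ α := mul_nonneg hK1 hxα0
    linarith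
  · push Not at hfar
    obtain ⟨k, hk⟩ := lt_grid R hs (z 0).re (ltac_re_le S hzΩ)
    have hW : Metric.ball z (s / 2) ⊆ ltW N R s (some k) := lt_ball_near k hs hk hfar le_rfl
    have hsub : Metric.ball z (s / 2) ⊆ ltW N R s (some k) ∩ Ω := fun w hw => ⟨hW hw, hb2 hw⟩
    rw [hA.near k z (hsub hzb) him, hA.near k z' (hsub hz'b) him']
    have e : ltK u (ltChiK R s k) z - H (some k) z - (ltK u (ltChiK R s k) z' - H (some k) z')
        = (ltK u (ltChiK R s k) z - ltK u (ltChiK R s k) z') - (H (some k) z - H (some k) z') := by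
      ring
    rw [e, esplit]
    have h3 := ltac_H_lip hs hH (some k) hsub hzz
    have h4 : 8 * c * A / s ^ (N + 4) * ‖z - z'‖ ≤ 8 * c * A / s ^ (N + 4) * ‖z - z'‖ ^ α :=
      mul_le_mul_of_nonneg_left hxα hK0
    have e8 : s / 4 / 2 = s / 8 := by ring
    have h5 := hhol S.D_open S.data R s hs hs1 k z (s / 4) (by positivity) (by linarith)
      (fun w hw => lt_tube_of_mem S k (hsub (Metric.ball_subset_ball (by linarith) hw)))
      z (Metric.mem_ball_self (by positivity)) z'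
      (by rw [Metric.mem_ball, dist_comm, dist_eq_norm, e8]; exact hzz) hside
    have h6 : c₂ * A / (s * (s / 4)) ≤ 4 * c₂ * A / s ^ (N + 4) := by
      have e1 : c₂ * A / (s * (s / 4)) = 4 * c₂ * A / s ^ 2 := by
        field_simp
      rw [e1]
      apply div_le_div_of_nonneg_left (by positivity) hsp
      exact pow_le_pow_of_le_one hs.le hs1 (by omega)
    have h7 : c₂ * A / (s * (s / 4)) * ‖z - z'‖ ^ α ≤ 4 * c₂ * A / s ^ (N + 4) * ‖z - z'‖ ^ α :=
      mul_le_mul_of_nonneg_right h6 hxα0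
    have h8 := norm_sub_le (ltK u (ltChiK R s k) z - ltK u (ltChiK R s k) z')
      (H (some k) z - H (some k) z')
    linarith

/-- (LT-ASM-D helper) the shifted points tend to `z`. -/
theorem ltad_norm_shift (z : Cn (N + 1)) (w : ℂ) : ‖Function.update z 0 (z 0 + w) - z‖ = ‖w‖ := by
  have e : Function.update z 0 (z 0 + w) - z = Pi.single 0 w := by
    funext i
    by_cases hi : i = 0
    · subst hi
      simp
    · simp [Function.update_of_ne hi, Pi.single_eq_of_ne hi]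
  rw [e, Pi.norm_single]

theorem ltad_tendsto_shift (z : Cn (N + 1)) (σ : ℂ) :
    Tendsto (fun y : ℝ => Function.update z 0 (z 0 + y * σ)) (𝓝[>] 0) (𝓝 z) := by
  have hc : Continuous (fun y : ℝ => Function.update z 0 (z 0 + y * σ)) := by
    apply continuous_pi
    intro i
    by_cases hi : i = 0
    · subst hi
      simp only [Function.update_self]
      fun_prop
    · simp only [Function.update_of_ne hi]
      exact continuous_const
  have h := hc.tendsto 0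
  have e : Function.update z 0 (z 0 + ((0 : ℝ) : ℂ) * σ) = z := by simp
  rw [e] at h
  exact h.mono_left nhdsWithin_le_nhds

theorem lt_a_jump (S : LtSetup N R s α A D Ω u) (hH : LtSol R s A Ω u c H) (hA : LtA R s Ω u H a)
    (z : Cn (N + 1)) (hz : Metric.ball z s ⊆ Ω) (hz0 : (z 0).im = 0) :
    Tendsto (fun y : ℝ => a (Function.update z 0 (z 0 + y * I)) - a (Function.update z 0 (z 0 - y * I)))
      (𝓝[>] 0) (𝓝 (u z)) := by
  have hs := S.s_pos
  have hs1 := S.s_le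
  have hA0 := S.data.A_nonneg
  obtain ⟨c₂, hc₂, hj⟩ := lt_c_jump S.α_pos S.α_lt
  have hzΩ : z ∈ Ω := hz (Metric.mem_ball_self hs)
  have hb2 : Metric.ball z (s / 2) ⊆ Ω := (Metric.ball_subset_ball (by linarith)).trans hz
  obtain ⟨k, hk⟩ := lt_grid R hs (z 0).re (ltac_re_le S hzΩ)
  have hW : Metric.ball z (s / 2) ⊆ ltW N R s (some k) :=
    lt_ball_near k hs hk (by rw [hz0, abs_zero]; exact hs) le_rfl
  have hsub : Metric.ball z (s / 2) ⊆ ltW N R s (some k) ∩ Ω := fun w hw => ⟨hW hw, hb2 hw⟩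
  have hzb : z ∈ Metric.ball z (s / 2) := Metric.mem_ball_self (by positivity)
  have hchi : ltChiK R s k (z 0).re = 1 := ltua_eq_one R hs k (by linarith)
  have htube : LtTube D R s k z := lt_tube_of_mem S k (hsub hzb)
  -- continuity of `H_k` at `z`
  have hopen : IsOpen (ltW N R s (some k) ∩ Ω) := (ltW_isOpen R s (some k)).inter S.Ω_open
  have hcont : ContinuousAt (H (some k)) z :=
    ((hH.hol (some k) z (hsub hzb)).differentiableAt (hopen.mem_nhds (hsub hzb))).continuousAt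
  have hp := ltad_tendsto_shift z I
  have hm := ltad_tendsto_shift z (-I)
  have hHp : Tendsto (fun y : ℝ => H (some k) (Function.update z 0 (z 0 + y * I))) (𝓝[>] 0)
      (𝓝 (H (some k) z)) := hcont.tendsto.comp hp
  have hHm : Tendsto (fun y : ℝ => H (some k) (Function.update z 0 (z 0 + y * (-I)))) (𝓝[>] 0)
      (𝓝 (H (some k) z)) := hcont.tendsto.comp hm
  -- the jump of `c_k`
  have hcj : Tendsto (fun y : ℝ => ltK u (ltChiK R s k) (Function.update z 0 (z 0 + y * I))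
      - ltK u (ltChiK R s k) (Function.update z 0 (z 0 - y * I))) (𝓝[>] 0) (𝓝 (u z)) := by
    rw [tendsto_iff_norm_sub_tendsto_zero]
    have hb : Tendsto (fun y : ℝ => c₂ * A / s * y ^ α) (𝓝[>] 0) (𝓝 0) := by
      have h1 : Tendsto (fun y : ℝ => y ^ α) (𝓝 0) (𝓝 ((0 : ℝ) ^ α)) :=
        (Real.continuousAt_rpow_const 0 α (Or.inr S.α_pos.le)).tendsto
      rw [Real.zero_rpow S.α_pos.ne'] at h1
      have h2 := (h1.const_mul (c₂ * A / s)).mono_left (nhdsWithin_le_nhds (s := Set.Ioi 0))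
      simpa using h2
    refine squeeze_zero' (Eventually.of_forall fun y => norm_nonneg _) ?_ hb
    filter_upwards [self_mem_nhdsWithin] with y hy
    have := hj S.data R s hs hs1 k z htube hz0 y hy
    rw [hchi] at this
    simpa using this
  have hall := hcj.sub (hHp.sub hHm)
  rw [sub_self, sub_zero] at hall
  refine hall.congr' ?_
  have hev : ∀ᶠ y : ℝ in 𝓝[>] 0, y < s / 2 :=
    nhdsWithin_le_nhds (Iio_mem_nhds (by positivity))
  filter_upwards [self_mem_nhdsWithin, hev] with y hy hys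
  have hy0 : (0 : ℝ) < y := hy
  have em : z 0 - y * I = z 0 + y * (-I) := by ring
  have hnp : Function.update z 0 (z 0 + y * I) ∈ Metric.ball z (s / 2) := by
    rw [Metric.mem_ball, dist_eq_norm, ltad_norm_shift]
    simpa [abs_of_pos hy0] using hys
  have hnm : Function.update z 0 (z 0 + y * (-I)) ∈ Metric.ball z (s / 2) := by
    rw [Metric.mem_ball, dist_eq_norm, ltad_norm_shift]
    simpa [abs_of_pos hy0] using hys
  have hip : (Function.update z 0 (z 0 + y * I) 0).im ≠ 0 := by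
    simp [hz0, hy0.ne']
  have him : (Function.update z 0 (z 0 + y * (-I)) 0).im ≠ 0 := by
    simp [hz0, hy0.ne']
  rw [em, hA.near k _ (hsub hnp) hip, hA.near k _ (hsub hnm) him]
  ring

theorem ltas_continuous (z : Cn (N + 1)) (σ : ℝ) :
    Continuous fun y : ℝ => Function.update z 0 (z 0 + y * (σ * I)) :=
  continuous_const.update 0
    (continuous_const.add (Complex.continuous_ofReal.mul continuous_const))

theorem lt_tendsto_shift {D' : Set (Cn (N + 1))} (hD' : IsOpen D') {σ : ℝ} (hσ : σ = 1 ∨ σ = -1)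
    {z : Cn (N + 1)} (hz : z ∈ D') (hz0 : 0 ≤ σ * (z 0).im) :
    Tendsto (fun y : ℝ => Function.update z 0 (z 0 + y * (σ * I))) (𝓝[>] 0)
      (𝓝[D' ∩ {z | 0 < σ * (z 0).im}] z) := by
  have h1 : Tendsto (fun y : ℝ => Function.update z 0 (z 0 + y * (σ * I))) (𝓝 0) (𝓝 z) := by
    have := (ltas_continuous z σ).tendsto 0
    simpa using this
  have h2 := h1.mono_left (nhdsWithin_le_nhds (s := Set.Ioi (0 : ℝ)))
  refine tendsto_nhdsWithin_iff.2 ⟨h2, ?_⟩
  filter_upwards [h2.eventually (hD'.mem_nhds hz), self_mem_nhdsWithin] with y hy hy0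
  refine ⟨hy, ?_⟩
  show 0 < σ * (Function.update z 0 (z 0 + y * (σ * I)) 0).im
  have hσ2 : σ * σ = 1 := by rcases hσ with h | h <;> rw [h] <;> norm_num
  have e : (Function.update z 0 (z 0 + y * (σ * I)) 0).im = (z 0).im + y * σ := by
    simp
  have hy0' : (0 : ℝ) < y := hy0
  rw [e]
  nlinarith

theorem lt_mem_closure {D' : Set (Cn (N + 1))} (hD' : IsOpen D') {σ : ℝ} (hσ : σ = 1 ∨ σ = -1)
    {z : Cn (N + 1)} (hz : z ∈ D') (hz0 : 0 ≤ σ * (z 0).im) :
    z ∈ closure (D' ∩ {z | 0 < σ * (z 0).im}) :=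
  mem_closure_iff_nhdsWithin_neBot.2 (lt_tendsto_shift hD' hσ hz hz0).neBot

/-- one side: extension to the interface. -/
theorem lt_side {D' : Set (Cn (N + 1))} (hD' : IsOpen D') {σ Kc α : ℝ} (hσ : σ = 1 ∨ σ = -1)
    (h0 : 0 < α) {a : Cn (N + 1) → ℂ} (hol : DifferentiableOn ℂ a (D' ∩ {z | 0 < σ * (z 0).im}))
    (hH : LtHol (D' ∩ {z | 0 < σ * (z 0).im}) a Kc α) :
    ∃ g : Cn (N + 1) → ℂ, DifferentiableOn ℂ g (D' ∩ {z | 0 < σ * (z 0).im}) ∧
      LtHol (D' ∩ {z | 0 ≤ σ * (z 0).im}) g Kc α ∧ LtCR D' g ∧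
      ∀ z ∈ D', (z 0).im = 0 →
        Tendsto (fun y : ℝ => a (Function.update z 0 (z 0 + y * (σ * I)))) (𝓝[>] 0) (𝓝 (g z)) := by
  obtain ⟨g, hg1, hg2, hg3, hg4⟩ := lt_extend h0 hH.2
  have hcl : ∀ z ∈ D' ∩ {z : Cn (N + 1) | 0 ≤ σ * (z 0).im},
      z ∈ closure (D' ∩ {z : Cn (N + 1) | 0 < σ * (z 0).im}) := fun z hz =>
    lt_mem_closure hD' hσ hz.1 hz.2
  have hgd : DifferentiableOn ℂ g (D' ∩ {z | 0 < σ * (z 0).im}) := hol.congr hg1
  have hgH : ∀ z ∈ D' ∩ {z : Cn (N + 1) | 0 ≤ σ * (z 0).im},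
      ∀ z' ∈ D' ∩ {z : Cn (N + 1) | 0 ≤ σ * (z 0).im}, ‖g z - g z'‖ ≤ Kc * ‖z - z'‖ ^ α :=
    fun z hz z' hz' => hg2 z (hcl z hz) z' (hcl z' hz')
  refine ⟨g, hgd, ⟨fun z hz => hg4 Kc hH.1 z (hcl z hz), hgH⟩, lt_trace_cr hD' hσ h0 hgd hgH, ?_⟩
  intro z hz hz0
  have hz0' : 0 ≤ σ * (z 0).im := by rw [hz0, mul_zero]
  exact (hg3 z (hcl z ⟨hz, hz0'⟩)).comp (lt_tendsto_shift hD' hσ hz hz0')

end Claimed.Agent.R245
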