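/-
Row 245 / S0484.  Package LT: THE PUBLIC STATEMENT (Lemma 4.4 of the paper, additive splitting at a real interface).   Architect: helper246.
Consumers (helper199, TG): import this file.   This file is glue only (complete proofs, from `LTAsm.lean`, `LTCou.lean`).

Use with the polytope scale `P r = {z | ∀ k, (lam k z).re < c k + r}`, `‖lam k‖ ≤ 1`:  `D = P r`, `Ω = P (r - h)`, `D' = P (r - 2 h)`, `DbExh Ω` by `db_exh_poly`.
Note that the output again satisfies `LtData D' aP (C * A / h ^ p) α` (and the same for `aM`).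
-/
import Claimed.Agent.R245.LTAsm

set_option autoImplicit false

namespace Claimed.Agent.R245

open Claimed.Agent.R242 (Cn dz dzb levi PshOn)
open Complex MeasureTheory Filter Topology

/-- arithmetic: lowering the power of `s ≤ 1`. -/
theorem lt_main_pow {X A s : ℝ} (hX : 0 ≤ X) (hA : 0 ≤ A) (hs : 0 < s) (hs1 : s ≤ 1) (q : ℕ) :
    X * A / s ^ q ≤ X * A / s ^ (q + 1) := by
  have h1 : s ^ (q + 1) ≤ s ^ q := pow_le_pow_of_le_one hs.le hs1 (Nat.le_succ q)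
  exact div_le_div_of_nonneg_left (mul_nonneg hX hA) (pow_pos hs _) h1

/-- the estimates of `a` on one open side of `D'`. -/
theorem lt_main_side {N : ℕ} {R s α A c₀ c₁ c₂ : ℝ} {D Ω D' : Set (Cn (N + 1))} {u : Cn (N + 1) → ℂ}
    {a : Cn (N + 1) → ℂ} (S : LtSetup N R s α A D Ω u) (hc₀ : 0 ≤ c₀) (hc₁ : 0 ≤ c₁) (hc₂ : 0 ≤ c₂)
    (hball : ∀ z ∈ D', Metric.ball z s ⊆ Ω)
    (hsup : ∀ z, Metric.ball z s ⊆ Ω → (z 0).im ≠ 0 → ‖a z‖ ≤ (c₀ + c₁) * A / s ^ (N + 3))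
    (hhol : ∀ z z', Metric.ball z s ⊆ Ω → ‖z - z'‖ < s / 8 → 0 < (z 0).im * (z' 0).im →
      ‖a z - a z'‖ ≤ (8 * c₀ + c₂) * A / s ^ (N + 4) * ‖z - z'‖ ^ α)
    {σ : ℝ} (hσ : σ = 1 ∨ σ = -1) :
    LtHol (D' ∩ {z | 0 < σ * (z 0).im}) a ((16 * (c₀ + c₁) + (8 * c₀ + c₂)) * A / s ^ (N + 4)) α := by
  have hs := S.s_pos
  have hs1 := S.s_le
  have hA := S.data.A_nonneg
  have hne : ∀ z : Cn (N + 1), 0 < σ * (z 0).im → (z 0).im ≠ 0 := by
    intro z hz h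
    rw [h, mul_zero] at hz
    exact lt_irrefl _ hz
  have hsp : 0 < s ^ (N + 4) := pow_pos hs _
  have hB : (c₀ + c₁) * A / s ^ (N + 3) ≤ (c₀ + c₁) * A / s ^ (N + 4) :=
    lt_main_pow (add_nonneg hc₀ hc₁) hA hs hs1 (N + 3)
  constructor
  · intro z hz
    refine (hsup z (hball z hz.1) (hne z hz.2)).trans (hB.trans ?_)
    refine div_le_div_of_nonneg_right ?_ hsp.le
    refine mul_le_mul_of_nonneg_right ?_ hA
    nlinarith
  · intro z hz z' hz'
    have hprod : 0 < (z 0).im * (z' 0).im := by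
      have h1 : 0 < (σ * (z 0).im) * (σ * (z' 0).im) := mul_pos hz.2 hz'.2
      have h2 : σ * σ = 1 := by rcases hσ with h | h <;> rw [h] <;> norm_num
      have h3 : (σ * (z 0).im) * (σ * (z' 0).im) = (σ * σ) * ((z 0).im * (z' 0).im) := by ring
      rw [h3, h2, one_mul] at h1
      exact h1
    by_cases hclose : ‖z - z'‖ < s / 8
    · refine (hhol z z' (hball z hz.1) hclose hprod).trans ?_
      refine mul_le_mul_of_nonneg_right ?_ (Real.rpow_nonneg (norm_nonneg _) _)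
      refine div_le_div_of_nonneg_right ?_ hsp.le
      refine mul_le_mul_of_nonneg_right ?_ hA
      nlinarith
    · push_neg at hclose
      have h1 : ‖a z - a z'‖ ≤ 2 * ((c₀ + c₁) * A / s ^ (N + 3)) := by
        calc ‖a z - a z'‖ ≤ ‖a z‖ + ‖a z'‖ := norm_sub_le _ _
          _ ≤ _ := by
            have := hsup z (hball z hz.1) (hne z hz.2)
            have := hsup z' (hball z' hz'.1) (hne z' hz'.2)
            linarith
      have h2 : s / 8 ≤ ‖z - z'‖ ^ α := by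
        have h3 : (s / 8) ^ α ≤ ‖z - z'‖ ^ α :=
          Real.rpow_le_rpow (by positivity) hclose S.α_pos.le
        have h4 : s / 8 ≤ (s / 8) ^ α := by
          have := Real.rpow_le_rpow_of_exponent_ge (x := s / 8) (by positivity) (by linarith)
            S.α_lt.le
          simpa using this
        exact h4.trans h3
      have h5 : 2 * ((c₀ + c₁) * A / s ^ (N + 3)) = 16 * (c₀ + c₁) * A / s ^ (N + 4) * (s / 8) := by
        rw [pow_succ s (N + 3)]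
        field_simp
        ring
      have h6 : 16 * (c₀ + c₁) * A / s ^ (N + 4) ≤
          (16 * (c₀ + c₁) + (8 * c₀ + c₂)) * A / s ^ (N + 4) := by
        refine div_le_div_of_nonneg_right ?_ hsp.le
        refine mul_le_mul_of_nonneg_right ?_ hA
        nlinarith
      have h7 : 0 ≤ 16 * (c₀ + c₁) * A / s ^ (N + 4) := by positivity
      calc ‖a z - a z'‖ ≤ 16 * (c₀ + c₁) * A / s ^ (N + 4) * (s / 8) := h5 ▸ h1
        _ ≤ 16 * (c₀ + c₁) * A / s ^ (N + 4) * ‖z - z'‖ ^ α := mul_le_mul_of_nonneg_left h2 h7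
        _ ≤ _ := mul_le_mul_of_nonneg_right h6 (Real.rpow_nonneg (norm_nonneg _) _)

/-- **Additive splitting at the real interface `Im z 0 = 0`, with polynomial loss.** -/
theorem lt_main (N : ℕ) (R α : ℝ) (h0 : 0 < α) (h1 : α < 1) : ∃ (C : ℝ) (p : ℕ), 0 < C ∧
    ∀ (D Ω D' : Set (Cn (N + 1))) (h : ℝ), 0 < h → h ≤ 1 → IsOpen D → D ⊆ Metric.ball 0 R →
    IsOpen Ω → DbExh Ω → IsOpen D' → (∀ z ∈ Ω, Metric.ball z h ⊆ D) →
    (∀ z ∈ D', Metric.ball z h ⊆ Ω) → ∀ (u : Cn (N + 1) → ℂ) (A : ℝ), LtData D u A α →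
    ∃ aP aM : Cn (N + 1) → ℂ,
      DifferentiableOn ℂ aP (D' ∩ {z | 0 < (z 0).im}) ∧
      DifferentiableOn ℂ aM (D' ∩ {z | (z 0).im < 0}) ∧
      LtHol (D' ∩ {z | 0 ≤ (z 0).im}) aP (C * A / h ^ p) α ∧
      LtHol (D' ∩ {z | (z 0).im ≤ 0}) aM (C * A / h ^ p) α ∧
      (∀ z ∈ D', (z 0).im = 0 → aP z - aM z = u z) ∧
      LtCR D' aP ∧ LtCR D' aM := by
  obtain ⟨c₀, hc₀, hcou⟩ := lt_cousin N R
  obtain ⟨c₁, hc₁, hsup⟩ := lt_a_sup h0 h1
  obtain ⟨c₂, hc₂, hhol⟩ := lt_a_holder h0 h1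
  refine ⟨(16 * (c₀ + c₁) + (8 * c₀ + c₂)) * 10 ^ (N + 4), N + 4, by positivity, ?_⟩
  intro D Ω D' h hh0 hh1 hDo hDR hΩo hexh hD'o hΩD hD'Ω u A hdata
  set s : ℝ := h / 10 with hs
  have hs0 : 0 < s := by positivity
  have h10 : 10 * s = h := by rw [hs]; ring
  have S : LtSetup N R s α A D Ω u :=
    ⟨h0, h1, hs0, by rw [hs]; linarith, hDo, hDR, hΩo, hexh, by rw [h10]; exact hΩD, hdata⟩
  obtain ⟨H, hH⟩ := hcou S
  obtain ⟨a, hA⟩ := lt_a_exists S hH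
  have hahol := lt_a_hol S hH hA
  have hball : ∀ z ∈ D', Metric.ball z s ⊆ Ω := fun z hz =>
    (Metric.ball_subset_ball (by rw [hs]; linarith)).trans (hD'Ω z hz)
  have hD'sub : D' ⊆ Ω := fun z hz => hball z hz (Metric.mem_ball_self hs0)
  have hKc : (16 * (c₀ + c₁) + (8 * c₀ + c₂)) * A / s ^ (N + 4)
      = (16 * (c₀ + c₁) + (8 * c₀ + c₂)) * 10 ^ (N + 4) * A / h ^ (N + 4) := by
    rw [hs, div_pow]
    field_simp
  have key : ∀ σ : ℝ, (σ = 1 ∨ σ = -1) → LtHol (D' ∩ {z | 0 < σ * (z 0).im}) a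
      ((16 * (c₀ + c₁) + (8 * c₀ + c₂)) * 10 ^ (N + 4) * A / h ^ (N + 4)) α := by
    intro σ hσ
    rw [← hKc]
    exact lt_main_side S hc₀.le hc₁.le hc₂.le hball (hsup S hc₀.le hH hA) (hhol S hc₀.le hH hA) hσ
  have hdiff : ∀ σ : ℝ, DifferentiableOn ℂ a (D' ∩ {z | 0 < σ * (z 0).im}) := by
    intro σ
    refine hahol.mono fun z hz => ⟨hD'sub hz.1, fun h => ?_⟩
    have := hz.2
    simp only [Set.mem_setOf_eq, h, mul_zero, lt_irrefl] at this
  obtain ⟨gP, hP1, hP2, hP3, hP4⟩ := lt_side hD'o (Or.inl rfl) h0 (hdiff 1) (key 1 (Or.inl rfl))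
  obtain ⟨gM, hM1, hM2, hM3, hM4⟩ := lt_side hD'o (Or.inr rfl) h0 (hdiff (-1)) (key (-1) (Or.inr rfl))
  have e1 : {z : Cn (N + 1) | 0 < (1 : ℝ) * (z 0).im} = {z | 0 < (z 0).im} := by
    ext z; simp
  have e2 : {z : Cn (N + 1) | 0 ≤ (1 : ℝ) * (z 0).im} = {z | 0 ≤ (z 0).im} := by
    ext z; simp
  have e3 : {z : Cn (N + 1) | 0 < (-1 : ℝ) * (z 0).im} = {z | (z 0).im < 0} := by
    ext z; simp
  have e4 : {z : Cn (N + 1) | 0 ≤ (-1 : ℝ) * (z 0).im} = {z | (z 0).im ≤ 0} := by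
    ext z; simp
  rw [e1] at hP1
  rw [e2] at hP2
  rw [e3] at hM1
  rw [e4] at hM2
  refine ⟨gP, gM, hP1, hM1, hP2, hM2, ?_, hP3, hM3⟩
  intro z hz hz0
  have t1 := (hP4 z hz hz0).sub (hM4 z hz hz0)
  have t2 := lt_a_jump S hH hA z (hball z hz) hz0
  have e5 : (fun y : ℝ => a (Function.update z 0 (z 0 + y * (((1 : ℝ) : ℂ) * I)))
      - a (Function.update z 0 (z 0 + y * (((-1 : ℝ) : ℂ) * I))))
      = fun y : ℝ => a (Function.update z 0 (z 0 + y * I)) - a (Function.update z 0 (z 0 - y * I)) := by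
    funext y
    congr 3
    · push_cast; ring
    · push_cast; ring
  rw [e5] at t1
  exact tendsto_nhds_unique t1 t2

end Claimed.Agent.R245
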