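/-
Row 245 / S0484.  Painleve's theorem (helper249): a continuous map which is holomorphic off a real hyperplane is holomorphic.
  pnl_one  : one variable, line `Im z = b` (Morera of Mathlib, rectangles cut along the line)
  pnl_main : finite dimensional source, hyperplane `Im (l x) = b`, any complete target
Neutral file (imports SCV only), consumed by S4GPain.lean and TGPain.lean.  Sorry-free.
-/
import Claimed.Agent.R245.SCV

set_option autoImplicit false
set_option linter.unusedSectionVars false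

namespace Claimed.Agent.R245

open Metric Set Filter Topology Complex
open scoped Interval

section one

variable {G : Type*} [NormedAddCommGroup G] [NormedSpace ℂ G] [CompleteSpace G]

/-- the boundary integral over a rectangle whose interior avoids the line `Im = b`. -/
theorem pnl_rect {U : Set ℂ} (b : ℝ) {φ : ℂ → G} (hc : ContinuousOn φ U)
    (hd : DifferentiableOn ℂ φ {z | z ∈ U ∧ z.im ≠ b}) (z w : ℂ) (hsub : Rectangle z w ⊆ U)
    (hb : ∀ y ∈ Ioo (min z.im w.im) (max z.im w.im), y ≠ b) :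
    (∫ x : ℝ in z.re..w.re, φ (x + z.im * I)) - (∫ x : ℝ in z.re..w.re, φ (x + w.im * I)) +
      I • (∫ y : ℝ in z.im..w.im, φ (re w + y * I)) -
      I • (∫ y : ℝ in z.im..w.im, φ (re z + y * I)) = 0 := by
  refine integral_boundary_rect_eq_zero_of_continuousOn_of_differentiableOn φ z w (hc.mono hsub)
    (hd.mono ?_)
  intro ζ hζ
  refine ⟨hsub ?_, hb _ hζ.2⟩
  exact ⟨Ioo_subset_Icc_self hζ.1, Ioo_subset_Icc_self hζ.2⟩

theorem pnl_one {U : Set ℂ} (hU : IsOpen U) (b : ℝ) {φ : ℂ → G} (hc : ContinuousOn φ U)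
    (hd : DifferentiableOn ℂ φ {z | z ∈ U ∧ z.im ≠ b}) : DifferentiableOn ℂ φ U := by
  rw [← isConservativeOn_and_continuousOn_iff_isDifferentiableOn hU]
  refine ⟨?_, hc⟩
  intro z w hzw
  rw [← add_eq_zero_iff_eq_neg, wedgeIntegral_add_wedgeIntegral_eq]
  by_cases hb : b ∈ [[z.im, w.im]]
  · -- cut along the line
    have hvert : ∀ x ∈ [[z.re, w.re]], ContinuousOn (fun y : ℝ => φ (x + y * I)) [[z.im, w.im]] := by
      intro x hx
      refine hc.comp (by fun_prop) ?_
      intro y hy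
      apply hzw
      refine ⟨?_, ?_⟩
      · simpa using hx
      · simpa using hy
    have hs1 : [[z.im, b]] ⊆ [[z.im, w.im]] := uIcc_subset_uIcc_left hb
    have hs2 : [[b, w.im]] ⊆ [[z.im, w.im]] := uIcc_subset_uIcc_right hb
    have hsplit : ∀ x ∈ [[z.re, w.re]], (∫ y : ℝ in z.im..w.im, φ (x + y * I))
        = (∫ y : ℝ in z.im..b, φ (x + y * I)) + ∫ y : ℝ in b..w.im, φ (x + y * I) := by
      intro x hx
      rw [intervalIntegral.integral_add_adjacent_intervals]
      · exact ((hvert x hx).mono hs1).intervalIntegrable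
      · exact ((hvert x hx).mono hs2).intervalIntegrable
    have h1 := pnl_rect b hc hd z ⟨w.re, b⟩ (by
      intro ζ hζ
      exact hzw ⟨hζ.1, hs1 hζ.2⟩) (by
      intro y hy h
      subst h
      simp only [mem_Ioo, inf_lt_iff, lt_sup_iff, lt_self_iff_false, or_false] at hy
      exact absurd hy.1 (not_lt.mpr hy.2.le))
    have h2 := pnl_rect b hc hd ⟨z.re, b⟩ w (by
      intro ζ hζ
      exact hzw ⟨hζ.1, hs2 hζ.2⟩) (by
      intro y hy h
      subst h
      simp only [mem_Ioo, inf_lt_iff, lt_sup_iff, lt_self_iff_false, false_or] at hy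
      exact absurd hy.1 (not_lt.mpr hy.2.le))
    simp only at h1 h2
    rw [hsplit w.re right_mem_uIcc, hsplit z.re left_mem_uIcc]
    rw [smul_add, smul_add]
    have := congrArg₂ (· + ·) h1 h2
    simp only [add_zero] at this
    rw [← this]
    abel
  · refine pnl_rect b hc hd z w hzw ?_
    intro y hy h
    subst h
    exact hb (Ioo_subset_Icc_self hy)

end one

section several

variable {G : Type*} [NormedAddCommGroup G] [NormedSpace ℂ G] [CompleteSpace G]
  {X : Type*} [NormedAddCommGroup X] [NormedSpace ℂ X] [FiniteDimensional ℂ X]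

/-- the auxiliary affine map `ℂ × X → X` -/
noncomputable def pnlΨ (ℓ : X →L[ℂ] ℂ) (e x₀ : X) (p : ℂ × X) : X := x₀ + p.1 • e + (p.2 - ℓ p.2 • e)

theorem pnlΨ_differentiable (ℓ : X →L[ℂ] ℂ) (e x₀ : X) : Differentiable ℂ (pnlΨ ℓ e x₀) := by
  unfold pnlΨ
  fun_prop

theorem pnlΨ_ell (ℓ : X →L[ℂ] ℂ) {e : X} (he : ℓ e = 1) (x₀ : X) (p : ℂ × X) :
    ℓ (pnlΨ ℓ e x₀ p) = ℓ x₀ + p.1 := by
  simp [pnlΨ, he]

theorem pnlΨ_self (ℓ : X →L[ℂ] ℂ) (e x₀ x : X) : pnlΨ ℓ e x₀ (ℓ (x - x₀), x - x₀) = x := by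
  simp [pnlΨ]

/-- **Painlevé's theorem across a real hyperplane.** -/
theorem pnl_main (ℓ : X →L[ℂ] ℂ) (hℓ : ℓ ≠ 0) (b : ℝ) {D : Set X} (hD : IsOpen D) {g : X → G}
    (hc : ContinuousOn g D) (hd : DifferentiableOn ℂ g {x | x ∈ D ∧ (ℓ x).im ≠ b}) :
    DifferentiableOn ℂ g D := by
  have : ProperSpace X := FiniteDimensional.proper ℂ X
  obtain ⟨e, he⟩ : ∃ e : X, ℓ e = 1 := by
    obtain ⟨v, hv⟩ : ∃ v, ℓ v ≠ 0 := by
      by_contra h
      push Not at h
      exact hℓ (ContinuousLinearMap.ext h)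
    exact ⟨(ℓ v)⁻¹ • v, by simp [hv]⟩
  have hD'o : IsOpen {x | x ∈ D ∧ (ℓ x).im ≠ b} := by
    refine hD.inter ?_
    exact isOpen_ne_fun (Complex.continuous_im.comp ℓ.continuous) continuous_const
  have hd' : ∀ x ∈ D, (ℓ x).im ≠ b → DifferentiableAt ℂ g x := fun x hx hb =>
    (hd x ⟨hx, hb⟩).differentiableAt (hD'o.mem_nhds ⟨hx, hb⟩)
  intro x₀ hx₀
  set Ψ := pnlΨ ℓ e x₀ with hΨ
  have hΨd : Differentiable ℂ Ψ := pnlΨ_differentiable ℓ e x₀
  set U : Set (ℂ × X) := Ψ ⁻¹' D with hU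
  have hUo : IsOpen U := hD.preimage hΨd.continuous
  set h : ℂ × X → G := fun p => g (Ψ p) with hh
  have hhc : ContinuousOn h U := hc.comp hΨd.continuous.continuousOn (fun p hp => hp)
  have hgood : ∀ p ∈ U, ((ℓ x₀).im + p.1.im ≠ b) → DifferentiableAt ℂ h p := by
    intro p hp hb
    refine (hd' (Ψ p) hp ?_).comp p (hΨd p)
    rw [hΨ, pnlΨ_ell ℓ he]
    simpa using hb
  have h1 : ∀ z ∈ U, DifferentiableAt ℂ (fun l => h (l, z.2)) z.1 := by
    intro z hz
    set U₁ : Set ℂ := (fun l : ℂ => ((l, z.2) : ℂ × X)) ⁻¹' U with hU₁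
    have hU₁o : IsOpen U₁ := hUo.preimage (by fun_prop)
    have hone := pnl_one (φ := fun l => h (l, z.2)) hU₁o (b - (ℓ x₀).im)
      (hhc.comp (f := fun l : ℂ => ((l, z.2) : ℂ × X)) (by fun_prop) (fun l hl => hl)) (by
        intro l hl
        have h3 := hgood (l, z.2) hl.1 (by
          intro h4
          apply hl.2
          simp only at h4
          linarith)
        exact (h3.comp l (f := fun l : ℂ => ((l, z.2) : ℂ × X))
          (by fun_prop)).differentiableWithinAt)
    exact (hone z.1 hz).differentiableAt (hU₁o.mem_nhds hz)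
  have h2 : ∀ z ∈ U, DifferentiableAt ℂ (fun k => h (z.1, k)) z.2 := by
    rintro ⟨l₀, k₀⟩ hz
    by_cases hb : (ℓ x₀).im + l₀.im = b
    swap
    · exact (hgood (l₀, k₀) hz hb).comp k₀ (f := fun k : X => ((l₀, k) : ℂ × X)) (by fun_prop)
    -- the limit argument
    obtain ⟨ρ, hρ, hball⟩ := Metric.isOpen_iff.1 hUo (l₀, k₀) hz
    have hprod : ball l₀ ρ ×ˢ closedBall k₀ (ρ / 2) ⊆ U := by
      rintro ⟨l, k⟩ ⟨hl, hk⟩
      apply hball
      rw [mem_ball, Prod.dist_eq]
      exact max_lt hl (lt_of_le_of_lt hk (by linarith))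
    have htend : Tendsto (fun t : ℝ => l₀ + (t : ℂ) * I) (𝓝[>] 0) (𝓝[ball l₀ ρ] l₀) := by
      have h3 : Tendsto (fun t : ℝ => l₀ + (t : ℂ) * I) (𝓝 0) (𝓝 l₀) := by
        have : Continuous (fun t : ℝ => l₀ + (t : ℂ) * I) := by fun_prop
        have := this.tendsto 0
        simpa using this
      rw [isOpen_ball.nhdsWithin_eq (mem_ball_self hρ)]
      exact h3.mono_left nhdsWithin_le_nhds
    have hunif : TendstoUniformlyOn (fun (t : ℝ) (k : X) => h (l₀ + (t : ℂ) * I, k))
        (fun k => h (l₀, k)) (𝓝[>] 0) (closedBall k₀ (ρ / 2)) := by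
      rw [Metric.tendstoUniformlyOn_iff]
      intro ε hε
      obtain ⟨v, hv, hvp⟩ := IsCompact.mem_uniformity_of_prod (f := fun l k => h (l, k))
        (s := ball l₀ ρ) (q := l₀) (isCompact_closedBall k₀ (ρ / 2)) (hhc.mono hprod)
        (mem_ball_self hρ) (Metric.dist_mem_uniformity hε)
      filter_upwards [htend hv] with t ht k hk
      rw [dist_comm]
      exact hvp _ ht k hk
    have hdiff : ∀ᶠ t : ℝ in 𝓝[>] 0, DifferentiableOn ℂ (fun k : X => h (l₀ + (t : ℂ) * I, k))
        (ball k₀ (ρ / 2)) := by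
      have hmem : ∀ᶠ t : ℝ in 𝓝[>] 0, l₀ + (t : ℂ) * I ∈ ball l₀ ρ :=
        htend.eventually (eventually_mem_nhdsWithin)
      filter_upwards [hmem, self_mem_nhdsWithin] with t ht ht0 k hk
      have ht0' : (0 : ℝ) < t := ht0
      have h3 := hgood (l₀ + (t : ℂ) * I, k) (hprod ⟨ht, ball_subset_closedBall hk⟩) (by
        simp only [add_im, mul_im, ofReal_re, I_im, mul_one, ofReal_im, I_re, mul_zero, add_zero]
        intro h4
        linarith)
      exact (h3.comp k (f := fun k : X => ((l₀ + (t : ℂ) * I, k) : ℂ × X))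
        (by fun_prop)).differentiableWithinAt
    have hlim := scv_tendsto isOpen_ball hdiff
      (hunif.mono ball_subset_closedBall).tendstoLocallyUniformlyOn
    exact (hlim k₀ (mem_ball_self (by linarith))).differentiableAt
      (isOpen_ball.mem_nhds (mem_ball_self (by linarith)))
  have han := scv_osgood hUo hhc h1 h2
  have h0 : ((ℓ (x₀ - x₀), x₀ - x₀) : ℂ × X) ∈ U := by
    show Ψ _ ∈ D
    rw [hΨ, pnlΨ_self]
    exact hx₀
  have h3 : DifferentiableAt ℂ h (ℓ (x₀ - x₀), x₀ - x₀) := (han _ h0).differentiableAt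
  have h4 : g = fun x => h (ℓ (x - x₀), x - x₀) := by
    funext x
    simp only [hh, hΨ, pnlΨ_self]
  have h5 : DifferentiableAt ℂ (fun x => h (ℓ (x - x₀), x - x₀)) x₀ :=
    h3.comp x₀ (f := fun x : X => ((ℓ (x - x₀), x - x₀) : ℂ × X)) (by fun_prop)
  rw [← h4] at h5
  exact h5.differentiableWithinAt

end several

end Claimed.Agent.R245
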