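/-
Row 245 / S0484, interface I2 = POLY (`LEverywhere F → PropA F 0`), architect helper292.  Definitions.

IMPORTANT SIMPLIFICATION with respect to the paper (Section 3): no Hénon iterates `H_d^{-N} L^N`, no Lemma 3.3 (`ana:concentration`).
We enlarge ONE coordinate at a time, by the composition of shears
    `x_0 = z_0`,  `x_{k+1} = z_{k+1} + (x_k / r)^d`        (`shear`, Shear.lean)
on `Ω = {|z_0| < R₊, |z_k| < σ (k ≥ 1)}`; the long planar variable is `x_n = s^(d^n)`.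
-/
import Claimed.Agent.R245.L2Defs

set_option autoImplicit false

namespace Claimed.Agent.R245

open MvPolynomial Metric Set

/-- closed polydisc with multiradius `ρ`. -/
def PD {m : ℕ} (ρ : Fin m → ℝ) : Set (Fin m → ℂ) := {z | ∀ j, ‖z j‖ ≤ ρ j}

/-- open polydisc with multiradius `ρ`. -/
def OPD {m : ℕ} (ρ : Fin m → ℝ) : Set (Fin m → ℂ) := Set.pi univ (fun j => ball (0 : ℂ) (ρ j))

/-- A change of the source with a thin parameter range.  `h` is the new source map (close to the identity on `K₁`), `ℓ` the long coordinate of `h`;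
where `|ℓ| < c₂` the map `h` takes values in the ball of radius `b₁`; where `|ℓ| > c₁` we have `h = Φ (sf, ξf)` with `ξf` bounded, and `Φ (s, ·)` has diameter
`≤ ω` on the joining annulus `c₀ ≤ |s|^D ≤ c₃`. -/
structure ThinData (m n : ℕ) (Ω K₁ : Set (Fin m → ℂ)) (c₀ c₁ c₂ c₃ b₁ B₃ ω : ℝ)
    (h : (Fin m → ℂ) → (Fin m → ℂ)) (ℓ : (Fin m → ℂ) → ℂ) (D : ℕ) (sf : (Fin m → ℂ) → ℂ)
    (ξf : (Fin m → ℂ) → (Fin n → ℂ)) (Φ : ℂ × (Fin n → ℂ) → (Fin m → ℂ)) (X : ℝ) : Prop where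
  D_pos : 1 ≤ D
  hol_h : Differentiable ℂ h
  hol_ℓ : Differentiable ℂ ℓ
  hol_Φ : Differentiable ℂ Φ
  near : ∀ z ∈ K₁, ‖h z - z‖ ≤ ω ∧ ‖ℓ z‖ < c₂
  regA : ∀ z ∈ Ω, ‖ℓ z‖ < c₂ → ‖h z‖ < b₁
  hol_s : DifferentiableOn ℂ sf {z | z ∈ Ω ∧ c₁ < ‖ℓ z‖}
  hol_ξ : DifferentiableOn ℂ ξf {z | z ∈ Ω ∧ c₁ < ‖ℓ z‖}
  bd_ξ : ∀ z ∈ Ω, c₁ < ‖ℓ z‖ → ‖ξf z‖ ≤ B₃ / 2
  param : ∀ z ∈ Ω, c₁ < ‖ℓ z‖ → Φ (sf z, ξf z) = h z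
  norm_s : ∀ z ∈ Ω, c₁ < ‖ℓ z‖ → ‖sf z‖ ^ D = ‖ℓ z‖
  thin_bd : ∀ (s : ℂ) (ξ : Fin n → ℂ), c₀ ≤ ‖s‖ ^ D → ‖s‖ ^ D ≤ c₃ → ‖ξ‖ ≤ B₃ → ‖Φ (s, ξ)‖ < b₁
  thin : ∀ (s : ℂ) (ξ ξ' : Fin n → ℂ), c₀ ≤ ‖s‖ ^ D → ‖s‖ ^ D ≤ c₃ → ‖ξ‖ ≤ B₃ → ‖ξ'‖ ≤ B₃ → ‖Φ (s, ξ) - Φ (s, ξ')‖ ≤ ω
  bd_ℓ : ∀ z ∈ Ω, ‖ℓ z‖ ≤ X

end Claimed.Agent.R245
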