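/-
Row 245 / S0484.  INTERFACE `PLANAR` = Proposition `loc:planar` of the paper (Section 2.3), in the cone formalism, without the direction field in the hypotheses:
`l2_planar` (helper98, L2Planar.lean) + `nu_exists` (Nu.lean) on `Ann r₀ r × closedBall 0 ρ`.   (helper292)
-/
import Claimed.Agent.R245.PolyDefs
import Claimed.Agent.R245.Nu
import Claimed.Agent.R245.L2Planar

set_option autoImplicit false

namespace Claimed.Agent.R245

open MvPolynomial Metric Set Claims.C0412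

/-- **PLANAR** (annulus version).  `f` holomorphic near `{r₀ ≤ |s| ≤ r} × P`; for every point `ζ` of the outer circle the set `f ({ζ} × P)` lies in one
witness neighbourhood.  Then `f` is approximated on `{r₀ ≤ |s| ≤ r} × P₀` by maps holomorphic near `{r₀ ≤ |s| ≤ R} × P₀`. -/
theorem pl_planar (F : MvPolynomial (Fin 4) ℂ) (hF : IsSmoothQuarticForm F) (q : ℕ) (r₀ r R ρ₀ ρ : ℝ) (hr₀ : 0 < r₀) (hr : r₀ < r)
    (hR : r < R) (hρ₀ : 0 < ρ₀) (hρ : ρ₀ < ρ) (f : ℂ × (Fin q → ℂ) → V4)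
    (hf : HolNear F f (Ann r₀ r ×ˢ closedBall (0 : Fin q → ℂ) ρ))
    (hw : ∀ ζ : ℂ, ‖ζ‖ = r → ∃ V : Set V4, IsWitness F V ∧ ∀ t ∈ closedBall (0 : Fin q → ℂ) ρ, f (ζ, t) ∈ V)
    (ε : ℝ) (hε : 0 < ε) :
    ∃ G : ℂ × (Fin q → ℂ) → V4, HolNear F G (Ann r₀ R ×ˢ closedBall (0 : Fin q → ℂ) ρ₀) ∧
      ∀ x ∈ Ann r₀ r ×ˢ closedBall (0 : Fin q → ℂ) ρ₀, ‖G x - f x‖ < ε := by
  obtain ⟨W, ν, hW, hsub, hfW, hν, hdot⟩ :=
    nu_exists hF (l2_isCompact_Ann r₀ r) (isCompact_closedBall 0 ρ) (convex_closedBall 0 ρ) hf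
  exact l2_planar hr (hr₀.trans hr) hR hρ₀ hρ hW hsub hfW hν hdot hw hε

end Claimed.Agent.R245
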