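/-
Row 245 / S0484.  TOOL (architect helper292): boxes and the induction principle on boxes (pure real arithmetic, no analysis).
ONE FILE = ONE PACKAGE = ONE OWNER.  Statements FROZEN; helper lemmas: prefix `spi_`, in this file.
-/
import Mathlib

set_option autoImplicit false

namespace Claimed.Agent.R245

open Set Metric

/-! ### boxes -/

/-- open rectangle. -/
def SpRect (x₀ x₁ y₀ y₁ : ℝ) : Set ℂ := {z | x₀ < z.re ∧ z.re < x₁ ∧ y₀ < z.im ∧ z.im < y₁}

/-- open box in `ℂ^m`: `z j ∈ (a j, b j) × (c j, d j)`. -/
def OBox {m : ℕ} (a b c d : Fin m → ℝ) : Set (Fin m → ℂ) := {z | ∀ j, z j ∈ SpRect (a j) (b j) (c j) (d j)}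

theorem sp_isOpen_SpRect (x₀ x₁ y₀ y₁ : ℝ) : IsOpen (SpRect x₀ x₁ y₀ y₁) := by
  exact (isOpen_lt continuous_const Complex.continuous_re).inter
    ((isOpen_lt Complex.continuous_re continuous_const).inter
      ((isOpen_lt continuous_const Complex.continuous_im).inter
        (isOpen_lt Complex.continuous_im continuous_const)))

theorem sp_isOpen_OBox {m : ℕ} (a b c d : Fin m → ℝ) : IsOpen (OBox a b c d) := by
  have e : OBox a b c d = Set.pi Set.univ (fun j => SpRect (a j) (b j) (c j) (d j)) := by
    ext z; simp [OBox, Set.mem_pi]
  rw [e]
  exact isOpen_set_pi Set.finite_univ fun j _ => sp_isOpen_SpRect _ _ _ _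

/-- induction on boxes, one family of sides. -/
theorem spi_one {m : ℕ} (P : (Fin m → ℝ) → (Fin m → ℝ) → Prop) (δ : ℝ) (hδ : 0 < δ)
    (base : ∀ a b, (∀ j, b j - a j < δ) → P a b)
    (cut : ∀ a b (j : Fin m) (α β : ℝ), a j < α → α < β → β < b j →
      P a (Function.update b j β) → P (Function.update a j α) b → P a b) :
    ∀ a b, P a b := by
  classical
  have key : ∀ S : Finset (Fin m), ∀ a b, (∀ i ∉ S, b i - a i < δ) → P a b := by
    intro S
    induction S using Finset.induction_on with
    | empty => intro a b h; exact base a b fun j => h j (by simp)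
    | insert j S hj ih =>
      have step : ∀ k : ℕ, ∀ a b, (∀ i ∉ insert j S, b i - a i < δ) →
          b j - a j < δ * (3 / 2) ^ k → P a b := by
        intro k
        induction k with
        | zero =>
          intro a b h hj'
          apply ih
          intro i hi
          by_cases hij : i = j
          · subst hij; simpa using hj'
          · exact h i (by simp [hij, hi])
        | succ k ihk =>
          intro a b h hj'
          by_cases hl : b j - a j < δ * (3 / 2) ^ k
          · exact ihk a b h hl
          · push Not at hl
            have hpos : 0 < b j - a j := lt_of_lt_of_le (by positivity) hl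
            rw [pow_succ] at hj'
            refine cut a b j (a j + (b j - a j) / 3) (a j + 2 * (b j - a j) / 3) (by linarith)
              (by linarith) (by linarith) ?_ ?_
            · apply ihk
              · intro i hi
                have hij : i ≠ j := by
                  rintro rfl; exact hi (Finset.mem_insert_self _ _)
                rw [Function.update_of_ne hij]
                exact h i hi
              · rw [Function.update_self]
                linarith
            · apply ihk
              · intro i hi
                have hij : i ≠ j := by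
                  rintro rfl; exact hi (Finset.mem_insert_self _ _)
                rw [Function.update_of_ne hij]
                exact h i hi
              · rw [Function.update_self]
                linarith
      intro a b h
      obtain ⟨k, hk⟩ := pow_unbounded_of_one_lt ((b j - a j) / δ) (by norm_num : (1 : ℝ) < 3 / 2)
      refine step k a b h ?_
      rw [div_lt_iff₀ hδ] at hk
      linarith
  intro a b
  exact key Finset.univ a b (by simp)

/-- **induction on boxes.**  (Put `Q e e' := ∀ a b c d, (∀ j, b j - a j < δ (3/2)^(e j)) → (∀ j, d j - c j < δ (3/2)^(e' j)) → P a b c d`;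
`Q 0 0` is `base`; `Q e e' → Q (update e j (e j + 1)) e'` by cutting at `a j + ℓ/3`, `a j + 2ℓ/3`, `ℓ = b j - a j` (if `ℓ ≤ 0` nothing to do).) -/
theorem sp_box_ind {m : ℕ} (P : (Fin m → ℝ) → (Fin m → ℝ) → (Fin m → ℝ) → (Fin m → ℝ) → Prop) (δ : ℝ) (hδ : 0 < δ)
    (base : ∀ a b c d, (∀ j, b j - a j < δ) → (∀ j, d j - c j < δ) → P a b c d)
    (cut_re : ∀ a b c d (j : Fin m) (α β : ℝ), a j < α → α < β → β < b j →
      P a (Function.update b j β) c d → P (Function.update a j α) b c d → P a b c d)
    (cut_im : ∀ a b c d (j : Fin m) (α β : ℝ), c j < α → α < β → β < d j →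
      P a b c (Function.update d j β) → P a b (Function.update c j α) d → P a b c d) :
    ∀ a b c d, P a b c d := by
  intro a b
  refine spi_one (fun c d => P a b c d) δ hδ (fun c d hcd => ?_) (fun c d => cut_im a b c d)
  exact spi_one (fun a b => P a b c d) δ hδ (fun a b hab => base a b c d hab hcd)
    (fun a b => cut_re a b c d) a b

end Claimed.Agent.R245
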