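/-
Row 245 / S0484.  TOOL (architect helper292): a bounded product domain `∏ D j` (`D j ⊆ ℂ` ARBITRARY bounded open sets) cut in one real direction of one complex
coordinate.  From `l2_split` (helper98, proved).  ONE FILE = ONE PACKAGE = ONE OWNER.  Statements FROZEN; helper lemmas: prefix `spc_`, in this file.
-/
import Claimed.Agent.R245.Split
import Claimed.Agent.R245.SplitInd
import Claimed.Agent.R245.L2Split

set_option autoImplicit false

namespace Claimed.Agent.R245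

open Set Metric

/-- a `C¹` cutoff on the line (`Real.smoothTransition ((x - α') / (β' - α'))`; the derivative is continuous with compact support, hence bounded). -/
theorem spc_cutoff (α β : ℝ) (h : α < β) : ∃ (χ : ℝ → ℝ) (C : ℝ), ContDiff ℝ 1 χ ∧ 0 ≤ C ∧ (∀ x, 0 ≤ χ x ∧ χ x ≤ 1) ∧
    (∀ x, x ≤ α + (β - α) / 3 → χ x = 0) ∧ (∀ x, α + 2 * (β - α) / 3 ≤ x → χ x = 1) ∧ ∀ x, |deriv χ x| ≤ C := by
  have hδ : 0 < (β - α) / 3 := by linarith
  set χ : ℝ → ℝ := fun x => Real.smoothTransition ((x - (α + (β - α) / 3)) / ((β - α) / 3)) with hχ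
  have hsm : ContDiff ℝ 1 χ :=
    Real.smoothTransition.contDiff.comp ((contDiff_id.sub contDiff_const).div_const _)
  have h0 : ∀ x, x ≤ α + (β - α) / 3 → χ x = 0 := by
    intro x hx
    apply Real.smoothTransition.zero_of_nonpos
    exact div_nonpos_of_nonpos_of_nonneg (by linarith) hδ.le
  have h1 : ∀ x, α + 2 * (β - α) / 3 ≤ x → χ x = 1 := by
    intro x hx
    apply Real.smoothTransition.one_of_one_le
    rw [le_div_iff₀ hδ]
    linarith
  have hc : Continuous (deriv χ) := hsm.continuous_deriv le_rfl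
  obtain ⟨C, hC⟩ := (isCompact_Icc (a := α + (β - α) / 3)
    (b := α + 2 * (β - α) / 3)).exists_bound_of_continuousOn hc.continuousOn
  refine ⟨χ, max C 0, hsm, le_max_right _ _,
    fun x => ⟨Real.smoothTransition.nonneg _, Real.smoothTransition.le_one _⟩, h0, h1, fun x => ?_⟩
  by_cases hx : x ∈ Set.Icc (α + (β - α) / 3) (α + 2 * (β - α) / 3)
  · exact (hC x hx).trans (le_max_left _ _)
  · have hz : deriv χ x = 0 := by
      rw [Set.mem_Icc, not_and_or, not_le, not_le] at hx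
      rcases hx with hx | hx
      · have : χ =ᶠ[nhds x] fun _ => 0 := by
          filter_upwards [eventually_lt_nhds hx] with y hy
          exact h0 y hy.le
        rw [this.deriv_eq]; simp
      · have : χ =ᶠ[nhds x] fun _ => 1 := by
          filter_upwards [eventually_gt_nhds hx] with y hy
          exact h1 y hy.le
        rw [this.deriv_eq]; simp
    rw [hz, abs_zero]; exact le_max_right _ _

/-- cut datum for a cut by a real linear functional of norm `≤ 1`. -/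
theorem spc_l2cut_gen (ℓ : ℂ →L[ℝ] ℝ) (hℓ : ‖ℓ‖ ≤ 1) (L α β : ℝ) (hL : 0 ≤ L) (hαβ : α < β) :
    ∃ M : ℝ, 0 ≤ M ∧ ∀ D : Set ℂ, IsOpen D → D ⊆ ball 0 L →
      ∃ χ : ℂ → ℝ, L2Cut (D ∩ {z | ℓ z < β}) (D ∩ {z | α < ℓ z}) χ (2 * L) M := by
  obtain ⟨χ₀, C, hsm, hC0, h01, h0, h1, hd⟩ := spc_cutoff α β hαβ
  refine ⟨C, hC0, fun D hD hDL => ⟨fun z => χ₀ (ℓ z), ?_⟩⟩
  exact
    { openA := hD.inter (isOpen_lt ℓ.continuous continuous_const)
      openB := hD.inter (isOpen_lt continuous_const ℓ.continuous)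
      smooth := hsm.comp ℓ.contDiff
      nonneg := fun s => (h01 _).1
      le_one := fun s => (h01 _).2
      zeroA := by
        rintro s ⟨⟨hsD, -⟩, hs2⟩
        have hs : ℓ s ≤ α := by
          by_contra hcon
          exact hs2 ⟨hsD, not_le.1 hcon⟩
        have : ∀ᶠ z in nhds s, ℓ z < α + (β - α) / 3 :=
          ℓ.continuous.continuousAt.eventually_lt continuousAt_const (by linarith)
        exact this.mono fun z hz => h0 _ hz.le
      oneB := by
        rintro s ⟨⟨hsD, -⟩, hs2⟩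
        have hs : β ≤ ℓ s := by
          by_contra hcon
          exact hs2 ⟨hsD, not_le.1 hcon⟩
        have : ∀ᶠ z in nhds s, α + 2 * (β - α) / 3 < ℓ z :=
          continuousAt_const.eventually_lt ℓ.continuous.continuousAt (by linarith)
        exact this.mono fun z hz => h1 _ hz.le
      d_nonneg := by linarith
      M_nonneg := hC0
      dist_le := by
        intro s hs ζ hζ
        have hsD : s ∈ ball (0 : ℂ) L := by
          rcases hs with hs | hs
          · exact hDL hs.1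
          · exact hDL hs.1
        have hζD : ζ ∈ ball (0 : ℂ) L := hDL hζ.1.1
        have h3 := dist_triangle s 0 ζ
        rw [mem_ball] at hsD hζD
        rw [dist_comm] at hζD
        linarith
      deriv_le := by
        intro ζ _
        have hdiff : DifferentiableAt ℝ χ₀ (ℓ ζ) := (hsm.differentiable one_ne_zero) _
        have e : fderiv ℝ (fun z => χ₀ (ℓ z)) ζ = deriv χ₀ (ℓ ζ) • ℓ := by
          have := (hdiff.hasDerivAt.comp_hasFDerivAt ζ ℓ.hasFDerivAt).fderiv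
          exact this
        rw [e, norm_smul, Real.norm_eq_abs]
        calc |deriv χ₀ (ℓ ζ)| * ‖ℓ‖ ≤ C * 1 := mul_le_mul (hd _) hℓ (norm_nonneg _) hC0
          _ = C := mul_one C }

/-- cut datum for a vertical cut (`χ z = χ₀ z.re`). -/
theorem spc_l2cut_re (L α β : ℝ) (hL : 0 ≤ L) (hαβ : α < β) : ∃ M : ℝ, ∀ D : Set ℂ, IsOpen D → D ⊆ ball 0 L →
    ∃ χ : ℂ → ℝ, L2Cut (D ∩ {z | z.re < β}) (D ∩ {z | α < z.re}) χ (2 * L) M := by
  obtain ⟨M, -, h⟩ := spc_l2cut_gen Complex.reCLM Complex.reCLM_norm.le L α β hL hαβ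
  exact ⟨M, h⟩

/-- cut datum for a horizontal cut (`χ z = χ₀ z.im`). -/
theorem spc_l2cut_im (L α β : ℝ) (hL : 0 ≤ L) (hαβ : α < β) : ∃ M : ℝ, ∀ D : Set ℂ, IsOpen D → D ⊆ ball 0 L →
    ∃ χ : ℂ → ℝ, L2Cut (D ∩ {z | z.im < β}) (D ∩ {z | α < z.im}) χ (2 * L) M := by
  obtain ⟨M, -, h⟩ := spc_l2cut_gen Complex.imCLM Complex.imCLM_norm.le L α β hL hαβ
  exact ⟨M, h⟩

/-- the linear map `(s, w) ↦ Function.update w j s`. -/
theorem spc_exists_update {m : ℕ} (j : Fin m) :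
    ∃ π : ℂ × (Fin m → ℂ) →L[ℂ] (Fin m → ℂ), ∀ s w, π (s, w) = Function.update w j s := by
  refine ⟨ContinuousLinearMap.snd ℂ ℂ (Fin m → ℂ) +
    (ContinuousLinearMap.single ℂ (fun _ : Fin m => ℂ) j).comp
      (ContinuousLinearMap.fst ℂ ℂ (Fin m → ℂ) -
        (ContinuousLinearMap.proj j).comp (ContinuousLinearMap.snd ℂ ℂ (Fin m → ℂ))), fun s w => ?_⟩
  ext i
  by_cases hi : i = j
  · subst hi
    simp
  · simp [Function.update_of_ne hi, Pi.single_eq_of_ne hi]

/-- a product domain cut by a real linear functional of the coordinate `j`. -/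
theorem spc_cut_gen {m : ℕ} (ℓ : ℂ →L[ℝ] ℝ) (hℓ : ‖ℓ‖ ≤ 1) (L α β : ℝ) (hL : 0 ≤ L) (hαβ : α < β) :
    ∃ κ : ℝ, 0 ≤ κ ∧ ∀ (D : Fin m → Set ℂ), (∀ i, IsOpen (D i)) → ∀ j : Fin m, D j ⊆ ball 0 L →
      L2Splits (Set.pi univ D ∩ {z | ℓ (z j) < β}) (Set.pi univ D ∩ {z | α < ℓ (z j)}) κ := by
  obtain ⟨M, hM0, hM⟩ := spc_l2cut_gen ℓ hℓ L α β hL hαβ
  refine ⟨1 + 2 * (2 * L) * M, by positivity, fun D hD j hDj => ?_⟩
  obtain ⟨χ, hcut⟩ := hM (D j) (hD j) hDj
  obtain ⟨π, hπ⟩ := spc_exists_update j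
  set W : Set (Fin m → ℂ) := {w | ∀ i, i ≠ j → w i ∈ D i} with hW
  have hWo : IsOpen W := by
    have : W = ⋂ i, {w : Fin m → ℂ | i ≠ j → w i ∈ D i} := by
      ext w; simp [hW]
    rw [this]
    refine isOpen_iInter_of_finite fun i => ?_
    by_cases hi : i = j
    · simp [hi]
    · simp only [ne_eq, hi, not_false_eq_true, forall_const]
      exact (hD i).preimage (continuous_apply i)
  have hsplit : L2Splits ((D j ∩ {z | ℓ z < β}) ×ˢ W) ((D j ∩ {z | α < ℓ z}) ×ˢ W)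
      (1 + 2 * (2 * L) * M) := by
    intro u B hB0 hu hB
    have e : ((D j ∩ {z | ℓ z < β}) ×ˢ W) ∩ ((D j ∩ {z | α < ℓ z}) ×ˢ W) =
        ((D j ∩ {z | ℓ z < β}) ∩ (D j ∩ {z | α < ℓ z})) ×ˢ W := by
      rw [Set.prod_inter_prod, Set.inter_self]
    rw [e] at hu hB ⊢
    exact l2_split hcut hWo hu hB0 hB
  refine L2Splits.comap ((ContinuousLinearMap.proj j).prod (ContinuousLinearMap.id ℂ (Fin m → ℂ))) π
    ?_ ?_ ?_ ?_ hsplit
  · intro z
    show π (z j, z) = z
    rw [hπ, Function.update_eq_self]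
  · rintro z ⟨hz1, hz2⟩
    exact ⟨⟨hz1 j (mem_univ j), hz2⟩, fun i _ => hz1 i (mem_univ i)⟩
  · rintro z ⟨hz1, hz2⟩
    exact ⟨⟨hz1 j (mem_univ j), hz2⟩, fun i _ => hz1 i (mem_univ i)⟩
  · rintro ⟨s, w⟩ ⟨⟨⟨hs1, hs2⟩, hw⟩, ⟨⟨-, hs3⟩, -⟩⟩
    rw [hπ]
    have hmem : Function.update w j s ∈ Set.pi univ D := by
      intro i _
      by_cases hi : i = j
      · subst hi
        rw [Function.update_self]; exact hs1
      · rw [Function.update_of_ne hi]; exact hw i hi
    refine ⟨⟨hmem, ?_⟩, ⟨hmem, ?_⟩⟩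
    · show ℓ (Function.update w j s j) < β
      rw [Function.update_self]; exact hs2
    · show α < ℓ (Function.update w j s j)
      rw [Function.update_self]; exact hs3

/-- a product domain cut in the real direction of the coordinate `j`.
(`L2Splits.comap` with `ι z = (z j, z)`, `π (s, w) = Function.update w j s`, and `l2_split` for `G = V4`, `T = Fin m → ℂ`, `W = {w | ∀ i ≠ j, w i ∈ D i}`,
the cut datum of `spc_l2cut_re` for `D j`; `κ = 1 + 2 (2 L) M`.) -/
theorem sp_cut_re {m : ℕ} (L α β : ℝ) (hL : 0 ≤ L) (hαβ : α < β) :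
    ∃ κ : ℝ, 0 ≤ κ ∧ ∀ (D : Fin m → Set ℂ), (∀ i, IsOpen (D i)) → ∀ j : Fin m, D j ⊆ ball 0 L →
      L2Splits (Set.pi univ D ∩ {z | (z j).re < β}) (Set.pi univ D ∩ {z | α < (z j).re}) κ := by
  exact spc_cut_gen Complex.reCLM Complex.reCLM_norm.le L α β hL hαβ

/-- the same in the imaginary direction. -/
theorem sp_cut_im {m : ℕ} (L α β : ℝ) (hL : 0 ≤ L) (hαβ : α < β) :
    ∃ κ : ℝ, 0 ≤ κ ∧ ∀ (D : Fin m → Set ℂ), (∀ i, IsOpen (D i)) → ∀ j : Fin m, D j ⊆ ball 0 L →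
      L2Splits (Set.pi univ D ∩ {z | (z j).im < β}) (Set.pi univ D ∩ {z | α < (z j).im}) κ := by
  exact spc_cut_gen Complex.imCLM Complex.imCLM_norm.le L α β hL hαβ

end Claimed.Agent.R245
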