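/-
Row 245 / S0484.  TOOL (architect helper292): Cousin I with bounds and without loss of domain on bounded PRODUCT domains `∏ D j`, for an arbitrary open cover
`{A, B}` of the closure.  It replaces Hörmander's theorem in Section 3 of the paper (`glue:open`); no loss of domain, hence no Newton/KAM scheme.
ONE FILE = ONE PACKAGE = ONE OWNER.  Statement FROZEN; helper lemmas: prefix `spb_`, in this file.
-/
import Claimed.Agent.R245.SplitCut

set_option autoImplicit false

namespace Claimed.Agent.R245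

open Set Metric

theorem spb_mem_update_b {m : ℕ} {a b c d : Fin m → ℝ} {j : Fin m} {β : ℝ} (hβ : β < b j)
    (z : Fin m → ℂ) :
    z ∈ OBox a (Function.update b j β) c d ↔ z ∈ OBox a b c d ∧ (z j).re < β := by
  constructor
  · intro h
    refine ⟨fun i => ?_, ?_⟩
    · have hi := h i
      by_cases hij : i = j
      · subst hij
        rw [Function.update_self] at hi
        exact ⟨hi.1, hi.2.1.trans hβ, hi.2.2⟩
      · rw [Function.update_of_ne hij] at hi
        exact hi
    · have hj := h j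
      rw [Function.update_self] at hj
      exact hj.2.1
  · rintro ⟨h, hz⟩ i
    by_cases hij : i = j
    · subst hij
      rw [Function.update_self]
      exact ⟨(h i).1, hz, (h i).2.2⟩
    · rw [Function.update_of_ne hij]
      exact h i

theorem spb_mem_update_a {m : ℕ} {a b c d : Fin m → ℝ} {j : Fin m} {α : ℝ} (hα : a j < α)
    (z : Fin m → ℂ) :
    z ∈ OBox (Function.update a j α) b c d ↔ z ∈ OBox a b c d ∧ α < (z j).re := by
  constructor
  · intro h
    refine ⟨fun i => ?_, ?_⟩
    · have hi := h i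
      by_cases hij : i = j
      · subst hij
        rw [Function.update_self] at hi
        exact ⟨hα.trans hi.1, hi.2⟩
      · rw [Function.update_of_ne hij] at hi
        exact hi
    · have hj := h j
      rw [Function.update_self] at hj
      exact hj.1
  · rintro ⟨h, hz⟩ i
    by_cases hij : i = j
    · subst hij
      rw [Function.update_self]
      exact ⟨hz, (h i).2⟩
    · rw [Function.update_of_ne hij]
      exact h i

theorem spb_mem_update_d {m : ℕ} {a b c d : Fin m → ℝ} {j : Fin m} {β : ℝ} (hβ : β < d j)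
    (z : Fin m → ℂ) :
    z ∈ OBox a b c (Function.update d j β) ↔ z ∈ OBox a b c d ∧ (z j).im < β := by
  constructor
  · intro h
    refine ⟨fun i => ?_, ?_⟩
    · have hi := h i
      by_cases hij : i = j
      · subst hij
        rw [Function.update_self] at hi
        exact ⟨hi.1, hi.2.1, hi.2.2.1, hi.2.2.2.trans hβ⟩
      · rw [Function.update_of_ne hij] at hi
        exact hi
    · have hj := h j
      rw [Function.update_self] at hj
      exact hj.2.2.2
  · rintro ⟨h, hz⟩ i
    by_cases hij : i = j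
    · subst hij
      rw [Function.update_self]
      exact ⟨(h i).1, (h i).2.1, (h i).2.2.1, hz⟩
    · rw [Function.update_of_ne hij]
      exact h i

theorem spb_mem_update_c {m : ℕ} {a b c d : Fin m → ℝ} {j : Fin m} {α : ℝ} (hα : c j < α)
    (z : Fin m → ℂ) :
    z ∈ OBox a b (Function.update c j α) d ↔ z ∈ OBox a b c d ∧ α < (z j).im := by
  constructor
  · intro h
    refine ⟨fun i => ?_, ?_⟩
    · have hi := h i
      by_cases hij : i = j
      · subst hij
        rw [Function.update_self] at hi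
        exact ⟨hi.1, hi.2.1, hα.trans hi.2.2.1, hi.2.2.2⟩
      · rw [Function.update_of_ne hij] at hi
        exact hi
    · have hj := h j
      rw [Function.update_self] at hj
      exact hj.2.2.1
  · rintro ⟨h, hz⟩ i
    by_cases hij : i = j
    · subst hij
      rw [Function.update_self]
      exact ⟨(h i).1, (h i).2.1, hz, (h i).2.2.2⟩
    · rw [Function.update_of_ne hij]
      exact h i

/-- the abstract patching step: `T` is cut by two open sets which cover everything -/
theorem spb_patch {X : Type*} [NormedAddCommGroup X] [NormedSpace ℂ X] {A B T H₁ H₂ : Set X}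
    (hA : IsOpen A) (hB : IsOpen B) (hT : IsOpen T) (hH₁ : IsOpen H₁) (hH₂ : IsOpen H₂)
    (hcov : T ⊆ A ∪ B) (hH : ∀ z, z ∈ H₁ ∨ z ∈ H₂)
    (h₁ : ∃ κ : ℝ, 0 ≤ κ ∧ L2Splits (A ∩ (T ∩ H₁)) (B ∩ (T ∩ H₁)) κ)
    (h₂ : ∃ κ : ℝ, 0 ≤ κ ∧ L2Splits (A ∩ (T ∩ H₂)) (B ∩ (T ∩ H₂)) κ)
    (h₁₂ : ∃ κ : ℝ, 0 ≤ κ ∧ L2Splits (T ∩ H₁) (T ∩ H₂) κ) :
    ∃ κ : ℝ, 0 ≤ κ ∧ L2Splits (A ∩ T) (B ∩ T) κ := by
  obtain ⟨K₁, hK₁, s₁⟩ := h₁
  obtain ⟨K₂, hK₂, s₂⟩ := h₂
  obtain ⟨κ, hκ, s₁₂⟩ := h₁₂
  have hU : (T ∩ H₁) ∪ (T ∩ H₂) = T := by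
    ext z
    constructor
    · rintro (h | h) <;> exact h.1
    · intro h
      rcases hH z with h' | h'
      · exact Or.inl ⟨h, h'⟩
      · exact Or.inr ⟨h, h'⟩
  have key := sp_patch hA hB (hT.inter hH₁) (hT.inter hH₂) (fun z hz => hcov hz.1.1) hK₁ hK₂ hκ
    s₁ s₂ s₁₂
  rw [hU] at key
  exact ⟨_, by positivity, key⟩

theorem spb_pi_inter_OBox {m : ℕ} (D : Fin m → Set ℂ) (a b c d : Fin m → ℝ) :
    Set.pi univ D ∩ OBox a b c d
      = Set.pi univ (fun j => D j ∩ SpRect (a j) (b j) (c j) (d j)) := by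
  ext z
  constructor
  · rintro ⟨h1, h2⟩ j _
    exact ⟨h1 j (mem_univ j), h2 j⟩
  · intro h
    exact ⟨fun j _ => (h j (mem_univ j)).1, fun j => (h j (mem_univ j)).2⟩

/-- two points of a small cell are close -/
theorem spb_dist_lt {m : ℕ} {a b c d : Fin m → ℝ} {δ : ℝ} (hδ : 0 < δ) (hab : ∀ j, b j - a j < δ)
    (hcd : ∀ j, d j - c j < δ) {x y : Fin m → ℂ} (hx : x ∈ OBox a b c d) (hy : y ∈ OBox a b c d) :
    dist y x < 2 * δ := by
  rw [dist_pi_lt_iff (by positivity)]
  intro j
  obtain ⟨x1, x2, x3, x4⟩ := hx j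
  obtain ⟨y1, y2, y3, y4⟩ := hy j
  rw [dist_eq_norm]
  have h1 := Complex.norm_le_abs_re_add_abs_im (y j - x j)
  simp only [Complex.sub_re, Complex.sub_im] at h1
  have h2 : |(y j).re - (x j).re| < δ := by
    rw [abs_lt]
    constructor <;> linarith [hab j]
  have h3 : |(y j).im - (x j).im| < δ := by
    rw [abs_lt]
    constructor <;> linarith [hcd j]
  linarith

/-- **Cousin I with bounds on a product domain.**  `sp_box_ind` for
`P a b c d := ∃ κ ≥ 0, L2Splits (A ∩ (pi univ D ∩ OBox a b c d)) (B ∩ (pi univ D ∩ OBox a b c d)) κ`.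
Base: Lebesgue number of the cover `{A, B}` of the compact set `closure (pi univ D)` (`lebesgue_number_lemma_of_metric`): a cell with sides `< δ` has
sup-diameter `< 2 δ`, so it lies in `A` or in `B`: `sp_base_left/right`.
Cut: `pi univ D ∩ OBox a b c d = pi univ (fun j => D j ∩ SpRect ..)`; `sp_cut_re/im` for this product domain + `sp_patch`.
Finally take a box containing `pi univ D`. -/
theorem sp_box {m : ℕ} (D : Fin m → Set ℂ) (hD : ∀ j, IsOpen (D j)) (hb : ∀ j, Bornology.IsBounded (D j))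
    (A B : Set (Fin m → ℂ)) (hA : IsOpen A) (hB : IsOpen B) (hcov : closure (Set.pi univ D) ⊆ A ∪ B) :
    ∃ κ : ℝ, 0 < κ ∧ L2Splits (A ∩ Set.pi univ D) (B ∩ Set.pi univ D) κ := by
  classical
  set Ω : Set (Fin m → ℂ) := Set.pi univ D with hΩ
  have hΩo : IsOpen Ω := isOpen_set_pi finite_univ fun j _ => hD j
  have hΩcov : Ω ⊆ A ∪ B := subset_closure.trans hcov
  -- a common bound
  obtain ⟨L, hL0, hL⟩ : ∃ L : ℝ, 0 ≤ L ∧ ∀ j, D j ⊆ ball (0 : ℂ) L := by
    have h1 : ∀ j, ∃ R : ℝ, D j ⊆ ball (0 : ℂ) R := fun j => (hb j).subset_ball 0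
    choose R hR using h1
    refine ⟨∑ j, |R j|, Finset.sum_nonneg fun j _ => abs_nonneg _, fun j => ?_⟩
    refine (hR j).trans (ball_subset_ball ((le_abs_self _).trans ?_))
    exact Finset.single_le_sum (f := fun j => |R j|) (fun i _ => abs_nonneg _) (Finset.mem_univ j)
  have hΩb : Bornology.IsBounded Ω := Bornology.IsBounded.pi fun j => hb j
  have hK : IsCompact (closure Ω) := hΩb.isCompact_closure
  -- Lebesgue number
  obtain ⟨δ, hδ, hleb⟩ := lebesgue_number_lemma_of_metric (c := fun i : Bool => cond i A B) hK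
    (fun i => by cases i <;> assumption)
    (fun x hx => by
      rcases hcov hx with h | h
      · exact mem_iUnion.2 ⟨true, h⟩
      · exact mem_iUnion.2 ⟨false, h⟩)
  have main : ∀ a b c d : Fin m → ℝ, ∃ κ : ℝ, 0 ≤ κ ∧
      L2Splits (A ∩ (Ω ∩ OBox a b c d)) (B ∩ (Ω ∩ OBox a b c d)) κ := by
    refine sp_box_ind _ (δ / 2) (by positivity) ?_ ?_ ?_
    · intro a b c d hab hcd
      refine ⟨1, zero_le_one, ?_⟩
      by_cases hne : (Ω ∩ OBox a b c d).Nonempty
      · obtain ⟨x, hxΩ, hx⟩ := hne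
        obtain ⟨i, hi⟩ := hleb x (subset_closure hxΩ)
        have hsub : Ω ∩ OBox a b c d ⊆ ball x δ := by
          rintro y ⟨-, hy⟩
          have := spb_dist_lt (by positivity) hab hcd hx hy
          rw [mem_ball]
          linarith
        cases i
        · exact sp_base_right (hsub.trans hi)
        · exact sp_base_left (hsub.trans hi)
      · rw [not_nonempty_iff_eq_empty] at hne
        rw [hne]
        exact sp_base_left (empty_subset _)
    · intro a b c d j α β hα hαβ hβ h₁ h₂
      have e₁ : Ω ∩ OBox a (Function.update b j β) c d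
          = (Ω ∩ OBox a b c d) ∩ {z | (z j).re < β} := by
        ext z
        constructor
        · rintro ⟨h, h'⟩
          exact ⟨⟨h, ((spb_mem_update_b hβ z).1 h').1⟩, ((spb_mem_update_b hβ z).1 h').2⟩
        · rintro ⟨⟨h, h'⟩, h''⟩
          exact ⟨h, (spb_mem_update_b hβ z).2 ⟨h', h''⟩⟩
      have e₂ : Ω ∩ OBox (Function.update a j α) b c d
          = (Ω ∩ OBox a b c d) ∩ {z | α < (z j).re} := by
        ext z
        constructor
        · rintro ⟨h, h'⟩
          exact ⟨⟨h, ((spb_mem_update_a hα z).1 h').1⟩, ((spb_mem_update_a hα z).1 h').2⟩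
        · rintro ⟨⟨h, h'⟩, h''⟩
          exact ⟨h, (spb_mem_update_a hα z).2 ⟨h', h''⟩⟩
      rw [e₁] at h₁
      rw [e₂] at h₂
      have hc : Continuous fun z : Fin m → ℂ => (z j).re :=
        Complex.continuous_re.comp (continuous_apply j)
      refine spb_patch hA hB (hΩo.inter (sp_isOpen_OBox a b c d)) (isOpen_lt hc continuous_const)
        (isOpen_lt continuous_const hc) (inter_subset_left.trans hΩcov) (fun z => ?_) h₁ h₂ ?_
      · rcases lt_or_ge (z j).re β with h | h
        · exact Or.inl h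
        · exact Or.inr (hαβ.trans_le h)
      · obtain ⟨κ, hκ, hs⟩ := sp_cut_re (m := m) L α β hL0 hαβ
        refine ⟨κ, hκ, ?_⟩
        rw [hΩ, spb_pi_inter_OBox]
        exact hs _ (fun i => (hD i).inter (sp_isOpen_SpRect _ _ _ _)) j
          (inter_subset_left.trans (hL j))
    · intro a b c d j α β hα hαβ hβ h₁ h₂
      have e₁ : Ω ∩ OBox a b c (Function.update d j β)
          = (Ω ∩ OBox a b c d) ∩ {z | (z j).im < β} := by
        ext z
        constructor
        · rintro ⟨h, h'⟩
          exact ⟨⟨h, ((spb_mem_update_d hβ z).1 h').1⟩, ((spb_mem_update_d hβ z).1 h').2⟩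
        · rintro ⟨⟨h, h'⟩, h''⟩
          exact ⟨h, (spb_mem_update_d hβ z).2 ⟨h', h''⟩⟩
      have e₂ : Ω ∩ OBox a b (Function.update c j α) d
          = (Ω ∩ OBox a b c d) ∩ {z | α < (z j).im} := by
        ext z
        constructor
        · rintro ⟨h, h'⟩
          exact ⟨⟨h, ((spb_mem_update_c hα z).1 h').1⟩, ((spb_mem_update_c hα z).1 h').2⟩
        · rintro ⟨⟨h, h'⟩, h''⟩
          exact ⟨h, (spb_mem_update_c hα z).2 ⟨h', h''⟩⟩
      rw [e₁] at h₁
      rw [e₂] at h₂
      have hc : Continuous fun z : Fin m → ℂ => (z j).im :=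
        Complex.continuous_im.comp (continuous_apply j)
      refine spb_patch hA hB (hΩo.inter (sp_isOpen_OBox a b c d)) (isOpen_lt hc continuous_const)
        (isOpen_lt continuous_const hc) (inter_subset_left.trans hΩcov) (fun z => ?_) h₁ h₂ ?_
      · rcases lt_or_ge (z j).im β with h | h
        · exact Or.inl h
        · exact Or.inr (hαβ.trans_le h)
      · obtain ⟨κ, hκ, hs⟩ := sp_cut_im (m := m) L α β hL0 hαβ
        refine ⟨κ, hκ, ?_⟩
        rw [hΩ, spb_pi_inter_OBox]
        exact hs _ (fun i => (hD i).inter (sp_isOpen_SpRect _ _ _ _)) j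
          (inter_subset_left.trans (hL j))
  obtain ⟨κ, hκ, hs⟩ := main (fun _ => -L) (fun _ => L) (fun _ => -L) (fun _ => L)
  have hbox : Ω ∩ OBox (fun _ : Fin m => -L) (fun _ => L) (fun _ => -L) (fun _ => L) = Ω := by
    refine inter_eq_left.2 fun z hz j => ?_
    have h1 : ‖z j‖ < L := mem_ball_zero_iff.1 (hL j (hz j (mem_univ j)))
    have h2 := abs_lt.1 ((Complex.abs_re_le_norm (z j)).trans_lt h1)
    have h3 := abs_lt.1 ((Complex.abs_im_le_norm (z j)).trans_lt h1)
    exact ⟨h2.1, h2.2, h3.1, h3.2⟩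
  rw [hbox] at hs
  exact ⟨κ + 1, by positivity, hs.mono (by linarith)⟩

end Claimed.Agent.R245
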