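/-
Row 245 / S0484.  TOOL (helper292): sprays (`L2Spray`, L2Defs.lean) over compact convex sets:  `nu_exists_convex` (Nu.lean) + `l2_spray_of_nu` (helper98, L2SprayEx.lean).
-/
import Claimed.Agent.R245.Nu
import Claimed.Agent.R245.L2SprayEx

set_option autoImplicit false

namespace Claimed.Agent.R245

open MvPolynomial Metric Set Claims.C0412

/-- **NU + SPRAY** over a neighbourhood of a compact convex set. -/
theorem spr_exists_convex {F : MvPolynomial (Fin 4) ℂ} (hF : IsSmoothQuarticForm F) {E : Type*} [NormedAddCommGroup E]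
    [NormedSpace ℂ E] [FiniteDimensional ℂ E] {K : Set E} (hK : IsCompact K) (hKc : Convex ℝ K) {f : E → V4} (hf : HolNear F f K) :
    ∃ (U : Set E) (Φ : E × V4 → V4) (β C : ℝ), IsOpen U ∧ K ⊆ U ∧ L2Spray F f Φ U β C := by
  obtain ⟨W, ν, hW, hKW, hfW, hν, hdot⟩ := nu_exists_convex hF hK hKc hf
  obtain ⟨W', β, C, -, Φ, hW'o, hKW', -, hSp, -⟩ := l2_spray_of_nu F hK hW hKW hfW hν hdot
  exact ⟨W', Φ, β, C, hW'o, hKW', hSp⟩

end Claimed.Agent.R245
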