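/-
Row 245 / S0484, I2 = POLY (architect helper292).  The abstract enlargement step: spray + PLANAR on the thin end + gluing on the open overlap
`{c₁ < |ℓ| < c₂}` of the product domain `Ω`.
-/
import Claimed.Agent.R245.PolyDefs
import Claimed.Agent.R245.Planar
import Claimed.Agent.R245.SplitBox
import Claimed.Agent.R245.SprayEx
import Claimed.Agent.R245.L2Glue

set_option autoImplicit false

namespace Claimed.Agent.R245

open MvPolynomial Metric Set Claims.C0412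

/-- Lebesgue number of the cover by witness neighbourhoods (`lebesgue_number_lemma_of_metric`). -/
theorem po_lebesgue {F : MvPolynomial (Fin 4) ℂ} (hL : LEverywhere F) {K' : Set V4} (hK' : IsCompact K') (hsub : K' ⊆ Cone F) :
    ∃ δ : ℝ, 0 < δ ∧ ∀ y ∈ K', ∃ V : Set V4, IsWitness F V ∧ ball y δ ⊆ V := by
  obtain ⟨δ, hδ, h⟩ := lebesgue_number_lemma_of_metric (ι := {V : Set V4 // IsWitness F V}) (c := fun V => V.1) hK'
    (fun V => V.2.1) (by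
      intro y hy
      obtain ⟨V, hV, hyV⟩ := hL y (hsub hy)
      exact mem_iUnion.2 ⟨⟨V, hV⟩, hyV⟩)
  refine ⟨δ, hδ, fun y hy => ?_⟩
  obtain ⟨V, hV⟩ := h y hy
  exact ⟨V.1, V.2, hV⟩

/-! ### the two blocks of passive variables -/

/-- the first block of `Fin (n + 4) → ℂ`. -/
def poaL (n : ℕ) (t : Fin (n + 4) → ℂ) : Fin n → ℂ := fun i => t (Fin.castAdd 4 i)

/-- the second block of `Fin (n + 4) → ℂ`. -/
def poaR (n : ℕ) (t : Fin (n + 4) → ℂ) : V4 := fun i => t (Fin.natAdd n i)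

theorem poa_differentiable_L (n : ℕ) : Differentiable ℂ (poaL n) :=
  differentiable_pi.2 fun i => differentiable_apply (Fin.castAdd 4 i)

theorem poa_differentiable_R (n : ℕ) : Differentiable ℂ (poaR n) :=
  differentiable_pi.2 fun i => differentiable_apply (Fin.natAdd n i)

theorem poa_norm_L_le (n : ℕ) (t : Fin (n + 4) → ℂ) : ‖poaL n t‖ ≤ ‖t‖ :=
  (pi_norm_le_iff_of_nonneg (norm_nonneg _)).2 fun i => norm_le_pi_norm t _

theorem poa_norm_R_le (n : ℕ) (t : Fin (n + 4) → ℂ) : ‖poaR n t‖ ≤ ‖t‖ :=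
  (pi_norm_le_iff_of_nonneg (norm_nonneg _)).2 fun i => norm_le_pi_norm t _

theorem poa_L_append {n : ℕ} (ξ : Fin n → ℂ) (v : V4) : poaL n (Fin.append ξ v) = ξ := by
  funext i; simp [poaL]

theorem poa_R_append {n : ℕ} (ξ : Fin n → ℂ) (v : V4) : poaR n (Fin.append ξ v) = v := by
  funext i; simp [poaR]

theorem poa_norm_append_le {n : ℕ} {ξ : Fin n → ℂ} {v : V4} {c : ℝ} (hc : 0 ≤ c) (hξ : ‖ξ‖ ≤ c) (hv : ‖v‖ ≤ c) :
    ‖(Fin.append ξ v : Fin (n + 4) → ℂ)‖ ≤ c := by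
  refine (pi_norm_le_iff_of_nonneg hc).2 fun i => ?_
  refine Fin.addCases (fun j => ?_) (fun j => ?_) i
  · rw [Fin.append_left]; exact (norm_le_pi_norm ξ j).trans hξ
  · rw [Fin.append_right]; exact (norm_le_pi_norm v j).trans hv

theorem poa_differentiableOn_append {X : Type*} [NormedAddCommGroup X] [NormedSpace ℂ X] {n : ℕ} {a : X → Fin n → ℂ} {b : X → V4}
    {S : Set X} (ha : DifferentiableOn ℂ a S) (hb : DifferentiableOn ℂ b S) :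
    DifferentiableOn ℂ (fun x => (Fin.append (a x) (b x) : Fin (n + 4) → ℂ)) S := by
  refine differentiableOn_pi.2 fun i => ?_
  refine Fin.addCases (fun j => ?_) (fun j => ?_) i
  · simp only [Fin.append_left]; exact differentiableOn_pi.1 ha j
  · simp only [Fin.append_right]; exact differentiableOn_pi.1 hb j

set_option maxHeartbeats 1000000 in
/-- **The abstract enlargement step.** -/
theorem po_abstract {F : MvPolynomial (Fin 4) ℂ} (hF : IsSmoothQuarticForm F) (hL : LEverywhere F) {m n : ℕ}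
    {Dm : Fin m → Set ℂ} (hDo : ∀ j, IsOpen (Dm j)) (hDb : ∀ j, Bornology.IsBounded (Dm j)) {K₁ : Set (Fin m → ℂ)}
    (hK₁ : K₁ ⊆ Set.pi univ Dm) {c₀ c₁ c₂ c₃ b₁ b B₃ : ℝ} (hc₀ : 0 < c₀) (hc₁ : c₀ < c₁) (hc₂ : c₁ < c₂) (hc₃ : c₂ < c₃)
    (hb₁ : 0 < b₁) (hb : b₁ < b) (hB₃ : 0 < B₃) (hK₁b : K₁ ⊆ closedBall 0 b₁) {f : (Fin m → ℂ) → V4} (hf : HolOn F f (ball 0 b))
    (H : ∀ ω : ℝ, 0 < ω → ∃ (h : (Fin m → ℂ) → (Fin m → ℂ)) (ℓ : (Fin m → ℂ) → ℂ) (D : ℕ)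
      (sf : (Fin m → ℂ) → ℂ) (ξf : (Fin m → ℂ) → (Fin n → ℂ)) (Φ : ℂ × (Fin n → ℂ) → (Fin m → ℂ)) (X : ℝ),
      ThinData m n (Set.pi univ Dm) K₁ c₀ c₁ c₂ c₃ b₁ B₃ ω h ℓ D sf ξf Φ X)
    (ε : ℝ) (hε : 0 < ε) :
    ∃ g : (Fin m → ℂ) → V4, HolOn F g (Set.pi univ Dm) ∧ ∀ z ∈ K₁, ‖g z - f z‖ < ε := by
  classical
  -- 1. the spray over `f` on `ball 0 b₁`
  have hKc : IsCompact (closedBall (0 : Fin m → ℂ) b₁) := isCompact_closedBall 0 b₁
  have hsubb : closedBall (0 : Fin m → ℂ) b₁ ⊆ ball 0 b := closedBall_subset_ball hb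
  have hnear : HolNear F f (closedBall 0 b₁) := ⟨ball 0 b, isOpen_ball, hsubb, hf⟩
  obtain ⟨U, Φs, β, C, hUo, hKU, hS⟩ := spr_exists_convex hF hKc (convex_closedBall 0 b₁) hnear
  have hβ : 0 < β := hS.pos
  have hC : 0 ≤ C := hS.C_nonneg
  -- 2. Lebesgue number
  have hfc : ContinuousOn f (closedBall 0 b₁) := hf.1.continuousOn.mono hsubb
  obtain ⟨δ, hδ, hLeb⟩ := po_lebesgue hL (hKc.image_of_continuousOn hfc)
    (by rintro _ ⟨x, hx, rfl⟩; exact hf.2 (hsubb hx))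
  -- 3. the fibre radius
  set β₀ : ℝ := min (β / 2) (δ / (3 * (C + 1))) with hβ₀def
  have hβ₀ : 0 < β₀ := lt_min (by positivity) (by positivity)
  have hβ₀β : β₀ < β := lt_of_le_of_lt (min_le_left _ _) (by linarith)
  have hCβ₀ : C * β₀ ≤ δ / 3 := by
    have h1 : β₀ ≤ δ / (3 * (C + 1)) := min_le_right _ _
    have h2 : (C + 1) * (δ / (3 * (C + 1))) = δ / 3 := by field_simp
    nlinarith
  -- 4. uniform continuity of `f`
  obtain ⟨ω, hω, hunif⟩ : ∃ ω : ℝ, 0 < ω ∧ ∀ x ∈ closedBall (0 : Fin m → ℂ) b₁, ∀ x' ∈ closedBall (0 : Fin m → ℂ) b₁,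
      ‖x - x'‖ ≤ ω → ‖f x - f x'‖ < min (δ / 3) (ε / 2) := by
    have hu := hKc.uniformContinuousOn_of_continuous hfc
    obtain ⟨ω, hω, h⟩ := Metric.uniformContinuousOn_iff.1 hu (min (δ / 3) (ε / 2)) (lt_min (by positivity) (by positivity))
    refine ⟨ω / 2, by positivity, fun x hx x' hx' hxx => ?_⟩
    have := h x hx x' hx' (by rw [dist_eq_norm]; linarith)
    rwa [dist_eq_norm] at this
  -- 5. the thin change of the source
  obtain ⟨h, ℓ, D, sf, ξf, Φ, X, T⟩ := H ω hω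
  have hD0 : D ≠ 0 := by have := T.D_pos; omega
  -- 6. radii in the `s`-plane
  set r₀ : ℝ := c₀ ^ ((D : ℝ)⁻¹) with hr₀def
  set r₃ : ℝ := c₃ ^ ((D : ℝ)⁻¹) with hr₃def
  have hc₃0 : 0 < c₃ := by linarith
  have hr₀D : r₀ ^ D = c₀ := Real.rpow_inv_natCast_pow hc₀.le hD0
  have hr₃D : r₃ ^ D = c₃ := Real.rpow_inv_natCast_pow hc₃0.le hD0
  have hr₀ : 0 < r₀ := Real.rpow_pos_of_pos hc₀ _
  have hr₃ : 0 < r₃ := Real.rpow_pos_of_pos hc₃0 _
  have hr₀₃ : r₀ < r₃ := lt_of_pow_lt_pow_left₀ D hr₃.le (by rw [hr₀D, hr₃D]; linarith)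
  set Rs : ℝ := max X 1 + r₃ + 1 with hRsdef
  have hRs : r₃ < Rs := by have := le_max_right X 1; linarith
  -- translation between `Ann` and powers
  have hAnn_pow : ∀ s : ℂ, s ∈ Ann r₀ r₃ → c₀ ≤ ‖s‖ ^ D ∧ ‖s‖ ^ D ≤ c₃ := by
    intro s hs
    refine ⟨?_, ?_⟩
    · rw [← hr₀D]; exact pow_le_pow_left₀ hr₀.le hs.1 D
    · rw [← hr₃D]; exact pow_le_pow_left₀ (norm_nonneg s) hs.2 D
  -- 7. the map on the annulus
  set P : ℂ × (Fin (n + 4) → ℂ) → (Fin m → ℂ) × V4 :=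
    fun p => (Φ (p.1, B₃ • poaL n p.2), β₀ • poaR n p.2) with hPdef
  have hPd : Differentiable ℂ P := by
    have h1 : Differentiable ℂ (fun p : ℂ × (Fin (n + 4) → ℂ) => (p.1, B₃ • poaL n p.2)) :=
      differentiable_fst.prodMk (((poa_differentiable_L n).comp differentiable_snd).const_smul B₃)
    exact (T.hol_Φ.comp h1).prodMk (((poa_differentiable_R n).comp differentiable_snd).const_smul β₀)
  have hSb : L2Spray F f Φs (ball 0 b₁) β C := hS.mono (ball_subset_closedBall.trans hKU) hβ le_rfl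
  have hPmem : ∀ p ∈ Ann r₀ r₃ ×ˢ closedBall (0 : Fin (n + 4) → ℂ) 1, P p ∈ ball (0 : Fin m → ℂ) b₁ ×ˢ ball (0 : V4) β := by
    rintro ⟨s, t⟩ ⟨hs, ht⟩
    have ht1 : ‖t‖ ≤ 1 := mem_closedBall_zero_iff.1 ht
    obtain ⟨h1, h2⟩ := hAnn_pow s hs
    refine ⟨mem_ball_zero_iff.2 (T.thin_bd s _ h1 h2 ?_), mem_ball_zero_iff.2 ?_⟩
    · rw [norm_smul, Real.norm_of_nonneg hB₃.le]
      have := (poa_norm_L_le n t).trans ht1
      nlinarith
    · show ‖β₀ • poaR n t‖ < β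
      rw [norm_smul, Real.norm_of_nonneg hβ₀.le]
      have := (poa_norm_R_le n t).trans ht1
      nlinarith
  set Ψ : ℂ × (Fin (n + 4) → ℂ) → V4 := fun p => Φs (P p) with hΨdef
  have hΨ : HolNear F Ψ (Ann r₀ r₃ ×ˢ closedBall (0 : Fin (n + 4) → ℂ) 1) := by
    refine ⟨P ⁻¹' (ball (0 : Fin m → ℂ) b₁ ×ˢ ball (0 : V4) β), (isOpen_ball.prod isOpen_ball).preimage hPd.continuous,
      hPmem, hSb.hol.1.comp hPd.differentiableOn (fun p hp => hp), fun p hp => hSb.hol.2 hp⟩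
  -- 8. the witness condition on the outer circle
  have hwit : ∀ ζ : ℂ, ‖ζ‖ = r₃ → ∃ V : Set V4, IsWitness F V ∧ ∀ t ∈ closedBall (0 : Fin (n + 4) → ℂ) 1, Ψ (ζ, t) ∈ V := by
    intro ζ hζ
    have hζA : ζ ∈ Ann r₀ r₃ := ⟨by rw [hζ]; exact hr₀₃.le, hζ.le⟩
    obtain ⟨h1, h2⟩ := hAnn_pow ζ hζA
    have hx₀ : ‖Φ (ζ, 0)‖ < b₁ := T.thin_bd ζ 0 h1 h2 (by simpa using hB₃.le)
    obtain ⟨V, hV, hVsub⟩ := hLeb (f (Φ (ζ, 0))) ⟨_, mem_closedBall_zero_iff.2 hx₀.le, rfl⟩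
    refine ⟨V, hV, fun t ht => hVsub ?_⟩
    have ht1 : ‖t‖ ≤ 1 := mem_closedBall_zero_iff.1 ht
    have hξ : ‖B₃ • poaL n t‖ ≤ B₃ := by
      rw [norm_smul, Real.norm_of_nonneg hB₃.le]
      have := (poa_norm_L_le n t).trans ht1
      nlinarith
    have hv : ‖β₀ • poaR n t‖ ≤ β₀ := by
      rw [norm_smul, Real.norm_of_nonneg hβ₀.le]
      have := (poa_norm_R_le n t).trans ht1
      nlinarith
    have hx : ‖Φ (ζ, B₃ • poaL n t)‖ < b₁ := T.thin_bd ζ _ h1 h2 hξ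
    have e1 : ‖Φs (Φ (ζ, B₃ • poaL n t), β₀ • poaR n t) - f (Φ (ζ, B₃ • poaL n t))‖ ≤ C * β₀ :=
      (hSb.lip _ (mem_ball_zero_iff.2 hx) _ (mem_ball_zero_iff.2 (hv.trans_lt hβ₀β))).trans
        (mul_le_mul_of_nonneg_left hv hC)
    have e2 : ‖f (Φ (ζ, B₃ • poaL n t)) - f (Φ (ζ, 0))‖ < δ / 3 :=
      (hunif _ (mem_closedBall_zero_iff.2 hx.le) _ (mem_closedBall_zero_iff.2 hx₀.le)
        (T.thin ζ _ 0 h1 h2 hξ (by simpa using hB₃.le))).trans_le (min_le_left _ _)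
    rw [mem_ball, dist_eq_norm]
    calc ‖Ψ (ζ, t) - f (Φ (ζ, 0))‖
        = ‖(Φs (Φ (ζ, B₃ • poaL n t), β₀ • poaR n t) - f (Φ (ζ, B₃ • poaL n t)))
            + (f (Φ (ζ, B₃ • poaL n t)) - f (Φ (ζ, 0)))‖ := by
          congr 1; simp only [hΨdef, hPdef]; abel
      _ ≤ _ + _ := norm_add_le _ _
      _ < δ := by linarith
  -- 9. the splitting constant
  set Ω : Set (Fin m → ℂ) := Set.pi univ Dm with hΩdef
  have hΩo : IsOpen Ω := isOpen_set_pi finite_univ (fun j _ => hDo j)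
  set A : Set (Fin m → ℂ) := {z | ‖ℓ z‖ < c₂} with hAdef
  set B : Set (Fin m → ℂ) := {z | c₁ < ‖ℓ z‖} with hBdef
  have hAo : IsOpen A := isOpen_lt T.hol_ℓ.continuous.norm continuous_const
  have hBo : IsOpen B := isOpen_lt continuous_const T.hol_ℓ.continuous.norm
  have hcov : ∀ z, z ∈ A ∪ B := by
    intro z
    by_cases hz : ‖ℓ z‖ < c₂
    · exact Or.inl hz
    · exact Or.inr (lt_of_lt_of_le hc₂ (not_lt.1 hz))
  obtain ⟨κ, hκ, hsplit⟩ := sp_box Dm hDo hDb A B hAo hBo (fun z _ => hcov z)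
  -- 10. the accuracy
  set β₁ : ℝ := 3 / 4 * β₀ with hβ₁def
  have hβ₁ : 0 < β₁ := by positivity
  set ε' : ℝ := min (β₁ / (8 * κ)) (ε / (8 * (C + 1) * κ)) with hε'def
  have hε' : 0 < ε' := lt_min (by positivity) (by positivity)
  have hsmall : 8 * κ * ε' ≤ β₁ := by
    have h1 : ε' ≤ β₁ / (8 * κ) := min_le_left _ _
    have h2 : 8 * κ * (β₁ / (8 * κ)) = β₁ := by field_simp
    have h3 : 0 < 8 * κ := by positivity
    nlinarith
  have hacc : C * (2 * κ * ε') < ε / 2 := by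
    have h1 : ε' ≤ ε / (8 * (C + 1) * κ) := min_le_right _ _
    have h2 : 8 * (C + 1) * κ * (ε / (8 * (C + 1) * κ)) = ε := by field_simp
    have h3 : 0 < 8 * (C + 1) * κ := by positivity
    have h4 : 8 * (C + 1) * κ * ε' ≤ ε := by nlinarith
    have h5 : 0 ≤ κ * ε' := by positivity
    nlinarith
  -- 11. PLANAR
  obtain ⟨G, hG, hGclose⟩ := pl_planar F hF (n + 4) r₀ r₃ Rs (3 / 4) 1 hr₀ hr₀₃ hRs (by norm_num) (by norm_num) Ψ hΨ hwit ε' hε'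
  obtain ⟨WG, hWGo, hWGsub, hGhol⟩ := hG
  -- 12. the family over `UB`
  set UA : Set (Fin m → ℂ) := A ∩ Ω with hUAdef
  set UB : Set (Fin m → ℂ) := B ∩ Ω with hUBdef
  have hUAo : IsOpen UA := hAo.inter hΩo
  have hUBo : IsOpen UB := hBo.inter hΩo
  have hUBset : UB = {z | z ∈ Ω ∧ c₁ < ‖ℓ z‖} := by ext z; exact and_comm
  set Q : (Fin m → ℂ) × V4 → ℂ × (Fin (n + 4) → ℂ) :=
    fun p => (sf p.1, Fin.append (B₃⁻¹ • ξf p.1) (β₀⁻¹ • p.2)) with hQdef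
  have hQt : ∀ p ∈ UB ×ˢ ball (0 : V4) β₁, ‖(Fin.append (B₃⁻¹ • ξf p.1) (β₀⁻¹ • p.2) : Fin (n + 4) → ℂ)‖ ≤ 3 / 4 := by
    rintro ⟨z, v⟩ ⟨hz, hv⟩
    refine poa_norm_append_le (by norm_num) ?_ ?_
    · rw [norm_smul, norm_inv, Real.norm_of_nonneg hB₃.le]
      have h1 := T.bd_ξ z hz.2 hz.1
      rw [inv_mul_le_iff₀ hB₃]
      show ‖ξf z‖ ≤ _
      linarith
    · rw [norm_smul, norm_inv, Real.norm_of_nonneg hβ₀.le, inv_mul_le_iff₀ hβ₀]
      have h1 : ‖v‖ < β₁ := mem_ball_zero_iff.1 hv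
      show ‖v‖ ≤ _
      linarith
  have hs_lower : ∀ z ∈ UB, r₀ ≤ ‖sf z‖ := by
    intro z hz
    refine le_of_lt (lt_of_pow_lt_pow_left₀ D (norm_nonneg _) ?_)
    rw [hr₀D, T.norm_s z hz.2 hz.1]
    exact hc₁.trans hz.1
  have hs_upper : ∀ z ∈ UB, ‖sf z‖ ≤ Rs := by
    intro z hz
    by_cases h1 : ‖sf z‖ ≤ 1
    · have := le_max_right X 1; linarith
    · have h2 : ‖sf z‖ ≤ ‖sf z‖ ^ D := le_self_pow₀ (not_le.1 h1).le hD0
      rw [T.norm_s z hz.2 hz.1] at h2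
      have h3 := T.bd_ℓ z hz.2
      have := le_max_left X 1
      linarith
  have hQmem : ∀ p ∈ UB ×ˢ ball (0 : V4) β₁, Q p ∈ Ann r₀ Rs ×ˢ closedBall (0 : Fin (n + 4) → ℂ) (3 / 4) := by
    intro p hp
    exact ⟨⟨hs_lower p.1 hp.1, hs_upper p.1 hp.1⟩, mem_closedBall_zero_iff.2 (hQt p hp)⟩
  have hQd : DifferentiableOn ℂ Q (UB ×ˢ ball (0 : V4) β₁) := by
    have hfst : MapsTo (Prod.fst : (Fin m → ℂ) × V4 → (Fin m → ℂ)) (UB ×ˢ ball (0 : V4) β₁) {z | z ∈ Ω ∧ c₁ < ‖ℓ z‖} := by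
      intro p hp; rw [← hUBset]; exact hp.1
    have h1 : DifferentiableOn ℂ (fun p : (Fin m → ℂ) × V4 => sf p.1) (UB ×ˢ ball (0 : V4) β₁) :=
      T.hol_s.comp differentiableOn_fst hfst
    have h2' : DifferentiableOn ℂ (fun p : (Fin m → ℂ) × V4 => ξf p.1) (UB ×ˢ ball (0 : V4) β₁) :=
      T.hol_ξ.comp differentiableOn_fst hfst
    have h2 : DifferentiableOn ℂ (fun p : (Fin m → ℂ) × V4 => B₃⁻¹ • ξf p.1) (UB ×ˢ ball (0 : V4) β₁) :=
      h2'.const_smul (B₃⁻¹)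
    have h3' : DifferentiableOn ℂ (fun p : (Fin m → ℂ) × V4 => p.2) (UB ×ˢ ball (0 : V4) β₁) := differentiableOn_snd
    have h3 : DifferentiableOn ℂ (fun p : (Fin m → ℂ) × V4 => β₀⁻¹ • p.2) (UB ×ˢ ball (0 : V4) β₁) :=
      h3'.const_smul (β₀⁻¹)
    exact h1.prodMk (poa_differentiableOn_append h2 h3)
  set FB : (Fin m → ℂ) × V4 → V4 := fun p => G (Q p) with hFBdef
  have hFB : HolOn F FB (UB ×ˢ ball (0 : V4) β₁) :=
    ⟨hGhol.1.comp hQd (fun p hp => hWGsub (hQmem p hp)), fun p hp => hGhol.2 (hWGsub (hQmem p hp))⟩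
  -- 13. the spray over `f ∘ h` on `UA`
  have hmapsA : MapsTo h UA (ball (0 : Fin m → ℂ) b₁) := fun z hz => mem_ball_zero_iff.2 (T.regA z hz.2 hz.1)
  have hSA : L2Spray F (fun z => f (h z)) (fun p : (Fin m → ℂ) × V4 => Φs (h p.1, p.2)) UA β₁ C :=
    (hSb.comp T.hol_h.differentiableOn hmapsA).mono subset_rfl hβ₁ (by linarith)
  -- 14. closeness on the overlap
  have hclose : ∀ z ∈ UA ∩ UB, ∀ v ∈ ball (0 : V4) β₁, ‖FB (z, v) - Φs (h z, v)‖ ≤ ε' := by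
    intro z hz v hv
    have hp : ((z, v) : (Fin m → ℂ) × V4) ∈ UB ×ˢ ball (0 : V4) β₁ := ⟨hz.2, hv⟩
    have hsA : sf z ∈ Ann r₀ r₃ := by
      refine ⟨hs_lower z hz.2, le_of_lt (lt_of_pow_lt_pow_left₀ D hr₃.le ?_)⟩
      rw [hr₃D, T.norm_s z hz.2.2 hz.2.1]
      exact lt_trans hz.1.1 hc₃
    have h1 := hGclose (Q (z, v)) ⟨hsA, mem_closedBall_zero_iff.2 (hQt _ hp)⟩
    have h2 : Ψ (Q (z, v)) = Φs (h z, v) := by
      simp only [hΨdef, hPdef, hQdef, poa_L_append, poa_R_append]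
      rw [smul_smul, smul_smul, mul_inv_cancel₀ hB₃.ne', mul_inv_cancel₀ hβ₀.ne', one_smul, one_smul,
        T.param z hz.2.2 hz.2.1]
    rw [h2] at h1
    exact h1.le
  -- 15. gluing
  obtain ⟨g, hg, hgclose⟩ := l2_glue hUAo hUBo hκ hsplit hSA hFB hε'.le hsmall hclose
  have hUnion : UA ∪ UB = Ω := by
    ext z
    constructor
    · rintro (hz | hz) <;> exact hz.2
    · intro hz
      rcases hcov z with h1 | h1
      · exact Or.inl ⟨h1, hz⟩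
      · exact Or.inr ⟨h1, hz⟩
  rw [hUnion] at hg
  refine ⟨g, hg, fun z hz => ?_⟩
  have hzΩ : z ∈ Ω := hK₁ hz
  obtain ⟨hn1, hn2⟩ := T.near z hz
  have hzA : z ∈ UA := ⟨hn2, hzΩ⟩
  have e1 : ‖g z - f (h z)‖ < ε / 2 := (hgclose z hzA).trans_lt hacc
  have e2 : ‖f (h z) - f z‖ < ε / 2 :=
    (hunif _ (mem_closedBall_zero_iff.2 (T.regA z hzΩ hn2).le) _ (hK₁b hz) hn1).trans_le (min_le_right _ _)
  calc ‖g z - f z‖ = ‖(g z - f (h z)) + (f (h z) - f z)‖ := by congr 1; abel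
    _ ≤ _ + _ := norm_add_le _ _
    _ < ε := by linarith

end Claimed.Agent.R245
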