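/-
Row 245 / S0484, I2 = POLY (architect helper292).  The composition of shears and its thin end.  Everything here is elementary (powers, `exp`, `log`).  This file: DEFINITIONS only (complete).

  `x = shear r d z`:  `x_0 = z_0`, `x_{k+1} = z_{k+1} + (x_k / r)^d`.
  On `|z_{k+1}| < σ`, `|x_n| ≥ c' > σ` put `ξ_k = log (1 - z_{k+1} / x_{k+1})`; then `(x_k / r)^d = x_{k+1} exp ξ_k`, and
  `x_j = s^(d^j) exp (E_j ξ)`, `E_n = 0`, `E_k = log r + (E_{k+1} + ξ_k) / d`, `s = x_0 exp (- E_0 ξ)`.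
-/
import Claimed.Agent.R245.PolyDefs

set_option autoImplicit false

namespace Claimed.Agent.R245

open Metric Set

variable {n : ℕ}

/-- the composition of shears. -/
noncomputable def shear (r : ℝ) (d : ℕ) (z : Fin (n + 1) → ℂ) : Fin (n + 1) → ℂ :=
  fun j => Fin.induction (motive := fun _ => ℂ) (z 0) (fun k x => z k.succ + (x / (r : ℂ)) ^ d) j

theorem shear_zero (r : ℝ) (d : ℕ) (z : Fin (n + 1) → ℂ) : shear r d z 0 = z 0 := rfl

theorem shear_succ (r : ℝ) (d : ℕ) (z : Fin (n + 1) → ℂ) (k : Fin n) :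
    shear r d z k.succ = z k.succ + (shear r d z k.castSucc / (r : ℂ)) ^ d := by
  simp [shear, Fin.induction_succ]

/-- the exponents `E_j`. -/
noncomputable def shE (r : ℝ) (d : ℕ) (ξ : Fin n → ℂ) : Fin (n + 1) → ℂ :=
  fun j => Fin.reverseInduction (motive := fun _ => ℂ) 0 (fun k e => (Real.log r : ℂ) + (e + ξ k) / (d : ℂ)) j

theorem shE_last (r : ℝ) (d : ℕ) (ξ : Fin n → ℂ) : shE r d ξ (Fin.last n) = 0 := by
  simp [shE]

theorem shE_castSucc (r : ℝ) (d : ℕ) (ξ : Fin n → ℂ) (k : Fin n) :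
    shE r d ξ k.castSucc = (Real.log r : ℂ) + (shE r d ξ k.succ + ξ k) / (d : ℂ) := by
  simp [shE, Fin.reverseInduction_castSucc]

/-- the parametrisation of the end. -/
noncomputable def shPhi (r : ℝ) (d : ℕ) (p : ℂ × (Fin n → ℂ)) : Fin (n + 1) → ℂ :=
  fun j => p.1 ^ (d ^ (j : ℕ)) * Complex.exp (shE r d p.2 j)

/-- the bounded parameters. -/
noncomputable def shXi (r : ℝ) (d : ℕ) (z : Fin (n + 1) → ℂ) : Fin n → ℂ :=
  fun k => Complex.log (1 - z k.succ / shear r d z k.succ)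

/-- the planar parameter. -/
noncomputable def shS (r : ℝ) (d : ℕ) (z : Fin (n + 1) → ℂ) : ℂ :=
  shear r d z 0 * Complex.exp (- shE r d (shXi r d z) 0)

end Claimed.Agent.R245
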