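/-
Row 245 / S0484, I2 = POLY (architect helper292).  The shears: differentiability, NEARID, the regions `A` and `B'`, bounds.
ONE FILE = ONE PACKAGE = ONE OWNER.  Statements FROZEN; helper lemmas: prefix `sha_`, in this file.  Definitions and notation: Shear.lean.
-/
import Claimed.Agent.R245.Shear

set_option autoImplicit false

namespace Claimed.Agent.R245

open Metric Set

variable {n : ℕ}

theorem sh_differentiable_shear (r : ℝ) (d : ℕ) : Differentiable ℂ (shear (n := n) r d) := by
  rw [differentiable_pi]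
  intro j
  induction j using Fin.induction with
  | zero =>
    simp only [shear_zero]
    exact differentiable_apply 0
  | succ k ih =>
    simp only [shear_succ, div_eq_mul_inv]
    exact (differentiable_apply k.succ).add ((ih.mul_const _).pow d)

theorem sh_differentiable_shE (r : ℝ) (d : ℕ) : Differentiable ℂ (shE (n := n) r d) := by
  rw [differentiable_pi]
  intro j
  induction j using Fin.reverseInduction with
  | last =>
    simp only [shE_last]
    exact differentiable_const _
  | cast k ih =>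
    simp only [shE_castSucc, div_eq_mul_inv]
    exact (differentiable_const _).add ((ih.add (differentiable_apply k)).mul_const _)

theorem sh_differentiable_shPhi (r : ℝ) (d : ℕ) : Differentiable ℂ (shPhi (n := n) r d) := by
  rw [differentiable_pi]
  intro j
  unfold shPhi
  have h1 : Differentiable ℂ (fun p : ℂ × (Fin n → ℂ) => shE r d p.2 j) :=
    ((differentiable_pi.1 (sh_differentiable_shE (n := n) r d)) j).comp differentiable_snd
  exact (differentiable_fst.pow _).mul h1.cexp

theorem sha_norm_step (r : ℝ) (hr : 0 < r) (d : ℕ) (z : Fin (n + 1) → ℂ) (k : Fin n) :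
    ‖shear r d z k.succ - z k.succ‖ = (‖shear r d z k.castSucc‖ / r) ^ d := by
  rw [shear_succ, add_sub_cancel_left, norm_pow, norm_div, Complex.norm_real, Real.norm_eq_abs,
    abs_of_pos hr]

/-- NEARID. -/
theorem sh_near {r σ : ℝ} {d : ℕ} (hσ : 1 < σ) (hr : σ < r) (hd : (σ / r) ^ d ≤ σ - 1) {z : Fin (n + 1) → ℂ}
    (hz : ∀ j, ‖z j‖ ≤ 1) (j : Fin (n + 1)) : ‖shear r d z j‖ ≤ σ ∧ ‖shear r d z j - z j‖ ≤ (σ / r) ^ d := by
  have hr0 : 0 < r := by linarith
  induction j using Fin.induction with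
  | zero =>
    rw [shear_zero, sub_self, norm_zero]
    exact ⟨(hz 0).trans hσ.le, by positivity⟩
  | succ k ih =>
    have h1 : ‖shear r d z k.succ - z k.succ‖ ≤ (σ / r) ^ d := by
      rw [sha_norm_step r hr0]
      exact pow_le_pow_left₀ (by positivity) (div_le_div_of_nonneg_right ih.1 hr0.le) d
    refine ⟨?_, h1⟩
    calc ‖shear r d z k.succ‖ = ‖(shear r d z k.succ - z k.succ) + z k.succ‖ := by
          rw [sub_add_cancel]
      _ ≤ ‖shear r d z k.succ - z k.succ‖ + ‖z k.succ‖ := norm_add_le _ _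
      _ ≤ (σ - 1) + 1 := add_le_add (h1.trans hd) (hz _)
      _ = σ := by ring

/-- region `A` (downward induction: `|x_k / r|^d = |x_{k+1} - z_{k+1}| < b' + σ ≤ (b' / r)^d`). -/
theorem sh_regA {r σ b' : ℝ} {d : ℕ} (hr : 0 < r) (hb' : 0 < b') (hd : b' + σ ≤ (b' / r) ^ d) {z : Fin (n + 1) → ℂ}
    (hz : ∀ k : Fin n, ‖z k.succ‖ < σ) (hlast : ‖shear r d z (Fin.last n)‖ < b') (j : Fin (n + 1)) :
    ‖shear r d z j‖ < b' := by
  induction j using Fin.reverseInduction with
  | last => exact hlast
  | cast k ih =>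
    by_contra hcon
    have hcon' : b' ≤ ‖shear r d z k.castSucc‖ := not_lt.1 hcon
    have h1 : (b' / r) ^ d ≤ (‖shear r d z k.castSucc‖ / r) ^ d :=
      pow_le_pow_left₀ (by positivity) (div_le_div_of_nonneg_right hcon' hr.le) d
    rw [← sha_norm_step r hr] at h1
    have h2 : ‖shear r d z k.succ - z k.succ‖ ≤ ‖shear r d z k.succ‖ + ‖z k.succ‖ := norm_sub_le _ _
    have := hz k
    linarith

/-- region `B'` (downward induction: `|x_k / r|^d = |x_{k+1} - z_{k+1}| > c' - σ ≥ (c' / r)^d`). -/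
theorem sh_regB {r σ c' : ℝ} {d : ℕ} (hr : 0 < r) (hc' : 0 < c') (hd : (c' / r) ^ d ≤ c' - σ) {z : Fin (n + 1) → ℂ}
    (hz : ∀ k : Fin n, ‖z k.succ‖ < σ) (hlast : c' ≤ ‖shear r d z (Fin.last n)‖) (j : Fin (n + 1)) :
    c' ≤ ‖shear r d z j‖ := by
  induction j using Fin.reverseInduction with
  | last => exact hlast
  | cast k ih =>
    by_contra hcon
    have hcon' : ‖shear r d z k.castSucc‖ ≤ c' := (not_le.1 hcon).le
    have h1 : (‖shear r d z k.castSucc‖ / r) ^ d ≤ (c' / r) ^ d :=
      pow_le_pow_left₀ (by positivity) (div_le_div_of_nonneg_right hcon' hr.le) d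
    rw [← sha_norm_step r hr] at h1
    have h2 : ‖shear r d z k.succ‖ - ‖z k.succ‖ ≤ ‖shear r d z k.succ - z k.succ‖ :=
      norm_sub_norm_le _ _
    have := hz k
    linarith

/-- a bound on bounded sets. -/
theorem sh_bound (r : ℝ) (d : ℕ) (R : ℝ) : ∃ X : ℝ, ∀ z : Fin (n + 1) → ℂ, ‖z‖ ≤ R → ‖shear r d z‖ ≤ X := by
  obtain ⟨X, hX⟩ := (isCompact_closedBall (0 : Fin (n + 1) → ℂ) R).exists_bound_of_continuousOn
    (sh_differentiable_shear (n := n) r d).continuous.continuousOn
  exact ⟨X, fun z hz => hX z (mem_closedBall_zero_iff.2 hz)⟩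

end Claimed.Agent.R245
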