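/-
Row 245 / S0484, I2 = POLY (architect helper292).  The shears: the parametrisation of the end.
ONE FILE = ONE PACKAGE = ONE OWNER.  Statements FROZEN; helper lemmas: prefix `shb_`, in this file.  Definitions and notation: Shear.lean.
-/
import Claimed.Agent.R245.ShearA

set_option autoImplicit false

namespace Claimed.Agent.R245

open Metric Set

variable {n : ℕ}

/-- the functional equation of `shPhi`. -/
theorem sh_phi_rel {r : ℝ} {d : ℕ} (hr : 0 < r) (hd : 1 ≤ d) (p : ℂ × (Fin n → ℂ)) (k : Fin n) :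
    (shPhi r d p k.castSucc / (r : ℂ)) ^ d = shPhi r d p k.succ * Complex.exp (p.2 k) := by
  have hr' : (r : ℂ) ≠ 0 := by exact_mod_cast hr.ne'
  have hd' : (d : ℂ) ≠ 0 := by exact_mod_cast (by omega : d ≠ 0)
  have h1 : Complex.exp (Real.log r : ℂ) = (r : ℂ) := by
    rw [← Complex.ofReal_exp, Real.exp_log hr]
  simp only [shPhi]
  rw [shE_castSucc, Complex.exp_add, h1, Fin.val_castSucc, Fin.val_succ]
  have h2 : p.1 ^ d ^ (k : ℕ) * ((r : ℂ) * Complex.exp ((shE r d p.2 k.succ + p.2 k) / (d : ℂ))) / (r : ℂ)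
      = p.1 ^ d ^ (k : ℕ) * Complex.exp ((shE r d p.2 k.succ + p.2 k) / (d : ℂ)) := by
    field_simp
  rw [h2, mul_pow, ← pow_mul, ← pow_succ, ← Complex.exp_nat_mul, mul_div_cancel₀ _ hd', Complex.exp_add,
    mul_assoc]

/-- PARAM (abstract form; upward induction). -/
theorem sh_param_aux {r : ℝ} {d : ℕ} (hr : 0 < r) (hd : 1 ≤ d) {x : Fin (n + 1) → ℂ} {ξ : Fin n → ℂ}
    (h : ∀ k : Fin n, (x k.castSucc / (r : ℂ)) ^ d = x k.succ * Complex.exp (ξ k)) :
    shPhi r d (x 0 * Complex.exp (- shE r d ξ 0), ξ) = x := by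
  funext j
  induction j using Fin.induction with
  | zero =>
    simp only [shPhi, Fin.val_zero, pow_zero, pow_one]
    rw [mul_assoc, ← Complex.exp_add, neg_add_cancel, Complex.exp_zero, mul_one]
  | succ k ih =>
    have h1 := sh_phi_rel hr hd (x 0 * Complex.exp (- shE r d ξ 0), ξ) k
    rw [ih, h k] at h1
    exact (mul_right_cancel₀ (Complex.exp_ne_zero _) h1).symm

/-- on the end the quotient `z_{k+1} / x_{k+1}` is small. -/
theorem shb_quot {r σ c' : ℝ} {d : ℕ} (hr : 0 < r) (hσ : 0 < σ) (hc' : σ < c') (hd : (c' / r) ^ d ≤ c' - σ)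
    {z : Fin (n + 1) → ℂ} (hz : ∀ k : Fin n, ‖z k.succ‖ < σ) (hlast : c' ≤ ‖shear r d z (Fin.last n)‖)
    (k : Fin n) : shear r d z k.succ ≠ 0 ∧ ‖z k.succ / shear r d z k.succ‖ ≤ σ / c' ∧ σ / c' < 1 := by
  have hc0 : 0 < c' := hσ.trans hc'
  have h1 : c' ≤ ‖shear r d z k.succ‖ := sh_regB hr hc0 hd hz hlast k.succ
  have h2 : 0 < ‖shear r d z k.succ‖ := hc0.trans_le h1
  refine ⟨norm_pos_iff.1 h2, ?_, (div_lt_one hc0).2 hc'⟩
  rw [norm_div]
  exact div_le_div₀ hσ.le (hz k).le hc0 h1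

/-- PARAM. -/
theorem sh_param {r σ c' : ℝ} {d : ℕ} (hr : 0 < r) (hd1 : 1 ≤ d) (hσ : 0 < σ) (hc' : σ < c') (hd : (c' / r) ^ d ≤ c' - σ)
    {z : Fin (n + 1) → ℂ} (hz : ∀ k : Fin n, ‖z k.succ‖ < σ) (hlast : c' ≤ ‖shear r d z (Fin.last n)‖) :
    shPhi r d (shS r d z, shXi r d z) = shear r d z ∧ ‖shS r d z‖ ^ (d ^ n) = ‖shear r d z (Fin.last n)‖ := by
  have h1 : shPhi r d (shS r d z, shXi r d z) = shear r d z := by
    refine sh_param_aux hr hd1 fun k => ?_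
    obtain ⟨hx, hq, hq1⟩ := shb_quot hr hσ hc' hd hz hlast k
    have h2 : (1 : ℂ) - z k.succ / shear r d z k.succ ≠ 0 := by
      intro h0
      have h3 : z k.succ / shear r d z k.succ = 1 := (sub_eq_zero.1 h0).symm
      rw [h3, norm_one] at hq
      linarith
    simp only [shXi]
    rw [Complex.exp_log h2, mul_sub, mul_one, mul_div_cancel₀ _ hx, shear_succ]
    ring
  refine ⟨h1, ?_⟩
  have h4 := congrFun h1 (Fin.last n)
  simp only [shPhi] at h4
  rw [shE_last, Complex.exp_zero, mul_one, Fin.val_last] at h4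
  rw [← h4, norm_pow]

/-- the parameters are bounded (`Complex.norm_log_one_add_le` or so); the bound does not depend on `d`. -/
theorem sh_xi_bound {σ c' : ℝ} (hσ : 0 < σ) (hc' : σ < c') : ∃ B : ℝ, 0 < B ∧ ∀ (r : ℝ) (d : ℕ), 0 < r → (c' / r) ^ d ≤ c' - σ →
    ∀ z : Fin (n + 1) → ℂ, (∀ k : Fin n, ‖z k.succ‖ < σ) → c' ≤ ‖shear r d z (Fin.last n)‖ → ‖shXi r d z‖ ≤ B := by
  have hc0 : 0 < c' := hσ.trans hc'
  have hq1 : σ / c' < 1 := (div_lt_one hc0).2 hc'
  have hq0 : 0 < 1 - σ / c' := sub_pos.2 hq1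
  have hB : 0 < (1 - σ / c')⁻¹ / 2 + 1 := by positivity
  refine ⟨(1 - σ / c')⁻¹ / 2 + 1, hB, fun r d hr hd z hz hlast => ?_⟩
  rw [pi_norm_le_iff_of_nonneg hB.le]
  intro k
  obtain ⟨-, hq, -⟩ := shb_quot hr hσ hc' hd hz hlast k
  simp only [shXi]
  generalize z k.succ / shear r d z k.succ = w at hq
  have hw1 : ‖-w‖ < 1 := by rw [norm_neg]; linarith
  have h1 := Complex.norm_log_one_add_le hw1
  rw [norm_neg, ← sub_eq_add_neg] at h1
  have hw0 : 0 ≤ ‖w‖ := norm_nonneg w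
  have h2 : (1 - ‖w‖)⁻¹ ≤ (1 - σ / c')⁻¹ := inv_anti₀ hq0 (by linarith)
  have h3 : ‖w‖ ^ 2 ≤ 1 := by nlinarith
  have h4 : ‖w‖ ^ 2 * (1 - ‖w‖)⁻¹ ≤ 1 * (1 - σ / c')⁻¹ :=
    mul_le_mul h3 h2 (inv_nonneg.2 (by linarith)) zero_le_one
  linarith

/-- the parameters are holomorphic. -/
theorem sh_hol {r σ c' : ℝ} {d : ℕ} (hr : 0 < r) (hσ : 0 < σ) (hc' : σ < c') (hd : (c' / r) ^ d ≤ c' - σ) :
    DifferentiableOn ℂ (shXi (n := n) r d) {z | (∀ k : Fin n, ‖z k.succ‖ < σ) ∧ c' < ‖shear r d z (Fin.last n)‖} ∧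
    DifferentiableOn ℂ (shS (n := n) r d) {z | (∀ k : Fin n, ‖z k.succ‖ < σ) ∧ c' < ‖shear r d z (Fin.last n)‖} := by
  have hx : ∀ j : Fin (n + 1), Differentiable ℂ fun z : Fin (n + 1) → ℂ => shear r d z j :=
    fun j => differentiable_pi.1 (sh_differentiable_shear r d) j
  have h1 : DifferentiableOn ℂ (shXi (n := n) r d)
      {z | (∀ k : Fin n, ‖z k.succ‖ < σ) ∧ c' < ‖shear r d z (Fin.last n)‖} := by
    rw [differentiableOn_pi]
    intro k z hz
    obtain ⟨hne, hq, hq1⟩ := shb_quot hr hσ hc' hd hz.1 hz.2.le k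
    have h2a : DifferentiableAt ℂ (fun z : Fin (n + 1) → ℂ => z k.succ) z :=
      differentiableAt_apply k.succ z
    have h2b : DifferentiableAt ℂ (fun z : Fin (n + 1) → ℂ => z k.succ / shear r d z k.succ) z := by
      simp only [div_eq_mul_inv]
      exact h2a.fun_mul ((hx k.succ z).fun_inv hne)
    have h2 : DifferentiableAt ℂ (fun z : Fin (n + 1) → ℂ => 1 - z k.succ / shear r d z k.succ) z :=
      (differentiableAt_const (1 : ℂ)).fun_sub h2b
    have h3 : 1 - z k.succ / shear r d z k.succ ∈ Complex.slitPlane := by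
      rw [sub_eq_add_neg]
      refine Complex.mem_slitPlane_of_norm_lt_one ?_
      rw [norm_neg]
      linarith
    exact (h2.clog h3).differentiableWithinAt
  refine ⟨h1, ?_⟩
  have h4 : DifferentiableOn ℂ (fun z : Fin (n + 1) → ℂ => shE r d (shXi r d z) 0)
      {z | (∀ k : Fin n, ‖z k.succ‖ < σ) ∧ c' < ‖shear r d z (Fin.last n)‖} :=
    (differentiable_pi.1 (sh_differentiable_shE (n := n) r d) 0).comp_differentiableOn h1
  exact (hx 0).differentiableOn.mul h4.neg.cexp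

end Claimed.Agent.R245
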