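/-
Row 245 / S0484, I2 = POLY (architect helper292).  The shears: the parameter range is thin.
ONE FILE = ONE PACKAGE = ONE OWNER.  Statements FROZEN; helper lemmas: prefix `shc_`, in this file.  Definitions and notation: Shear.lean.
-/
import Claimed.Agent.R245.Shear

set_option autoImplicit false

namespace Claimed.Agent.R245

open Metric Set

variable {n : ℕ}

theorem shc_E_step {r B₃ Λ : ℝ} {d : ℕ} (hd : 0 < d) {ξ : Fin n → ℂ} (hξ : ‖ξ‖ ≤ B₃) (k : Fin n)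
    (h : ‖shE r d ξ k.succ‖ ≤ Λ) :
    ‖shE r d ξ k.castSucc - (Real.log r : ℂ)‖ ≤ (Λ + B₃) / d := by
  have hd' : (0 : ℝ) < d := by exact_mod_cast hd
  rw [shE_castSucc, add_sub_cancel_left, norm_div, Complex.norm_natCast]
  refine div_le_div_of_nonneg_right ?_ hd'.le
  exact (norm_add_le _ _).trans (add_le_add h ((norm_le_pi_norm ξ k).trans hξ))

theorem shc_E_bound {r B₃ : ℝ} {d : ℕ} (hr : 1 < r) (hB₃ : 0 ≤ B₃) (hd : 2 ≤ d) {ξ : Fin n → ℂ}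
    (hξ : ‖ξ‖ ≤ B₃) (j : Fin (n + 1)) : ‖shE r d ξ j‖ ≤ 2 * Real.log r + B₃ := by
  have hl : 0 < Real.log r := Real.log_pos hr
  have hd' : (2 : ℝ) ≤ d := by exact_mod_cast hd
  induction j using Fin.reverseInduction with
  | last => rw [shE_last, norm_zero]; positivity
  | cast k ih =>
    have h1 := shc_E_step (r := r) (by omega : 0 < d) hξ k ih
    have h2 : ‖shE r d ξ k.castSucc‖ ≤ ‖shE r d ξ k.castSucc - (Real.log r : ℂ)‖ + Real.log r := by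
      have := norm_add_le (shE r d ξ k.castSucc - (Real.log r : ℂ)) (Real.log r : ℂ)
      rw [sub_add_cancel, Complex.norm_real, Real.norm_eq_abs, abs_of_pos hl] at this
      exact this
    have h3 : (2 * Real.log r + B₃ + B₃) / d ≤ (2 * Real.log r + B₃ + B₃) / 2 :=
      div_le_div_of_nonneg_left (by positivity) (by norm_num) hd'
    linarith

theorem shc_D_step {r B₃ Λ : ℝ} {d : ℕ} (hd : 0 < d) {ξ ξ' : Fin n → ℂ} (hξ : ‖ξ‖ ≤ B₃)
    (hξ' : ‖ξ'‖ ≤ B₃) (k : Fin n) (h : ‖shE r d ξ k.succ - shE r d ξ' k.succ‖ ≤ Λ) :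
    ‖shE r d ξ k.castSucc - shE r d ξ' k.castSucc‖ ≤ (Λ + 2 * B₃) / d := by
  have hd' : (0 : ℝ) < d := by exact_mod_cast hd
  rw [shE_castSucc, shE_castSucc, add_sub_add_left_eq_sub, ← sub_div, norm_div,
    Complex.norm_natCast]
  refine div_le_div_of_nonneg_right ?_ hd'.le
  have e : shE r d ξ k.succ + ξ k - (shE r d ξ' k.succ + ξ' k)
      = (shE r d ξ k.succ - shE r d ξ' k.succ) + (ξ k - ξ' k) := by ring
  rw [e]
  refine (norm_add_le _ _).trans (add_le_add h ?_)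
  have h1 := (norm_le_pi_norm ξ k).trans hξ
  have h2 := (norm_le_pi_norm ξ' k).trans hξ'
  have := norm_sub_le (ξ k) (ξ' k)
  linarith

theorem shc_D_bound {r B₃ : ℝ} {d : ℕ} (hB₃ : 0 ≤ B₃) (hd : 2 ≤ d) {ξ ξ' : Fin n → ℂ}
    (hξ : ‖ξ‖ ≤ B₃) (hξ' : ‖ξ'‖ ≤ B₃) (j : Fin (n + 1)) :
    ‖shE r d ξ j - shE r d ξ' j‖ ≤ 2 * B₃ := by
  have hd' : (2 : ℝ) ≤ d := by exact_mod_cast hd
  induction j using Fin.reverseInduction with
  | last => rw [shE_last, shE_last, sub_zero, norm_zero]; positivity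
  | cast k ih =>
    have h1 := shc_D_step (r := r) (by omega : 0 < d) hξ hξ' k ih
    have h3 : (2 * B₃ + 2 * B₃) / d ≤ (2 * B₃ + 2 * B₃) / 2 :=
      div_le_div_of_nonneg_left (by positivity) (by norm_num) hd'
    linarith

theorem shc_pow {c₃ : ℝ} {d : ℕ} (hd : 0 < d) {s : ℂ} (h1 : 1 ≤ ‖s‖ ^ (d ^ n))
    (h2 : ‖s‖ ^ (d ^ n) ≤ c₃) (k : Fin n) : ‖s‖ ^ (d ^ (k : ℕ)) ≤ 1 + (c₃ - 1) / d := by
  have hd' : (0 : ℝ) < d := by exact_mod_cast hd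
  have hs : 1 ≤ ‖s‖ := (one_le_pow_iff_of_nonneg (norm_nonneg s) (pow_ne_zero _ hd.ne')).1 h1
  set t := ‖s‖ ^ (d ^ (k : ℕ)) with ht
  have ht1 : 1 ≤ t := one_le_pow₀ hs
  have hk : (k : ℕ) < n := k.2
  have e : t ^ (d ^ (n - (k : ℕ))) = ‖s‖ ^ (d ^ n) := by
    rw [ht, ← pow_mul, ← pow_add]
    congr 2
    omega
  have hN : d ≤ d ^ (n - (k : ℕ)) := by
    calc d = d ^ 1 := (pow_one d).symm
      _ ≤ d ^ (n - (k : ℕ)) := Nat.pow_le_pow_right hd (by omega)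
  have hN' : (d : ℝ) ≤ ((d ^ (n - (k : ℕ)) : ℕ) : ℝ) := by exact_mod_cast hN
  have hb := one_add_mul_le_pow (a := t - 1) (by linarith) (d ^ (n - (k : ℕ)))
  rw [add_sub_cancel, e] at hb
  have h3 : (d : ℝ) * (t - 1) ≤ c₃ - 1 := by
    have := mul_le_mul_of_nonneg_right hN' (by linarith : 0 ≤ t - 1)
    linarith
  have h4 : t - 1 ≤ (c₃ - 1) / d := by
    rw [le_div_iff₀ hd']; linarith
  linarith

theorem shc_comp_le {r c₃ B₃ : ℝ} {d : ℕ} (hr : 1 < r) (hB₃ : 0 ≤ B₃) (hd : 2 ≤ d) {s : ℂ}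
    {ξ : Fin n → ℂ} (h1 : 1 ≤ ‖s‖ ^ (d ^ n)) (h2 : ‖s‖ ^ (d ^ n) ≤ c₃) (hξ : ‖ξ‖ ≤ B₃) (k : Fin n) :
    ‖shPhi r d (s, ξ) k.castSucc‖
      ≤ (1 + (c₃ - 1) / d) * (r * Real.exp ((2 * Real.log r + B₃ + B₃) / d)) := by
  have hr0 : 0 < r := by linarith
  have hE := shc_E_step (r := r) (by omega : 0 < d) hξ k (shc_E_bound hr hB₃ hd hξ k.succ)
  have hp := shc_pow (by omega : 0 < d) h1 h2 k
  have e : ‖shPhi r d (s, ξ) k.castSucc‖
      = ‖s‖ ^ (d ^ (k : ℕ)) * Real.exp (shE r d ξ k.castSucc).re := by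
    simp [shPhi, norm_mul, norm_pow, Complex.norm_exp]
  rw [e]
  have hre : (shE r d ξ k.castSucc).re ≤ Real.log r + (2 * Real.log r + B₃ + B₃) / d := by
    have h3 : (shE r d ξ k.castSucc - (Real.log r : ℂ)).re ≤ ‖shE r d ξ k.castSucc - (Real.log r : ℂ)‖ :=
      Complex.re_le_norm _
    rw [Complex.sub_re, Complex.ofReal_re] at h3
    linarith
  have hexp : Real.exp (shE r d ξ k.castSucc).re
      ≤ r * Real.exp ((2 * Real.log r + B₃ + B₃) / d) := by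
    calc _ ≤ Real.exp (Real.log r + (2 * Real.log r + B₃ + B₃) / d) := Real.exp_le_exp.2 hre
      _ = _ := by rw [Real.exp_add, Real.exp_log hr0]
  exact mul_le_mul hp hexp (Real.exp_pos _).le (le_trans (by positivity) hp)

/-- THIN.  `|E_j| ≤ Λ := 2 log r + B₃`, `|E_j - log r| ≤ (Λ + B₃)/d` (`j < n`), `|s|^(d^j) ≤ 1 + (c₃ - 1)/d` (`j < n`, Bernoulli),
`|E_j ξ - E_j ξ'| ≤ 4 B₃ / d`, `|exp w - 1| ≤ 2 |w|` for `|w| ≤ 1`. -/
theorem sh_thin {r c₃ b' B₃ ω : ℝ} (hr : 1 < r) (hc₃ : 1 ≤ c₃) (hrb : r < b') (hcb : c₃ < b') (hB₃ : 0 ≤ B₃) (hω : 0 < ω) :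
    ∃ d₀ : ℕ, ∀ d : ℕ, d₀ ≤ d → ∀ (s : ℂ) (ξ ξ' : Fin n → ℂ), 1 ≤ ‖s‖ ^ (d ^ n) → ‖s‖ ^ (d ^ n) ≤ c₃ → ‖ξ‖ ≤ B₃ → ‖ξ'‖ ≤ B₃ →
      ‖shPhi r d (s, ξ)‖ < b' ∧ ‖shPhi r d (s, ξ) - shPhi r d (s, ξ')‖ ≤ ω := by
  have hb' : 0 < b' := by linarith
  -- the three conditions hold for large `d`
  have t1 : Filter.Tendsto (fun d : ℕ => (1 + (c₃ - 1) / (d : ℝ))
      * (r * Real.exp ((2 * Real.log r + B₃ + B₃) / (d : ℝ)))) Filter.atTop
      (nhds ((1 + 0) * (r * Real.exp 0))) := by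
    refine Filter.Tendsto.mul (tendsto_const_nhds.add (tendsto_const_div_atTop_nhds_zero_nat _))
      (Filter.Tendsto.const_mul _ ?_)
    exact (Real.continuous_exp.tendsto 0).comp (tendsto_const_div_atTop_nhds_zero_nat _)
  have e1 : ∀ᶠ d : ℕ in Filter.atTop, (1 + (c₃ - 1) / (d : ℝ))
      * (r * Real.exp ((2 * Real.log r + B₃ + B₃) / (d : ℝ))) < b' :=
    t1.eventually (gt_mem_nhds (by simpa using hrb))
  have e2 : ∀ᶠ d : ℕ in Filter.atTop, (2 * B₃ + 2 * B₃) / (d : ℝ) < 1 :=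
    (tendsto_const_div_atTop_nhds_zero_nat _).eventually (gt_mem_nhds one_pos)
  have e3 : ∀ᶠ d : ℕ in Filter.atTop, (2 * B₃ + 2 * B₃) / (d : ℝ) < ω / (2 * b') :=
    (tendsto_const_div_atTop_nhds_zero_nat _).eventually (gt_mem_nhds (by positivity))
  obtain ⟨d₀, hd₀⟩ := Filter.eventually_atTop.1
    (((e1.and e2).and e3).and (Filter.eventually_ge_atTop 2))
  refine ⟨d₀, fun d hd s ξ ξ' h1 h2 hξ hξ' => ?_⟩
  obtain ⟨⟨⟨f1, f2⟩, f3⟩, f4⟩ := hd₀ d hd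
  have hcomp : ∀ (η : Fin n → ℂ), ‖η‖ ≤ B₃ → ∀ j, ‖shPhi r d (s, η) j‖ < b' := by
    intro η hη j
    induction j using Fin.lastCases with
    | last =>
      have : ‖shPhi r d (s, η) (Fin.last n)‖ = ‖s‖ ^ (d ^ n) := by
        simp [shPhi, shE_last]
      rw [this]; linarith
    | cast k => exact lt_of_le_of_lt (shc_comp_le hr hB₃ f4 h1 h2 hη k) f1
  refine ⟨(pi_norm_lt_iff hb').2 (hcomp ξ hξ), (pi_norm_le_iff_of_nonneg hω.le).2 fun j => ?_⟩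
  induction j using Fin.lastCases with
  | last =>
    have : (shPhi r d (s, ξ) - shPhi r d (s, ξ')) (Fin.last n) = 0 := by
      simp [shPhi, shE_last]
    rw [this, norm_zero]; exact hω.le
  | cast k =>
    have hD := shc_D_step (r := r) (by omega : 0 < d) hξ hξ' k (shc_D_bound hB₃ f4 hξ hξ' k.succ)
    set D := shE r d ξ k.castSucc - shE r d ξ' k.castSucc with hDdef
    have e : (shPhi r d (s, ξ) - shPhi r d (s, ξ')) k.castSucc
        = shPhi r d (s, ξ') k.castSucc * (Complex.exp D - 1) := by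
      have : Complex.exp (shE r d ξ k.castSucc) = Complex.exp (shE r d ξ' k.castSucc) * Complex.exp D := by
        rw [← Complex.exp_add, hDdef]; congr 1; ring
      simp only [Pi.sub_apply, shPhi, this]
      ring
    rw [e, norm_mul]
    have h3 : ‖Complex.exp D - 1‖ ≤ 2 * ‖D‖ := Complex.norm_exp_sub_one_le (by linarith)
    have h4 : ‖D‖ ≤ ω / (2 * b') := by linarith
    calc ‖shPhi r d (s, ξ') k.castSucc‖ * ‖Complex.exp D - 1‖
        ≤ b' * (2 * (ω / (2 * b'))) :=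
          mul_le_mul (hcomp ξ' hξ' _).le (by linarith) (norm_nonneg _) hb'.le
      _ = ω := by field_simp

end Claimed.Agent.R245
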