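/-
Row 245 / S0484, I2 = POLY (architect helper292).  The shears: the geometric package `sh_geom` (assembly of ShearA, ShearB, ShearC; choice of `d`).
ONE FILE = ONE PACKAGE = ONE OWNER.  Statements FROZEN; helper lemmas: prefix `shg_`, in this file.  Definitions and notation: Shear.lean.
-/
import Claimed.Agent.R245.ShearA
import Claimed.Agent.R245.ShearB
import Claimed.Agent.R245.ShearC

set_option autoImplicit false

namespace Claimed.Agent.R245

open Metric Set Filter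

variable {n : ℕ}

/-- the choice of `d`. -/
theorem shg_choice {η ω : ℝ} (hη : 0 < η) (hω : 0 < ω) (d₀ : ℕ) : ∃ d : ℕ, d₀ ≤ d ∧ 1 ≤ d ∧
    ((1 + η) / (1 + 6 * η)) ^ d ≤ (1 + η) - 1 ∧ ((1 + η) / (1 + 6 * η)) ^ d ≤ ω ∧
    (1 + 7 * η) + (1 + η) ≤ ((1 + 7 * η) / (1 + 6 * η)) ^ d ∧
    ((1 + 2 * η) / (1 + 6 * η)) ^ d ≤ (1 + 2 * η) - (1 + η) := by
  have h1 : Tendsto (fun d : ℕ => ((1 + η) / (1 + 6 * η)) ^ d) atTop (nhds 0) :=
    tendsto_pow_atTop_nhds_zero_of_lt_one (by positivity) (by rw [div_lt_one (by positivity)]; linarith)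
  have h2 : Tendsto (fun d : ℕ => ((1 + 2 * η) / (1 + 6 * η)) ^ d) atTop (nhds 0) :=
    tendsto_pow_atTop_nhds_zero_of_lt_one (by positivity) (by rw [div_lt_one (by positivity)]; linarith)
  have h3 : Tendsto (fun d : ℕ => ((1 + 7 * η) / (1 + 6 * η)) ^ d) atTop atTop :=
    tendsto_pow_atTop_atTop_of_one_lt (by rw [one_lt_div (by positivity)]; linarith)
  have e1 := h1.eventually (Iic_mem_nhds (lt_min hη hω))
  have e2 := h2.eventually (Iic_mem_nhds hη)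
  have e3 := h3.eventually (eventually_ge_atTop ((1 + 7 * η) + (1 + η)))
  obtain ⟨d, hd⟩ := (((e1.and e2).and e3).and ((eventually_ge_atTop d₀).and (eventually_ge_atTop 1))).exists
  obtain ⟨⟨⟨a1, a2⟩, a3⟩, a4, a5⟩ := hd
  refine ⟨d, a4, a5, ?_, a1.trans (min_le_right _ _), a3, ?_⟩
  · have := a1.trans (min_le_left _ _); linarith
  · linarith

/-- **The geometric package.**  `σ = 1 + η`, `c_i = 1 + (2 + i) η`, `r = 1 + 6 η`, `b₁ = 1 + 7 η`, `c' = c₀`; `B₃ = 2 B` with `B` from `sh_xi_bound`; `d` large. -/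
theorem sh_geom (n : ℕ) {η Rp : ℝ} (hη : 0 < η) (hRp : 1 < Rp) :
    ∃ B₃ : ℝ, 0 < B₃ ∧ ∀ ω : ℝ, 0 < ω → ∃ (h : (Fin (n + 1) → ℂ) → (Fin (n + 1) → ℂ)) (ℓ : (Fin (n + 1) → ℂ) → ℂ) (D : ℕ)
      (sf : (Fin (n + 1) → ℂ) → ℂ) (ξf : (Fin (n + 1) → ℂ) → (Fin n → ℂ)) (Φ : ℂ × (Fin n → ℂ) → (Fin (n + 1) → ℂ)) (X : ℝ),
      ThinData (n + 1) n (OPD (Fin.cons Rp (fun _ => 1 + η) : Fin (n + 1) → ℝ)) (closedBall 0 1)
        (1 + 2 * η) (1 + 3 * η) (1 + 4 * η) (1 + 5 * η) (1 + 7 * η) B₃ ω h ℓ D sf ξf Φ X := by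
  have hσ0 : (0 : ℝ) < 1 + η := by linarith
  have hσ1 : (1 : ℝ) < 1 + η := by linarith
  have hσc : 1 + η < 1 + 2 * η := by linarith
  have hr0 : (0 : ℝ) < 1 + 6 * η := by linarith
  have hb0 : (0 : ℝ) < 1 + 7 * η := by linarith
  obtain ⟨B, hB, hBb⟩ := sh_xi_bound (n := n) hσ0 hσc
  refine ⟨2 * B, by positivity, fun ω hω => ?_⟩
  obtain ⟨d₀, hthin⟩ := sh_thin (n := n) (r := 1 + 6 * η) (c₃ := 1 + 5 * η) (b' := 1 + 7 * η) (B₃ := 2 * B) (ω := ω)
    (by linarith) (by linarith) (by linarith) (by linarith) (by positivity) hω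
  obtain ⟨d, hd₀, hd1, hdn, hdω, hdA, hdB⟩ := shg_choice hη hω d₀
  obtain ⟨X, hX⟩ := sh_bound (n := n) (1 + 6 * η) d (max Rp (1 + η))
  -- membership in `Ω`
  have hΩ : ∀ z ∈ OPD (Fin.cons Rp (fun _ => 1 + η) : Fin (n + 1) → ℝ), ‖z 0‖ < Rp ∧ ∀ k : Fin n, ‖z k.succ‖ < 1 + η := by
    intro z hz
    refine ⟨?_, fun k => ?_⟩
    · have := hz 0 (mem_univ _)
      simpa using this
    · have := hz k.succ (mem_univ _)
      simpa using this
  refine ⟨shear (1 + 6 * η) d, fun z => shear (1 + 6 * η) d z (Fin.last n), d ^ n, shS (1 + 6 * η) d, shXi (1 + 6 * η) d,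
    shPhi (1 + 6 * η) d, X, ?_⟩
  refine
    { D_pos := Nat.one_le_pow _ _ (by omega)
      hol_h := sh_differentiable_shear _ _
      hol_ℓ := differentiable_pi.1 (sh_differentiable_shear _ _) (Fin.last n)
      hol_Φ := sh_differentiable_shPhi _ _
      near := ?_
      regA := ?_
      hol_s := ?_
      hol_ξ := ?_
      bd_ξ := ?_
      param := ?_
      norm_s := ?_
      thin_bd := ?_
      thin := ?_
      bd_ℓ := ?_ }
  · intro z hz
    have hz1 : ∀ j, ‖z j‖ ≤ 1 := fun j => (norm_le_pi_norm z j).trans (mem_closedBall_zero_iff.1 hz)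
    have key := fun j => sh_near (n := n) hσ1 (by linarith : 1 + η < 1 + 6 * η) hdn hz1 j
    refine ⟨(pi_norm_le_iff_of_nonneg hω.le).2 fun j => ((key j).2).trans hdω, ?_⟩
    have := (key (Fin.last n)).1
    linarith
  · intro z hz hl
    exact (pi_norm_lt_iff hb0).2 fun j => sh_regA hr0 hb0 hdA (hΩ z hz).2 (by linarith) j
  · refine (sh_hol (n := n) hr0 hσ0 hσc hdB).2.mono ?_
    intro z hz
    exact ⟨(hΩ z hz.1).2, lt_trans (by linarith) hz.2⟩
  · refine (sh_hol (n := n) hr0 hσ0 hσc hdB).1.mono ?_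
    intro z hz
    exact ⟨(hΩ z hz.1).2, lt_trans (by linarith) hz.2⟩
  · intro z hz hl
    have := hBb (1 + 6 * η) d hr0 hdB z (hΩ z hz).2 (by linarith)
    linarith
  · intro z hz hl
    exact (sh_param hr0 hd1 hσ0 hσc hdB (hΩ z hz).2 (by linarith)).1
  · intro z hz hl
    exact (sh_param hr0 hd1 hσ0 hσc hdB (hΩ z hz).2 (by linarith)).2
  · intro s ξ h1 h2 hξ
    exact (hthin d hd₀ s ξ ξ (by linarith) h2 hξ hξ).1
  · intro s ξ ξ' h1 h2 hξ hξ'
    exact (hthin d hd₀ s ξ ξ' (by linarith) h2 hξ hξ').2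
  · intro z hz
    refine (norm_le_pi_norm (shear (1 + 6 * η) d z) (Fin.last n)).trans (hX z ?_)
    refine (pi_norm_le_iff_of_nonneg (le_trans (by linarith) (le_max_left Rp (1 + η)))).2 fun j => ?_
    refine Fin.cases ?_ (fun k => ?_) j
    · exact (hΩ z hz).1.le.trans (le_max_left _ _)
    · exact ((hΩ z hz).2 k).le.trans (le_max_right _ _)

end Claimed.Agent.R245
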