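/-
Row 245 / S0484, I2 = POLY (architect helper292).  One step: the coordinate `0` of the unit polydisc is enlarged (`po_abstract` + `sh_geom`).
ONE FILE = ONE PACKAGE = ONE OWNER.  Statements FROZEN; helper lemmas: prefix `pos_`, in this file.
-/
import Claimed.Agent.R245.PolyAbs
import Claimed.Agent.R245.ShearG

set_option autoImplicit false

namespace Claimed.Agent.R245

open MvPolynomial Metric Set Claims.C0412

/-- a map holomorphic near the closed unit ball is holomorphic on a larger open ball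
(`IsCompact.exists_cthickening_subset_open`, `cthickening_closedBall`). -/
theorem po_shrink {F : MvPolynomial (Fin 4) ℂ} {m : ℕ} {f : (Fin m → ℂ) → V4} (hf : HolNear F f (closedBall 0 1)) :
    ∃ η : ℝ, 0 < η ∧ HolOn F f (ball 0 (1 + 8 * η)) := by
  obtain ⟨W, hWo, hsub, hfW⟩ := hf
  obtain ⟨δ, hδ, hδW⟩ := (isCompact_closedBall (0 : Fin m → ℂ) 1).exists_cthickening_subset_open hWo hsub
  rw [cthickening_closedBall hδ.le zero_le_one] at hδW
  have hsub' : ball (0 : Fin m → ℂ) (1 + 8 * (δ / 8)) ⊆ W := by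
    refine (ball_subset_closedBall.trans (closedBall_subset_closedBall ?_)).trans hδW
    linarith
  exact ⟨δ / 8, by positivity, hfW.1.mono hsub', hfW.2.mono_left hsub'⟩

/-- **One step**: the coordinate `0` is enlarged from radius `1` to radius `R`. -/
theorem po_step {F : MvPolynomial (Fin 4) ℂ} (hF : IsSmoothQuarticForm F) (hL : LEverywhere F) (n : ℕ)
    {f : (Fin (n + 1) → ℂ) → V4} (hf : HolNear F f (closedBall 0 1)) (R : ℝ) (ε : ℝ) (hε : 0 < ε) :
    ∃ g : (Fin (n + 1) → ℂ) → V4, HolNear F g (PD (Fin.cons R (fun _ => 1) : Fin (n + 1) → ℝ)) ∧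
      ∀ z ∈ closedBall (0 : Fin (n + 1) → ℂ) 1, ‖g z - f z‖ < ε := by
  obtain ⟨η, hη, hfη⟩ := po_shrink hf
  set Rp : ℝ := max R 1 + 1 with hRpdef
  have hRp1 : 1 < Rp := by have := le_max_right R 1; linarith
  have hRpR : R < Rp := by have := le_max_left R 1; linarith
  obtain ⟨B₃, hB₃, H⟩ := sh_geom n hη hRp1
  set ρ : Fin (n + 1) → ℝ := (Fin.cons Rp (fun _ => 1 + η) : Fin (n + 1) → ℝ) with hρdef
  have hρ0 : ρ 0 = Rp := rfl
  have hρs : ∀ k : Fin n, ρ k.succ = 1 + η := fun k => rfl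
  have hK₁ : closedBall (0 : Fin (n + 1) → ℂ) 1 ⊆ Set.pi univ (fun j => ball (0 : ℂ) (ρ j)) := by
    intro z hz j _
    have h1 : ∀ j, ‖z j‖ ≤ 1 := fun j => (norm_le_pi_norm z j).trans (mem_closedBall_zero_iff.1 hz)
    rw [mem_ball_zero_iff]
    refine Fin.cases ?_ (fun k => ?_) j
    · rw [hρ0]; linarith [h1 0]
    · rw [hρs]; linarith [h1 k.succ]
  obtain ⟨g, hg, hgclose⟩ := po_abstract hF hL (Dm := fun j => ball (0 : ℂ) (ρ j)) (fun j => isOpen_ball)
    (fun j => isBounded_ball) hK₁ (c₀ := 1 + 2 * η) (c₁ := 1 + 3 * η) (c₂ := 1 + 4 * η) (c₃ := 1 + 5 * η) (b₁ := 1 + 7 * η)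
    (b := 1 + 8 * η) (by linarith) (by linarith) (by linarith) (by linarith) (by linarith) (by linarith) hB₃
    (closedBall_subset_closedBall (by linarith)) hfη H ε hε
  refine ⟨g, ⟨_, isOpen_set_pi finite_univ (fun j _ => isOpen_ball), ?_, hg⟩, hgclose⟩
  intro z hz j _
  rw [mem_ball_zero_iff]
  have h1 := hz j
  revert h1
  refine Fin.cases ?_ (fun k => ?_) j
  · intro h1
    have h2 : ‖z 0‖ ≤ R := h1
    rw [hρ0]; linarith
  · intro h1
    have h2 : ‖z k.succ‖ ≤ 1 := h1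
    rw [hρs]; linarith

end Claimed.Agent.R245
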