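/-
Row 245 / S0484, I2 = POLY (architect helper292).  All coordinates of a polydisc are enlarged, one after the other.
ONE FILE = ONE PACKAGE = ONE OWNER.  Statements FROZEN; helper lemmas: prefix `poc_`, in this file.
-/
import Claimed.Agent.R245.PolyStep

set_option autoImplicit false

namespace Claimed.Agent.R245

open MvPolynomial Metric Set Claims.C0412

/-- transport of `HolNear` by a linear map. -/
theorem po_holNear_comp {F : MvPolynomial (Fin 4) ℂ} {E E' : Type*} [NormedAddCommGroup E] [NormedSpace ℂ E] [NormedAddCommGroup E']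
    [NormedSpace ℂ E'] {f : E → V4} {S : Set E} (hf : HolNear F f S) (e : E' →L[ℂ] E) {S' : Set E'} (h : MapsTo e S' S) :
    HolNear F (f ∘ e) S' := by
  obtain ⟨W, hW, hSW, hd, hm⟩ := hf
  refine ⟨e ⁻¹' W, hW.preimage e.continuous, fun x hx => hSW (h hx), ?_, fun x hx => hm hx⟩
  exact hd.comp e.differentiable.differentiableOn fun x hx => hx

/-- the diagonal scaling composed with a permutation of the coordinates, as a continuous linear map. -/
noncomputable def pocLin {m : ℕ} (c : Fin m → ℂ) (τ : Fin m → Fin m) : (Fin m → ℂ) →L[ℂ] (Fin m → ℂ) :=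
  ContinuousLinearMap.pi fun i => c i • (ContinuousLinearMap.proj (τ i) : (Fin m → ℂ) →L[ℂ] ℂ)

theorem pocLin_apply {m : ℕ} (c : Fin m → ℂ) (τ : Fin m → Fin m) (z : Fin m → ℂ) (i : Fin m) :
    pocLin c τ z i = c i * z (τ i) := by
  simp [pocLin]

theorem poc_closedBall_eq {m : ℕ} {c : ℝ} (hc : 0 ≤ c) :
    closedBall (0 : Fin m → ℂ) c = PD (fun _ => c) := by
  ext z
  simp only [mem_closedBall, dist_zero_right, PD, mem_ofPred_eq]
  exact pi_norm_le_iff_of_nonneg hc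

/-- **One step, general position**: the coordinate `j` of a polydisc is enlarged.
(`e z i = ρ i * z (Equiv.swap 0 j i)`, `e' z i = (ρ (Equiv.swap 0 j i))⁻¹ * z (Equiv.swap 0 j i)`, `po_step` for `f ∘ e`, radius `R / ρ j`.) -/
theorem po_coord {F : MvPolynomial (Fin 4) ℂ} (hF : IsSmoothQuarticForm F) (hL : LEverywhere F) (n : ℕ) (ρ : Fin (n + 1) → ℝ)
    (hρ : ∀ i, 0 < ρ i) (j : Fin (n + 1)) (R : ℝ) {f : (Fin (n + 1) → ℂ) → V4} (hf : HolNear F f (PD ρ)) (ε : ℝ) (hε : 0 < ε) :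
    ∃ g : (Fin (n + 1) → ℂ) → V4, HolNear F g (PD (Function.update ρ j R)) ∧ ∀ z ∈ PD ρ, ‖g z - f z‖ < ε := by
  obtain ⟨τ, hτ⟩ : ∃ τ : Equiv.Perm (Fin (n + 1)), τ = Equiv.swap 0 j := ⟨_, rfl⟩
  have hττ : ∀ i, τ (τ i) = i := fun i => by rw [hτ]; exact Equiv.swap_apply_self 0 j i
  obtain ⟨e, he⟩ : ∃ e : (Fin (n + 1) → ℂ) →L[ℂ] (Fin (n + 1) → ℂ), e = pocLin (fun i => (ρ i : ℂ)) τ := ⟨_, rfl⟩
  obtain ⟨e', he'⟩ : ∃ e' : (Fin (n + 1) → ℂ) →L[ℂ] (Fin (n + 1) → ℂ),
      e' = pocLin (fun i => ((ρ (τ i))⁻¹ : ℂ)) τ := ⟨_, rfl⟩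
  have hee' : ∀ z, e (e' z) = z := by
    intro z
    ext i
    rw [he, he', pocLin_apply, pocLin_apply, hττ]
    have : (ρ i : ℂ) ≠ 0 := by exact_mod_cast (hρ i).ne'
    field_simp
  have hnorm' : ∀ z i, ‖e' z i‖ = ‖z (τ i)‖ / ρ (τ i) := by
    intro z i
    rw [he', pocLin_apply, norm_mul, norm_inv, Complex.norm_real, Real.norm_eq_abs, abs_of_pos (hρ _)]
    ring
  have hmap : MapsTo e (closedBall 0 1) (PD ρ) := by
    intro z hz i
    rw [poc_closedBall_eq zero_le_one] at hz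
    rw [he, pocLin_apply, norm_mul, Complex.norm_real, Real.norm_eq_abs, abs_of_pos (hρ i)]
    have := hz (τ i)
    have h2 := (hρ i).le
    nlinarith
  obtain ⟨g₁, hg₁, hclose⟩ := po_step hF hL n (po_holNear_comp hf e hmap) (R / ρ j) ε hε
  have hmap' : MapsTo e' (PD (Function.update ρ j R)) (PD (Fin.cons (R / ρ j) (fun _ => 1) : Fin (n + 1) → ℝ)) := by
    intro z hz i
    rw [hnorm']
    have hzi := hz (τ i)
    by_cases hi : i = 0
    · subst hi
      have h0 : τ 0 = j := by rw [hτ]; exact Equiv.swap_apply_left 0 j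
      rw [h0] at hzi ⊢
      rw [Function.update_self] at hzi
      simp only [Fin.cons_zero]
      exact div_le_div_of_nonneg_right hzi (hρ j).le
    · obtain ⟨k, rfl⟩ := Fin.exists_succ_eq.2 hi
      have hne : τ k.succ ≠ j := by
        intro h
        have h1 : τ (τ k.succ) = τ j := congrArg τ h
        rw [hττ] at h1
        rw [hτ, Equiv.swap_apply_right] at h1
        exact hi h1
      rw [Function.update_of_ne hne] at hzi
      simp only [Fin.cons_succ]
      rw [div_le_one (hρ _)]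
      exact hzi
  refine ⟨g₁ ∘ e', po_holNear_comp hg₁ e' hmap', fun z hz => ?_⟩
  have hz1 : e' z ∈ closedBall (0 : Fin (n + 1) → ℂ) 1 := by
    rw [poc_closedBall_eq zero_le_one]
    intro i
    rw [hnorm', div_le_one (hρ _)]
    exact hz (τ i)
  have := hclose (e' z) hz1
  simp only [Function.comp_apply, hee'] at this ⊢
  exact this

/-- the radii after `k` steps. -/
noncomputable def pocRad (n : ℕ) (ρ₁ R : ℝ) (k : ℕ) : Fin (n + 1) → ℝ := fun i => if (i : ℕ) < k then R else ρ₁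

theorem pocRad_succ (n : ℕ) (ρ₁ R : ℝ) (k : ℕ) (hk : k < n + 1) :
    pocRad n ρ₁ R (k + 1) = Function.update (pocRad n ρ₁ R k) ⟨k, hk⟩ R := by
  ext i
  unfold pocRad
  by_cases hi : i = ⟨k, hk⟩
  · subst hi
    simp
  · rw [Function.update_of_ne hi]
    have hne : (i : ℕ) ≠ k := fun h => hi (Fin.ext h)
    by_cases h1 : (i : ℕ) < k
    · rw [if_pos h1, if_pos (by omega)]
    · rw [if_neg h1, if_neg (by omega)]

theorem poc_ball_aux {F : MvPolynomial (Fin 4) ℂ} (hF : IsSmoothQuarticForm F) (hL : LEverywhere F) (n : ℕ) (ρ₁ R : ℝ)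
    (hρ₁ : 0 < ρ₁) (hR : ρ₁ ≤ R) {f : (Fin (n + 1) → ℂ) → V4} (hf : HolNear F f (closedBall 0 ρ₁)) (k : ℕ)
    (hk : k ≤ n + 1) : ∀ ε : ℝ, 0 < ε → ∃ g : (Fin (n + 1) → ℂ) → V4, HolNear F g (PD (pocRad n ρ₁ R k)) ∧
      ∀ z ∈ closedBall (0 : Fin (n + 1) → ℂ) ρ₁, ‖g z - f z‖ < ε := by
  induction k with
  | zero =>
    intro ε hε
    refine ⟨f, ?_, fun z _ => by simpa using hε⟩
    have : pocRad n ρ₁ R 0 = fun _ => ρ₁ := by
      ext i
      simp [pocRad]
    rw [this, ← poc_closedBall_eq hρ₁.le]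
    exact hf
  | succ k ih =>
    intro ε hε
    obtain ⟨g₀, hg₀, h₀⟩ := ih (by omega) (ε / 2) (by positivity)
    have hpos : ∀ i, 0 < pocRad n ρ₁ R k i := by
      intro i
      unfold pocRad
      split_ifs
      · linarith
      · exact hρ₁
    obtain ⟨g, hg, h₁⟩ := po_coord hF hL n (pocRad n ρ₁ R k) hpos ⟨k, by omega⟩ R hg₀ (ε / 2) (by positivity)
    refine ⟨g, ?_, fun z hz => ?_⟩
    · rw [pocRad_succ n ρ₁ R k (by omega)]
      exact hg
    · have hz' : z ∈ PD (pocRad n ρ₁ R k) := by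
        rw [poc_closedBall_eq hρ₁.le] at hz
        intro i
        refine (hz i).trans ?_
        unfold pocRad
        split_ifs
        · exact hR
        · exact le_rfl
      have e : g z - f z = (g z - g₀ z) + (g₀ z - f z) := by abel
      rw [e]
      calc _ ≤ ‖g z - g₀ z‖ + ‖g₀ z - f z‖ := norm_add_le _ _
        _ < ε := by linarith [h₁ z hz', h₀ z hz]

/-- **All coordinates** (induction on `k`: the radii `fun i => if (i : ℕ) < k then R else ρ₁`). -/
theorem po_ball {F : MvPolynomial (Fin 4) ℂ} (hF : IsSmoothQuarticForm F) (hL : LEverywhere F) (n : ℕ) (ρ₁ R : ℝ) (hρ₁ : 0 < ρ₁)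
    (hR : ρ₁ ≤ R) {f : (Fin (n + 1) → ℂ) → V4} (hf : HolNear F f (closedBall 0 ρ₁)) (ε : ℝ) (hε : 0 < ε) :
    ∃ g : (Fin (n + 1) → ℂ) → V4, HolNear F g (closedBall 0 R) ∧ ∀ z ∈ closedBall (0 : Fin (n + 1) → ℂ) ρ₁, ‖g z - f z‖ < ε := by
  obtain ⟨g, hg, h⟩ := poc_ball_aux hF hL n ρ₁ R hρ₁ hR hf (n + 1) le_rfl ε hε
  refine ⟨g, ?_, h⟩
  have : pocRad n ρ₁ R (n + 1) = fun _ => R := by
    ext i
    simp [pocRad, i.2]
  rw [this, ← poc_closedBall_eq (hρ₁.le.trans hR)] at hg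
  exact hg

end Claimed.Agent.R245
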