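/-
Row 245 / S0484, I2 = POLY (architect helper292).  Exhaustion: from finite radii to entire maps.
ONE FILE = ONE PACKAGE = ONE OWNER.  Statements FROZEN; helper lemmas: prefix `poe_`, in this file.
-/
import Claimed.Agent.R245.PolyDefs
import Claimed.Agent.R245.SCV

set_option autoImplicit false

namespace Claimed.Agent.R245

open MvPolynomial Metric Set Claims.C0412

/-- dependent choice with an index -/
theorem poe_dep_choice {α : Type*} (P : ℕ → α → Prop) (R : ℕ → α → α → Prop) (a0 : α) (h0 : P 0 a0)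
    (hs : ∀ k a, P k a → ∃ b, P (k + 1) b ∧ R k a b) :
    ∃ u : ℕ → α, u 0 = a0 ∧ (∀ k, P k (u k)) ∧ ∀ k, R k (u k) (u (k + 1)) := by
  classical
  have : Nonempty α := ⟨a0⟩
  choose! nxt hn using hs
  let u : ℕ → α := fun k => Nat.rec a0 (fun k a => nxt k a) k
  have hu : ∀ k, P k (u k) := by
    intro k
    induction k with
    | zero => exact h0
    | succ k ih => exact (hn k _ ih).1
  exact ⟨u, rfl, hu, fun k => (hn k _ (hu k)).2⟩

/-- a map into the cone, holomorphic near a closed ball, is bounded away from `0` there -/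
theorem poe_min_norm {F : MvPolynomial (Fin 4) ℂ} {m : ℕ} {g : (Fin m → ℂ) → V4} {r : ℝ} (hr : 0 ≤ r)
    (hg : HolNear F g (closedBall 0 r)) :
    ∃ μ : ℝ, 0 < μ ∧ ∀ z ∈ closedBall (0 : Fin m → ℂ) r, μ ≤ ‖g z‖ := by
  obtain ⟨W, -, hW, hd, hm⟩ := hg
  have hc : ContinuousOn (fun z => ‖g z‖) (closedBall (0 : Fin m → ℂ) r) :=
    (hd.continuousOn.mono hW).norm
  obtain ⟨z₀, hz₀, hmin⟩ := (isCompact_closedBall (0 : Fin m → ℂ) r).exists_isMinOn
    ⟨0, mem_closedBall_self hr⟩ hc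
  exact ⟨‖g z₀‖, norm_pos_iff.2 (hm (hW hz₀)).1, fun z hz => hmin hz⟩

/-- **Exhaustion.**  `g_0 = f`, `g_{k+1}` holomorphic near `closedBall 0 (ρ + k + 1)`, `‖g_{k+1} - g_k‖ < τ_k` on `closedBall 0 (ρ + k)`,
`τ_k ≤ min (ε / 2^(k+2)) (m_k / 4) (τ_{k-1} / 2)`, `m_k = min ‖g_k‖` on `closedBall 0 (ρ + k)`.  The limit is entire (`scv_tendsto` on each ball),
satisfies `F = 0` by continuity and is `≠ 0` because `∑_{j ≥ k} τ_j ≤ 2 τ_k ≤ m_k / 2`. -/
theorem po_exh {F : MvPolynomial (Fin 4) ℂ} {m : ℕ}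
    (H : ∀ (ρ₁ R : ℝ), 0 < ρ₁ → ρ₁ ≤ R → ∀ f : (Fin m → ℂ) → V4, HolNear F f (closedBall 0 ρ₁) → ∀ ε : ℝ, 0 < ε →
      ∃ g : (Fin m → ℂ) → V4, HolNear F g (closedBall 0 R) ∧ ∀ z ∈ closedBall (0 : Fin m → ℂ) ρ₁, ‖g z - f z‖ < ε)
    (ρ : ℝ) (hρ : 0 < ρ) : Approx F (closedBall (0 : Fin m → ℂ) ρ) := by
  intro f hf ε hε
  -- the sequence
  obtain ⟨μ₀, hμ₀, hμ₀'⟩ := poe_min_norm hρ.le hf
  obtain ⟨u, hu0, hP, hR⟩ := poe_dep_choice
    (fun (k : ℕ) (p : ((Fin m → ℂ) → V4) × ℝ) => HolNear F p.1 (closedBall 0 (ρ + k)) ∧ 0 < p.2 ∧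
      ∀ z ∈ closedBall (0 : Fin m → ℂ) (ρ + k), 4 * p.2 ≤ ‖p.1 z‖)
    (fun (k : ℕ) (p p' : ((Fin m → ℂ) → V4) × ℝ) =>
      (∀ z ∈ closedBall (0 : Fin m → ℂ) (ρ + k), ‖p'.1 z - p.1 z‖ < p.2) ∧ p'.2 ≤ p.2 / 2)
    (f, min (ε / 4) (μ₀ / 4))
    ⟨by simpa using hf, lt_min (by positivity) (by positivity), fun z hz => by
      have h1 : min (ε / 4) (μ₀ / 4) ≤ μ₀ / 4 := min_le_right _ _
      have h2 := hμ₀' z (by simpa using hz)
      show 4 * min (ε / 4) (μ₀ / 4) ≤ ‖f z‖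
      linarith⟩
    (by
      rintro k ⟨g, τ⟩ ⟨hg, hτ, -⟩
      have hk : (0 : ℝ) ≤ k := Nat.cast_nonneg k
      obtain ⟨g', hg', hgg'⟩ := H (ρ + k) (ρ + k + 1) (by linarith) (by linarith) g hg τ hτ
      obtain ⟨μ, hμ, hμ'⟩ := poe_min_norm (by linarith) hg'
      refine ⟨(g', min (τ / 2) (μ / 4)), ⟨?_, lt_min (by positivity) (by positivity), fun z hz => ?_⟩,
        hgg', min_le_left _ _⟩
      · have : ρ + ((k + 1 : ℕ) : ℝ) = ρ + k + 1 := by push_cast; ring
        rw [this]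
        exact hg'
      · have e : ρ + ((k + 1 : ℕ) : ℝ) = ρ + k + 1 := by push_cast; ring
        rw [e] at hz
        have h1 : min (τ / 2) (μ / 4) ≤ μ / 4 := min_le_right _ _
        have h2 := hμ' z hz
        show 4 * min (τ / 2) (μ / 4) ≤ ‖g' z‖
        linarith)
  -- decay of the tolerances
  have hτpos : ∀ k, 0 < (u k).2 := fun k => (hP k).2.1
  have hτ : ∀ k j, (u (j + k)).2 ≤ (u k).2 / 2 ^ j := by
    intro k j
    induction j with
    | zero => simp
    | succ j ih =>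
      have h1 : (u (j + k + 1)).2 ≤ (u (j + k)).2 / 2 := (hR (j + k)).2
      have e : j + 1 + k = j + k + 1 := by omega
      rw [e, pow_succ, ← div_div]
      linarith
  have hmono : ∀ (k j : ℕ) (z : Fin m → ℂ), z ∈ closedBall (0 : Fin m → ℂ) (ρ + k) →
      z ∈ closedBall (0 : Fin m → ℂ) (ρ + ((j + k : ℕ) : ℝ)) := by
    intro k j z hz
    refine closedBall_subset_closedBall ?_ hz
    push_cast
    have : (0 : ℝ) ≤ j := Nat.cast_nonneg j
    linarith
  -- convergence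
  have K : ∀ (k : ℕ) (z : Fin m → ℂ), z ∈ closedBall (0 : Fin m → ℂ) (ρ + k) → ∃ L : V4,
      Filter.Tendsto (fun j => (u j).1 z) Filter.atTop (nhds L) ∧
      ∀ j, ‖(u (j + k)).1 z - L‖ ≤ 2 * (u k).2 / 2 ^ j := by
    intro k z hz
    have hu2 : ∀ j, dist ((u (j + k)).1 z) ((u (j + 1 + k)).1 z) ≤ 2 * (u k).2 / 2 / 2 ^ j := by
      intro j
      have e : j + 1 + k = j + k + 1 := by omega
      rw [e, dist_comm, dist_eq_norm, mul_div_cancel_left₀ _ (two_ne_zero)]
      exact ((hR (j + k)).1 z (hmono k j z hz)).le.trans (hτ k j)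
    obtain ⟨L, hL⟩ := cauchySeq_tendsto_of_complete
      (cauchySeq_of_le_geometric_two (f := fun j => (u (j + k)).1 z) hu2)
    refine ⟨L, (Filter.tendsto_add_atTop_iff_nat k).1 hL, fun j => ?_⟩
    rw [← dist_eq_norm]
    exact dist_le_of_le_geometric_two_of_tendsto (f := fun j => (u (j + k)).1 z) hu2 hL j
  have hex : ∀ z : Fin m → ℂ, ∃ k : ℕ, ‖z‖ < ρ + k := fun z => by
    obtain ⟨k, hk⟩ := exists_nat_gt ‖z‖
    exact ⟨k, by linarith⟩
  have hG : ∀ (z : Fin m → ℂ) (L : V4), Filter.Tendsto (fun j => (u j).1 z) Filter.atTop (nhds L) →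
      Filter.limUnder Filter.atTop (fun j => (u j).1 z) = L := fun z L h => h.limUnder_eq
  refine ⟨fun z => Filter.limUnder Filter.atTop (fun j => (u j).1 z), ⟨?_, ?_⟩, ?_⟩
  · -- holomorphy
    intro z
    obtain ⟨k, hk⟩ := hex z
    have hd : DifferentiableOn ℂ (fun z => Filter.limUnder Filter.atTop (fun j => (u j).1 z))
        (ball (0 : Fin m → ℂ) (ρ + k)) := by
      refine scv_tendsto (l := Filter.atTop) (F := fun j => (u (j + k)).1) isOpen_ball
        (Filter.Eventually.of_forall fun j => ?_) ?_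
      · obtain ⟨W, -, hW, hd, -⟩ := (hP (j + k)).1
        exact hd.mono fun w hw => hW (hmono k j w (ball_subset_closedBall hw))
      · refine TendstoUniformlyOn.tendstoLocallyUniformlyOn ?_
        rw [Metric.tendstoUniformlyOn_iff]
        intro η hη
        have hto : Filter.Tendsto (fun j : ℕ => 2 * (u k).2 / 2 ^ j) Filter.atTop (nhds 0) :=
          tendsto_const_nhds.div_atTop (tendsto_pow_atTop_atTop_of_one_lt one_lt_two)
        filter_upwards [hto.eventually (gt_mem_nhds hη)] with j hj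
        intro w hw
        obtain ⟨L, hL, hLj⟩ := K k w (ball_subset_closedBall hw)
        show dist (Filter.limUnder Filter.atTop (fun j => (u j).1 w)) ((u (j + k)).1 w) < η
        rw [hG w L hL, dist_comm, dist_eq_norm]
        exact lt_of_le_of_lt (hLj j) hj
    exact hd.differentiableAt (isOpen_ball.mem_nhds (mem_ball_zero_iff.2 hk))
  · -- values in the cone
    intro z
    obtain ⟨k, hk⟩ := hex z
    have hz : z ∈ closedBall (0 : Fin m → ℂ) (ρ + k) := mem_closedBall_zero_iff.2 hk.le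
    obtain ⟨L, hL, hLj⟩ := K k z hz
    show Filter.limUnder Filter.atTop (fun j => (u j).1 z) ∈ Cone F
    rw [hG z L hL]
    constructor
    · intro h0
      have h1 := hLj 0
      rw [h0, sub_zero, pow_zero, div_one, zero_add] at h1
      have h2 := (hP k).2.2 z hz
      linarith [hτpos k]
    · have h1 : Filter.Tendsto (fun j => eval ((u (j + k)).1 z) F) Filter.atTop (nhds (eval L F)) :=
        ((MvPolynomial.continuous_eval F).tendsto L).comp ((Filter.tendsto_add_atTop_iff_nat k).2 hL)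
      have h2 : (fun j => eval ((u (j + k)).1 z) F) = fun _ => (0 : ℂ) := by
        funext j
        obtain ⟨W, -, hW, -, hm⟩ := (hP (j + k)).1
        exact (hm (hW (hmono k j z hz))).2
      rw [h2] at h1
      exact tendsto_nhds_unique h1 tendsto_const_nhds
  · -- approximation
    intro z hz
    obtain ⟨L, hL, hLj⟩ := K 0 z (by simpa using hz)
    show ‖Filter.limUnder Filter.atTop (fun j => (u j).1 z) - f z‖ < ε
    rw [hG z L hL]
    have h1 := hLj 0
    rw [pow_zero, div_one, zero_add, hu0] at h1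
    have h2 : min (ε / 4) (μ₀ / 4) ≤ ε / 4 := min_le_left _ _
    rw [norm_sub_rev]
    have h3 : ‖f z - L‖ ≤ 2 * min (ε / 4) (μ₀ / 4) := h1
    linarith

end Claimed.Agent.R245
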