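/-
Row 245 / S0484, I2 = POLY (architect helper292):   `IsSmoothQuarticForm F → LEverywhere F → PropA F 0`.
ONE FILE = ONE PACKAGE = ONE OWNER.  Statements FROZEN; helper lemmas: prefix `pof_`, in this file.
-/
import Claimed.Agent.R245.PolyCoord
import Claimed.Agent.R245.PolyExh

set_option autoImplicit false

namespace Claimed.Agent.R245

open MvPolynomial Metric Set Claims.C0412

theorem pof_differentiable_snoc (p : ℕ) :
    Differentiable ℂ (fun t : Fin p → ℂ => (Fin.snoc t 0 : Fin (p + 1) → ℂ)) := by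
  rw [differentiable_pi]
  intro j
  induction j using Fin.lastCases with
  | last => simp
  | cast i =>
    simp only [Fin.snoc_castSucc]
    exact differentiable_apply i

theorem pof_norm_snoc_le {p : ℕ} (t : Fin p → ℂ) : ‖(Fin.snoc t 0 : Fin (p + 1) → ℂ)‖ ≤ ‖t‖ := by
  refine (pi_norm_le_iff_of_nonneg (norm_nonneg t)).2 fun j => ?_
  induction j using Fin.lastCases with
  | last => simp
  | cast i =>
    simp only [Fin.snoc_castSucc]
    exact norm_le_pi_norm t i

theorem pof_differentiable_init (p : ℕ) :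
    Differentiable ℂ (fun (z : Fin (p + 1) → ℂ) (i : Fin p) => z i.castSucc) := by
  rw [differentiable_pi]
  intro i
  exact differentiable_apply i.castSucc

theorem pof_norm_init_le {p : ℕ} (z : Fin (p + 1) → ℂ) : ‖fun i : Fin p => z i.castSucc‖ ≤ ‖z‖ :=
  (pi_norm_le_iff_of_nonneg (norm_nonneg z)).2 fun i => norm_le_pi_norm z i.castSucc

/-- a dummy variable (`f' z = f (fun i => z i.castSucc)`, `G t = G' (Fin.snoc t 0)`). -/
theorem po_dummy {F : MvPolynomial (Fin 4) ℂ} {p : ℕ} {ρ : ℝ} (h : Approx F (closedBall (0 : Fin (p + 1) → ℂ) ρ)) :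
    Approx F (closedBall (0 : Fin p → ℂ) ρ) := by
  intro f hf ε hε
  obtain ⟨W, hWo, hSW, hfd, hfm⟩ := hf
  set π : (Fin (p + 1) → ℂ) → (Fin p → ℂ) := fun z i => z i.castSucc with hπ
  have hπd : Differentiable ℂ π := pof_differentiable_init p
  have hnear : HolNear F (f ∘ π) (closedBall (0 : Fin (p + 1) → ℂ) ρ) := by
    refine ⟨π ⁻¹' W, hWo.preimage hπd.continuous, fun z hz => hSW ?_, ?_, fun z hz => hfm hz⟩
    · rw [mem_closedBall_zero_iff] at hz ⊢
      exact (pof_norm_init_le z).trans hz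
    · exact hfd.comp hπd.differentiableOn fun z hz => hz
  obtain ⟨G', ⟨hG'd, hG'c⟩, hG'⟩ := h (f ∘ π) hnear ε hε
  refine ⟨fun t => G' (Fin.snoc t 0), ⟨hG'd.comp (pof_differentiable_snoc p), fun t => hG'c _⟩,
    fun t ht => ?_⟩
  have h1 : (Fin.snoc t 0 : Fin (p + 1) → ℂ) ∈ closedBall (0 : Fin (p + 1) → ℂ) ρ := by
    rw [mem_closedBall_zero_iff] at ht ⊢
    exact (pof_norm_snoc_le t).trans ht
  have h2 := hG' _ h1
  have h3 : π (Fin.snoc t 0 : Fin (p + 1) → ℂ) = t := by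
    funext i; simp [hπ]
  simpa [Function.comp, h3] using h2

/-- polydiscs in every dimension. -/
theorem po_approx_ball {F : MvPolynomial (Fin 4) ℂ} (hF : IsSmoothQuarticForm F) (hL : LEverywhere F) (p : ℕ) (ρ : ℝ) (hρ : 0 < ρ) :
    Approx F (closedBall (0 : Fin p → ℂ) ρ) :=
  po_dummy (po_exh (fun ρ₁ R h₁ h₂ _ hf ε hε => po_ball hF hL p ρ₁ R h₁ h₂ hf ε hε) ρ hρ)

/-- a zero dimensional factor (`E` is a subsingleton). -/
theorem po_propA_zero {F : MvPolynomial (Fin 4) ℂ} (h : ∀ (p : ℕ) (ρ : ℝ), 0 < ρ → Approx F (closedBall (0 : Fin p → ℂ) ρ)) :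
    PropA F 0 := by
  intro E _ _ _ hE p C ρ _ _ hCne hρ f hf ε hε
  haveI : Subsingleton E := Module.finrank_zero_iff.1 hE
  obtain ⟨W, hWo, hSW, hfd, hfm⟩ := hf
  obtain ⟨c, hc⟩ := hCne
  set ι : (Fin p → ℂ) → E × (Fin p → ℂ) := fun t => (0, t) with hι
  have hιd : Differentiable ℂ ι := (differentiable_const (0 : E)).prodMk differentiable_id
  have hnear : HolNear F (f ∘ ι) (closedBall (0 : Fin p → ℂ) ρ) := by
    refine ⟨ι ⁻¹' W, hWo.preimage hιd.continuous, fun t ht => hSW ?_, ?_, fun z hz => hfm hz⟩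
    · exact ⟨by rw [Subsingleton.elim (ι t).1 c]; exact hc, ht⟩
    · exact hfd.comp hιd.differentiableOn fun z hz => hz
  obtain ⟨G₀, ⟨hGd, hGc⟩, hG⟩ := h p ρ hρ (f ∘ ι) hnear ε hε
  refine ⟨fun z => G₀ z.2, ⟨hGd.comp differentiable_snd, fun z => hGc _⟩, fun z hz => ?_⟩
  have h2 := hG z.2 hz.2
  have h3 : ι z.2 = z := Prod.ext (Subsingleton.elim _ _) rfl
  simpa [Function.comp, h3] using h2

/-- **(I2) POLY.** -/
theorem po_main (F : MvPolynomial (Fin 4) ℂ) (hF : IsSmoothQuarticForm F) (hL : LEverywhere F) : PropA F 0 :=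
  po_propA_zero (fun p ρ hρ => po_approx_ball hF hL p ρ hρ)

end Claimed.Agent.R245
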