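/-
Row 245 / S0484, Section 4. PACKAGE S4-POLY: polytope sandwich.
-/
import Claimed.Agent.R245.S4Defs

set_option autoImplicit false

namespace Claimed.Agent.R245

open MvPolynomial Metric Set Claims.C0412

/-- PACKAGE S4-POLY. Hahn–Banach + compactness: a compact convex set has, inside any open
neighbourhood, a neighbourhood of the form (compact convex `B`) ∩ (finitely many real half spaces). -/
theorem s4_polytope_sandwich {E : Type*} [NormedAddCommGroup E] [NormedSpace ℂ E]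
    {C B W : Set E} (hC : IsCompact C) (hCc : Convex ℝ C) (hB : IsCompact B) (hCB : C ⊆ B)
    (hW : IsOpen W) (hCW : C ⊆ W) :
    ∃ L : List ((E →L[ℝ] ℝ) × ℝ), (∀ c ∈ C, ∀ p ∈ L, p.1 c ≤ p.2) ∧
      B ∩ {x | ∀ p ∈ L, p.1 x ≤ p.2} ⊆ W := by
  have hK : IsCompact (B \ W) := hB.diff hW
  have key : ∀ x : ↥(B \ W), ∃ p : (E →L[ℝ] ℝ) × ℝ, (∀ a ∈ C, p.1 a < p.2) ∧ p.2 < p.1 x := by
    intro x
    have hx : (x : E) ∉ C := fun h => x.2.2 (hCW h)
    obtain ⟨f, u, h1, h2⟩ := geometric_hahn_banach_closed_point hCc hC.isClosed hx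
    exact ⟨(f, u), h1, h2⟩
  choose p hp1 hp2 using key
  obtain ⟨t, ht⟩ := hK.elim_nhds_subcover' (fun x hx => {y | (p ⟨x, hx⟩).2 < (p ⟨x, hx⟩).1 y})
    (fun x hx => (isOpen_lt continuous_const (p ⟨x, hx⟩).1.continuous).mem_nhds (hp2 ⟨x, hx⟩))
  refine ⟨t.toList.map p, ?_, ?_⟩
  · intro c hc q hq
    rw [List.mem_map] at hq
    obtain ⟨x, -, rfl⟩ := hq
    exact (hp1 x c hc).le
  · rintro y ⟨hyB, hy⟩
    by_contra hyW
    have h1 := ht ⟨hyB, hyW⟩
    simp only [mem_iUnion] at h1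
    obtain ⟨x, hxt, hxy⟩ := h1
    have h2 := hy (p x) (List.mem_map.2 ⟨x, Finset.mem_toList.2 hxt, rfl⟩)
    exact absurd hxy (not_lt.2 h2)

end Claimed.Agent.R245
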