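/-
Row 245 / S0484, Section 4. PACKAGE S4-TR: transfer of `Approx` under affine equivalences, calculus of polydiscs.
-/
import Claimed.Agent.R245.S4Defs

set_option autoImplicit false

namespace Claimed.Agent.R245

open MvPolynomial Metric Set Claims.C0412

/-- a continuous affine equivalence is differentiable -/
theorem s4tr_differentiable {E₁ E₂ : Type*}
    [NormedAddCommGroup E₁] [NormedSpace ℂ E₁] [NormedAddCommGroup E₂] [NormedSpace ℂ E₂]
    (φ : E₁ ≃ᴬ[ℂ] E₂) : Differentiable ℂ φ :=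
  φ.toContinuousAffineMap.differentiable

/-- PACKAGE S4-TR. `Approx` is invariant under continuous complex affine equivalences. -/
theorem s4_approx_image (F : MvPolynomial (Fin 4) ℂ) {E₁ E₂ : Type*}
    [NormedAddCommGroup E₁] [NormedSpace ℂ E₁] [NormedAddCommGroup E₂] [NormedSpace ℂ E₂]
    (φ : E₁ ≃ᴬ[ℂ] E₂) (S : Set E₁) (h : Approx F S) : Approx F (φ '' S) := by
  intro f hf ε hε
  obtain ⟨W, hW, hSW, hd, hm⟩ := hf
  have h1 : HolNear F (f ∘ φ) S := by
    refine ⟨φ ⁻¹' W, hW.preimage φ.continuous_toFun, ?_, ?_, ?_⟩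
    · intro s hs
      exact hSW (mem_image_of_mem _ hs)
    · exact hd.comp (s4tr_differentiable φ).differentiableOn (fun x hx => hx)
    · intro x hx
      exact hm hx
  obtain ⟨G, ⟨hG1, hG2⟩, hG3⟩ := h (f ∘ φ) h1 ε hε
  refine ⟨G ∘ φ.symm, ⟨hG1.comp (s4tr_differentiable φ.symm), fun z => hG2 _⟩, ?_⟩
  rintro _ ⟨s, hs, rfl⟩
  have := hG3 s hs
  simpa using this

/-- the homothety of ratio `c ≠ 0` -/
noncomputable def s4trScale (Z : Type*) [NormedAddCommGroup Z] [NormedSpace ℂ Z] (c : ℂ) (hc : c ≠ 0) :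
    Z ≃L[ℂ] Z :=
  ContinuousLinearEquiv.smulLeft (Units.mk0 c hc)

theorem s4trScale_apply {Z : Type*} [NormedAddCommGroup Z] [NormedSpace ℂ Z] (c : ℂ) (hc : c ≠ 0)
    (z : Z) : s4trScale Z c hc z = c • z := rfl

theorem s4trScale_image {Z : Type*} [NormedAddCommGroup Z] [NormedSpace ℂ Z] (ρ : ℝ) (hρ : 0 < ρ) :
    s4trScale Z (ρ : ℂ) (by exact_mod_cast hρ.ne') '' closedBall (0 : Z) 1 = closedBall (0 : Z) ρ := by
  have h := smul_unitClosedBall (E := Z) (ρ : ℂ)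
  rw [Complex.norm_real, Real.norm_of_nonneg hρ.le] at h
  rw [← h, ← Set.image_smul]
  rfl

/-- PACKAGE S4-TR. -/
theorem s4_isPolydisc_closedBall (q : ℕ) (ρ : ℝ) (hρ : 0 < ρ) :
    IsPolydisc (closedBall (0 : Fin q → ℂ) ρ) :=
  ⟨q, (s4trScale (Fin q → ℂ) (ρ : ℂ) (by exact_mod_cast hρ.ne')).toContinuousAffineEquiv,
    (s4trScale_image ρ hρ).symm⟩

/-- PACKAGE S4-TR. -/
theorem s4_isPolydisc_image {Z₁ Z₂ : Type*} [NormedAddCommGroup Z₁] [NormedSpace ℂ Z₁]
    [NormedAddCommGroup Z₂] [NormedSpace ℂ Z₂] (φ : Z₁ ≃ᴬ[ℂ] Z₂) {P : Set Z₁}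
    (h : IsPolydisc P) : IsPolydisc (φ '' P) := by
  obtain ⟨q, ψ, rfl⟩ := h
  refine ⟨q, ψ.trans φ, ?_⟩
  rw [Set.image_image]
  rfl

theorem s4tr_constVAdd_apply {Z : Type*} [NormedAddCommGroup Z] [NormedSpace ℂ Z] (c z : Z) :
    ContinuousAffineEquiv.constVAdd ℂ Z c z = c + z := rfl

/-- PACKAGE S4-TR. -/
theorem s4_isPolydisc_disc (c : ℂ) (ρ : ℝ) (hρ : 0 < ρ) : IsPolydisc (closedBall c ρ) := by
  have h1 := s4_isPolydisc_image
    ((ContinuousLinearEquiv.funUnique (Fin 1) ℂ ℂ).toContinuousAffineEquiv.trans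
      (ContinuousAffineEquiv.constVAdd ℂ ℂ c)) (s4_isPolydisc_closedBall 1 ρ hρ)
  convert h1 using 1
  ext z
  simp only [mem_closedBall, mem_image, dist_zero_right]
  constructor
  · intro hz
    refine ⟨fun _ => z - c, ?_, ?_⟩
    · rw [pi_norm_const, ← dist_eq_norm]; exact hz
    · simp [s4tr_constVAdd_apply]
  · rintro ⟨x, hx, rfl⟩
    simp only [ContinuousAffineEquiv.trans_apply, ContinuousLinearEquiv.coe_toContinuousAffineEquiv,
      ContinuousLinearEquiv.coe_funUnique, Function.eval, s4tr_constVAdd_apply,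
      dist_eq_norm, add_sub_cancel_left]
    exact (norm_le_pi_norm x _).trans hx

/-- splitting the coordinates -/
noncomputable def s4trSplit (q₁ q₂ : ℕ) : (Fin (q₁ + q₂) → ℂ) ≃L[ℂ] (Fin q₁ → ℂ) × (Fin q₂ → ℂ) :=
  LinearEquiv.toContinuousLinearEquiv
    { toFun := fun x => (fun i => x (Fin.castAdd q₂ i), fun j => x (Fin.natAdd q₁ j))
      map_add' := fun x y => rfl
      map_smul' := fun c x => rfl
      invFun := fun p => Fin.append p.1 p.2
      left_inv := fun x => by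
        funext i
        refine Fin.addCases (fun i => ?_) (fun j => ?_) i
        · simp
        · simp
      right_inv := fun p => by
        ext i
        · simp
        · simp }

theorem s4trSplit_apply (q₁ q₂ : ℕ) (x : Fin (q₁ + q₂) → ℂ) :
    s4trSplit q₁ q₂ x = (fun i => x (Fin.castAdd q₂ i), fun j => x (Fin.natAdd q₁ j)) := rfl

theorem s4trSplit_norm_le (q₁ q₂ : ℕ) (x : Fin (q₁ + q₂) → ℂ) {r : ℝ} (hr : 0 ≤ r) :
    ‖s4trSplit q₁ q₂ x‖ ≤ r ↔ ‖x‖ ≤ r := by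
  rw [s4trSplit_apply, Prod.norm_def, max_le_iff, pi_norm_le_iff_of_nonneg hr,
    pi_norm_le_iff_of_nonneg hr, pi_norm_le_iff_of_nonneg hr, Fin.forall_fin_add]

theorem s4trSplit_image (q₁ q₂ : ℕ) :
    s4trSplit q₁ q₂ '' closedBall 0 1 = closedBall (0 : Fin q₁ → ℂ) 1 ×ˢ closedBall (0 : Fin q₂ → ℂ) 1 := by
  rw [closedBall_prod_same, ← Prod.zero_eq_mk]
  ext p
  simp only [mem_image, mem_closedBall, dist_zero_right]
  constructor
  · rintro ⟨x, hx, rfl⟩
    exact (s4trSplit_norm_le q₁ q₂ x zero_le_one).2 hx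
  · intro hp
    refine ⟨(s4trSplit q₁ q₂).symm p, ?_, by simp⟩
    rw [← s4trSplit_norm_le q₁ q₂ _ zero_le_one]
    simpa using hp

/-- PACKAGE S4-TR. -/
theorem s4_isPolydisc_prod {Z₁ Z₂ : Type*} [NormedAddCommGroup Z₁] [NormedSpace ℂ Z₁]
    [NormedAddCommGroup Z₂] [NormedSpace ℂ Z₂] {P₁ : Set Z₁} {P₂ : Set Z₂}
    (h₁ : IsPolydisc P₁) (h₂ : IsPolydisc P₂) : IsPolydisc (P₁ ×ˢ P₂) := by
  obtain ⟨q₁, φ₁, rfl⟩ := h₁
  obtain ⟨q₂, φ₂, rfl⟩ := h₂
  refine ⟨q₁ + q₂, (s4trSplit q₁ q₂).toContinuousAffineEquiv.trans (φ₁.prodCongr φ₂), ?_⟩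
  rw [ContinuousAffineEquiv.coe_trans, Set.image_comp,
    ContinuousLinearEquiv.coe_toContinuousAffineEquiv, s4trSplit_image, Set.prod_image_image_eq]
  rfl

/-- a complex affine equivalence maps real convex sets to real convex sets -/
theorem s4tr_convex_image {Z₁ Z₂ : Type*} [NormedAddCommGroup Z₁] [NormedSpace ℂ Z₁]
    [NormedAddCommGroup Z₂] [NormedSpace ℂ Z₂] (φ : Z₁ ≃ᴬ[ℂ] Z₂) {S : Set Z₁} (hS : Convex ℝ S) :
    Convex ℝ (φ '' S) := by
  rintro _ ⟨u, hu, rfl⟩ _ ⟨v, hv, rfl⟩ a b ha hb hab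
  refine ⟨a • u + b • v, hS hu hv ha hb hab, ?_⟩
  have e1 : a • u + b • v = AffineMap.lineMap u v (b : ℂ) := by
    rw [AffineMap.lineMap_apply_module, Complex.coe_smul]
    have : (1 - (b : ℂ)) = ((a : ℝ) : ℂ) := by
      have h1 : ((a + b : ℝ) : ℂ) = 1 := by rw [hab]; simp
      push_cast at h1
      rw [← h1]; ring
    rw [this, Complex.coe_smul]
  have e2 : a • φ u + b • φ v = AffineMap.lineMap (φ u) (φ v) (b : ℂ) := by
    rw [AffineMap.lineMap_apply_module, Complex.coe_smul]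
    have : (1 - (b : ℂ)) = ((a : ℝ) : ℂ) := by
      have h1 : ((a + b : ℝ) : ℂ) = 1 := by rw [hab]; simp
      push_cast at h1
      rw [← h1]; ring
    rw [this, Complex.coe_smul]
  rw [e1, e2]
  exact AffineMap.apply_lineMap φ.toAffineEquiv.toAffineMap u v (b : ℂ)

/-- PACKAGE S4-TR. A polydisc is compact, convex and nonempty. -/
theorem s4_isPolydisc_props {Z : Type*} [NormedAddCommGroup Z] [NormedSpace ℂ Z] {P : Set Z}
    (h : IsPolydisc P) : IsCompact P ∧ Convex ℝ P ∧ P.Nonempty := by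
  obtain ⟨q, φ, rfl⟩ := h
  refine ⟨(isCompact_closedBall _ _).image φ.continuous_toFun,
    s4tr_convex_image φ (convex_closedBall _ _), ⟨φ 0, mem_image_of_mem _ ?_⟩⟩
  simp

/-- images of interiors -/
theorem s4tr_image_interior {Z₁ Z₂ : Type*} [NormedAddCommGroup Z₁] [NormedSpace ℂ Z₁]
    [NormedAddCommGroup Z₂] [NormedSpace ℂ Z₂] (φ : Z₁ ≃ᴬ[ℂ] Z₂) (S : Set Z₁) :
    φ '' interior S = interior (φ '' S) :=
  φ.toHomeomorph.image_interior S

/-- PACKAGE S4-TR. A polydisc has arbitrarily tight larger polydiscs around it. -/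
theorem s4_isPolydisc_enlarge {Z : Type*} [NormedAddCommGroup Z] [NormedSpace ℂ Z] {P W : Set Z}
    (h : IsPolydisc P) (hW : IsOpen W) (hPW : P ⊆ W) :
    ∃ P' : Set Z, IsPolydisc P' ∧ P ⊆ interior P' ∧ P' ⊆ W := by
  obtain ⟨q, φ, rfl⟩ := h
  have hW' : IsOpen (φ ⁻¹' W) := hW.preimage φ.continuous_toFun
  have hsub : closedBall (0 : Fin q → ℂ) 1 ⊆ φ ⁻¹' W := fun x hx => hPW (mem_image_of_mem _ hx)
  obtain ⟨δ, hδ, hδW⟩ := (isCompact_closedBall (0 : Fin q → ℂ) 1).exists_cthickening_subset_open hW' hsub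
  rw [cthickening_closedBall hδ.le zero_le_one] at hδW
  refine ⟨φ '' closedBall 0 (δ + 1), s4_isPolydisc_image φ (s4_isPolydisc_closedBall q _ (by linarith)),
    ?_, ?_⟩
  · rw [← s4tr_image_interior]
    refine image_mono ?_
    refine subset_trans ?_ ball_subset_interior_closedBall
    exact closedBall_subset_ball (by linarith)
  · rintro _ ⟨x, hx, rfl⟩
    exact hδW hx

/-- PACKAGE S4-TR. Every compact set of a finite dimensional space lies in the interior of a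
polydisc. -/
theorem s4_exists_polydisc_superset {Z : Type*} [NormedAddCommGroup Z] [NormedSpace ℂ Z]
    [FiniteDimensional ℂ Z] {C : Set Z} (hC : IsCompact C) :
    ∃ P : Set Z, IsPolydisc P ∧ C ⊆ interior P := by
  have e : (Fin (Module.finrank ℂ Z) → ℂ) ≃L[ℂ] Z :=
    ContinuousLinearEquiv.ofFinrankEq (by simp)
  have hb : Bornology.IsBounded (e.symm '' C) := (hC.image e.symm.continuous).isBounded
  obtain ⟨R, hR⟩ := hb.subset_closedBall 0
  refine ⟨e.toContinuousAffineEquiv '' closedBall 0 (max R 0 + 1),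
    s4_isPolydisc_image _ (s4_isPolydisc_closedBall _ _ (by positivity)), ?_⟩
  rw [← s4tr_image_interior]
  intro z hz
  refine ⟨e.symm z, ?_, by simp⟩
  apply ball_subset_interior_closedBall
  have h1 := hR (mem_image_of_mem _ hz)
  rw [mem_closedBall] at h1
  rw [mem_ball]
  have := le_max_left R 0
  linarith

/-- PACKAGE S4-TR. -/
theorem s4_propA'_of_propA (F : MvPolynomial (Fin 4) ℂ) (r : ℕ) (h : PropA F r) : PropA' F r := by
  intro E Z _ _ _ _ _ _ hr C P hC hCc hCn hP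
  obtain ⟨q, φ, rfl⟩ := hP
  have h1 := h E hr q C 1 hC hCc hCn one_pos
  have h2 := s4_approx_image F ((ContinuousAffineEquiv.refl ℂ E).prodCongr φ) _ h1
  convert h2 using 1
  have e : C = (ContinuousAffineEquiv.refl ℂ E) '' C := by simp
  conv_lhs => rw [e]
  rw [Set.prod_image_image_eq]
  rfl

/-- PACKAGE S4-TR. -/
theorem s4_propA_of_propA' (F : MvPolynomial (Fin 4) ℂ) (r : ℕ) (h : PropA' F r) : PropA F r := by
  intro E _ _ _ hr p C ρ hC hCc hCn hρ
  exact h E (Fin p → ℂ) hr C _ hC hCc hCn (s4_isPolydisc_closedBall p ρ hρ)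

/-- PACKAGE S4-TR. Polydiscs themselves. -/
theorem s4_approx_polydisc (F : MvPolynomial (Fin 4) ℂ) (h : PropA' F 0) {Z : Type}
    [NormedAddCommGroup Z] [NormedSpace ℂ Z] [FiniteDimensional ℂ Z] {P : Set Z}
    (hP : IsPolydisc P) : Approx F P := by
  have h1 := h (Fin 0 → ℂ) Z (by simp) univ P isCompact_univ convex_univ univ_nonempty hP
  have h2 := s4_approx_image F (ContinuousLinearEquiv.uniqueProd ℂ Z (Fin 0 → ℂ)).toContinuousAffineEquiv
    _ h1
  convert h2 using 1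
  ext z
  simp only [mem_image, mem_prod, mem_univ, true_and, ContinuousLinearEquiv.coe_toContinuousAffineEquiv,
    ContinuousLinearEquiv.uniqueProd_apply]
  constructor
  · intro hz
    exact ⟨(default, z), hz, rfl⟩
  · rintro ⟨x, hx, rfl⟩
    exact hx

/-- PACKAGE S4-TR. (I4) -/
theorem s4_capCone_of_propA (F : MvPolynomial (Fin 4) ℂ) (h : ∀ r, PropA F r) : CAPCone F := by
  intro m K hK hKc hKn
  have h1 := h m (Fin m → ℂ) (by simp) 0 K 1 hK hKc hKn one_pos
  have h2 := s4_approx_image F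
    (ContinuousLinearEquiv.prodUnique ℂ (Fin m → ℂ) (Fin 0 → ℂ)).toContinuousAffineEquiv _ h1
  convert h2 using 1
  ext z
  simp only [mem_image, mem_prod, ContinuousLinearEquiv.coe_toContinuousAffineEquiv,
    ContinuousLinearEquiv.prodUnique_apply]
  constructor
  · intro hz
    exact ⟨(z, 0), ⟨hz, by simp⟩, rfl⟩
  · rintro ⟨x, hx, rfl⟩
    exact hx.1

end Claimed.Agent.R245
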