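/-
Row 245 / S0484, Section 4. PACKAGE S4-CHAIN: polytope sandwich + induction over the constraints.
-/
import Claimed.Agent.R245.S4Tr
import Claimed.Agent.R245.S4Poly

set_option autoImplicit false

namespace Claimed.Agent.R245

open MvPolynomial Metric Set Claims.C0412

/-- the set cut out by a list of real constraints -/
def s4cH {E : Type*} [NormedAddCommGroup E] [NormedSpace ℂ E] (L : List ((E →L[ℝ] ℝ) × ℝ)) : Set E :=
  {x | ∀ p ∈ L, p.1 x ≤ p.2}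

theorem s4cH_eq_iInter {E : Type*} [NormedAddCommGroup E] [NormedSpace ℂ E] (L : List ((E →L[ℝ] ℝ) × ℝ)) :
    s4cH L = ⋂ p ∈ L, {x | p.1 x ≤ p.2} := by
  ext x
  simp [s4cH]

theorem s4cH_isClosed {E : Type*} [NormedAddCommGroup E] [NormedSpace ℂ E] (L : List ((E →L[ℝ] ℝ) × ℝ)) :
    IsClosed (s4cH L) := by
  rw [s4cH_eq_iInter]
  exact isClosed_biInter fun p _ => isClosed_le p.1.continuous continuous_const

theorem s4cH_convex {E : Type*} [NormedAddCommGroup E] [NormedSpace ℂ E] (L : List ((E →L[ℝ] ℝ) × ℝ)) :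
    Convex ℝ (s4cH L) := by
  rw [s4cH_eq_iInter]
  exact convex_iInter₂ fun p _ => convex_halfSpace_le (p.1 : E →ₗ[ℝ] ℝ).isLinear p.2

theorem s4cH_nil {E : Type*} [NormedAddCommGroup E] [NormedSpace ℂ E] :
    s4cH ([] : List ((E →L[ℝ] ℝ) × ℝ)) = univ := by
  ext x
  simp [s4cH]

theorem s4cH_cons {E : Type*} [NormedAddCommGroup E] [NormedSpace ℂ E] (p : (E →L[ℝ] ℝ) × ℝ)
    (L : List ((E →L[ℝ] ℝ) × ℝ)) : s4cH (p :: L) = s4cH L ∩ {x | p.1 x ≤ p.2} := by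
  ext x
  simp [s4cH, and_comm]

/-- the induction over the list of constraints -/
theorem s4c_chain (F : MvPolynomial (Fin 4) ℂ) (r : ℕ) (h0 : PropA' F 0) (henl : EnlargeStmt F r)
    (E Z : Type) [NormedAddCommGroup E] [NormedSpace ℂ E] [FiniteDimensional ℂ E]
    [NormedAddCommGroup Z] [NormedSpace ℂ Z] [FiniteDimensional ℂ Z] (hr : Module.finrank ℂ E = r)
    (B : Set E) (P : Set Z) (hB : IsPolydisc B) (hP : IsPolydisc P) (L : List ((E →L[ℝ] ℝ) × ℝ)) :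
    (B ∩ s4cH L).Nonempty → Approx F ((B ∩ s4cH L) ×ˢ P) := by
  induction L with
  | nil =>
    intro _
    rw [s4cH_nil, inter_univ]
    exact s4_approx_polydisc F h0 (s4_isPolydisc_prod hB hP)
  | cons p L ih =>
    intro hne f hf ε hε
    have hset : B ∩ s4cH (p :: L) = (B ∩ s4cH L) ∩ {x | p.1 x ≤ p.2} := by
      rw [s4cH_cons, inter_assoc]
    rw [hset] at hne hf ⊢
    obtain ⟨hBc, hBv, -⟩ := s4_isPolydisc_props hB
    have hQc : IsCompact (B ∩ s4cH L) := hBc.inter_right (s4cH_isClosed L)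
    have hQv : Convex ℝ (B ∩ s4cH L) := hBv.inter (s4cH_convex L)
    obtain ⟨g, hg, hgf⟩ := henl E Z hr (B ∩ s4cH L) P p.1 p.2 hQc hQv hne hP f hf (ε / 2) (by linarith)
    obtain ⟨G, hG, hGg⟩ := ih (hne.mono inter_subset_left) g hg (ε / 2) (by linarith)
    refine ⟨G, hG, fun z hz => ?_⟩
    have hz' : z ∈ (B ∩ s4cH L) ×ˢ P := ⟨hz.1.1, hz.2⟩
    have h1 := hGg z hz'
    have h2 := hgf z hz
    calc ‖G z - f z‖ = ‖(G z - g z) + (g z - f z)‖ := by rw [sub_add_sub_cancel]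
      _ ≤ ‖G z - g z‖ + ‖g z - f z‖ := norm_add_le _ _
      _ < ε := by linarith

/-- PACKAGE S4-CHAIN. Polytope sandwich + induction over the list of constraints. -/
theorem s4_propA'_of_enlarge (F : MvPolynomial (Fin 4) ℂ) (r : ℕ) (h0 : PropA' F 0)
    (henl : EnlargeStmt F r) : PropA' F r := by
  intro E Z _ _ _ _ _ _ hr C P hC hCv hCne hP f hf ε hε
  obtain ⟨U, hU, hCU, hfU⟩ := hf
  obtain ⟨hPc, -, -⟩ := s4_isPolydisc_props hP
  obtain ⟨W, V, hW, hV, hCW, hPV, hWV⟩ := generalized_tube_lemma hC hPc hU hCU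
  obtain ⟨B, hB, hCB⟩ := s4_exists_polydisc_superset hC
  obtain ⟨hBc, -, -⟩ := s4_isPolydisc_props hB
  have hCB' : C ⊆ B := hCB.trans interior_subset
  obtain ⟨L, hL1, hL2⟩ := s4_polytope_sandwich hC hCv hBc hCB' hW hCW
  have hCL : C ⊆ B ∩ s4cH L := fun c hc => ⟨hCB' hc, fun p hp => hL1 c hc p hp⟩
  have hf' : HolNear F f ((B ∩ s4cH L) ×ˢ P) :=
    ⟨U, hU, (prod_mono hL2 hPV).trans hWV, hfU⟩
  obtain ⟨G, hG, hGf⟩ := s4c_chain F r h0 henl E Z hr B P hB hP L (hCne.mono hCL) f hf' ε hε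
  exact ⟨G, hG, fun z hz => hGf z ⟨hCL hz.1, hz.2⟩⟩

end Claimed.Agent.R245
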