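/-
Row 245 / S0484, Section 4. PACKAGE S4-ENL: one face removed, from FaceStmt and TraceGlueStmt.
-/
import Claimed.Agent.R245.S4Tr

set_option autoImplicit false

namespace Claimed.Agent.R245

open MvPolynomial Metric Set Claims.C0412

/-- a real functional is the imaginary part of a complex one -/
theorem s4enl_exists_lin {E : Type*} [NormedAddCommGroup E] [NormedSpace ℂ E] (lam : E →L[ℝ] ℝ) :
    ∃ ℓ₀ : E →L[ℂ] ℂ, ∀ x, (ℓ₀ x).im = lam x := by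
  refine ⟨Complex.I • (StrongDual.extendRCLike (𝕜 := ℂ) lam), fun x => ?_⟩
  have h := StrongDual.re_extendRCLike_apply (𝕜 := ℂ) lam x
  simp only [_root_.smul_apply, smul_eq_mul, Complex.mul_im, Complex.I_re, zero_mul,
    Complex.I_im, one_mul, zero_add]
  exact h

/-- thickening a compact set inside a closed set -/
theorem s4enl_thicken {E : Type*} [NormedAddCommGroup E] [ProperSpace E] {Q H U : Set E}
    (hQ : IsCompact Q) (hH : IsClosed H) (hU : IsOpen U) (h : Q ∩ H ⊆ U) :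
    ∃ η : ℝ, 0 < η ∧ cthickening η Q ∩ H ⊆ U := by
  rcases Q.eq_empty_or_nonempty with rfl | hne
  · exact ⟨1, one_pos, by simp⟩
  set T : Set E := cthickening 1 Q ∩ H ∩ Uᶜ with hT
  have hTc : IsCompact T := (hQ.cthickening.inter_right hH).inter_right hU.isClosed_compl
  have hle : ∀ {η : ℝ} {x : E}, 0 ≤ η → x ∈ cthickening η Q → infDist x Q ≤ η := by
    intro η x hη hx
    rw [mem_cthickening_iff] at hx
    exact ENNReal.toReal_le_of_le_ofReal hη hx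
  rcases T.eq_empty_or_nonempty with hTe | hTne
  · refine ⟨1, one_pos, fun x hx => ?_⟩
    by_contra hxU
    have : x ∈ T := ⟨hx, hxU⟩
    rw [hTe] at this
    exact this
  · obtain ⟨x₀, hx₀, hmin⟩ := hTc.exists_isMinOn hTne (continuous_infDist_pt Q).continuousOn
    have hpos : 0 < infDist x₀ Q := by
      rcases (infDist_nonneg (x := x₀) (s := Q)).lt_or_eq with h1 | h1
      · exact h1
      · exfalso
        have : x₀ ∈ Q := (hQ.isClosed.mem_iff_infDist_zero hne).2 h1.symm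
        exact hx₀.2 (h ⟨this, hx₀.1.2⟩)
    refine ⟨min 1 (infDist x₀ Q / 2), lt_min one_pos (by positivity), fun x hx => ?_⟩
    by_contra hxU
    have hxT : x ∈ T := ⟨⟨cthickening_mono (min_le_left _ _) Q hx.1, hx.2⟩, hxU⟩
    have h1 : infDist x₀ Q ≤ infDist x Q := hmin hxT
    have h2 : infDist x Q ≤ min 1 (infDist x₀ Q / 2) :=
      hle (le_min zero_le_one (by positivity)) hx.1
    have h3 := min_le_right 1 (infDist x₀ Q / 2)
    linarith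

section comp

variable {E₁ E₂ : Type*} [NormedAddCommGroup E₁] [NormedSpace ℂ E₁] [NormedAddCommGroup E₂]
  [NormedSpace ℂ E₂]

theorem s4enl_holNear_comp {F : MvPolynomial (Fin 4) ℂ} (φ : E₁ ≃ᴬ[ℂ] E₂) {f : E₂ → V4}
    {S : Set E₂} {S' : Set E₁} (h : HolNear F f S) (hS : MapsTo φ S' S) : HolNear F (f ∘ φ) S' := by
  obtain ⟨W, hW, hSW, hd, hm⟩ := h
  refine ⟨φ ⁻¹' W, hW.preimage φ.continuous_toFun, fun x hx => hSW (hS hx), ?_, fun x hx => hm hx⟩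
  exact hd.comp (s4tr_differentiable φ).differentiableOn (fun x hx => hx)

theorem s4enl_c1close_comp (φ : E₁ ≃ᴬ[ℂ] E₂) {G f : E₂ → V4} {S : Set E₂} {S' : Set E₁} {ε : ℝ}
    (h : C1Close G f S ε) (hS : MapsTo φ S' S) (hG : ∀ x ∈ S, DifferentiableAt ℂ G x)
    (hf : ∀ x ∈ S, DifferentiableAt ℂ f x) :
    C1Close (G ∘ φ) (f ∘ φ) S' (ε * (1 + ‖φ.toContinuousAffineMap.contLinear‖)) := by
  intro x hx
  obtain ⟨h1, h2⟩ := h (φ x) (hS hx)
  set L := φ.toContinuousAffineMap.contLinear with hL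
  have hφ : HasFDerivAt φ L x := φ.toContinuousAffineMap.hasFDerivAt
  have hε : 0 < ε := lt_of_le_of_lt (norm_nonneg _) h1
  have hL0 : 0 ≤ ‖L‖ := norm_nonneg _
  constructor
  · calc ‖(G ∘ φ) x - (f ∘ φ) x‖ < ε := h1
      _ ≤ ε * (1 + ‖L‖) := by nlinarith
  · have e1 : fderiv ℂ (G ∘ φ) x = (fderiv ℂ G (φ x)).comp L :=
      ((hG _ (hS hx)).hasFDerivAt.comp x hφ).fderiv
    have e2 : fderiv ℂ (f ∘ φ) x = (fderiv ℂ f (φ x)).comp L :=
      ((hf _ (hS hx)).hasFDerivAt.comp x hφ).fderiv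
    rw [e1, e2, ← ContinuousLinearMap.sub_comp]
    calc ‖(fderiv ℂ G (φ x) - fderiv ℂ f (φ x)).comp L‖
        ≤ ‖fderiv ℂ G (φ x) - fderiv ℂ f (φ x)‖ * ‖L‖ := ContinuousLinearMap.opNorm_comp_le _ _
      _ ≤ ‖fderiv ℂ G (φ x) - fderiv ℂ f (φ x)‖ * (1 + ‖L‖) :=
          mul_le_mul_of_nonneg_left (by linarith) (norm_nonneg _)
      _ < ε * (1 + ‖L‖) := mul_lt_mul_of_pos_right h2 (by linarith)

end comp

/-- a connected set which meets `{g ≤ b}` but not `{g = b}` does not meet `{b ≤ g}` -/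
theorem s4enl_face_empty {X : Type*} [TopologicalSpace X] {K : Set X}
    (hK : IsPreconnected K) {g : X → ℝ} (hg : Continuous g) {b : ℝ}
    (h1 : (K ∩ {x | g x ≤ b}).Nonempty) (h2 : K ∩ {x | g x = b} = ∅) : K ∩ {x | b ≤ g x} = ∅ := by
  by_contra hne
  obtain ⟨y, hyK, hy⟩ := nonempty_iff_ne_empty.2 hne
  obtain ⟨x, hxK, hx⟩ := h1
  obtain ⟨z, hzK, hz⟩ := hK.intermediate_value hxK hyK hg.continuousOn
    (show b ∈ Icc (g x) (g y) from ⟨hx, hy⟩)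
  have : z ∈ K ∩ {x | g x = b} := ⟨hzK, hz⟩
  rw [h2] at this
  exact this

/-- linear coordinates `E ≃ ℂ × ker ℓ₀` -/
noncomputable def s4enlLin {E : Type*} [NormedAddCommGroup E] [NormedSpace ℂ E]
    [FiniteDimensional ℂ E] (ℓ₀ : E →L[ℂ] ℂ) (e₁ : E) (h1 : ℓ₀ e₁ = 1) :
    E ≃L[ℂ] ℂ × LinearMap.ker ℓ₀.toLinearMap :=
  LinearEquiv.toContinuousLinearEquiv
    { toFun := fun x => (ℓ₀ x, ⟨x - ℓ₀ x • e₁, by simp [h1]⟩)
      map_add' := fun x y => by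
        ext
        · simp
        · simp only [map_add, add_smul, Prod.mk_add_mk, AddMemClass.mk_add_mk]
          abel
      map_smul' := fun c x => by
        ext
        · simp
        · simp only [map_smul, smul_eq_mul, RingHom.id_apply, Prod.smul_mk, SetLike.mk_smul_mk,
            smul_sub, mul_smul]
      invFun := fun p => p.1 • e₁ + (p.2 : E)
      left_inv := fun x => by simp
      right_inv := fun p => by
        have h2 : ℓ₀ (p.2 : E) = 0 := p.2.2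
        ext
        · simp [h1, h2]
        · simp [h1, h2] }

theorem s4enlLin_fst {E : Type*} [NormedAddCommGroup E] [NormedSpace ℂ E]
    [FiniteDimensional ℂ E] (ℓ₀ : E →L[ℂ] ℂ) (e₁ : E) (h1 : ℓ₀ e₁ = 1) (x : E) :
    (s4enlLin ℓ₀ e₁ h1 x).1 = ℓ₀ x := rfl

/-- affine coordinates in which `{Im ℓ₀ = b}` becomes `{Im z₁ = 0}` -/
theorem s4enl_coords {E : Type*} [NormedAddCommGroup E] [NormedSpace ℂ E] [FiniteDimensional ℂ E]
    (ℓ₀ : E →L[ℂ] ℂ) (hℓ : ℓ₀ ≠ 0) (b : ℝ) :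
    ∃ Ψ : E ≃ᴬ[ℂ] ℂ × LinearMap.ker ℓ₀.toLinearMap, ∀ x, (Ψ x).1 = ℓ₀ x - Complex.I * b := by
  obtain ⟨x₀, hx₀⟩ : ∃ x₀, ℓ₀ x₀ ≠ 0 := by
    by_contra hcon
    push Not at hcon
    exact hℓ (ContinuousLinearMap.ext hcon)
  have h1 : ℓ₀ ((ℓ₀ x₀)⁻¹ • x₀) = 1 := by
    rw [map_smul, smul_eq_mul, inv_mul_cancel₀ hx₀]
  refine ⟨(s4enlLin ℓ₀ _ h1).toContinuousAffineEquiv.trans
    (ContinuousAffineEquiv.constVAdd ℂ _ (-(Complex.I * b), 0)), fun x => ?_⟩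
  show (-(Complex.I * b) + (s4enlLin ℓ₀ _ h1 x).1) = _
  rw [s4enlLin_fst]
  ring

/-- PACKAGE S4-ENL. One face removed: coordinates `E ≃ ℂ × ker ℓ₀`, `lam = Im ℓ₀`, thickening
`(Q + η B) ∩ {lam ≤ b} → Q ∩ {lam ≤ b}`, then `TraceGlueStmt` on `X = E × Z`, `K = Q × P`,
`K⁺ = Q⁺ × P⁺`, and `FaceStmt` applied to the spray `s` with passive polydisc `P⁺ × closedBall 0 β`. -/
theorem s4_enlarge (F : MvPolynomial (Fin 4) ℂ) (n : ℕ) (hface : FaceStmt F n)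
    (htg : TraceGlueStmt F) : EnlargeStmt F (n + 1) := by
  intro E Z _ _ _ _ _ _ hr Q P lam b hQ hQc hne hP f hf ε hε
  obtain ⟨ℓ₀, hℓ₀⟩ := s4enl_exists_lin lam
  by_cases hlam : ℓ₀ = 0
  · -- `lam = 0`
    have h0 : ∀ x, lam x = 0 := fun x => by rw [← hℓ₀, hlam]; simp
    obtain ⟨x₀, -, hx₀⟩ := hne
    have hb : 0 ≤ b := by
      have : lam x₀ ≤ b := hx₀
      rwa [h0] at this
    have e : Q ∩ {x | lam x ≤ b} = Q := by
      ext x
      simp [h0, hb]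
    rw [e] at hf ⊢
    exact ⟨f, hf, fun x _ => by simpa using hε⟩
  obtain ⟨hPc, hPcv, hPne⟩ := s4_isPolydisc_props hP
  obtain ⟨W, hW, hSW, hfW⟩ := hf
  have hcl : IsClosed {x : E | lam x ≤ b} := isClosed_le lam.continuous continuous_const
  obtain ⟨U, V, hU, hV, hAU, hPV, hUV⟩ := generalized_tube_lemma (hQ.inter_right hcl) hPc hW hSW
  obtain ⟨Pp, hPp, hPPp, hPpV⟩ := s4_isPolydisc_enlarge hP hV hPV
  obtain ⟨hPpc, hPpcv, -⟩ := s4_isPolydisc_props hPp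
  obtain ⟨η, hη, hηU⟩ := s4enl_thicken hQ hcl hU hAU
  set Qη := cthickening η Q with hQη
  have hQηc : IsCompact Qη := hQ.cthickening
  have hQηcv : Convex ℝ Qη := hQc.cthickening η
  have hQQη : Q ⊆ interior Qη :=
    (self_subset_thickening hη Q).trans (thickening_subset_interior_cthickening η Q)
  set ℓ : E × Z →L[ℂ] ℂ := ℓ₀.comp (ContinuousLinearMap.fst ℂ E Z) with hℓdef
  have hℓim : ∀ x : E × Z, (ℓ x).im = lam x.1 := fun x => hℓ₀ x.1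
  have hℓ : ℓ ≠ 0 := by
    intro h0
    apply hlam
    ext x
    have := congrArg (fun L : E × Z →L[ℂ] ℂ => L (x, 0)) h0
    simpa [hℓdef] using this
  have hsub : Q ×ˢ P ⊆ interior (Qη ×ˢ Pp) := by
    rw [interior_prod_eq]
    exact prod_mono hQQη hPPp
  have hfK : HolNear F f ((Qη ×ˢ Pp) ∩ {x | (ℓ x).im ≤ b}) := by
    refine ⟨W, hW, ?_, hfW⟩
    rintro ⟨x, u⟩ ⟨⟨hx, hu⟩, hxb⟩
    refine hUV ⟨hηU ⟨hx, ?_⟩, hPpV hu⟩
    have : (ℓ (x, u)).im ≤ b := hxb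
    rwa [hℓim] at this
  obtain ⟨β, s, hβ, hs, -, hglue⟩ := htg (E × Z) ℓ b (Q ×ˢ P) (Qη ×ˢ Pp) hℓ (hQ.prod hPc)
    (hQc.prod hPcv) (hQηc.prod hPpc) (hQηcv.prod hPpcv) hsub f hfK
  obtain ⟨e₀, he₀, hG⟩ := hglue ε hε
  suffices hex : ∃ G : (E × Z) × V4 → V4,
      HolNear F G (((Qη ×ˢ Pp) ∩ {x | b ≤ (ℓ x).im}) ×ˢ closedBall (0 : V4) β) ∧
      C1Close G s (((Qη ×ˢ Pp) ∩ {x | (ℓ x).im = b}) ×ˢ closedBall (0 : V4) β) e₀ by
    obtain ⟨G, hG1, hG2⟩ := hex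
    obtain ⟨g, hg1, hg2⟩ := hG G hG1 hG2
    refine ⟨g, hg1, fun x hx => hg2 x ⟨hx.1.1, hx.2⟩ ?_⟩
    rw [hℓim]
    exact hx.1.2
  by_cases hfe : (Qη ×ˢ Pp) ∩ {x | (ℓ x).im = b} = ∅
  · -- the face is empty
    have hne' : ((Qη ×ˢ Pp) ∩ {x | (ℓ x).im ≤ b}).Nonempty := by
      obtain ⟨x₀, hx₀Q, hx₀⟩ := hne
      obtain ⟨u₀, hu₀⟩ := hPne
      refine ⟨(x₀, u₀), ⟨interior_subset (hQQη hx₀Q), interior_subset (hPPp hu₀)⟩, ?_⟩
      show (ℓ (x₀, u₀)).im ≤ b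
      rw [hℓim]
      exact hx₀
    have h2 := s4enl_face_empty (hQηcv.isPreconnected.prod hPpcv.isPreconnected) (g := fun x => (ℓ x).im)
      (Complex.continuous_im.comp ℓ.continuous) hne' hfe
    refine ⟨fun _ => 0, ?_, ?_⟩
    · rw [h2, empty_prod]
      exact ⟨∅, isOpen_empty, Subset.rfl, differentiableOn_empty, mapsTo_empty _ _⟩
    · rw [hfe, empty_prod]
      intro x hx
      exact hx.elim
  · -- the face is not empty
    obtain ⟨Ψ, hΨ⟩ := s4enl_coords ℓ₀ hlam b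
    set Θ : (E × Z) × V4 ≃ᴬ[ℂ] (ℂ × LinearMap.ker ℓ₀.toLinearMap) × (Z × V4) :=
      ((Ψ.prodCongr (ContinuousAffineEquiv.refl ℂ Z)).prodCongr
        (ContinuousAffineEquiv.refl ℂ V4)).trans
        (ContinuousLinearEquiv.prodAssoc ℂ (ℂ × LinearMap.ker ℓ₀.toLinearMap) Z
          V4).toContinuousAffineEquiv with hΘdef
    have hΘ : ∀ x u v, Θ ((x, u), v) = (Ψ x, (u, v)) := fun x u v => rfl
    set Φ : Set E := Qη ∩ {x | lam x = b} with hΦ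
    have hΦne : Φ.Nonempty := by
      obtain ⟨⟨x, u⟩, ⟨hx, -⟩, hxb⟩ := nonempty_iff_ne_empty.2 hfe
      refine ⟨x, hx, ?_⟩
      have : (ℓ (x, u)).im = b := hxb
      rwa [hℓim] at this
    have hΦc : IsCompact Φ := hQηc.inter_right (isClosed_eq lam.continuous continuous_const)
    have hΦcv : Convex ℝ Φ := hQηcv.inter (convex_hyperplane lam.toLinearMap.isLinear b)
    have hfin : Module.finrank ℂ (LinearMap.ker ℓ₀.toLinearMap) = n := by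
      have h1 := Module.Dual.finrank_ker_add_one_of_ne_zero (f := ℓ₀.toLinearMap) (fun h0 =>
        hlam (ContinuousLinearMap.coe_injective h0))
      omega
    have hPB : IsPolydisc (Pp ×ˢ closedBall (0 : V4) β) :=
      s4_isPolydisc_prod hPp (s4_isPolydisc_closedBall 4 β hβ)
    have hmaps : MapsTo Θ.symm ((Ψ '' Φ) ×ˢ (Pp ×ˢ closedBall (0 : V4) β))
        (((Qη ×ˢ Pp) ∩ {x | (ℓ x).im ≤ b}) ×ˢ closedBall (0 : V4) β) := by
      rintro ⟨_, u, v⟩ ⟨⟨x, hx, rfl⟩, hu, hv⟩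
      rw [← hΘ, Θ.symm_apply_apply]
      refine ⟨⟨⟨hx.1, hu⟩, ?_⟩, hv⟩
      show (ℓ (x, u)).im ≤ b
      rw [hℓim]
      exact le_of_eq hx.2
    have hf' : HolNear F (s ∘ Θ.symm) ((Ψ '' Φ) ×ˢ (Pp ×ˢ closedBall (0 : V4) β)) :=
      s4enl_holNear_comp Θ.symm hs hmaps
    set L := Θ.toContinuousAffineMap.contLinear with hL
    have hL0 : 0 < 1 + ‖L‖ := by positivity
    obtain ⟨G', hG'e, hG'c⟩ := hface (LinearMap.ker ℓ₀.toLinearMap) (Z × V4) hfin (Ψ '' Φ)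
      (Pp ×ˢ closedBall (0 : V4) β) (hΦc.image Ψ.continuous_toFun) (s4tr_convex_image Ψ hΦcv)
      (hΦne.image _) (by
        rintro _ ⟨x, hx, rfl⟩
        rw [hΨ]
        have : lam x = b := hx.2
        simp [hℓ₀, this]) hPB (s ∘ Θ.symm) hf' (e₀ / (1 + ‖L‖)) (div_pos he₀ hL0)
    refine ⟨G' ∘ Θ, ⟨univ, isOpen_univ, subset_univ _,
      (hG'e.1.comp (s4tr_differentiable Θ)).differentiableOn, fun x _ => hG'e.2 _⟩, ?_⟩
    have hmaps' : MapsTo Θ (((Qη ×ˢ Pp) ∩ {x | (ℓ x).im = b}) ×ˢ closedBall (0 : V4) β)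
        ((Ψ '' Φ) ×ˢ (Pp ×ˢ closedBall (0 : V4) β)) := by
      rintro ⟨⟨x, u⟩, v⟩ ⟨⟨⟨hx, hu⟩, hxb⟩, hv⟩
      rw [hΘ]
      refine ⟨⟨x, ⟨hx, ?_⟩, rfl⟩, hu, hv⟩
      have : (ℓ (x, u)).im = b := hxb
      rwa [hℓim] at this
    obtain ⟨W', hW', hSW', hd', -⟩ := hf'
    have h3 := s4enl_c1close_comp Θ hG'c hmaps' (fun x _ => hG'e.1 x)
      (fun x hx => hd'.differentiableAt (hW'.mem_nhds (hSW' hx)))
    have e1 : (s ∘ Θ.symm) ∘ Θ = s := by
      funext x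
      simp
    rw [e1, ← hL, div_mul_cancel₀ _ hL0.ne'] at h3
    exact h3

end Claimed.Agent.R245
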