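/-
Row 245 / S0484, Section 4, block FACE, package S4F-FAM, part A: the geometric context.
Sub-architect: helper60.

NOT the paper's subdivision (no semicontinuity of slices, no Lebesgue number).  We use a UNIFORM mesh
`h` and *slabs*: `slab a b` = projection to `E'` of the part of the face over `[a,b]` (compact, convex).
The piece with right end `c` is `[c-h, c]`, the extended piece `[c-h-h/4, c+h/4]`;
`Cc c` = closed `2κ`-thickening of the slab of the extended piece, `Dd c` = closed disc of radius `h`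
around the midpoint `c-h/2`.  At a division point `b` the transition interval is `[b-h/4, b+h/4]`,
`Cm b ⊂ int Cb b` are the closed `κ`- and `2κ`-thickenings of its slab, `Db b` = closed disc `(b, h/2)`.
Everything is elementary metric geometry; all maps are written in the arrangement
`fh (y, (σ, u)) = f ((σ, y), u)`.
-/
import Claimed.Agent.R245.S4FDefs
import Claimed.Agent.R245.S4Tr

set_option autoImplicit false
set_option linter.unusedSectionVars false

namespace Claimed.Agent.R245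

open MvPolynomial Metric Set Claims.C0412

/-- the fixed data of the proof of `FamStmt` (everything that is chosen before the accuracy) -/
structure S4FamCtx (F : MvPolynomial (Fin 4) ℂ) (E' Z : Type) [NormedAddCommGroup E']
    [NormedSpace ℂ E'] [NormedAddCommGroup Z] [NormedSpace ℂ Z] where
  Fc : Set (ℂ × E')
  B : Set E'
  P' : Set Z
  fh : E' × (ℂ × Z) → V4
  Wh : Set (E' × (ℂ × Z))
  κ : ℝ
  h : ℝ
  κ_pos : 0 < κ
  h_pos : 0 < h
  Fc_compact : IsCompact Fc
  Fc_convex : Convex ℝ Fc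
  Fc_im : ∀ z ∈ Fc, z.1.im = 0
  B_poly : IsPolydisc B
  P_poly : IsPolydisc P'
  Wh_open : IsOpen Wh
  fh_hol : HolOn F fh Wh
  sub_B : ∀ z ∈ Fc, closedBall z.2 (2 * κ) ⊆ B
  sub_W : ∀ z ∈ Fc, ∀ y ∈ closedBall z.2 (2 * κ), ∀ σ ∈ closedBall z.1 (2 * h), ∀ u ∈ P',
    (y, (σ, u)) ∈ Wh

namespace S4FamCtx

variable {F : MvPolynomial (Fin 4) ℂ} {E' Z : Type} [NormedAddCommGroup E'] [NormedSpace ℂ E']
  [NormedAddCommGroup Z] [NormedSpace ℂ Z] (G : S4FamCtx F E' Z)

/-- the projection to `E'` of the part of the face over `[a,b]` -/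
def slab (a b : ℝ) : Set E' := Prod.snd '' (G.Fc ∩ {z | z.1.re ∈ Icc a b})

/-- convex factor of the piece with right end `c` -/
def Cc (c : ℝ) : Set E' := cthickening (2 * G.κ) (G.slab (c - G.h - G.h / 4) (c + G.h / 4))

/-- passive `t`-disc of the piece with right end `c` -/
def Dd (c : ℝ) : Set ℂ := closedBall (((c - G.h / 2 : ℝ) : ℂ)) G.h

/-- small convex set at the division point `b` -/
def Cm (b : ℝ) : Set E' := cthickening G.κ (G.slab (b - G.h / 4) (b + G.h / 4))

/-- large convex set at the division point `b` -/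
def Cb (b : ℝ) : Set E' := cthickening (2 * G.κ) (G.slab (b - G.h / 4) (b + G.h / 4))

/-- passive `t`-disc at the division point `b` -/
def Db (b : ℝ) : Set ℂ := closedBall (b : ℂ) (G.h / 2)

theorem mem_slab {z : ℂ × E'} (hz : z ∈ G.Fc) {a b : ℝ} (h : z.1.re ∈ Icc a b) :
    z.2 ∈ G.slab a b := by
  exact ⟨z, ⟨hz, h⟩, rfl⟩

theorem slab_mono {a b a' b' : ℝ} (ha : a' ≤ a) (hb : b ≤ b') : G.slab a b ⊆ G.slab a' b' := by
  rintro _ ⟨z, ⟨hz, h⟩, rfl⟩
  exact ⟨z, ⟨hz, ⟨ha.trans h.1, h.2.trans hb⟩⟩, rfl⟩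

theorem slab_compact (a b : ℝ) : IsCompact (G.slab a b) := by
  have hcl : IsClosed {z : ℂ × E' | z.1.re ∈ Icc a b} :=
    isClosed_Icc.preimage (Complex.continuous_re.comp continuous_fst)
  exact (G.Fc_compact.inter_right hcl).image continuous_snd

theorem slab_convex (a b : ℝ) : Convex ℝ (G.slab a b) := by
  have h1 : Convex ℝ {z : ℂ × E' | z.1.re ∈ Icc a b} :=
    (convex_Icc a b).linear_preimage (Complex.reLm.comp (LinearMap.fst ℝ ℂ E'))
  exact (G.Fc_convex.inter h1).linear_image (LinearMap.snd ℝ ℂ E')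

/-- a point of a closed thickening of a slab is close to a point of the face -/
theorem exists_of_mem_cthickening_slab {a b r : ℝ} (hr : 0 ≤ r) {y : E'}
    (hy : y ∈ cthickening r (G.slab a b)) :
    ∃ z ∈ G.Fc, z.1.re ∈ Icc a b ∧ y ∈ closedBall z.2 r := by
  rw [(G.slab_compact a b).cthickening_eq_biUnion_closedBall hr] at hy
  simp only [mem_iUnion, exists_prop] at hy
  obtain ⟨_, ⟨z, ⟨hz, h⟩, rfl⟩, hy⟩ := hy
  exact ⟨z, hz, h, hy⟩

variable [FiniteDimensional ℂ E']

theorem Cc_compact (c : ℝ) : IsCompact (G.Cc c) := by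
  have : ProperSpace E' := FiniteDimensional.proper ℂ E'
  exact (G.slab_compact _ _).cthickening

theorem Cc_convex (c : ℝ) : Convex ℝ (G.Cc c) := by
  exact (G.slab_convex _ _).cthickening _

theorem Cc_nonempty {c : ℝ} (hc : ∃ z ∈ G.Fc, z.1.re ∈ Icc (c - G.h - G.h / 4) (c + G.h / 4)) :
    (G.Cc c).Nonempty := by
  obtain ⟨z, hz, h⟩ := hc
  exact ⟨z.2, self_subset_cthickening _ (G.mem_slab hz h)⟩

theorem Cc_prod_sub (c : ℝ) : G.Cc c ×ˢ (G.Dd c ×ˢ G.P') ⊆ G.Wh := by
  rintro ⟨y, σ, u⟩ ⟨hy, hσ, hu⟩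
  have hκ : 0 ≤ 2 * G.κ := by have := G.κ_pos; linarith
  obtain ⟨z, hz, hre, hyz⟩ := G.exists_of_mem_cthickening_slab hκ hy
  refine G.sub_W z hz y hyz σ ?_ u hu
  have hz1 : z.1 = ((z.1.re : ℝ) : ℂ) := Complex.ext (by simp) (by simp [G.Fc_im z hz])
  have hσ' : dist σ (((c - G.h / 2 : ℝ) : ℂ)) ≤ G.h := hσ
  have h2 : dist (((c - G.h / 2 : ℝ) : ℂ)) z.1 ≤ 3 * G.h / 4 := by
    rw [hz1, Complex.dist_eq, ← Complex.ofReal_sub, Complex.norm_real, Real.norm_eq_abs, abs_le]
    constructor <;> [linarith [hre.2]; linarith [hre.1]]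
  rw [mem_closedBall]
  have := dist_triangle σ (((c - G.h / 2 : ℝ) : ℂ)) z.1
  have := G.h_pos
  linarith

theorem Cm_compact (b : ℝ) : IsCompact (G.Cm b) := by
  have : ProperSpace E' := FiniteDimensional.proper ℂ E'
  exact (G.slab_compact _ _).cthickening

theorem Cm_convex (b : ℝ) : Convex ℝ (G.Cm b) := by
  exact (G.slab_convex _ _).cthickening _

theorem Cm_nonempty {b : ℝ} (hb : ∃ z ∈ G.Fc, z.1.re = b) : (G.Cm b).Nonempty := by
  obtain ⟨z, hz, h⟩ := hb
  have := G.h_pos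
  exact ⟨z.2, self_subset_cthickening _ (G.mem_slab hz ⟨by linarith, by linarith⟩)⟩

theorem Cb_compact (b : ℝ) : IsCompact (G.Cb b) := by
  have : ProperSpace E' := FiniteDimensional.proper ℂ E'
  exact (G.slab_compact _ _).cthickening

theorem Cb_convex (b : ℝ) : Convex ℝ (G.Cb b) := by
  exact (G.slab_convex _ _).cthickening _

theorem Cm_sub_interior_Cb (b : ℝ) : G.Cm b ⊆ interior (G.Cb b) := by
  have hκ := G.κ_pos
  have h1 : G.Cm b ⊆ thickening (2 * G.κ) (G.slab (b - G.h / 4) (b + G.h / 4)) :=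
    cthickening_subset_thickening' (by linarith) (by linarith) _
  exact h1.trans (interior_maximal (thickening_subset_cthickening _ _) isOpen_thickening)

theorem Cb_sub_B (b : ℝ) : G.Cb b ⊆ G.B := by
  intro y hy
  have hκ : 0 ≤ 2 * G.κ := by have := G.κ_pos; linarith
  obtain ⟨z, hz, -, hyz⟩ := G.exists_of_mem_cthickening_slab hκ hy
  exact G.sub_B z hz hyz

theorem Cb_sub_Cc_left (b : ℝ) : G.Cb b ⊆ G.Cc b := by
  have := G.h_pos
  exact cthickening_subset_of_subset _ (G.slab_mono (by linarith) le_rfl)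

theorem Cb_sub_Cc_right (b : ℝ) : G.Cb b ⊆ G.Cc (b + G.h) := by
  have := G.h_pos
  exact cthickening_subset_of_subset _ (G.slab_mono (by linarith) (by linarith))

theorem Db_sub_Dd_left (b : ℝ) : G.Db b ⊆ G.Dd b := by
  have := G.h_pos
  refine closedBall_subset_closedBall' ?_
  rw [Complex.dist_eq, ← Complex.ofReal_sub, Complex.norm_real, Real.norm_eq_abs]
  have : |b - (b - G.h / 2)| = G.h / 2 := by
    rw [abs_of_nonneg] <;> linarith
  linarith

theorem Db_sub_Dd_right (b : ℝ) : G.Db b ⊆ G.Dd (b + G.h) := by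
  have := G.h_pos
  refine closedBall_subset_closedBall' ?_
  rw [Complex.dist_eq, ← Complex.ofReal_sub, Complex.norm_real, Real.norm_eq_abs]
  have : |b - (b + G.h - G.h / 2)| = G.h / 2 := by
    rw [abs_of_nonpos] <;> linarith
  linarith

theorem ball_sub_Cm {z : ℂ × E'} (hz : z ∈ G.Fc) {b : ℝ}
    (h : z.1.re ∈ Icc (b - G.h / 4) (b + G.h / 4)) : closedBall z.2 G.κ ⊆ G.Cm b := by
  exact closedBall_subset_cthickening (G.mem_slab hz h) _

theorem ball_sub_Cc {z : ℂ × E'} (hz : z ∈ G.Fc) {c : ℝ}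
    (h : z.1.re ∈ Icc (c - G.h - G.h / 4) (c + G.h / 4)) : closedBall z.2 G.κ ⊆ G.Cc c := by
  have := G.κ_pos
  exact (closedBall_subset_closedBall (by linarith)).trans
    (closedBall_subset_cthickening (G.mem_slab hz h) _)

theorem ball_sub_B {z : ℂ × E'} (hz : z ∈ G.Fc) : closedBall z.2 G.κ ⊆ G.B := by
  have := G.κ_pos
  exact (closedBall_subset_closedBall (by linarith)).trans (G.sub_B z hz)

theorem disc_sub_Dd {c t : ℝ} (ht : t ∈ Icc (c - G.h - G.h / 4) (c + G.h / 4)) :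
    closedBall (t : ℂ) (G.h / 4) ⊆ G.Dd c := by
  refine closedBall_subset_closedBall' ?_
  rw [Complex.dist_eq, ← Complex.ofReal_sub, Complex.norm_real, Real.norm_eq_abs]
  have : |t - (c - G.h / 2)| ≤ 3 * G.h / 4 := by
    rw [abs_le]
    constructor <;> [linarith [ht.1]; linarith [ht.2]]
  linarith

theorem disc_sub_Db {b t : ℝ} (ht : t ∈ Icc (b - G.h / 4) (b + G.h / 4)) :
    closedBall (t : ℂ) (G.h / 4) ⊆ G.Db b := by
  refine closedBall_subset_closedBall' ?_
  rw [Complex.dist_eq, ← Complex.ofReal_sub, Complex.norm_real, Real.norm_eq_abs]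
  have : |t - b| ≤ G.h / 4 := by
    rw [abs_le]
    constructor <;> [linarith [ht.1]; linarith [ht.2]]
  linarith

/-- the set of real parts of the face is an interval -/
theorem exists_re_eq {z₁ z₂ : ℂ × E'} (h₁ : z₁ ∈ G.Fc) (h₂ : z₂ ∈ G.Fc) {a : ℝ}
    (ha : a ∈ Icc z₁.1.re z₂.1.re) : ∃ z ∈ G.Fc, z.1.re = a := by
  have hseg : a ∈ segment ℝ z₁.1.re z₂.1.re := by
    rw [segment_eq_Icc (ha.1.trans ha.2)]
    exact ha
  obtain ⟨s, t, hs, ht, hst, rfl⟩ := hseg
  refine ⟨s • z₁ + t • z₂, G.Fc_convex h₁ h₂ hs ht hst, ?_⟩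
  simp

end S4FamCtx

end Claimed.Agent.R245
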