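/-
Row 245 / S0484.  Tool layer T1 (several complex variables), statements: helper98.
Package T1-EST: Cauchy estimates on balls of a complex normed space.
ONE FILE = ONE PACKAGE = ONE OWNER.  Do not change the statements; helper lemmas: prefix `scv_`, keep them in this file.
-/
import Mathlib

set_option autoImplicit false

namespace Claimed.Agent.R245

open Set Metric Filter Topology MeasureTheory

variable {E E₁ E₂ G : Type*} [NormedAddCommGroup E] [NormedSpace ℂ E]
  [NormedAddCommGroup E₁] [NormedSpace ℂ E₁] [NormedAddCommGroup E₂] [NormedSpace ℂ E₂]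
  [NormedAddCommGroup G] [NormedSpace ℂ G] [CompleteSpace G]

/-- passing to the limit `R → R₀` in `x ≤ M / R` -/
theorem scv_le_div_of_forall_lt {x M R₀ : ℝ} (hM : 0 ≤ M) (hR₀ : 0 < R₀)
    (h : ∀ R, 0 < R → R < R₀ → x ≤ M / R) : x ≤ M / R₀ := by
  refine le_of_forall_gt_imp_ge_of_dense fun a ha => ?_
  have ha0 : 0 < a := lt_of_le_of_lt (div_nonneg hM hR₀.le) ha
  have h1 : M / a < R₀ := by
    rw [div_lt_iff₀ ha0]
    rw [div_lt_iff₀ hR₀] at ha
    linarith
  have h0 : 0 ≤ M / a := div_nonneg hM ha0.le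
  have hR : 0 < (M / a + R₀) / 2 := by linarith
  refine (h ((M / a + R₀) / 2) hR (by linarith)).trans ?_
  rw [div_le_iff₀ hR]
  have h2 : M = a * (M / a) := by field_simp
  nlinarith

/-- the Cauchy estimate along one complex line -/
theorem scv_norm_fderiv_apply_le {g : E → G} {c : E} {β M : ℝ}
    (hg : DifferentiableOn ℂ g (ball c β)) (hM : ∀ v ∈ ball c β, ‖g v‖ ≤ M) {v : E}
    (hv : v ∈ ball c β) (h : E) {R : ℝ} (hR : 0 < R) (hRh : R * ‖h‖ < β - dist v c) :
    ‖fderiv ℂ g v h‖ ≤ M / R := by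
  have hmem : ∀ z ∈ closedBall (0 : ℂ) R, v + z • h ∈ ball c β := by
    intro z hz
    rw [mem_closedBall_zero_iff] at hz
    rw [mem_ball]
    calc dist (v + z • h) c ≤ dist (v + z • h) v + dist v c := dist_triangle _ _ _
      _ = ‖z‖ * ‖h‖ + dist v c := by rw [dist_eq_norm, add_sub_cancel_left, norm_smul]
      _ ≤ R * ‖h‖ + dist v c := by gcongr
      _ < β := by linarith
  have hline : ∀ z : ℂ, HasDerivAt (fun z : ℂ => v + z • h) h z := by
    intro z
    simpa using ((hasDerivAt_id z).smul_const h).const_add v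
  have hd : ∀ z ∈ closedBall (0 : ℂ) R, DifferentiableAt ℂ (fun z : ℂ => g (v + z • h)) z := by
    intro z hz
    have h1 : DifferentiableAt ℂ g (v + z • h) :=
      (hg _ (hmem z hz)).differentiableAt (isOpen_ball.mem_nhds (hmem z hz))
    exact h1.comp z (hline z).differentiableAt
  have hdc : DiffContOnCl ℂ (fun z : ℂ => g (v + z • h)) (ball 0 R) := by
    refine DifferentiableOn.diffContOnCl ?_
    rw [closure_ball _ hR.ne']
    exact fun z hz => (hd z hz).differentiableWithinAt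
  have hbd := Complex.norm_deriv_le_of_forall_mem_sphere_norm_le hR hdc
    (C := M) (fun z hz => hM _ (hmem z (sphere_subset_closedBall hz)))
  have hderiv : deriv (fun z : ℂ => g (v + z • h)) 0 = fderiv ℂ g v h := by
    have h1 : HasFDerivAt g (fderiv ℂ g v) (v + (0 : ℂ) • h) := by
      rw [zero_smul, add_zero]
      exact ((hg v hv).differentiableAt (isOpen_ball.mem_nhds hv)).hasFDerivAt
    exact (h1.comp_hasDerivAt (0 : ℂ) (hline 0)).deriv
  rwa [hderiv] at hbd

/-- **Cauchy estimate on a ball** of an arbitrary complex normed space.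
Route: for `h : E` and `0 < R`, `R * ‖h‖ < β - dist v c`, the function `λ ↦ g (v + λ • h)` is differentiable on a
neighbourhood of `closedBall 0 R` and bounded by `M`; `Complex.norm_deriv_le_of_forall_mem_sphere_norm_le` gives
`‖fderiv ℂ g v h‖ ≤ M / R`; let `R * ‖h‖ → β - dist v c`; `ContinuousLinearMap.opNorm_le_bound`. -/
theorem scv_norm_fderiv_le {g : E → G} {c : E} {β M : ℝ} (hg : DifferentiableOn ℂ g (ball c β))
    (hM : ∀ v ∈ ball c β, ‖g v‖ ≤ M) {v : E} (hv : v ∈ ball c β) :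
    ‖fderiv ℂ g v‖ ≤ M / (β - dist v c) := by
  have hδ : 0 < β - dist v c := sub_pos.2 (mem_ball.1 hv)
  have hM0 : 0 ≤ M := (norm_nonneg _).trans (hM v hv)
  refine ContinuousLinearMap.opNorm_le_bound _ (div_nonneg hM0 hδ.le) fun h => ?_
  by_cases hh : h = 0
  · simp [hh]
  have hh0 : 0 < ‖h‖ := norm_pos_iff.2 hh
  have key : ‖fderiv ℂ g v h‖ ≤ M / ((β - dist v c) / ‖h‖) := by
    refine scv_le_div_of_forall_lt hM0 (div_pos hδ hh0) fun R hR hR' => ?_
    exact scv_norm_fderiv_apply_le hg hM hv h hR ((lt_div_iff₀ hh0).1 hR')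
  calc ‖fderiv ℂ g v h‖ ≤ M / ((β - dist v c) / ‖h‖) := key
    _ = M / (β - dist v c) * ‖h‖ := by field_simp

/-- **Lipschitz estimate on the half ball.**  From `scv_norm_fderiv_le` (`‖fderiv‖ ≤ M / (β/2)` on `ball c (β/2)`) and
`Convex.norm_image_sub_le_of_norm_fderiv_le` (restrict scalars to `ℝ` or use the `𝕜 = ℂ` version). -/
theorem scv_lipschitz {g : E → G} {c : E} {β M : ℝ} (hg : DifferentiableOn ℂ g (ball c β))
    (hM : ∀ v ∈ ball c β, ‖g v‖ ≤ M) {v₁ v₂ : E} (h₁ : v₁ ∈ ball c (β / 2))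
    (h₂ : v₂ ∈ ball c (β / 2)) : ‖g v₁ - g v₂‖ ≤ 2 * M / β * ‖v₁ - v₂‖ := by
  have hβ : 0 < β := by
    have := (dist_nonneg (x := v₁) (y := c)).trans_lt (mem_ball.1 h₁)
    linarith
  have hsub : ball c (β / 2) ⊆ ball c β := ball_subset_ball (by linarith)
  have hM0 : 0 ≤ M := (norm_nonneg _).trans (hM v₁ (hsub h₁))
  refine Convex.norm_image_sub_le_of_norm_fderiv_le (𝕜 := ℂ) (s := ball c (β / 2))
    (fun x hx => (hg x (hsub hx)).differentiableAt (isOpen_ball.mem_nhds (hsub hx)))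
    (fun x hx => ?_) (convex_ball c (β / 2)) h₂ h₁
  refine (scv_norm_fderiv_le hg hM (hsub hx)).trans ?_
  have hx' : dist x c < β / 2 := mem_ball.1 hx
  rw [div_le_div_iff₀ (by linarith) hβ]
  nlinarith

end Claimed.Agent.R245
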