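/-
Row 245 / S0484.  Tool layer T1 (several complex variables), statements: helper98.
Package T1-PART: joint continuity of a partial Frechet derivative.
ONE FILE = ONE PACKAGE = ONE OWNER.  Do not change the statements; helper lemmas: prefix `scv_`, keep them in this file.
-/
import Mathlib

set_option autoImplicit false

namespace Claimed.Agent.R245

open Set Metric Filter Topology MeasureTheory

variable {E E₁ E₂ G : Type*} [NormedAddCommGroup E] [NormedSpace ℂ E]
  [NormedAddCommGroup E₁] [NormedSpace ℂ E₁] [NormedAddCommGroup E₂] [NormedSpace ℂ E₂]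
  [NormedAddCommGroup G] [NormedSpace ℂ G] [CompleteSpace G]

/-- **Joint continuity of a partial derivative.**
Route: `E₁` is finite dimensional, so by `continuousOn_clm_apply` it is enough to fix `h : E₁`.  Near `z₀ ∈ U` choose
`r > 0` with `(z.1 + λ • h, z.2) ∈ U` for `z` near `z₀`, `‖λ‖ ≤ r`.  Then
`fderiv … z.1 h = deriv (fun λ => f (z.1 + λ • h, z.2)) 0 = (2πi)⁻¹ • ∮ λ in C(0,r), (λ^2)⁻¹ • f (z.1 + λ • h, z.2)`
(`Complex.deriv_eq_smul_circleIntegral` / `Complex.two_pi_I_inv_smul_circleIntegral_sub_sq_inv_smul_of_differentiable`)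
and the circle integral depends continuously on `z` (continuity of `f` on a compact neighbourhood;
`intervalIntegral.continuousAt_of_dominated_interval`). -/
theorem scv_continuousOn_partial [FiniteDimensional ℂ E₁] {f : E₁ × E₂ → G} {U : Set (E₁ × E₂)}
    (hU : IsOpen U) (hc : ContinuousOn f U)
    (h1 : ∀ z ∈ U, DifferentiableAt ℂ (fun x => f (x, z.2)) z.1) :
    ContinuousOn (fun z : E₁ × E₂ => fderiv ℂ (fun x => f (x, z.2)) z.1) U := by
  rw [continuousOn_clm_apply]
  intro h z₀ hz₀
  apply ContinuousAt.continuousWithinAt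
  -- neighbourhoods
  have hΦ : Continuous fun p : (E₁ × E₂) × ℂ => ((p.1.1 + p.2 • h, p.1.2) : E₁ × E₂) := by fun_prop
  have hmem : (fun p : (E₁ × E₂) × ℂ => ((p.1.1 + p.2 • h, p.1.2) : E₁ × E₂)) ⁻¹' U
      ∈ 𝓝 (z₀, (0 : ℂ)) := by
    apply hΦ.continuousAt.preimage_mem_nhds
    simpa using hU.mem_nhds hz₀
  obtain ⟨V, hV, T, hT, hVT⟩ := mem_nhds_prod_iff.1 hmem
  obtain ⟨r, hr, hrT⟩ := Metric.nhds_basis_closedBall.mem_iff.1 hT
  obtain ⟨V', hV'V, hV'o, hz₀V'⟩ := _root_.mem_nhds_iff.1 hV
  have hin : ∀ z ∈ V', ∀ l ∈ closedBall (0 : ℂ) r, ((z.1 + l • h, z.2) : E₁ × E₂) ∈ U :=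
    fun z hz l hl => hVT (Set.mk_mem_prod (hV'V hz) (hrT hl))
  -- the Cauchy formula
  have hform : ∀ z ∈ V', fderiv ℂ (fun x => f (x, z.2)) z.1 h =
      (2 * (Real.pi : ℂ) * Complex.I)⁻¹ •
        ∮ l in C((0 : ℂ), r), (1 / (l - 0) ^ 2) • f (z.1 + l • h, z.2) := by
    intro z hz
    have hline : ∀ l : ℂ, HasDerivAt (fun l : ℂ => z.1 + l • h) h l := fun l => by
      simpa using ((hasDerivAt_id l).smul_const h).const_add z.1
    have hd : DifferentiableOn ℂ (fun l : ℂ => f (z.1 + l • h, z.2)) (closedBall 0 r) := by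
      intro l hl
      have h2 : DifferentiableAt ℂ (fun x => f (x, z.2)) (z.1 + l • h) := h1 _ (hin z hz l hl)
      exact (h2.hasFDerivAt.comp_hasDerivAt l (hline l)).differentiableAt.differentiableWithinAt
    have h3 := hd.deriv_eq_smul_circleIntegral hr
    have h4 : deriv (fun l : ℂ => f (z.1 + l • h, z.2)) 0 = fderiv ℂ (fun x => f (x, z.2)) z.1 h := by
      have h2 : DifferentiableAt ℂ (fun x => f (x, z.2)) (z.1 + (0 : ℂ) • h) :=
        h1 _ (hin z hz 0 (mem_closedBall_self hr.le))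
      have h5 := (h2.hasFDerivAt.comp_hasDerivAt 0 (hline 0)).deriv
      rw [zero_smul, add_zero] at h5
      exact h5
    rw [h3, h4, smul_smul, inv_mul_cancel₀ Complex.two_pi_I_ne_zero, one_smul]
  -- continuity of the circle integral
  have hcont : ContinuousOn (fun z : E₁ × E₂ =>
      ∮ l in C((0 : ℂ), r), (1 / (l - 0) ^ 2) • f (z.1 + l • h, z.2)) V' := by
    rw [continuousOn_iff_continuous_domRestrict]
    show Continuous fun z : V' => ∫ θ in (0 : ℝ)..2 * Real.pi, deriv (circleMap 0 r) θ •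
      ((1 / (circleMap 0 r θ - 0) ^ 2) • f (z.1.1 + circleMap 0 r θ • h, z.1.2))
    apply intervalIntegral.continuous_parametric_intervalIntegral_of_continuous'
    have hcm : Continuous fun p : V' × ℝ => circleMap 0 r p.2 :=
      (continuous_circleMap 0 r).comp continuous_snd
    have hf : Continuous fun p : V' × ℝ => f (p.1.1.1 + circleMap 0 r p.2 • h, p.1.1.2) := by
      refine hc.comp_continuous ?_ ?_
      · fun_prop
      · intro p
        exact hin p.1.1 p.1.2 _ (circleMap_mem_closedBall 0 hr.le p.2)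
    have hne : ∀ p : V' × ℝ, (circleMap 0 r p.2 - 0) ^ 2 ≠ 0 := fun p =>
      pow_ne_zero 2 (sub_ne_zero.2 (circleMap_ne_center hr.ne'))
    have hq : Continuous fun p : V' × ℝ => 1 / (circleMap 0 r p.2 - 0) ^ 2 :=
      continuous_const.div ((hcm.sub continuous_const).pow 2) hne
    have hder : Continuous fun p : V' × ℝ => deriv (circleMap 0 r) p.2 := by
      simp only [deriv_circleMap]
      exact hcm.mul continuous_const
    exact hder.smul (hq.smul hf)
  have hfin : ContinuousOn (fun z : E₁ × E₂ => fderiv ℂ (fun x => f (x, z.2)) z.1 h) V' :=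
    (hcont.const_smul _).congr hform
  exact hfin.continuousAt (hV'o.mem_nhds hz₀V')

end Claimed.Agent.R245
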