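/-
Row 245 / S0484.  Tool layer T1 (several complex variables), statements: helper98.
Package T1-OSG: Osgood, differentiable => analytic, bounded Osgood.
ONE FILE = ONE PACKAGE = ONE OWNER.  Do not change the statements; helper lemmas: prefix `scv_`, keep them in this file.
-/
import Mathlib
import Claimed.Agent.R269.Lib.SCVa
import Claimed.Agent.R245.SCVEst
import Claimed.Agent.R245.SCVPart

set_option autoImplicit false

namespace Claimed.Agent.R245

open Set Metric Filter Topology MeasureTheory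

variable {E E₁ E₂ G : Type*} [NormedAddCommGroup E] [NormedSpace ℂ E]
  [NormedAddCommGroup E₁] [NormedSpace ℂ E₁] [NormedAddCommGroup E₂] [NormedSpace ℂ E₂]
  [NormedAddCommGroup G] [NormedSpace ℂ G] [CompleteSpace G]

/-- **Osgood's lemma** (product form): continuous + separately complex differentiable ⇒ analytic.
Route: both partial derivatives are jointly continuous (`scv_continuousOn_partial`, and the same after swapping the
factors); `hasStrictFDerivAt_uncurry_coprod` gives differentiability with `fderiv = coprod` of the partials, which is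
continuous, so `f` is `C¹` on `U` (`contDiffOn_one_iff_fderiv_of_isOpen` or similar); finish with
`R269.SCV.analyticOnNhd_of_contDiffOn_one`. -/
theorem scv_osgood [FiniteDimensional ℂ E₁] [FiniteDimensional ℂ E₂] {f : E₁ × E₂ → G}
    {U : Set (E₁ × E₂)} (hU : IsOpen U) (hc : ContinuousOn f U)
    (h1 : ∀ z ∈ U, DifferentiableAt ℂ (fun x => f (x, z.2)) z.1)
    (h2 : ∀ z ∈ U, DifferentiableAt ℂ (fun y => f (z.1, y)) z.2) : AnalyticOnNhd ℂ f U := by
  -- the two partial derivatives are jointly continuous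
  have hD1 := scv_continuousOn_partial hU hc h1
  have hD2 : ContinuousOn (fun z : E₁ × E₂ => fderiv ℂ (fun y => f (z.1, y)) z.2) U := by
    have hU' : IsOpen (Prod.swap ⁻¹' U : Set (E₂ × E₁)) := hU.preimage continuous_swap
    have hc' : ContinuousOn (fun p : E₂ × E₁ => f (p.2, p.1)) (Prod.swap ⁻¹' U) :=
      hc.comp continuous_swap.continuousOn (fun p hp => hp)
    have h1' : ∀ z ∈ (Prod.swap ⁻¹' U : Set (E₂ × E₁)),
        DifferentiableAt ℂ (fun x => (fun p : E₂ × E₁ => f (p.2, p.1)) (x, z.2)) z.1 :=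
      fun z hz => h2 (z.2, z.1) hz
    have h3 := scv_continuousOn_partial hU' hc' h1'
    exact h3.comp continuous_swap.continuousOn (fun p hp => by simpa using hp)
  -- `f` is `C¹`
  have hder : ∀ u ∈ U, HasFDerivAt f
      ((fderiv ℂ (fun x => f (x, u.2)) u.1).coprod (fderiv ℂ (fun y => f (u.1, y)) u.2)) u := by
    intro u hu
    have hUu := hU.mem_nhds hu
    have h3 := hasStrictFDerivAt_uncurry_coprod (𝕜 := ℂ) (u := u) (f := fun x y => f (x, y))
      (f₁ := fun x y => fderiv ℂ (fun x' => f (x', y)) x)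
      (f₂ := fun x y => fderiv ℂ (fun y' => f (x, y')) y)
      (by filter_upwards [hUu] with v hv using (h1 v hv).hasFDerivAt)
      (by filter_upwards [hUu] with v hv using (h2 v hv).hasFDerivAt)
      (hD1.continuousAt hUu) (hD2.continuousAt hUu)
    exact h3.hasFDerivAt
  have hcd : ContDiffOn ℂ 1 f U := by
    rw [← zero_add (1 : WithTop ℕ∞), contDiffOn_succ_iff_hasFDerivWithinAt_of_uniqueDiffOn
      hU.uniqueDiffOn]
    refine ⟨fun h => absurd h (by simp), fun u =>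
      (fderiv ℂ (fun x => f (x, u.2)) u.1).coprod (fderiv ℂ (fun y => f (u.1, y)) u.2), ?_,
      fun u hu => (hder u hu).hasFDerivWithinAt⟩
    rw [contDiffOn_zero]
    simp only [← ContinuousLinearMap.comp_fst_add_comp_snd]
    exact (hD1.clm_comp continuousOn_const).add (hD2.clm_comp continuousOn_const)
  exact R269.SCV.analyticOnNhd_of_contDiffOn_one hU hcd

/-- **Complex differentiable on an open subset of a finite dimensional space ⇒ analytic.**
Route: apply `scv_osgood` to `fun p : E × (Fin 0 → ℂ) => f p.1` on `U ×ˢ univ` and compose with `x ↦ (x, 0)`. -/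
theorem scv_analyticOnNhd [FiniteDimensional ℂ E] {f : E → G} {U : Set E} (hU : IsOpen U)
    (hf : DifferentiableOn ℂ f U) : AnalyticOnNhd ℂ f U := by
  have h := scv_osgood (E₁ := E) (E₂ := Fin 0 → ℂ) (f := fun p => f p.1) (U := U ×ˢ univ)
    (hU.prod isOpen_univ) (hf.continuousOn.comp continuousOn_fst (fun p hp => hp.1))
    (fun z hz => hf.differentiableAt (hU.mem_nhds hz.1)) (fun z _ => differentiableAt_const (f z.1))
  intro x hx
  have h1 : AnalyticAt ℂ (fun p : E × (Fin 0 → ℂ) => f p.1) (x, 0) := h (x, 0) ⟨hx, mem_univ _⟩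
  exact AnalyticAt.comp₂ (h := fun p : E × (Fin 0 → ℂ) => f p.1) (f := fun x : E => x)
    (g := fun _ : E => (0 : Fin 0 → ℂ)) h1 analyticAt_id analyticAt_const

/-- **Bounded + separately holomorphic ⇒ analytic.**
Route: continuity at `z₀ = (x₀,y₀)`: `ball x₀ (2r) ×ˢ ball y₀ (2r) ⊆ U`;
`‖f (x,y) - f (x₀,y₀)‖ ≤ ‖f (x,y) - f (x₀,y)‖ + ‖f (x₀,y) - f (x₀,y₀)‖`, the first term is `≤ (M / r) ‖x - x₀‖` by
`scv_lipschitz` (uniformly in `y`), the second tends to `0` by `h2`.  Then `scv_osgood`. -/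
theorem scv_osgood_bdd [FiniteDimensional ℂ E₁] [FiniteDimensional ℂ E₂] {f : E₁ × E₂ → G}
    {U : Set (E₁ × E₂)} (hU : IsOpen U) {M : ℝ} (hM : ∀ z ∈ U, ‖f z‖ ≤ M)
    (h1 : ∀ z ∈ U, DifferentiableAt ℂ (fun x => f (x, z.2)) z.1)
    (h2 : ∀ z ∈ U, DifferentiableAt ℂ (fun y => f (z.1, y)) z.2) : AnalyticOnNhd ℂ f U := by
  refine scv_osgood hU ?_ h1 h2
  intro z₀ hz₀
  apply ContinuousAt.continuousWithinAt
  obtain ⟨ρ, hρ, hball⟩ := Metric.isOpen_iff.1 hU z₀ hz₀
  have hsub : ∀ x ∈ ball z₀.1 ρ, ∀ y ∈ ball z₀.2 ρ, (x, y) ∈ U := fun x hx y hy => by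
    apply hball
    rw [← Prod.mk.eta (p := z₀), ← ball_prod_same]
    exact ⟨hx, hy⟩
  -- the bound
  have hbd : ∀ᶠ z in 𝓝 z₀, ‖f z - f z₀‖ ≤
      2 * M / ρ * ‖z.1 - z₀.1‖ + ‖f (z₀.1, z.2) - f (z₀.1, z₀.2)‖ := by
    have hnb : ball z₀.1 (ρ / 2) ×ˢ ball z₀.2 ρ ∈ 𝓝 z₀ := by
      rw [← Prod.mk.eta (p := z₀)]
      exact prod_mem_nhds (ball_mem_nhds _ (by positivity)) (ball_mem_nhds _ hρ)
    filter_upwards [hnb] with z hz
    have hg : DifferentiableOn ℂ (fun x => f (x, z.2)) (ball z₀.1 ρ) := fun x hx =>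
      (h1 (x, z.2) (hsub x hx z.2 hz.2)).differentiableWithinAt
    have hl := scv_lipschitz hg (fun x hx => hM _ (hsub x hx z.2 hz.2)) hz.1
      (mem_ball_self (by positivity))
    calc ‖f z - f z₀‖ = ‖(f (z.1, z.2) - f (z₀.1, z.2)) + (f (z₀.1, z.2) - f (z₀.1, z₀.2))‖ := by
          congr 1
          abel
      _ ≤ ‖f (z.1, z.2) - f (z₀.1, z.2)‖ + ‖f (z₀.1, z.2) - f (z₀.1, z₀.2)‖ := norm_add_le _ _
      _ ≤ _ := by gcongr
  have hlim : Tendsto (fun z : E₁ × E₂ =>
      2 * M / ρ * ‖z.1 - z₀.1‖ + ‖f (z₀.1, z.2) - f (z₀.1, z₀.2)‖) (𝓝 z₀) (𝓝 0) := by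
    have e1 : Tendsto (fun z : E₁ × E₂ => 2 * M / ρ * ‖z.1 - z₀.1‖) (𝓝 z₀) (𝓝 0) := by
      have hcn : Continuous fun z : E₁ × E₂ => 2 * M / ρ * ‖z.1 - z₀.1‖ := by fun_prop
      have := hcn.tendsto z₀
      simpa using this
    have e2 : Tendsto (fun z : E₁ × E₂ => ‖f (z₀.1, z.2) - f (z₀.1, z₀.2)‖) (𝓝 z₀) (𝓝 0) := by
      have hcy : ContinuousAt (fun y => f (z₀.1, y)) z₀.2 := (h2 z₀ hz₀).continuousAt
      have hcz : Tendsto (fun z : E₁ × E₂ => f (z₀.1, z.2)) (𝓝 z₀) (𝓝 (f (z₀.1, z₀.2))) :=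
        hcy.tendsto.comp continuous_snd.continuousAt
      exact tendsto_iff_norm_sub_tendsto_zero.1 hcz
    simpa using e1.add e2
  exact tendsto_iff_norm_sub_tendsto_zero.2
    (squeeze_zero' (Eventually.of_forall fun z => norm_nonneg _) hbd hlim)

end Claimed.Agent.R245
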