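/-
Row 245 / S0484, Section 4, block FACE, package S4F-FAM, part B: analysis lemmas (context free).
Sub-architect: helper60.   Mathlib + R245/Defs + SCVEst only; paper free.

Arrangement of the variables: maps live on `E' × (ℂ × Z)`, points `(y, (σ, u))`; the real parameter
`t` is substituted for `σ`.
-/
import Claimed.Agent.R245.S4FDefs
import Claimed.Agent.R245.SCVEst
import Claimed.Agent.R245.SCVOsg

set_option autoImplicit false

namespace Claimed.Agent.R245

open MvPolynomial Metric Set Claims.C0412 Filter Topology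

/-! ### 1. the transition function (leaf S4F-FAM-B) -/

/-- the transition function: `0` for `t ≤ b - τ/2`, `1` for `t ≥ b + τ/2` -/
noncomputable def s4famS (b τ t : ℝ) : ℝ := Real.smoothTransition ((t - (b - τ / 2)) / τ)

theorem s4famS_contDiff (b τ : ℝ) : ContDiff ℝ 1 (s4famS b τ) := by
  unfold s4famS
  exact Real.smoothTransition.contDiff.comp (by fun_prop)

theorem s4famS_zero {b τ t : ℝ} (hτ : 0 < τ) (ht : t ≤ b - τ / 2) : s4famS b τ t = 0 := by
  unfold s4famS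
  exact Real.smoothTransition.zero_of_nonpos
    (div_nonpos_of_nonpos_of_nonneg (by linarith) hτ.le)

theorem s4famS_one {b τ t : ℝ} (hτ : 0 < τ) (ht : b + τ / 2 ≤ t) : s4famS b τ t = 1 := by
  unfold s4famS
  exact Real.smoothTransition.one_of_one_le ((one_le_div hτ).2 (by linarith))

/-- `deriv Real.smoothTransition` is continuous and vanishes outside `[0,1]`, hence bounded; chain rule. -/
theorem s4famS_deriv_bound : ∃ M : ℝ, 0 < M ∧ ∀ b τ t : ℝ, 0 < τ → |deriv (s4famS b τ) t| ≤ M / τ := by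
  have hc : Continuous (deriv Real.smoothTransition) :=
    (Real.smoothTransition.contDiff (n := 1)).continuous_deriv le_rfl
  obtain ⟨M₀, hM₀⟩ := (isCompact_Icc (a := (0 : ℝ)) (b := 1)).exists_bound_of_continuousOn
    hc.continuousOn
  have hall : ∀ x : ℝ, |deriv Real.smoothTransition x| ≤ |M₀| + 1 := by
    intro x
    have hpos : 0 ≤ |M₀| + 1 := by positivity
    rcases lt_or_ge x 0 with hx | hx
    · have h1 : Real.smoothTransition =ᶠ[𝓝 x] fun _ => (0 : ℝ) := by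
        filter_upwards [Iio_mem_nhds hx] with y hy
        exact Real.smoothTransition.zero_of_nonpos (le_of_lt hy)
      rw [h1.deriv_eq]
      simpa using hpos
    rcases lt_or_ge 1 x with hx1 | hx1
    · have h1 : Real.smoothTransition =ᶠ[𝓝 x] fun _ => (1 : ℝ) := by
        filter_upwards [Ioi_mem_nhds hx1] with y hy
        exact Real.smoothTransition.one_of_one_le (le_of_lt hy)
      rw [h1.deriv_eq]
      simpa using hpos
    · have := hM₀ x ⟨hx, hx1⟩
      rw [Real.norm_eq_abs] at this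
      linarith [le_abs_self M₀]
  refine ⟨|M₀| + 1, by positivity, fun b τ t hτ => ?_⟩
  have hd : HasDerivAt (s4famS b τ)
      (deriv Real.smoothTransition ((t - (b - τ / 2)) / τ) * (1 / τ)) t := by
    have h1 : HasDerivAt (fun t : ℝ => (t - (b - τ / 2)) / τ) (1 / τ) t :=
      ((hasDerivAt_id t).sub_const _).div_const τ
    have h2 : HasDerivAt Real.smoothTransition
        (deriv Real.smoothTransition ((t - (b - τ / 2)) / τ)) ((t - (b - τ / 2)) / τ) :=
      ((Real.smoothTransition.contDiff (n := 1)).differentiable (by simp)).differentiableAt.hasDerivAt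
    exact h2.comp t h1
  rw [hd.deriv, abs_mul, abs_of_pos (by positivity : 0 < 1 / τ), mul_one_div]
  exact div_le_div_of_nonneg_right (hall _) hτ.le

variable {E' Z : Type*} [NormedAddCommGroup E'] [NormedSpace ℂ E'] [NormedAddCommGroup Z]
  [NormedSpace ℂ Z]

/-! ### 2. Cauchy estimates in the passive `t`-disc (leaf S4F-FAM-B) -/

/-- one variable: two maps holomorphic near a closed disc and `δ`-close on it have `δ/r`-close
derivatives at the centre (`Complex.norm_deriv_le_of_forall_mem_sphere_norm_le` for the difference). -/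
theorem s4fam_cauchy {φ ψ : ℂ → V4} {c : ℂ} {r δ : ℝ} (hr : 0 < r)
    (hφ : ∀ σ ∈ closedBall c r, DifferentiableAt ℂ φ σ)
    (hψ : ∀ σ ∈ closedBall c r, DifferentiableAt ℂ ψ σ)
    (hcl : ∀ σ ∈ closedBall c r, ‖φ σ - ψ σ‖ ≤ δ) : ‖deriv φ c - deriv ψ c‖ ≤ δ / r := by
  have hc : c ∈ closedBall c r := mem_closedBall_self hr.le
  have hd : DiffContOnCl ℂ (fun σ => φ σ - ψ σ) (ball c r) := by
    refine DifferentiableOn.diffContOnCl ?_
    rw [closure_ball c hr.ne']
    exact fun σ hσ => ((hφ σ hσ).sub (hψ σ hσ)).differentiableWithinAt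
  have h1 := Complex.norm_deriv_le_of_forall_mem_sphere_norm_le hr hd
    (fun σ hσ => hcl σ (sphere_subset_closedBall hσ))
  rwa [deriv_fun_sub (hφ c hc) (hψ c hc)] at h1

/-- restriction of a vector valued holomorphic curve to the real axis. -/
theorem s4fam_comp_ofReal {e : ℂ → V4} {e' : V4} {z : ℝ} (hf : HasDerivAt e e' (z : ℂ)) :
    HasDerivAt (fun y : ℝ => e (y : ℂ)) e' z := by
  have h1 : HasDerivAt (fun y : ℝ => (y : ℂ)) 1 z := Complex.ofRealCLM.hasDerivAt
  have h2 := HasDerivAt.scomp z hf h1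
  rw [one_smul] at h2
  exact h2

/-- the `t`-derivative of `t ↦ g (y, (t, u))` for an entire `g` close to `fh` on the disc
`{y} × closedBall t r × {u}`.  (`HasDerivAt.comp_ofReal` + `s4fam_cauchy`.) -/
theorem s4fam_est_entire (g fh : E' × (ℂ × Z) → V4) (Wh : Set (E' × (ℂ × Z))) (hWh : IsOpen Wh)
    (hg : Differentiable ℂ g) (hf : DifferentiableOn ℂ fh Wh) (y : E') (u : Z) (t r δ : ℝ)
    (hr : 0 < r) (hmem : ∀ σ ∈ closedBall (t : ℂ) r, (y, (σ, u)) ∈ Wh)
    (hcl : ∀ σ ∈ closedBall (t : ℂ) r, ‖g (y, (σ, u)) - fh (y, (σ, u))‖ ≤ δ) :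
    ‖deriv (fun t' : ℝ => g (y, ((t' : ℂ), u))) t - deriv (fun σ : ℂ => fh (y, (σ, u))) (t : ℂ)‖
      ≤ δ / r := by
  have haff : ∀ σ : ℂ, DifferentiableAt ℂ (fun σ : ℂ => ((y, (σ, u)) : E' × (ℂ × Z))) σ := fun σ =>
    (differentiableAt_const y).prodMk (differentiableAt_id.prodMk (differentiableAt_const u))
  have hφ : ∀ σ : ℂ, DifferentiableAt ℂ (fun σ : ℂ => g (y, (σ, u))) σ := fun σ =>
    (hg _).comp σ (haff σ)
  have hψ : ∀ σ ∈ closedBall (t : ℂ) r, DifferentiableAt ℂ (fun σ : ℂ => fh (y, (σ, u))) σ :=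
    fun σ hσ => (hf.differentiableAt (hWh.mem_nhds (hmem σ hσ))).comp σ (haff σ)
  have h1 : HasDerivAt (fun t' : ℝ => g (y, ((t' : ℂ), u)))
      (deriv (fun σ : ℂ => g (y, (σ, u))) (t : ℂ)) t := s4fam_comp_ofReal (hφ t).hasDerivAt
  rw [h1.deriv]
  exact s4fam_cauchy hr (fun σ _ => hφ σ) hψ hcl

/-- the `t`-derivative of `t ↦ H (s t) (y, (t, u))`.  Chain rule for the real `C¹` map
`(s, x) ↦ H s x` at the interior point `(s t, (y, (t, u)))` of `univ ×ˢ Nb`:
derivative `= s'(t) • ∂_s H + ∂_σ (H (s t))`, the second term is the complex derivative of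
`σ ↦ H (s t) (y, (σ, u))` at `t` and is compared with `fh` by `s4fam_cauchy`. -/
theorem s4fam_est_path (H : ℝ → E' × (ℂ × Z) → V4) (Nb : Set (E' × (ℂ × Z))) (hNb : IsOpen Nb)
    (hH : ∀ s, DifferentiableOn ℂ (H s) Nb)
    (hHc : ContDiffOn ℝ 1 (fun p : ℝ × (E' × (ℂ × Z)) => H p.1 p.2) (univ ×ˢ Nb))
    (fh : E' × (ℂ × Z) → V4) (Wh : Set (E' × (ℂ × Z))) (hWh : IsOpen Wh)
    (hf : DifferentiableOn ℂ fh Wh) (y : E') (u : Z) (t r ε₁ M : ℝ) (hr : 0 < r) (s : ℝ → ℝ)
    (hs : DifferentiableAt ℝ s t) (hsM : |deriv s t| ≤ M)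
    (hmemN : ∀ σ ∈ closedBall (t : ℂ) r, (y, (σ, u)) ∈ Nb)
    (hmemW : ∀ σ ∈ closedBall (t : ℂ) r, (y, (σ, u)) ∈ Wh)
    (hcl : ∀ σ ∈ closedBall (t : ℂ) r, ‖H (s t) (y, (σ, u)) - fh (y, (σ, u))‖ ≤ ε₁)
    (hds : ‖deriv (fun s' : ℝ => H s' (y, ((t : ℂ), u))) (s t)‖ ≤ ε₁) :
    ‖deriv (fun t' : ℝ => H (s t') (y, ((t' : ℂ), u))) t
        - deriv (fun σ : ℂ => fh (y, (σ, u))) (t : ℂ)‖ ≤ M * ε₁ + ε₁ / r := by
  have hx₀ : ((y, ((t : ℂ), u)) : E' × (ℂ × Z)) ∈ Nb := hmemN t (mem_closedBall_self hr.le)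
  have hopen : IsOpen (univ ×ˢ Nb : Set (ℝ × (E' × (ℂ × Z)))) := isOpen_univ.prod hNb
  have hGd : DifferentiableAt ℝ (fun p : ℝ × (E' × (ℂ × Z)) => H p.1 p.2)
      (s t, (y, ((t : ℂ), u))) :=
    (hHc.differentiableOn (by simp)).differentiableAt (hopen.mem_nhds ⟨mem_univ _, hx₀⟩)
  set L := fderiv ℝ (fun p : ℝ × (E' × (ℂ × Z)) => H p.1 p.2) (s t, (y, ((t : ℂ), u))) with hLdef
  have hL : HasFDerivAt (fun p : ℝ × (E' × (ℂ × Z)) => H p.1 p.2) L (s t, (y, ((t : ℂ), u))) :=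
    hGd.hasFDerivAt
  have hof : HasDerivAt (fun t' : ℝ => (t' : ℂ)) 1 t := Complex.ofRealCLM.hasDerivAt
  have hx : HasDerivAt (fun t' : ℝ => ((y, ((t' : ℂ), u)) : E' × (ℂ × Z)))
      ((0, ((1 : ℂ), 0)) : E' × (ℂ × Z)) t :=
    (hasDerivAt_const t y).prodMk (hof.prodMk (hasDerivAt_const t u))
  have h1 : HasDerivAt (fun t' : ℝ => H (s t') (y, ((t' : ℂ), u)))
      (L (deriv s t, (0, ((1 : ℂ), 0)))) t := by
    have h := hL.comp_hasDerivAt t (hs.hasDerivAt.prodMk hx)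
    exact h
  have h2 : HasDerivAt (fun s' : ℝ => H s' (y, ((t : ℂ), u))) (L (1, 0)) (s t) := by
    have h := hL.comp_hasDerivAt (s t) ((hasDerivAt_id (s t)).prodMk
      (hasDerivAt_const (s t) ((y, ((t : ℂ), u)) : E' × (ℂ × Z))))
    exact h
  have h3 : HasDerivAt (fun t' : ℝ => H (s t) (y, ((t' : ℂ), u)))
      (L (0, (0, ((1 : ℂ), 0)))) t := by
    have h := hL.comp_hasDerivAt t ((hasDerivAt_const t (s t)).prodMk hx)
    exact h
  have haff : ∀ σ : ℂ, DifferentiableAt ℂ (fun σ : ℂ => ((y, (σ, u)) : E' × (ℂ × Z))) σ := fun σ =>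
    (differentiableAt_const y).prodMk (differentiableAt_id.prodMk (differentiableAt_const u))
  have hφ : ∀ σ ∈ closedBall (t : ℂ) r,
      DifferentiableAt ℂ (fun σ : ℂ => H (s t) (y, (σ, u))) σ := fun σ hσ =>
    ((hH (s t)).differentiableAt (hNb.mem_nhds (hmemN σ hσ))).comp σ (haff σ)
  have hψ : ∀ σ ∈ closedBall (t : ℂ) r, DifferentiableAt ℂ (fun σ : ℂ => fh (y, (σ, u))) σ :=
    fun σ hσ => (hf.differentiableAt (hWh.mem_nhds (hmemW σ hσ))).comp σ (haff σ)
  have h4 : HasDerivAt (fun t' : ℝ => H (s t) (y, ((t' : ℂ), u)))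
      (deriv (fun σ : ℂ => H (s t) (y, (σ, u))) (t : ℂ)) t :=
    s4fam_comp_ofReal (hφ t (mem_closedBall_self hr.le)).hasDerivAt
  have h5 := h3.unique h4
  have hsplit : L (deriv s t, (0, ((1 : ℂ), 0))) =
      deriv s t • L (1, 0) + L (0, (0, ((1 : ℂ), 0))) := by
    rw [← map_smul, ← map_add]
    congr 1
    simp
  have hε : 0 ≤ ε₁ := (norm_nonneg _).trans hds
  have hM : 0 ≤ M := (abs_nonneg _).trans hsM
  rw [h2.deriv] at hds
  rw [h1.deriv, hsplit, h5, add_sub_assoc]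
  refine (norm_add_le _ _).trans (add_le_add ?_ (s4fam_cauchy hr hφ hψ hcl))
  rw [norm_smul, Real.norm_eq_abs]
  exact mul_le_mul hsM hds (norm_nonneg _) hM

/-! ### 3. substitution of the real parameter -/

/-- the real-linear map `(t, (y, u)) ↦ (y, (t, u))` is smooth -/
theorem s4fam_subst_contDiff :
    ContDiff ℝ 1 (fun p : ℝ × (E' × Z) => ((p.2.1, ((p.1 : ℂ), p.2.2)) : E' × (ℂ × Z))) := by
  have h1 : ContDiff ℝ 1 (fun p : ℝ × (E' × Z) => (p.1 : ℂ)) :=
    Complex.ofRealCLM.contDiff.comp contDiff_fst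
  exact (contDiff_fst.comp contDiff_snd).prodMk (h1.prodMk (contDiff_snd.comp contDiff_snd))

/-- the complex affine map `(y, u) ↦ (y, (σ, u))` is holomorphic -/
theorem s4fam_subst_differentiable (σ : ℂ) :
    Differentiable ℂ (fun x : E' × Z => ((x.1, (σ, x.2)) : E' × (ℂ × Z))) := by
  exact differentiable_fst.prodMk ((differentiable_const σ).prodMk differentiable_snd)

/-- an entire map is (real) `C¹` jointly in `(t, x)` (`scv_analyticOnNhd`, `AnalyticOnNhd.contDiffOn`/`contDiff`,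
`ContDiff.restrict_scalars`, composition with `s4fam_subst_contDiff`). -/
theorem s4fam_entire_contDiff [FiniteDimensional ℂ E'] [FiniteDimensional ℂ Z]
    {g : E' × (ℂ × Z) → V4} (hg : Differentiable ℂ g) :
    ContDiff ℝ 1 (fun p : ℝ × (E' × Z) => g (p.2.1, ((p.1 : ℂ), p.2.2))) := by
  have h1 : AnalyticOnNhd ℂ g univ := scv_analyticOnNhd isOpen_univ hg.differentiableOn
  have h2 : ContDiff ℂ 1 g := h1.contDiff
  exact (h2.restrict_scalars ℝ).comp s4fam_subst_contDiff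

end Claimed.Agent.R245
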