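/-
Row 245 / S0484, Section 4, block FACE, package S4F-FAM, part C: gluing three C^1 families.
Sub-architect: helper60.   Mathlib + R245/Defs + S4FFamB (transition function) only; paper free.
-/
import Claimed.Agent.R245.S4FFamB

set_option autoImplicit false

namespace Claimed.Agent.R245

open MvPolynomial Metric Set Claims.C0412 Filter Topology

variable {E' Z : Type*} [NormedAddCommGroup E'] [NormedSpace ℂ E'] [NormedAddCommGroup Z]
  [NormedSpace ℂ Z] [FiniteDimensional ℂ E'] [FiniteDimensional ℂ Z]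

/-! ### gluing three families (leaf S4F-FAM-C) -/

/-- **Gluing.**  `Φ₀` is a `C¹` family (all real `t`) which equals `g₀ (·, (t, ·))` for `t ≥ b - 2τ`;
`H` is a path from `g₀` to `g₁` of maps holomorphic on `Nb ⊇ B × (closedBall b (2τ) × P')`.
New family: `Φ₀ t` for `t < b - τ/2`, `H (s t) (·, (t, ·))` for `b - τ/2 ≤ t < b + τ`,
`g₁ (·, (t, ·))` for `t ≥ b + τ`.
`N := N₀ ∩ V`, where `V ⊇ B × P'` is open with `(x.1, (t, x.2)) ∈ Nb` for `x ∈ V`, `t ∈ [b-τ, b+τ]`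
(`generalized_tube_lemma` for the compact sets `Icc (b-τ) (b+τ)` and `B ×ˢ P'` and the open preimage
of `Nb` under the continuous map `(t, x) ↦ (x.1, (t, x.2))`).
`C¹`: `univ ×ˢ N` is covered by the three open sets `{t < b - τ/2}`, `{b - τ < t < b + τ}`,
`{b + τ/2 < t}` (times `N`); on each of them the new family coincides with a `C¹` map
(`ContDiffOn.congr`, `ContDiffOn.comp` with the real-linear map `(t, x) ↦ (x.1, (t, x.2))` and
`s4famS_contDiff`, `s4fam_subst_contDiff`, `s4fam_entire_contDiff` for `g₁`); `ContDiffOn` on an open set is local (`contDiffOn_of_locally_contDiffOn` or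
`ContDiffAt` + `Filter.EventuallyEq`). -/
theorem s4fam_glue (F : MvPolynomial (Fin 4) ℂ) (B : Set E') (P' : Set Z) (hB : IsCompact B)
    (hP' : IsCompact P') (b τ : ℝ) (hτ : 0 < τ) (g₀ g₁ : E' × (ℂ × Z) → V4) (hg₁ : Entire F g₁)
    (H : ℝ → E' × (ℂ × Z) → V4) (Nb : Set (E' × (ℂ × Z))) (hNb : IsOpen Nb)
    (hBN : B ×ˢ (closedBall (b : ℂ) (2 * τ) ×ˢ P') ⊆ Nb) (hH : ∀ s, HolOn F (H s) Nb)
    (hHc : ContDiffOn ℝ 1 (fun p : ℝ × (E' × (ℂ × Z)) => H p.1 p.2) (univ ×ˢ Nb))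
    (hH0 : ∀ s ≤ 0, ∀ x ∈ Nb, H s x = g₀ x) (hH1 : ∀ s, 1 ≤ s → ∀ x ∈ Nb, H s x = g₁ x)
    (Φ₀ : ℝ → E' × Z → V4) (N₀ : Set (E' × Z)) (hN₀ : IsOpen N₀) (hBN₀ : B ×ˢ P' ⊆ N₀)
    (hΦ₀ : ∀ t, HolOn F (Φ₀ t) N₀)
    (hΦ₀c : ContDiffOn ℝ 1 (fun p : ℝ × (E' × Z) => Φ₀ p.1 p.2) (univ ×ˢ N₀))
    (hΦ₀g : ∀ t, b - 2 * τ ≤ t → ∀ x ∈ N₀, Φ₀ t x = g₀ (x.1, ((t : ℂ), x.2))) :
    ∃ (N : Set (E' × Z)) (Φ : ℝ → E' × Z → V4), IsOpen N ∧ B ×ˢ P' ⊆ N ∧ (∀ t, HolOn F (Φ t) N) ∧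
      ContDiffOn ℝ 1 (fun p : ℝ × (E' × Z) => Φ p.1 p.2) (univ ×ˢ N) ∧
      (∀ t, t < b - τ / 2 → ∀ x ∈ N, Φ t x = Φ₀ t x) ∧
      (∀ t ∈ Ioo (b - τ) (b + τ), ∀ x ∈ N, (x.1, ((t : ℂ), x.2)) ∈ Nb ∧
        Φ t x = H (s4famS b τ t) (x.1, ((t : ℂ), x.2))) ∧
      (∀ t, b + τ / 2 < t → ∀ x ∈ N, Φ t x = g₁ (x.1, ((t : ℂ), x.2))) := by
  classical
  have hιd : ContDiff ℝ 1 (fun p : ℝ × (E' × Z) => ((p.2.1, ((p.1 : ℂ), p.2.2)) : E' × (ℂ × Z))) :=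
    s4fam_subst_contDiff
  have hιc := hιd.continuous
  have hO : IsOpen ((fun p : ℝ × (E' × Z) => ((p.2.1, ((p.1 : ℂ), p.2.2)) : E' × (ℂ × Z))) ⁻¹' Nb) :=
    hNb.preimage hιc
  have hsub : Icc (b - τ) (b + τ) ×ˢ (B ×ˢ P')
      ⊆ (fun p : ℝ × (E' × Z) => ((p.2.1, ((p.1 : ℂ), p.2.2)) : E' × (ℂ × Z))) ⁻¹' Nb := by
    rintro ⟨t, x⟩ ⟨ht, hx⟩
    refine hBN ⟨hx.1, ?_, hx.2⟩
    simp only at ht ⊢
    rw [mem_closedBall, dist_eq_norm, ← Complex.ofReal_sub, Complex.norm_real, Real.norm_eq_abs, abs_le]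
    constructor <;> linarith [ht.1, ht.2]
  obtain ⟨u, V, -, hV, hu, hBV, huV⟩ := generalized_tube_lemma isCompact_Icc (hB.prod hP') hO hsub
  have hmem : ∀ t ∈ Icc (b - τ) (b + τ), ∀ x ∈ N₀ ∩ V, (x.1, ((t : ℂ), x.2)) ∈ Nb :=
    fun t ht x hx => huV (⟨hu ht, hx.2⟩ : (t, x) ∈ u ×ˢ V)
  obtain ⟨Φ, hΦ⟩ : ∃ Φ : ℝ → E' × Z → V4, Φ = fun t x =>
      if t < b - τ / 2 then Φ₀ t x else if t < b + τ then H (s4famS b τ t) (x.1, ((t : ℂ), x.2))
      else g₁ (x.1, ((t : ℂ), x.2)) := ⟨_, rfl⟩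
  have hN : IsOpen (N₀ ∩ V) := hN₀.inter hV
  have h4 : ∀ t, t < b - τ / 2 → ∀ x ∈ N₀ ∩ V, Φ t x = Φ₀ t x := by
    intro t ht x _
    rw [hΦ]
    simp only [if_pos ht]
  have h5 : ∀ t ∈ Ioo (b - τ) (b + τ), ∀ x ∈ N₀ ∩ V, (x.1, ((t : ℂ), x.2)) ∈ Nb ∧
      Φ t x = H (s4famS b τ t) (x.1, ((t : ℂ), x.2)) := by
    intro t ht x hx
    have hm := hmem t ⟨ht.1.le, ht.2.le⟩ x hx
    refine ⟨hm, ?_⟩
    by_cases h : t < b - τ / 2
    · rw [h4 t h x hx, hΦ₀g t (by linarith [ht.1]) x hx.1, s4famS_zero hτ h.le, hH0 0 le_rfl _ hm]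
    · rw [hΦ]
      simp only [if_neg h, if_pos ht.2]
  have h6 : ∀ t, b + τ / 2 < t → ∀ x ∈ N₀ ∩ V, Φ t x = g₁ (x.1, ((t : ℂ), x.2)) := by
    intro t ht x hx
    by_cases h : t < b + τ
    · obtain ⟨hm, h7⟩ := h5 t ⟨by linarith, h⟩ x hx
      rw [h7, s4famS_one hτ ht.le, hH1 1 le_rfl _ hm]
    · rw [hΦ]
      simp only [if_neg h, if_neg (show ¬ t < b - τ / 2 by linarith)]
  refine ⟨N₀ ∩ V, Φ, hN, subset_inter hBN₀ hBV, ?_, ?_, h4, h5, h6⟩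
  · intro t
    rcases lt_or_ge t (b - τ / 2) with h | h
    · constructor
      · exact ((hΦ₀ t).1.mono inter_subset_left).congr fun x hx => h4 t h x hx
      · intro x hx
        rw [h4 t h x hx]
        exact (hΦ₀ t).2 hx.1
    · rcases lt_or_ge t (b + τ) with h' | h'
      · have ht : t ∈ Ioo (b - τ) (b + τ) := ⟨by linarith, h'⟩
        constructor
        · refine DifferentiableOn.congr (f := fun x : E' × Z => H (s4famS b τ t) (x.1, ((t : ℂ), x.2))) ?_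
            fun x hx => (h5 t ht x hx).2
          exact (hH (s4famS b τ t)).1.comp (s4fam_subst_differentiable (t : ℂ)).differentiableOn
            fun x hx => (h5 t ht x hx).1
        · intro x hx
          rw [(h5 t ht x hx).2]
          exact (hH _).2 (h5 t ht x hx).1
      · have ht : b + τ / 2 < t := by linarith
        constructor
        · refine DifferentiableOn.congr (f := fun x : E' × Z => g₁ (x.1, ((t : ℂ), x.2))) ?_
            fun x hx => h6 t ht x hx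
          exact (hg₁.1.comp (s4fam_subst_differentiable (t : ℂ))).differentiableOn
        · intro x hx
          rw [h6 t ht x hx]
          exact hg₁.2 _
  · rintro ⟨t, x⟩ ⟨-, hx⟩
    apply ContDiffAt.contDiffWithinAt
    have hxN : ∀ᶠ p : ℝ × (E' × Z) in 𝓝 (t, x), p.2 ∈ N₀ ∩ V :=
      continuous_snd.continuousAt.eventually (hN.mem_nhds hx)
    have hcase : t < b - τ / 2 ∨ t ∈ Ioo (b - τ) (b + τ) ∨ b + τ / 2 < t := by
      rcases lt_or_ge t (b - τ / 2) with h | h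
      · exact Or.inl h
      · rcases lt_or_ge t (b + τ) with h' | h'
        · exact Or.inr (Or.inl ⟨by linarith, h'⟩)
        · exact Or.inr (Or.inr (by linarith))
    rcases hcase with h | h | h
    · have h1 : ContDiffAt ℝ 1 (fun p : ℝ × (E' × Z) => Φ₀ p.1 p.2) (t, x) :=
        (hΦ₀c (t, x) ⟨mem_univ _, hx.1⟩).contDiffAt ((isOpen_univ.prod hN₀).mem_nhds ⟨mem_univ _, hx.1⟩)
      refine h1.congr_of_eventuallyEq ?_
      have ht : ∀ᶠ p : ℝ × (E' × Z) in 𝓝 (t, x), p.1 < b - τ / 2 :=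
        continuous_fst.continuousAt.eventually (gt_mem_nhds h)
      filter_upwards [ht, hxN] with p hp1 hp2
      exact h4 p.1 hp1 p.2 hp2
    · have hm := (h5 t h x hx).1
      have h1 : ContDiffAt ℝ 1 (fun p : ℝ × (E' × (ℂ × Z)) => H p.1 p.2)
          (s4famS b τ t, ((x.1, ((t : ℂ), x.2)) : E' × (ℂ × Z))) :=
        (hHc _ ⟨mem_univ _, hm⟩).contDiffAt ((isOpen_univ.prod hNb).mem_nhds ⟨mem_univ _, hm⟩)
      have h2 : ContDiffAt ℝ 1 (fun p : ℝ × (E' × Z) =>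
          (s4famS b τ p.1, ((p.2.1, ((p.1 : ℂ), p.2.2)) : E' × (ℂ × Z)))) (t, x) :=
        (((s4famS_contDiff b τ).comp contDiff_fst).prodMk hιd).contDiffAt
      have h3 : ContDiffAt ℝ 1 (fun p : ℝ × (E' × Z) =>
          H (s4famS b τ p.1) (p.2.1, ((p.1 : ℂ), p.2.2))) (t, x) :=
        ContDiffAt.comp (t, x) (g := fun p : ℝ × (E' × (ℂ × Z)) => H p.1 p.2) h1 h2
      refine h3.congr_of_eventuallyEq ?_
      have ht : ∀ᶠ p : ℝ × (E' × Z) in 𝓝 (t, x), p.1 ∈ Ioo (b - τ) (b + τ) :=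
        continuous_fst.continuousAt.eventually (isOpen_Ioo.mem_nhds h)
      filter_upwards [ht, hxN] with p hp1 hp2
      exact (h5 p.1 hp1 p.2 hp2).2
    · have h1 : ContDiffAt ℝ 1 (fun p : ℝ × (E' × Z) => g₁ (p.2.1, ((p.1 : ℂ), p.2.2))) (t, x) :=
        (s4fam_entire_contDiff hg₁.1).contDiffAt
      refine h1.congr_of_eventuallyEq ?_
      have ht : ∀ᶠ p : ℝ × (E' × Z) in 𝓝 (t, x), b + τ / 2 < p.1 :=
        continuous_fst.continuousAt.eventually (lt_mem_nhds h)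
      filter_upwards [ht, hxN] with p hp1 hp2
      exact h6 p.1 hp1 p.2 hp2

end Claimed.Agent.R245
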