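/-
Row 245 / S0484, Section 4, block FACE. PACKAGE S4F-FAM (the real family).
Sub-architect: helper60.  Parts: S4FFamA (geometry), S4FFamB (transition function, Cauchy estimates),
S4FFamC (gluing of three families), this file (induction over the pieces, final assembly).

PROOF.  `fh (y,(σ,u)) := f ((σ,y),u)`.  Uniform mesh `h`; `Claim c`: for every accuracy `ε` there is
`δ` such that every entire `g` which is `δ`-close to `fh` on the piece `Cc c × (Dd c × P')` is the right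
end of a `C¹` family `Φ_t` (defined for ALL real `t`, holomorphic near `B × P'`), `Φ_t = g(·,(t,·))` for
`t ≥ c - h/2`, which is `ε`-close to `fh` (with `t`-derivative) over the part `{Re ≤ c}` of the face.
Base: `c - h ≤ Re` on the face (`Φ_t := g(·,(t,·))`).  Step `c → c + h`: `PathStmt` at `b = c`.
-/
import Claimed.Agent.R245.S4FFamA
import Claimed.Agent.R245.S4FFamC

set_option autoImplicit false

namespace Claimed.Agent.R245

open MvPolynomial Metric Set Claims.C0412 Filter Topology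

namespace S4FamCtx

variable {F : MvPolynomial (Fin 4) ℂ} {E' Z : Type} [NormedAddCommGroup E'] [NormedSpace ℂ E']
  [NormedAddCommGroup Z] [NormedSpace ℂ Z] (G : S4FamCtx F E' Z)

/-- the induction statement -/
def Claim (c : ℝ) : Prop :=
  ∀ ε : ℝ, 0 < ε → ∃ δ : ℝ, 0 < δ ∧ ∀ g : E' × (ℂ × Z) → V4, Entire F g →
    (∀ x ∈ G.Cc c ×ˢ (G.Dd c ×ˢ G.P'), ‖g x - G.fh x‖ < δ) →
    ∃ (N : Set (E' × Z)) (Φ : ℝ → E' × Z → V4), IsOpen N ∧ G.B ×ˢ G.P' ⊆ N ∧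
      (∀ t, HolOn F (Φ t) N) ∧
      ContDiffOn ℝ 1 (fun p : ℝ × (E' × Z) => Φ p.1 p.2) (univ ×ˢ N) ∧
      (∀ t, c - G.h / 2 ≤ t → ∀ x ∈ N, Φ t x = g (x.1, ((t : ℂ), x.2))) ∧
      ∀ z ∈ G.Fc, z.1.re ≤ c → ∀ y ∈ closedBall z.2 G.κ, ∀ u ∈ G.P',
        ‖Φ z.1.re (y, u) - G.fh (y, (z.1, u))‖ < ε ∧
        ‖deriv (fun t : ℝ => Φ t (y, u)) z.1.re - deriv (fun σ : ℂ => G.fh (y, (σ, u))) z.1‖ < ε

variable [FiniteDimensional ℂ E'] [FiniteDimensional ℂ Z]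

/-- closeness over one (extended) piece of an entire map -/
theorem piece_close {c δ : ℝ} {g : E' × (ℂ × Z) → V4} (hg : Entire F g)
    (hcl : ∀ x ∈ G.Cc c ×ˢ (G.Dd c ×ˢ G.P'), ‖g x - G.fh x‖ < δ) {z : ℂ × E'} (hz : z ∈ G.Fc)
    (hzc : z.1.re ∈ Icc (c - G.h - G.h / 4) (c + G.h / 4)) {y : E'} (hy : y ∈ closedBall z.2 G.κ)
    {u : Z} (hu : u ∈ G.P') :
    ‖g (y, (z.1, u)) - G.fh (y, (z.1, u))‖ < δ ∧
    ‖deriv (fun t : ℝ => g (y, ((t : ℂ), u))) z.1.re - deriv (fun σ : ℂ => G.fh (y, (σ, u))) z.1‖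
      ≤ δ / (G.h / 4) := by
  have hh := G.h_pos
  obtain ⟨t, ht⟩ : ∃ t : ℝ, z.1 = (t : ℂ) :=
    ⟨z.1.re, Complex.ext (by simp) (by simp [G.Fc_im z hz])⟩
  have htr : z.1.re = t := by rw [ht]; simp
  rw [htr] at hzc ⊢
  rw [ht]
  have hyC : y ∈ G.Cc c := G.ball_sub_Cc hz (by rw [htr]; exact hzc) hy
  have hD : closedBall (t : ℂ) (G.h / 4) ⊆ G.Dd c := G.disc_sub_Dd hzc
  have hmem : ∀ σ ∈ closedBall (t : ℂ) (G.h / 4), (y, (σ, u)) ∈ G.Cc c ×ˢ (G.Dd c ×ˢ G.P') :=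
    fun σ hσ => ⟨hyC, hD hσ, hu⟩
  refine ⟨hcl _ (hmem _ (mem_closedBall_self (by positivity))), ?_⟩
  exact s4fam_est_entire g G.fh G.Wh G.Wh_open hg.1 G.fh_hol.1 y u t (G.h / 4) δ (by positivity)
    (fun σ hσ => G.Cc_prod_sub c (hmem σ hσ)) (fun σ hσ => (hcl _ (hmem σ hσ)).le)

/-- the family `t ↦ g (·, (t, ·))` of an entire map -/
theorem holOn_subst {g : E' × (ℂ × Z) → V4} (hg : Entire F g) (σ : ℂ) (N : Set (E' × Z)) :
    HolOn F (fun x : E' × Z => g (x.1, (σ, x.2))) N :=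
  ⟨(hg.1.comp (s4fam_subst_differentiable σ)).differentiableOn, fun _ _ => hg.2 _⟩

theorem claim_base {c : ℝ} (hc : ∀ z ∈ G.Fc, c - G.h ≤ z.1.re) : G.Claim c := by
  intro ε hε
  have hh := G.h_pos
  refine ⟨min ε (ε * (G.h / 4)) / 2, by positivity, fun g hg hcl => ?_⟩
  refine ⟨univ, fun t x => g (x.1, ((t : ℂ), x.2)), isOpen_univ, subset_univ _,
    fun t => holOn_subst hg _ _, (s4fam_entire_contDiff hg.1).contDiffOn, fun t _ x _ => rfl, ?_⟩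
  intro z hz hzc y hy u hu
  obtain ⟨h1, h2⟩ := G.piece_close hg hcl hz ⟨by linarith [hc z hz], by linarith⟩ hy hu
  have hz1 : ((z.1.re : ℝ) : ℂ) = z.1 := Complex.ext (by simp) (by simp [G.Fc_im z hz])
  constructor
  · simp only [hz1]
    refine h1.trans_le ?_
    have := min_le_left ε (ε * (G.h / 4))
    linarith
  · refine h2.trans_lt ?_
    rw [div_lt_iff₀ (by positivity)]
    have := min_le_right ε (ε * (G.h / 4))
    have h3 : 0 < min ε (ε * (G.h / 4)) := by positivity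
    linarith

theorem claim_step {n : ℕ} (hn : PropA' F n) (hpath : PathStmt F n)
    (hE : Module.finrank ℂ E' = n) {a : ℝ} (ha : ∃ z ∈ G.Fc, z.1.re = a) (h : G.Claim a) :
    G.Claim (a + G.h) := by
  intro ε hε
  have hh := G.h_pos
  obtain ⟨M, hM, hMs⟩ := s4famS_deriv_bound
  obtain ⟨τ, hτdef⟩ : ∃ τ : ℝ, τ = G.h / 4 := ⟨_, rfl⟩
  have hτ : 0 < τ := by rw [hτdef]; positivity
  -- accuracy of the path
  obtain ⟨K, hKdef⟩ : ∃ K : ℝ, K = 1 + M / τ + 1 / τ := ⟨_, rfl⟩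
  have hK1 : 1 ≤ K := by
    rw [hKdef]
    have : 0 < M / τ := by positivity
    have : 0 < 1 / τ := by positivity
    linarith
  obtain ⟨ε₁, hε₁def⟩ : ∃ ε₁ : ℝ, ε₁ = ε / (2 * K) := ⟨_, rfl⟩
  have hε₁ : 0 < ε₁ := by rw [hε₁def]; positivity
  have hε₁K : ε₁ * K = ε / 2 := by rw [hε₁def]; field_simp
  have hBc := (s4_isPolydisc_props G.B_poly)
  have hPc := (s4_isPolydisc_props G.P_poly)
  -- the path statement at `b = a`
  have hPb : IsPolydisc (G.Db a ×ˢ G.P') :=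
    s4_isPolydisc_prod (s4_isPolydisc_disc _ _ (by positivity)) G.P_poly
  have hsubL : G.Cb a ×ˢ (G.Db a ×ˢ G.P') ⊆ G.Cc a ×ˢ (G.Dd a ×ˢ G.P') :=
    prod_mono (G.Cb_sub_Cc_left a) (prod_mono (G.Db_sub_Dd_left a) subset_rfl)
  have hsubR : G.Cb a ×ˢ (G.Db a ×ˢ G.P') ⊆ G.Cc (a + G.h) ×ˢ (G.Dd (a + G.h) ×ˢ G.P') :=
    prod_mono (G.Cb_sub_Cc_right a) (prod_mono (G.Db_sub_Dd_right a) subset_rfl)
  have hsubW : G.Cb a ×ˢ (G.Db a ×ˢ G.P') ⊆ G.Wh := hsubL.trans (G.Cc_prod_sub a)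
  have hfnear : HolNear F G.fh (G.Cb a ×ˢ (G.Db a ×ˢ G.P')) :=
    ⟨G.Wh, G.Wh_open, hsubW, G.fh_hol⟩
  obtain ⟨δb, hδb, hpathb⟩ := hpath E' (ℂ × Z) hE (G.Cm a) (G.Cb a) G.B (G.Db a ×ˢ G.P')
    (G.Cm_compact a) (G.Cm_convex a) (G.Cm_nonempty ha) (G.Cb_compact a) (G.Cb_convex a)
    (G.Cm_sub_interior_Cb a) hBc.1 hBc.2.1 (G.Cb_sub_B a) hPb G.fh hfnear ε₁ hε₁
  obtain ⟨δa, hδa, hold⟩ := h ε hε
  refine ⟨min δb (min ε (ε * τ) / 2), by positivity, fun g₁ hg₁ hcl₁ => ?_⟩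
  -- the entire map of the left piece
  have hfnear0 : HolNear F G.fh (G.Cc a ×ˢ (G.Dd a ×ˢ G.P')) :=
    ⟨G.Wh, G.Wh_open, G.Cc_prod_sub a, G.fh_hol⟩
  have hne : (G.Cc a).Nonempty := by
    obtain ⟨z, hz, hza⟩ := ha
    exact G.Cc_nonempty ⟨z, hz, by rw [hza]; constructor <;> linarith⟩
  obtain ⟨g₀, hg₀, hcl₀⟩ := hn E' (ℂ × Z) hE (G.Cc a) (G.Dd a ×ˢ G.P') (G.Cc_compact a)
    (G.Cc_convex a) hne (s4_isPolydisc_prod (s4_isPolydisc_disc _ _ hh) G.P_poly) G.fh hfnear0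
    (min δa δb) (by positivity)
  obtain ⟨N₀, Φ₀, hN₀, hBN₀, hΦ₀, hΦ₀c, hΦ₀g, hΦ₀cl⟩ :=
    hold g₀ hg₀ (fun x hx => (hcl₀ x hx).trans_le (min_le_left _ _))
  obtain ⟨H, Nb, hNb, hBNb, hH, hHc, hH0, hH1, hHcl⟩ := hpathb g₀ g₁ hg₀ hg₁
    (fun x hx => (hcl₀ x (hsubL hx)).trans_le (min_le_right _ _))
    (fun x hx => (hcl₁ x (hsubR hx)).trans_le (min_le_left _ _))
  have hDb : G.Db a = closedBall (a : ℂ) (2 * τ) := by
    unfold S4FamCtx.Db
    rw [hτdef]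
    congr 1
    ring
  obtain ⟨N, Φ, hN, hBN, hΦ, hΦc, hΦl, hΦm, hΦr⟩ := s4fam_glue F G.B G.P' hBc.1 hPc.1 a τ hτ g₀ g₁
    hg₁ H Nb hNb (by rw [← hDb]; exact hBNb) hH hHc hH0 hH1 Φ₀ N₀ hN₀ hBN₀ hΦ₀ hΦ₀c
    (fun t ht => hΦ₀g t (by rw [hτdef] at ht; linarith))
  refine ⟨N, Φ, hN, hBN, hΦ, hΦc, fun t ht x hx => hΦr t (by rw [hτdef]; linarith) x hx, ?_⟩
  intro z hz hzc y hy u hu
  have hxN : (y, u) ∈ N := hBN ⟨G.ball_sub_B hz hy, hu⟩
  obtain ⟨t, ht⟩ : ∃ t : ℝ, z.1 = (t : ℂ) :=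
    ⟨z.1.re, Complex.ext (by simp) (by simp [G.Fc_im z hz])⟩
  have htr : z.1.re = t := by rw [ht]; simp
  rcases lt_or_ge t (a - τ / 2) with h1 | h1
  · -- left: the old family
    have e : (fun t' : ℝ => Φ t' (y, u)) =ᶠ[𝓝 t] fun t' => Φ₀ t' (y, u) := by
      filter_upwards [Iio_mem_nhds h1] with t' ht'
      exact hΦl t' ht' _ hxN
    have h3 := hΦ₀cl z hz (by rw [htr]; linarith) y hy u hu
    rw [htr] at h3 ⊢
    rw [e.deriv_eq, hΦl t h1 _ hxN]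
    exact h3
  rcases le_or_gt t (a + τ / 2) with h2 | h2
  · -- middle: the path
    have htI : t ∈ Ioo (a - τ) (a + τ) := ⟨by linarith, by linarith⟩
    have htI' : t ∈ Icc (a - G.h / 4) (a + G.h / 4) := by
      rw [← hτdef]; exact ⟨by linarith, by linarith⟩
    have e : (fun t' : ℝ => Φ t' (y, u)) =ᶠ[𝓝 t]
        fun t' => H (s4famS a τ t') (y, ((t' : ℂ), u)) := by
      filter_upwards [Ioo_mem_nhds htI.1 htI.2] with t' ht'
      exact (hΦm t' ht' _ hxN).2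
    have hyCm : y ∈ G.Cm a := G.ball_sub_Cm hz (by rw [htr]; exact htI') hy
    have hdisc : closedBall (t : ℂ) τ ⊆ G.Db a := by rw [hτdef]; exact G.disc_sub_Db htI'
    have hmem : ∀ σ ∈ closedBall (t : ℂ) τ, (y, (σ, u)) ∈ G.Cm a ×ˢ (G.Db a ×ˢ G.P') :=
      fun σ hσ => ⟨hyCm, hdisc hσ, hu⟩
    have hmem' : ∀ σ ∈ closedBall (t : ℂ) τ, (y, (σ, u)) ∈ G.Cb a ×ˢ (G.Db a ×ˢ G.P') :=
      fun σ hσ => ⟨interior_subset (G.Cm_sub_interior_Cb a hyCm), hdisc hσ, hu⟩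
    have htt : (t : ℂ) ∈ closedBall (t : ℂ) τ := mem_closedBall_self hτ.le
    rw [htr, ht, e.deriv_eq, (hΦm t htI _ hxN).2]
    constructor
    · refine (hHcl _ _ (hmem _ htt)).1.trans_le ?_
      nlinarith
    · have h3 := s4fam_est_path H Nb hNb (fun s => (hH s).1) hHc G.fh G.Wh G.Wh_open G.fh_hol.1 y u
        t τ ε₁ (M / τ) hτ (s4famS a τ)
        ((s4famS_contDiff a τ).differentiable (by norm_num) t) (hMs a τ t hτ)
        (fun σ hσ => hBNb ⟨G.Cb_sub_B a (hmem' σ hσ).1, (hmem' σ hσ).2⟩)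
        (fun σ hσ => hsubW (hmem' σ hσ))
        (fun σ hσ => (hHcl _ _ (hmem σ hσ)).1.le) (hHcl _ _ (hmem _ htt)).2.le
      refine h3.trans_lt ?_
      have h4 : M / τ * ε₁ + ε₁ / τ = ε₁ * K - ε₁ := by rw [hKdef]; ring
      rw [h4, hε₁K]
      linarith
  · -- right: the new entire map
    have e : (fun t' : ℝ => Φ t' (y, u)) =ᶠ[𝓝 t] fun t' => g₁ (y, ((t' : ℂ), u)) := by
      filter_upwards [Ioi_mem_nhds h2] with t' ht'
      exact hΦr t' ht' _ hxN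
    obtain ⟨h3, h4⟩ := G.piece_close hg₁ hcl₁ hz
      (by rw [htr]; rw [htr] at hzc; rw [hτdef] at h2; constructor <;> linarith) hy hu
    rw [htr] at h4 ⊢
    rw [e.deriv_eq, hΦr t h2 _ hxN]
    rw [ht] at h3 h4 ⊢
    have h5 : min δb (min ε (ε * τ) / 2) ≤ min ε (ε * τ) / 2 := min_le_right _ _
    have h6 : 0 < min ε (ε * τ) := by positivity
    constructor
    · refine h3.trans_le (h5.trans ?_)
      have := min_le_left ε (ε * τ)
      linarith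
    · refine h4.trans_lt ?_
      rw [← hτdef, div_lt_iff₀ hτ]
      have := min_le_right ε (ε * τ)
      linarith

/-- all pieces -/
theorem claim_all {n : ℕ} (hn : PropA' F n) (hpath : PathStmt F n)
    (hE : Module.finrank ℂ E' = n) {zα zβ : ℂ × E'} (hα : zα ∈ G.Fc) (hβ : zβ ∈ G.Fc)
    (hmin : ∀ z ∈ G.Fc, zα.1.re ≤ z.1.re) (k : ℕ) :
    zα.1.re + k * G.h ≤ zβ.1.re + G.h → G.Claim (zα.1.re + k * G.h) := by
  have hh := G.h_pos
  induction k with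
  | zero =>
    intro _
    refine G.claim_base fun z hz => ?_
    have := hmin z hz
    simp only [Nat.cast_zero, zero_mul, add_zero]
    linarith
  | succ k ih =>
    intro hk
    push_cast at hk
    have h1 : zα.1.re + k * G.h ≤ zβ.1.re := by linarith
    have h2 : zα.1.re ≤ zα.1.re + k * G.h := by
      have : 0 ≤ (k : ℝ) * G.h := by positivity
      linarith
    have h3 := G.claim_step hn hpath hE (G.exists_re_eq hα hβ ⟨h2, h1⟩) (ih (by linarith))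
    have e : zα.1.re + ((k + 1 : ℕ) : ℝ) * G.h = zα.1.re + k * G.h + G.h := by
      push_cast; ring
    rw [e]
    exact h3

end S4FamCtx

/-- PACKAGE S4F-FAM.  See globalization.tex l.128-195, 312-330 and memo READ-G2: finite subdivision
of the interval, entire `g_i` close to `f` on `D_i × C_i × P'` from `PropA'` (the `t`-disc passive),
`PathStmt` at every division point with passive polydisc `D_b × P'`, substitution `s = s(t)`. -/
theorem s4f_fam (F : MvPolynomial (Fin 4) ℂ) (n : ℕ) (hn : PropA' F n) (hpath : PathStmt F n) :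
    FamStmt F n := by
  intro E' Z _ _ _ _ _ _ hE Fc P hFc hFcc hFcn hFim hP f hf
  obtain ⟨W0, hW0, hsub0, hfW0⟩ := hf
  have hPc := s4_isPolydisc_props hP
  obtain ⟨U, V, hU, hV, hFU, hPV, hUV⟩ := generalized_tube_lemma hFc hPc.1 hW0 hsub0
  obtain ⟨P', hP', hPP', hP'V⟩ := s4_isPolydisc_enlarge hP hV hPV
  obtain ⟨κ₁, hκ₁, hκ₁P⟩ := hPc.1.exists_cthickening_subset_open isOpen_interior hPP'
  obtain ⟨k0, hk0, hk0U⟩ := hFc.exists_cthickening_subset_open hU hFU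
  obtain ⟨κ, hκdef⟩ : ∃ κ : ℝ, κ = min κ₁ (k0 / 2) := ⟨_, rfl⟩
  have hκ : 0 < κ := by rw [hκdef]; positivity
  have hκ1 : κ ≤ κ₁ := by rw [hκdef]; exact min_le_left _ _
  have hκ2 : 2 * κ ≤ k0 := by
    have : κ ≤ k0 / 2 := by rw [hκdef]; exact min_le_right _ _
    linarith
  have hS : IsCompact (cthickening (2 * κ) (Prod.snd '' Fc)) :=
    (hFc.image continuous_snd).cthickening
  obtain ⟨B, hB, hSB⟩ := s4_exists_polydisc_superset hS
  have hmemW : ∀ z ∈ Fc, ∀ y ∈ closedBall z.2 (2 * κ), ∀ σ ∈ closedBall z.1 (2 * (k0 / 2)),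
      ∀ u ∈ P', ((σ, y), u) ∈ W0 := by
    intro z hz y hy σ hσ u hu
    refine hUV ⟨hk0U (mem_cthickening_of_dist_le (σ, y) z k0 Fc hz ?_), hP'V hu⟩
    rw [Prod.dist_eq]
    refine max_le ?_ ?_
    · have := mem_closedBall.1 hσ
      simp only at this ⊢
      linarith
    · have := mem_closedBall.1 hy
      simp only at this ⊢
      linarith
  have hcont : Continuous (fun x : E' × (ℂ × Z) => ((x.2.1, x.1), x.2.2)) := by fun_prop
  have hdiff : Differentiable ℂ (fun x : E' × (ℂ × Z) => ((x.2.1, x.1), x.2.2)) := by fun_prop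
  let G : S4FamCtx F E' Z :=
    { Fc := Fc
      B := B
      P' := P'
      fh := fun x => f ((x.2.1, x.1), x.2.2)
      Wh := (fun x : E' × (ℂ × Z) => ((x.2.1, x.1), x.2.2)) ⁻¹' W0
      κ := κ
      h := k0 / 2
      κ_pos := hκ
      h_pos := by positivity
      Fc_compact := hFc
      Fc_convex := hFcc
      Fc_im := hFim
      B_poly := hB
      P_poly := hP'
      Wh_open := hW0.preimage hcont
      fh_hol := ⟨hfW0.1.comp hdiff.differentiableOn (fun x hx => hx), fun x hx => hfW0.2 hx⟩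
      sub_B := fun z hz y hy => interior_subset (hSB
        (mem_cthickening_of_dist_le y z.2 _ _ (mem_image_of_mem _ hz) (mem_closedBall.1 hy)))
      sub_W := fun z hz y hy σ hσ u hu => hmemW z hz y hy σ hσ u hu }
  refine ⟨κ, B, P', W0, hκ, hB, hP', ?_, hW0, hfW0, ?_, ?_⟩
  · exact (cthickening_mono hκ1 P).trans (hκ₁P.trans interior_subset)
  · intro z hz y hy u hu
    refine ⟨G.ball_sub_B hz hy, hmemW z hz y ?_ z.1 (mem_closedBall_self (by positivity)) u hu⟩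
    exact closedBall_subset_closedBall (by linarith) hy
  intro ε hε
  obtain ⟨zα, hα, hmin⟩ := hFc.exists_isMinOn hFcn
    (f := fun z : ℂ × E' => z.1.re) (by fun_prop)
  obtain ⟨zβ, hβ, hmax⟩ := hFc.exists_isMaxOn hFcn
    (f := fun z : ℂ × E' => z.1.re) (by fun_prop)
  have hmin' : ∀ z ∈ Fc, zα.1.re ≤ z.1.re := fun z hz => hmin hz
  have hmax' : ∀ z ∈ Fc, z.1.re ≤ zβ.1.re := fun z hz => hmax hz
  have hh : 0 < k0 / 2 := by positivity
  have hx0 : 0 ≤ (zβ.1.re - zα.1.re) / (k0 / 2) := div_nonneg (by linarith [hmin' zβ hβ]) hh.le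
  obtain ⟨K, hKdef⟩ : ∃ K : ℕ, K = ⌈(zβ.1.re - zα.1.re) / (k0 / 2)⌉₊ := ⟨_, rfl⟩
  have hK1 : (K : ℝ) * (k0 / 2) < zβ.1.re - zα.1.re + k0 / 2 := by
    have := Nat.ceil_lt_add_one hx0
    rw [← hKdef] at this
    have h2 := mul_lt_mul_of_pos_right this hh
    rw [add_mul, div_mul_cancel₀ _ hh.ne', one_mul] at h2
    exact h2
  have hK2 : zβ.1.re - zα.1.re ≤ (K : ℝ) * (k0 / 2) := by
    have := Nat.le_ceil ((zβ.1.re - zα.1.re) / (k0 / 2))
    rw [← hKdef] at this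
    rwa [div_le_iff₀ hh] at this
  obtain ⟨c, hcdef⟩ : ∃ c : ℝ, c = zα.1.re + K * (k0 / 2) := ⟨_, rfl⟩
  have hclaim : G.Claim c := by
    rw [hcdef]
    exact G.claim_all hn hpath hE hα hβ hmin' K
      (by show zα.1.re + K * (k0 / 2) ≤ zβ.1.re + k0 / 2; linarith)
  obtain ⟨δ, hδ, hfam⟩ := hclaim ε hε
  have hne : (G.Cc c).Nonempty :=
    G.Cc_nonempty ⟨zβ, hβ, by
      show zβ.1.re ∈ Icc (c - k0 / 2 - k0 / 2 / 4) (c + k0 / 2 / 4)
      constructor <;> linarith⟩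
  obtain ⟨g, hg, hcl⟩ := hn E' (ℂ × Z) hE (G.Cc c) (G.Dd c ×ˢ P') (G.Cc_compact c)
    (G.Cc_convex c) hne (s4_isPolydisc_prod (s4_isPolydisc_disc _ _ hh) hP') G.fh
    ⟨G.Wh, G.Wh_open, G.Cc_prod_sub c, G.fh_hol⟩ δ hδ
  obtain ⟨N, Φ, hN, hBN, hΦ, hΦc, -, hΦcl⟩ := hfam g hg hcl
  refine ⟨univ, N, Φ, isOpen_univ, fun _ _ => mem_univ _, hN, hBN, fun t _ => hΦ t, hΦc, ?_⟩
  intro z hz y hy u hu
  exact hΦcl z hz (by linarith [hmax' z hz]) y hy u hu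

end Claimed.Agent.R245
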