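/-
Row 245 / S0484, Section 4, block FACE. PACKAGE S4F-FIN (from the real family to an entire map).
-/
import Claimed.Agent.R245.S4FDefs
import Claimed.Agent.R245.S4Tr
import Claimed.Agent.R245.SCVEst

set_option autoImplicit false

namespace Claimed.Agent.R245

open MvPolynomial Metric Set Claims.C0412

/-- splitting the operator norm of the derivative on `(ℂ × E') × Z` into the `ℂ`-direction and the rest -/
theorem s4ffin_fderiv_split {E' Z : Type*} [NormedAddCommGroup E'] [NormedSpace ℂ E']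
    [NormedAddCommGroup Z] [NormedSpace ℂ Z] {D : (ℂ × E') × Z → V4} {t : ℂ} {y : E'} {u : Z}
    (hD : DifferentiableAt ℂ D ((t, y), u)) :
    ‖fderiv ℂ D ((t, y), u)‖ ≤ ‖deriv (fun σ : ℂ => D ((σ, y), u)) t‖ +
      ‖fderiv ℂ (fun q : E' × Z => D ((t, q.1), q.2)) (y, u)‖ := by
  have h1 : HasDerivAt (fun σ : ℂ => D ((σ, y), u)) (fderiv ℂ D ((t, y), u) ((1, 0), 0)) t := by
    have hl : HasDerivAt (fun σ : ℂ => (((σ, y), u) : (ℂ × E') × Z)) ((1, 0), 0) t :=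
      ((hasDerivAt_id t).prodMk (hasDerivAt_const t y)).prodMk (hasDerivAt_const t u)
    exact hD.hasFDerivAt.comp_hasDerivAt t hl
  set L : E' × Z →L[ℂ] (ℂ × E') × Z :=
    ((ContinuousLinearMap.inr ℂ ℂ E').comp (ContinuousLinearMap.fst ℂ E' Z)).prod
      (ContinuousLinearMap.snd ℂ E' Z) with hL
  have h2 : HasFDerivAt (fun q : E' × Z => D ((t, q.1), q.2)) ((fderiv ℂ D ((t, y), u)).comp L)
      (y, u) := by
    have hl : HasFDerivAt (fun q : E' × Z => (((t, q.1), q.2) : (ℂ × E') × Z)) L (y, u) := by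
      have e : (fun q : E' × Z => (((t, q.1), q.2) : (ℂ × E') × Z)) =
          fun q => L q + ((t, 0), 0) := by
        funext q
        simp [hL]
      rw [e]
      exact L.hasFDerivAt.add_const _
    exact HasFDerivAt.comp (y, u) (f := fun q : E' × Z => (((t, q.1), q.2) : (ℂ × E') × Z))
      hD.hasFDerivAt hl
  rw [h1.deriv, h2.fderiv]
  refine ContinuousLinearMap.opNorm_le_bound _ (by positivity) fun v => ?_
  obtain ⟨⟨a, e⟩, w⟩ := v
  have hv : (((a, e), w) : (ℂ × E') × Z) = a • ((1, 0), 0) + L (e, w) := by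
    simp [hL]
  have ha : ‖a‖ ≤ ‖(((a, e), w) : (ℂ × E') × Z)‖ :=
    (le_max_left _ _).trans (le_max_left _ _)
  have hew : ‖((e, w) : E' × Z)‖ ≤ ‖(((a, e), w) : (ℂ × E') × Z)‖ :=
    max_le ((le_max_right _ _).trans (le_max_left _ _)) (le_max_right _ _)
  calc ‖fderiv ℂ D ((t, y), u) ((a, e), w)‖
      = ‖a • fderiv ℂ D ((t, y), u) ((1, 0), 0) + ((fderiv ℂ D ((t, y), u)).comp L) (e, w)‖ := by
        rw [hv, map_add, map_smul]; rfl
    _ ≤ ‖a‖ * ‖fderiv ℂ D ((t, y), u) ((1, 0), 0)‖ +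
        ‖(fderiv ℂ D ((t, y), u)).comp L‖ * ‖((e, w) : E' × Z)‖ := by
        refine (norm_add_le _ _).trans (add_le_add (norm_smul _ _).le
          (ContinuousLinearMap.le_opNorm _ _))
    _ ≤ ‖(((a, e), w) : (ℂ × E') × Z)‖ * ‖fderiv ℂ D ((t, y), u) ((1, 0), 0)‖ +
        ‖(fderiv ℂ D ((t, y), u)).comp L‖ * ‖(((a, e), w) : (ℂ × E') × Z)‖ := by
        gcongr
    _ = _ := by ring

/-- the interval of first coordinates of a compact convex face -/
theorem s4ffin_interval {E' : Type*} [NormedAddCommGroup E'] [NormedSpace ℂ E']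
    {Fc : Set (ℂ × E')} (hFc : IsCompact Fc) (hFcc : Convex ℝ Fc) (hFcn : Fc.Nonempty) :
    ∃ a b : ℝ, a ≤ b ∧ (∀ s ∈ Icc a b, ∃ z ∈ Fc, z.1.re = s) ∧ ∀ z ∈ Fc, z.1.re ∈ Icc a b := by
  have hg : Continuous (fun z : ℂ × E' => z.1.re) := Complex.continuous_re.comp continuous_fst
  obtain ⟨z₀, hz₀, hmin⟩ := hFc.exists_isMinOn hFcn hg.continuousOn
  obtain ⟨z₁, hz₁, hmax⟩ := hFc.exists_isMaxOn hFcn hg.continuousOn
  refine ⟨z₀.1.re, z₁.1.re, hmin hz₁, fun s hs => ?_, fun z hz => ⟨hmin hz, hmax hz⟩⟩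
  obtain ⟨z, hz, hzs⟩ := hFcc.isPreconnected.intermediate_value hz₀ hz₁ hg.continuousOn hs
  exact ⟨z, hz, hzs⟩

/-- one-variable Cauchy estimate at the centre of a disc -/
theorem s4ffin_cauchy1 {g : ℂ → V4} {t : ℂ} {θ M : ℝ} (hθ : 0 < θ)
    (hg : DifferentiableOn ℂ g (ball t θ)) (hM : ∀ σ ∈ ball t θ, ‖g σ‖ ≤ M) :
    ‖deriv g t‖ ≤ M / θ := by
  have h := scv_norm_fderiv_le hg hM (mem_ball_self hθ)
  rw [dist_self, sub_zero] at h
  rwa [norm_deriv_eq_norm_fderiv]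

/-- PACKAGE S4F-FIN.  `IntervalStmt` on `[α,β] × (B × P')`, then `Param0Stmt`, then Cauchy estimates
(radius `θ` in the complexified parameter, radius `κ` in the other directions). -/
theorem s4f_fin (F : MvPolynomial (Fin 4) ℂ) (n : ℕ) (hfam : FamStmt F n) (hint : IntervalStmt F)
    (hpar0 : Param0Stmt F) : FaceStmt F n := by
  intro E' Z _ _ _ _ _ _ hn Fc P hFc hFcc hFcn him hP f hf ε hε
  obtain ⟨κ, B, P', W, hκ, hB, hP', hPP', hW, hfW, hgeo, hΦ⟩ :=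
    hfam E' Z hn Fc P hFc hFcc hFcn him hP f hf
  obtain ⟨a, b, hab, hIcc, hmem⟩ := s4ffin_interval hFc hFcc hFcn
  -- first accuracy
  set ε₁ : ℝ := ε * min 1 κ / 16 with hε₁def
  have hmin1 : 0 < min 1 κ := lt_min one_pos hκ
  have hε₁ : 0 < ε₁ := by positivity
  obtain ⟨J, N, Φ, hJ, hJmem, hN, hBN, hΦhol, hΦC1, hΦclose⟩ := hΦ ε₁ hε₁
  have hpoly : IsPolydisc (B ×ˢ P') := s4_isPolydisc_prod hB hP'
  obtain ⟨hCc, hCconv, hCne⟩ := s4_isPolydisc_props hpoly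
  have hIccJ : Icc a b ⊆ J := by
    intro s hs
    obtain ⟨z, hz, rfl⟩ := hIcc s hs
    exact hJmem z hz
  obtain ⟨Ht, hHt, hHtclose⟩ := hint (E' × Z) (B ×ˢ P') N a b J Φ hCc hCconv hCne hab hJ hIccJ hN
    hBN hΦhol hΦC1 ε₁ hε₁
  obtain ⟨θ, hθ, hG0⟩ := hpar0 (E' × Z) (B ×ˢ P') a b hpoly hab Ht hHt
  obtain ⟨WH, hWH, hsubWH, hHtd, -⟩ := hHt
  have hSegc : IsCompact (CSeg a b) := isCompact_Icc.image Complex.continuous_ofReal
  obtain ⟨θ₀, hθ₀, hθ₀sub⟩ := (hSegc.prod hCc).exists_cthickening_subset_open hWH hsubWH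
  set θ' : ℝ := min θ θ₀ with hθ'def
  have hθ' : 0 < θ' := lt_min hθ hθ₀
  set ε₂ : ℝ := ε * min 1 (min θ' κ) / 8 with hε₂def
  have hmin2 : 0 < min 1 (min θ' κ) := lt_min one_pos (lt_min hθ' hκ)
  have hε₂ : 0 < ε₂ := by positivity
  obtain ⟨G0, ⟨hG0d, hG0c⟩, hG0close⟩ := hG0 ε₂ hε₂
  -- numerical facts
  have n1 : 2 * ε₁ ≤ ε / 8 := by
    have : min 1 κ ≤ 1 := min_le_left _ _
    rw [hε₁def]; nlinarith
  have n2 : 2 * ε₁ / κ ≤ ε / 8 := by
    have : min 1 κ ≤ κ := min_le_right _ _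
    rw [div_le_iff₀ hκ, hε₁def]; nlinarith
  have n3 : ε₂ ≤ ε / 8 := by
    have : min 1 (min θ' κ) ≤ 1 := min_le_left _ _
    rw [hε₂def]; nlinarith
  have n4 : ε₂ / θ' ≤ ε / 8 := by
    have : min 1 (min θ' κ) ≤ θ' := (min_le_right _ _).trans (min_le_left _ _)
    rw [div_le_iff₀ hθ', hε₂def]; nlinarith
  have n5 : ε₂ / κ ≤ ε / 8 := by
    have : min 1 (min θ' κ) ≤ κ := (min_le_right _ _).trans (min_le_right _ _)
    rw [div_le_iff₀ hκ, hε₂def]; nlinarith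
  have hGd : Differentiable ℂ (fun x : (ℂ × E') × Z => G0 (x.1.1, (x.1.2, x.2))) := by
    refine hG0d.comp ?_
    fun_prop
  refine ⟨fun x => G0 (x.1.1, (x.1.2, x.2)), ⟨hGd, fun z => hG0c _⟩, ?_⟩
  rintro ⟨⟨t, y⟩, u⟩ ⟨hty, hu⟩
  simp only at hty hu
  -- the real parameter
  have hts : t = ((t.re : ℝ) : ℂ) := by
    apply Complex.ext
    · simp
    · simpa using him _ hty
  have hs : t.re ∈ Icc a b := hmem _ hty
  have htSeg : t ∈ CSeg a b := ⟨t.re, hs, hts.symm⟩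
  -- value estimate on the whole `κ`-box
  have hval : ∀ y' ∈ closedBall y κ, ∀ u' ∈ P',
      ‖G0 (t, (y', u')) - f ((t, y'), u')‖ < ε₂ + 2 * ε₁ := by
    intro y' hy' u' hu'
    have hq : (y', u') ∈ B ×ˢ P' := ⟨(hgeo _ hty y' hy' u' hu').1, hu'⟩
    have e1 : ‖G0 (t, (y', u')) - Ht (t, (y', u'))‖ < ε₂ :=
      hG0close _ ⟨self_subset_cthickening _ htSeg, hq⟩
    have e2 : ‖Ht (t, (y', u')) - Φ t.re (y', u')‖ < ε₁ := by
      have := (hHtclose t.re hs (y', u') hq).1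
      rwa [← hts] at this
    have e3 : ‖Φ t.re (y', u') - f ((t, y'), u')‖ < ε₁ := (hΦclose _ hty y' hy' u' hu').1
    calc ‖G0 (t, (y', u')) - f ((t, y'), u')‖
        = ‖(G0 (t, (y', u')) - Ht (t, (y', u'))) + (Ht (t, (y', u')) - Φ t.re (y', u')) +
            (Φ t.re (y', u') - f ((t, y'), u'))‖ := by congr 1; abel
      _ ≤ ‖G0 (t, (y', u')) - Ht (t, (y', u'))‖ + ‖Ht (t, (y', u')) - Φ t.re (y', u')‖ +
            ‖Φ t.re (y', u') - f ((t, y'), u')‖ := norm_add₃_le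
      _ < ε₂ + 2 * ε₁ := by linarith
  have hyy : y ∈ closedBall y κ := mem_closedBall_self hκ.le
  have huP' : u ∈ P' := hPP' (self_subset_cthickening _ hu)
  have hq0 : (y, u) ∈ B ×ˢ P' := ⟨(hgeo _ hty y hyy u huP').1, huP'⟩
  have hxW : ((t, y), u) ∈ W := (hgeo _ hty y hyy u huP').2
  have hfd : DifferentiableAt ℂ f ((t, y), u) := (hfW.1 _ hxW).differentiableAt (hW.mem_nhds hxW)
  refine ⟨by have := hval y hyy u huP'; simp only; linarith, ?_⟩
  -- the derivative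
  set D : (ℂ × E') × Z → V4 := fun x => G0 (x.1.1, (x.1.2, x.2)) - f x with hDdef
  have hDd : DifferentiableAt ℂ D ((t, y), u) := hGd.differentiableAt.sub hfd
  have hDf : fderiv ℂ (fun x : (ℂ × E') × Z => G0 (x.1.1, (x.1.2, x.2))) ((t, y), u) -
      fderiv ℂ f ((t, y), u) = fderiv ℂ D ((t, y), u) := by
    rw [hDdef]
    exact (fderiv_fun_sub hGd.differentiableAt hfd).symm
  rw [hDf]
  refine (s4ffin_fderiv_split hDd).trans_lt ?_
  -- the `(y,u)` part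
  have hpart2 : ‖fderiv ℂ (fun q : E' × Z => D ((t, q.1), q.2)) (y, u)‖ ≤ (ε₂ + 2 * ε₁) / κ := by
    have hball : ∀ q ∈ ball ((y, u) : E' × Z) κ, q.1 ∈ closedBall y κ ∧ q.2 ∈ P' := by
      intro q hq
      rw [← ball_prod_same, mem_prod] at hq
      refine ⟨ball_subset_closedBall hq.1, hPP' ?_⟩
      exact mem_cthickening_of_dist_le q.2 u κ P hu (mem_ball.1 hq.2).le
    have hd : DifferentiableOn ℂ (fun q : E' × Z => D ((t, q.1), q.2)) (ball (y, u) κ) := by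
      intro q hq
      obtain ⟨h1, h2⟩ := hball q hq
      have hqW : ((t, q.1), q.2) ∈ W := (hgeo _ hty q.1 h1 q.2 h2).2
      have hfq : DifferentiableAt ℂ f ((t, q.1), q.2) :=
        (hfW.1 _ hqW).differentiableAt (hW.mem_nhds hqW)
      have hDq : DifferentiableAt ℂ D ((t, q.1), q.2) := hGd.differentiableAt.sub hfq
      have hl : DifferentiableAt ℂ (fun q : E' × Z => (((t, q.1), q.2) : (ℂ × E') × Z)) q := by
        fun_prop
      exact (DifferentiableAt.comp q (f := fun q : E' × Z => (((t, q.1), q.2) : (ℂ × E') × Z))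
        hDq hl).differentiableWithinAt
    have hM : ∀ q ∈ ball ((y, u) : E' × Z) κ, ‖D ((t, q.1), q.2)‖ ≤ ε₂ + 2 * ε₁ := by
      intro q hq
      obtain ⟨h1, h2⟩ := hball q hq
      exact (hval q.1 h1 q.2 h2).le
    have h := scv_norm_fderiv_le hd hM (mem_ball_self hκ)
    rwa [dist_self, sub_zero] at h
  -- the `σ` part
  have hpart1 : ‖deriv (fun σ : ℂ => D ((σ, y), u)) t‖ < ε₂ / θ' + 2 * ε₁ := by
    have hG0σ : DifferentiableAt ℂ (fun σ : ℂ => G0 (σ, (y, u))) t := by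
      refine (hG0d _).comp t ?_
      fun_prop
    have hfσ : DifferentiableAt ℂ (fun σ : ℂ => f ((σ, y), u)) t := by
      refine DifferentiableAt.comp t (f := fun σ : ℂ => (((σ, y), u) : (ℂ × E') × Z)) hfd ?_
      fun_prop
    have hballσ : ∀ σ ∈ ball t θ', (σ, ((y, u) : E' × Z)) ∈ WH ∧
        (σ, ((y, u) : E' × Z)) ∈ cthickening θ (CSeg a b) ×ˢ (B ×ˢ P') := by
      intro σ hσ
      have hσ' : dist σ t < θ' := mem_ball.1 hσ
      refine ⟨hθ₀sub ?_, ?_, hq0⟩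
      · refine mem_cthickening_of_dist_le _ (t, ((y, u) : E' × Z)) θ₀ _ ⟨htSeg, hq0⟩ ?_
        rw [Prod.dist_eq, dist_self]
        exact max_le (hσ'.le.trans (min_le_right _ _)) hθ₀.le
      · exact mem_cthickening_of_dist_le σ t θ _ htSeg (hσ'.le.trans (min_le_left _ _))
    have hHtσ' : ∀ σ ∈ ball t θ', DifferentiableAt ℂ (fun σ : ℂ => Ht (σ, (y, u))) σ := by
      intro σ hσ
      have h1 : DifferentiableAt ℂ Ht (σ, (y, u)) :=
        (hHtd _ (hballσ σ hσ).1).differentiableAt (hWH.mem_nhds (hballσ σ hσ).1)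
      refine DifferentiableAt.comp σ (f := fun σ : ℂ => ((σ, (y, u)) : ℂ × (E' × Z))) h1 ?_
      fun_prop
    have hHtσ := hHtσ' t (mem_ball_self hθ')
    have c1 : ‖deriv (fun σ : ℂ => G0 (σ, (y, u)) - Ht (σ, (y, u))) t‖ ≤ ε₂ / θ' := by
      refine s4ffin_cauchy1 hθ' ?_ ?_
      · intro σ hσ
        have h1 : DifferentiableAt ℂ (fun σ : ℂ => G0 (σ, (y, u))) σ := by
          refine (hG0d _).comp σ ?_
          fun_prop
        exact (h1.sub (hHtσ' σ hσ)).differentiableWithinAt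
      · intro σ hσ
        exact (hG0close _ (hballσ σ hσ).2).le
    have c2 : ‖deriv (fun σ : ℂ => Ht (σ, (y, u))) t - deriv (fun r : ℝ => Φ r (y, u)) t.re‖ < ε₁ := by
      have := (hHtclose t.re hs (y, u) hq0).2
      rwa [← hts] at this
    have c3 : ‖deriv (fun r : ℝ => Φ r (y, u)) t.re - deriv (fun σ : ℂ => f ((σ, y), u)) t‖ < ε₁ :=
      (hΦclose _ hty y hyy u huP').2
    have e1 : deriv (fun σ : ℂ => D ((σ, y), u)) t =
        deriv (fun σ : ℂ => G0 (σ, (y, u))) t - deriv (fun σ : ℂ => f ((σ, y), u)) t := by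
      rw [hDdef]
      exact deriv_fun_sub hG0σ hfσ
    have e2 : deriv (fun σ : ℂ => G0 (σ, (y, u)) - Ht (σ, (y, u))) t =
        deriv (fun σ : ℂ => G0 (σ, (y, u))) t - deriv (fun σ : ℂ => Ht (σ, (y, u))) t :=
      deriv_fun_sub hG0σ hHtσ
    rw [e2] at c1
    rw [e1]
    calc ‖deriv (fun σ : ℂ => G0 (σ, (y, u))) t - deriv (fun σ : ℂ => f ((σ, y), u)) t‖
        = ‖(deriv (fun σ : ℂ => G0 (σ, (y, u))) t - deriv (fun σ : ℂ => Ht (σ, (y, u))) t) +
            (deriv (fun σ : ℂ => Ht (σ, (y, u))) t - deriv (fun r : ℝ => Φ r (y, u)) t.re) +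
            (deriv (fun r : ℝ => Φ r (y, u)) t.re - deriv (fun σ : ℂ => f ((σ, y), u)) t)‖ := by
          congr 1; abel
      _ ≤ _ := norm_add₃_le
      _ < ε₂ / θ' + 2 * ε₁ := by linarith
  have n6 : (ε₂ + 2 * ε₁) / κ = ε₂ / κ + 2 * ε₁ / κ := add_div _ _ _
  linarith

end Claimed.Agent.R245
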