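/-
Row 245 / S0484, Section 4, block FACE, package S4F-INT (helper278).  Tools, Mathlib only.

 * `s4fi_exists_antideriv`  : complex polynomials have antiderivatives vanishing at a given point.
 * `s4fi_poly_approx`       : a family `c s x` (`s ∈ [a,b]`) which near every parameter is `η`-close to one of the functions
                              `e i s x` is `2η`-close to a finite combination `∑ q_i(s) e i s x`, `q_i` polynomials
                              (partition of unity on `[a,b]` + Weierstrass).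
 * `s4fi_root`              : scalar implicit function theorem near a COMPACT set of trivial roots
                              (`ContDiffAt.implicitFunction` + `Set.InjOn.exists_isOpen_superset`).
 * `s4fi_c1_stable`         : `C¹` stability of `w ↦ G w` near a compact set (values and derivatives applied to vectors).
-/
import Mathlib

set_option autoImplicit false

namespace Claimed.Agent.R245

open Metric Set Filter Topology


/-- complex polynomials have antiderivatives. -/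
theorem s4fi_exists_antideriv (p : Polynomial ℂ) (a : ℂ) :
    ∃ P : Polynomial ℂ, Polynomial.derivative P = p ∧ P.eval a = 0 := by
  have h : ∃ R : Polynomial ℂ, Polynomial.derivative R = p := by
    induction p using Polynomial.induction_on' with
    | add p q hp hq =>
      obtain ⟨R, hR⟩ := hp
      obtain ⟨S, hS⟩ := hq
      exact ⟨R + S, by rw [Polynomial.derivative_add, hR, hS]⟩
    | monomial n c =>
      refine ⟨Polynomial.monomial (n + 1) (c / ((n : ℂ) + 1)), ?_⟩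
      rw [Polynomial.derivative_monomial]
      have h1 : ((n : ℂ) + 1) ≠ 0 := by
        exact_mod_cast Nat.succ_ne_zero n
      congr 1
      push_cast
      field_simp
  obtain ⟨R, hR⟩ := h
  exact ⟨R - Polynomial.C (R.eval a), by simp [hR], by simp⟩

/-- evaluation of a real polynomial at a real point, complexified. -/
theorem s4fi_eval_map_ofReal (q : Polynomial ℝ) (s : ℝ) :
    (q.map (algebraMap ℝ ℂ)).eval (s : ℂ) = ((q.eval s : ℝ) : ℂ) := by
  have := Polynomial.eval_map_apply (algebraMap ℝ ℂ) (p := q) s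
  simpa using this

/-- **Polynomial approximation of a family that is locally approximable.**  If near every parameter of `[a,b]` the
target `c s x` is `η`-close to one of the (bounded) functions `e i s x`, then a finite combination of the `e i` with
polynomial coefficients is `2η`-close to `c` on `[a,b] × S`. -/
theorem s4fi_poly_approx {V P ι₀ : Type*} [NormedAddCommGroup V] [NormedSpace ℂ V] (a b : ℝ) (S : Set P)
    (e : ι₀ → ℝ → P → V) (c : ℝ → P → V) (U : ι₀ → Set ℝ) (hU : ∀ i, IsOpen (U i))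
    (hcov : Icc a b ⊆ ⋃ i, U i) (η : ℝ) (hη : 0 < η)
    (hbd : ∀ i, ∃ M : ℝ, ∀ s ∈ Icc a b, ∀ x ∈ S, ‖e i s x‖ ≤ M)
    (happ : ∀ i, ∀ s ∈ U i, s ∈ Icc a b → ∀ x ∈ S, ‖e i s x - c s x‖ ≤ η) :
    ∃ (t : Finset ι₀) (q : t → Polynomial ℂ), ∀ s ∈ Icc a b, ∀ x ∈ S,
      ‖∑ i : t, (q i).eval (s : ℂ) • e i s x - c s x‖ < 2 * η := by
  classical
  obtain ⟨t, ht⟩ := isCompact_Icc.elim_finite_subcover U hU hcov
  have hcov' : Icc a b ⊆ ⋃ i : t, U i := by
    intro s hs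
    obtain ⟨i, hi, hsi⟩ := mem_iUnion₂.1 (ht hs)
    exact mem_iUnion.2 ⟨⟨i, hi⟩, hsi⟩
  obtain ⟨f, hf⟩ := PartitionOfUnity.exists_isSubordinate isClosed_Icc (fun i : t => U i)
    (fun i => hU i) hcov'
  choose M hM using hbd
  obtain ⟨Mt, hMt⟩ : ∃ Mt : ℝ, Mt = ∑ i : t, |M i| + 1 := ⟨_, rfl⟩
  have hMt0 : 0 < Mt := by
    rw [hMt]
    have : 0 ≤ ∑ i : t, |M i| := Finset.sum_nonneg fun i _ => abs_nonneg _
    linarith
  have hpol : ∀ i : t, ∃ p : Polynomial ℝ, ∀ s ∈ Icc a b, |p.eval s - f i s| < η / Mt := fun i =>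
    exists_polynomial_near_of_continuousOn a b (f i) (f i).continuous.continuousOn _ (by positivity)
  choose p hp using hpol
  refine ⟨t, fun i => (p i).map (algebraMap ℝ ℂ), ?_⟩
  intro s hs x hx
  have hsum1 : ∑ i : t, f i s = 1 := by
    have := f.sum_eq_one hs
    rwa [finsum_eq_sum_of_fintype] at this
  have hdec : ∑ i : t, ((p i).map (algebraMap ℝ ℂ)).eval (s : ℂ) • e i s x - c s x =
      ∑ i : t, (((p i).eval s - f i s : ℝ) : ℂ) • e i s x + ∑ i : t, ((f i s : ℝ) : ℂ) • (e i s x - c s x) := by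
    have h1 : c s x = ∑ i : t, ((f i s : ℝ) : ℂ) • c s x := by
      rw [← Finset.sum_smul, ← Complex.ofReal_sum, hsum1]
      simp
    conv_lhs => rw [h1]
    rw [← Finset.sum_sub_distrib, ← Finset.sum_add_distrib]
    refine Finset.sum_congr rfl fun i _ => ?_
    rw [s4fi_eval_map_ofReal, Complex.ofReal_sub, sub_smul, smul_sub]
    abel
  rw [hdec]
  have hA : ‖∑ i : t, (((p i).eval s - f i s : ℝ) : ℂ) • e i s x‖ ≤ ∑ i : t, η / Mt * |M i| := by
    refine (norm_sum_le _ _).trans (Finset.sum_le_sum fun i _ => ?_)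
    rw [norm_smul, Complex.norm_real, Real.norm_eq_abs]
    exact mul_le_mul (hp i s hs).le ((hM i s hs x hx).trans (le_abs_self _)) (norm_nonneg _)
      (by positivity)
  have hA' : ∑ i : t, η / Mt * |M i| < η := by
    rw [← Finset.mul_sum, div_mul_eq_mul_div, div_lt_iff₀ hMt0]
    have : ∑ i : t, |M i| < Mt := by rw [hMt]; linarith
    exact mul_lt_mul_of_pos_left this hη
  have hB : ‖∑ i : t, ((f i s : ℝ) : ℂ) • (e i s x - c s x)‖ ≤ ∑ i : t, f i s * η := by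
    refine (norm_sum_le _ _).trans (Finset.sum_le_sum fun i _ => ?_)
    rw [norm_smul, Complex.norm_real, Real.norm_eq_abs, abs_of_nonneg (f.nonneg i s)]
    by_cases hsi : s ∈ U i
    · exact mul_le_mul_of_nonneg_left (happ i s hsi hs x hx) (f.nonneg i s)
    · have h0 : f i s = 0 := image_eq_zero_of_notMem_tsupport fun h => hsi (hf i h)
      rw [h0]; simp
  have hB' : ∑ i : t, f i s * η = η := by rw [← Finset.sum_mul, hsum1, one_mul]
  calc _ ≤ _ + _ := norm_add_le _ _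
    _ < 2 * η := by linarith


theorem s4fi_isInvertible_of_ne {L : ℂ →L[ℂ] ℂ} (h : L 1 ≠ 0) : L.IsInvertible := by
  refine ⟨ContinuousLinearEquiv.unitsEquivAut ℂ (Units.mk0 (L 1) h), ?_⟩
  apply ContinuousLinearMap.ext_ring
  simp

/-- **Scalar implicit function theorem near a compact set of trivial roots.** -/
theorem s4fi_root {Y : Type*} [NormedAddCommGroup Y] [NormedSpace ℂ Y] [CompleteSpace Y]
    (f : Y × ℂ → ℂ) (hf : ContDiff ℂ 1 f) (K : Set Y) (hK : IsCompact K)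
    (h0 : ∀ w ∈ K, f (w, 0) = 0) (h1 : ∀ w ∈ K, fderiv ℂ f (w, 0) (0, 1) ≠ 0) :
    ∃ (U : Set Y) (m : Y → ℂ), IsOpen U ∧ K ⊆ U ∧ ContDiffOn ℂ 1 m U ∧ (∀ w ∈ U, f (w, m w) = 0) ∧
      ∀ w ∈ U, f (w, 0) = 0 → m w = 0 := by
  classical
  obtain ⟨g, hg⟩ : ∃ g : Y × ℂ → ℂ × Y, g = fun v => (f v, v.1) := ⟨_, rfl⟩
  have hgc : Continuous g := by
    rw [hg]
    exact hf.continuous.prodMk continuous_fst
  have hinv : ∀ v : Y × ℂ, fderiv ℂ f v (0, 1) ≠ 0 →
      (fderiv ℂ f v ∘L ContinuousLinearMap.inr ℂ Y ℂ).IsInvertible := by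
    intro v hv
    apply s4fi_isInvertible_of_ne
    simpa using hv
  have hstrict : ∀ v : Y × ℂ, HasStrictFDerivAt f (fderiv ℂ f v) v := fun v =>
    hf.contDiffAt.hasStrictFDerivAt (by norm_num)
  have hloc : ∀ v : Y × ℂ, fderiv ℂ f v (0, 1) ≠ 0 → ∃ u ∈ 𝓝 v, InjOn g u := by
    intro v hv
    let φ := (hstrict v).implicitFunctionDataOfProdDomain (hinv v hv)
    refine ⟨φ.toOpenPartialHomeomorph.source,
      φ.toOpenPartialHomeomorph.open_source.mem_nhds φ.pt_mem_toOpenPartialHomeomorph_source, ?_⟩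
    have h := φ.toOpenPartialHomeomorph.injOn
    rw [φ.toOpenPartialHomeomorph_coe] at h
    rw [hg]
    exact h
  obtain ⟨Kt, hKtdef⟩ : ∃ Kt : Set (Y × ℂ), Kt = (fun w => (w, (0 : ℂ))) '' K := ⟨_, rfl⟩
  have hKt : IsCompact Kt := by
    rw [hKtdef]
    exact hK.image (by fun_prop)
  have hinj : InjOn g Kt := by
    rw [hKtdef, hg]
    rintro _ ⟨w, hw, rfl⟩ _ ⟨w', hw', rfl⟩ h
    have : w = w' := congrArg Prod.snd h
    rw [this]
  obtain ⟨t₀, ht₀o, hKt₀, ht₀⟩ := hinj.exists_isOpen_superset hKt (fun x _ => hgc.continuousAt)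
    (fun x hx => hloc x (by
      rw [hKtdef] at hx
      obtain ⟨w, hw, rfl⟩ := hx
      exact h1 w hw))
  obtain ⟨t₁, ht₁def⟩ : ∃ t₁ : Set (Y × ℂ), t₁ = t₀ ∩ {v | fderiv ℂ f v (0, 1) ≠ 0} := ⟨_, rfl⟩
  have hdc : Continuous fun v : Y × ℂ => fderiv ℂ f v (0, 1) :=
    (hf.continuous_fderiv (by norm_num)).clm_apply continuous_const
  have ht₁o : IsOpen t₁ := by
    rw [ht₁def]
    exact ht₀o.inter (isOpen_ne_fun hdc continuous_const)
  have hKt₁ : ∀ w ∈ K, (w, (0 : ℂ)) ∈ t₁ := by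
    intro w hw
    rw [ht₁def]
    exact ⟨hKt₀ (by rw [hKtdef]; exact ⟨w, hw, rfl⟩), h1 w hw⟩
  have huniq : ∀ (w : Y) (μ μ' : ℂ), (w, μ) ∈ t₁ → f (w, μ) = 0 → (w, μ') ∈ t₁ → f (w, μ') = 0 →
      μ = μ' := by
    intro w μ μ' h h' k k'
    rw [ht₁def] at h k
    have := ht₀ h.1 k.1 (by rw [hg]; simp [h', k'])
    exact congrArg Prod.snd this
  obtain ⟨m, hmdef⟩ : ∃ m : Y → ℂ, m = fun w =>
      if h : ∃ μ, (w, μ) ∈ t₁ ∧ f (w, μ) = 0 then h.choose else 0 := ⟨_, rfl⟩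
  have hm : ∀ (w : Y) (μ : ℂ), (w, μ) ∈ t₁ → f (w, μ) = 0 → m w = μ := by
    intro w μ h h'
    have hex : ∃ μ, (w, μ) ∈ t₁ ∧ f (w, μ) = 0 := ⟨μ, h, h'⟩
    rw [hmdef]
    simp only [dif_pos hex]
    exact huniq w _ _ hex.choose_spec.1 hex.choose_spec.2 h h'
  obtain ⟨U, hUdef⟩ : ∃ U : Set Y, U = {w | (w, (0 : ℂ)) ∈ t₁ ∧ ∃ μ, (w, μ) ∈ t₁ ∧ f (w, μ) = 0} :=
    ⟨_, rfl⟩
  have hkey : ∀ w₁ ∈ U, ∃ ψ : Y → ℂ, ContDiffAt ℂ 1 ψ w₁ ∧ ∀ᶠ w in 𝓝 w₁, w ∈ U ∧ m w = ψ w := by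
    intro w₁ hw₁
    rw [hUdef] at hw₁
    obtain ⟨hw0, μ₁, hμ₁, hfμ₁⟩ := hw₁
    have hne : fderiv ℂ f (w₁, μ₁) (0, 1) ≠ 0 := by
      rw [ht₁def] at hμ₁
      exact hμ₁.2
    have cdf : ContDiffAt ℂ 1 f (w₁, μ₁) := hf.contDiffAt
    have pn : (1 : WithTop ℕ∞) ≠ 0 := by norm_num
    refine ⟨cdf.implicitFunction pn (hinv _ hne), cdf.contDiffAt_implicitFunction pn (hinv _ hne), ?_⟩
    have e1 := cdf.eventually_apply_implicitFunction pn (hinv _ hne)
    have e2 : ContinuousAt (fun w => (w, cdf.implicitFunction pn (hinv _ hne) w)) w₁ :=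
      continuousAt_id.prodMk (cdf.contDiffAt_implicitFunction pn (hinv _ hne)).continuousAt
    have e3 : ∀ᶠ w in 𝓝 w₁, (w, cdf.implicitFunction pn (hinv _ hne) w) ∈ t₁ := by
      apply e2.eventually_mem
      have : cdf.implicitFunction pn (hinv _ hne) w₁ = μ₁ := cdf.implicitFunction_apply_self pn (hinv _ hne)
      rw [this]
      exact ht₁o.mem_nhds hμ₁
    have e4 : ∀ᶠ w in 𝓝 w₁, (w, (0 : ℂ)) ∈ t₁ := by
      have : ContinuousAt (fun w : Y => (w, (0 : ℂ))) w₁ := by fun_prop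
      exact this.eventually_mem (ht₁o.mem_nhds hw0)
    filter_upwards [e1, e3, e4] with w k1 k3 k4
    have k1' : f (w, cdf.implicitFunction pn (hinv _ hne) w) = 0 := by rw [k1]; exact hfμ₁
    refine ⟨?_, hm w _ k3 k1'⟩
    rw [hUdef]
    exact ⟨k4, _, k3, k1'⟩
  refine ⟨U, m, ?_, ?_, ?_, ?_, ?_⟩
  · rw [isOpen_iff_mem_nhds]
    intro w₁ hw₁
    obtain ⟨ψ, -, hev⟩ := hkey w₁ hw₁
    exact hev.mono fun w h => h.1
  · intro w hw
    rw [hUdef]
    exact ⟨hKt₁ w hw, 0, hKt₁ w hw, h0 w hw⟩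
  · intro w₁ hw₁
    obtain ⟨ψ, hψ, hev⟩ := hkey w₁ hw₁
    exact (hψ.congr_of_eventuallyEq (hev.mono fun w h => h.2)).contDiffWithinAt
  · intro w hw
    rw [hUdef] at hw
    obtain ⟨-, μ, hμ, hfμ⟩ := hw
    rw [hm w μ hμ hfμ]
    exact hfμ
  · intro w hw hw0
    rw [hUdef] at hw
    exact hm w 0 hw.1 hw0


/-- uniform continuity at the points of a compact set. -/
theorem s4fi_unif_at {Y V : Type*} [PseudoMetricSpace Y] [PseudoMetricSpace V] (g : Y → V) (K : Set Y)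
    (hK : IsCompact K) (hg : ∀ w ∈ K, ContinuousAt g w) (ε : ℝ) (hε : 0 < ε) :
    ∃ δ : ℝ, 0 < δ ∧ ∀ w ∈ K, ∀ w', dist w' w < δ → dist (g w') (g w) < ε := by
  have h := hK.uniformContinuousAt_of_continuousAt g hg (Metric.dist_mem_uniformity hε)
  obtain ⟨δ, hδ, h'⟩ := Metric.mem_uniformity_dist.1 h
  refine ⟨δ, hδ, fun w hw w' hd => ?_⟩
  have := h' (a := w) (b := w') (by rwa [dist_comm]) hw
  rw [dist_comm]
  exact this

/-- **`C¹` stability of a composition** near a compact set. -/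
theorem s4fi_c1_stable {Y V : Type*} [NormedAddCommGroup Y] [NormedSpace ℂ Y] [NormedAddCommGroup V]
    [NormedSpace ℂ V] (G : Y → V) (U K : Set Y) (hU : IsOpen U) (hK : IsCompact K) (hKU : K ⊆ U)
    (hG : ContDiffOn ℂ 1 G U) (M ε : ℝ) (hε : 0 < ε) :
    ∃ η : ℝ, 0 < η ∧ ∀ w ∈ K, ∀ (w' v v' : Y), ‖w' - w‖ < η → ‖v‖ ≤ M → ‖v' - v‖ < η →
      w' ∈ U ∧ ‖G w' - G w‖ < ε ∧ ‖fderiv ℂ G w' v' - fderiv ℂ G w v‖ < ε := by
  obtain ⟨δ₀, hδ₀, hth⟩ := hK.exists_thickening_subset_open hU hKU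
  have hDG : ContinuousOn (fderiv ℂ G) U := hG.continuousOn_fderiv_of_isOpen hU le_rfl
  obtain ⟨B, hB⟩ := hK.exists_bound_of_continuousOn (hDG.mono hKU)
  obtain ⟨M', hM'⟩ : ∃ M' : ℝ, M' = |M| + 1 := ⟨_, rfl⟩
  obtain ⟨B', hB'⟩ : ∃ B' : ℝ, B' = |B| + 1 := ⟨_, rfl⟩
  have hM'0 : 0 < M' := by rw [hM']; positivity
  have hB'0 : 0 < B' := by rw [hB']; positivity
  obtain ⟨δ₁, hδ₁, h1⟩ := s4fi_unif_at G K hK
    (fun w hw => hG.continuousOn.continuousAt (hU.mem_nhds (hKU hw))) ε hε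
  obtain ⟨δ₂, hδ₂, h2⟩ := s4fi_unif_at (fderiv ℂ G) K hK
    (fun w hw => hDG.continuousAt (hU.mem_nhds (hKU hw))) (ε / (2 * M')) (by positivity)
  refine ⟨min (min δ₀ δ₁) (min δ₂ (min 1 (ε / (2 * B')))), by positivity, ?_⟩
  intro w hw w' v v' hw' hv hv'
  have k0 : ‖w' - w‖ < δ₀ := lt_of_lt_of_le hw' ((min_le_left _ _).trans (min_le_left _ _))
  have k1 : ‖w' - w‖ < δ₁ := lt_of_lt_of_le hw' ((min_le_left _ _).trans (min_le_right _ _))
  have k2 : ‖w' - w‖ < δ₂ := lt_of_lt_of_le hw' ((min_le_right _ _).trans (min_le_left _ _))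
  have k3 : ‖v' - v‖ < 1 :=
    lt_of_lt_of_le hv' ((min_le_right _ _).trans ((min_le_right _ _).trans (min_le_left _ _)))
  have k4 : ‖v' - v‖ < ε / (2 * B') :=
    lt_of_lt_of_le hv' ((min_le_right _ _).trans ((min_le_right _ _).trans (min_le_right _ _)))
  refine ⟨hth (mem_thickening_iff.2 ⟨w, hw, by rwa [dist_eq_norm]⟩), ?_, ?_⟩
  · rw [← dist_eq_norm]
    exact h1 w hw w' (by rwa [dist_eq_norm])
  · have e : fderiv ℂ G w' v' - fderiv ℂ G w v =
        (fderiv ℂ G w' - fderiv ℂ G w) v' + fderiv ℂ G w (v' - v) := by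
      simp only [sub_apply, map_sub]
      abel
    have hv'n : ‖v'‖ ≤ M' := by
      have : ‖v'‖ ≤ ‖v' - v‖ + ‖v‖ := by
        have := norm_add_le (v' - v) v
        simpa using this
      rw [hM']
      linarith [le_abs_self M]
    have hd : ‖fderiv ℂ G w' - fderiv ℂ G w‖ < ε / (2 * M') := by
      rw [← dist_eq_norm]
      exact h2 w hw w' (by rwa [dist_eq_norm])
    have t1 : ‖(fderiv ℂ G w' - fderiv ℂ G w) v'‖ < ε / 2 := by
      calc ‖(fderiv ℂ G w' - fderiv ℂ G w) v'‖ ≤ ‖fderiv ℂ G w' - fderiv ℂ G w‖ * ‖v'‖ :=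
            ContinuousLinearMap.le_opNorm _ _
        _ ≤ ‖fderiv ℂ G w' - fderiv ℂ G w‖ * M' := by gcongr
        _ < ε / (2 * M') * M' := by gcongr
        _ = ε / 2 := by field_simp
    have t2 : ‖fderiv ℂ G w (v' - v)‖ ≤ ε / 2 := by
      calc ‖fderiv ℂ G w (v' - v)‖ ≤ ‖fderiv ℂ G w‖ * ‖v' - v‖ := ContinuousLinearMap.le_opNorm _ _
        _ ≤ B' * (ε / (2 * B')) := by
            have : ‖fderiv ℂ G w‖ ≤ B' := by
              rw [hB']
              linarith [hB w hw, le_abs_self B]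
            gcongr
        _ = ε / 2 := by field_simp
    rw [e]
    calc _ ≤ _ + _ := norm_add_le _ _
      _ < ε := by linarith

end Claimed.Agent.R245
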