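/-
Row 245 / S0484, Section 4, block FACE, package S4F-INT (helper278).  Cone-specific tools.

 * `s4fi_hasFDerivAt_eval`, `s4fi_hasDerivAt_eval` : derivative of a polynomial map.
 * `s4fi_retr`     : the retraction germ `G (y,n) = y + m(y,n) n` onto the cone, `C¹` (complex) on an open neighbourhood of a
                     compact set of pairs (point of the cone, transversal direction); `G (y,n) = y` if `F y = 0`.
 * `s4fi_diffquot` : difference quotients of `H` in the real parameter approximate the parameter derivative.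
 * `s4fi_approx`   : `A (σ,x) = H a x + ∑ P_i(σ) D_i(x)`, holomorphic on `ℂ × N`, `C¹`-close to `H` on `[a,b] × C`.
 * `s4fi_dir`      : `ν (σ,x) = ∑ q_i(σ) ν_i(x)`, holomorphic, transversal to the cone along `H` on `[a,b] × C`.
-/
import Claimed.Agent.R245.S4FDefs
import Claimed.Agent.R245.S4FIntA

set_option autoImplicit false

namespace Claimed.Agent.R245

open MvPolynomial Metric Set Filter Topology Claims.C0412

theorem s4fi_hasFDerivAt_eval {σ : Type*} [Fintype σ] (P : MvPolynomial σ ℂ) (w : σ → ℂ) :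
    HasFDerivAt (fun w : σ → ℂ => eval w P)
      (∑ u, eval w (pderiv u P) • (ContinuousLinearMap.proj u : (σ → ℂ) →L[ℂ] ℂ)) w := by
  classical
  induction P using MvPolynomial.induction_on with
  | C a =>
    have hfun : (fun w : σ → ℂ => eval w (C a)) = fun _ => a := by ext w; simp
    rw [hfun]
    refine (hasFDerivAt_const (𝕜 := ℂ) a w).congr_fderiv ?_
    ext v
    simp
  | add p q hp hq =>
    have hfun : (fun w : σ → ℂ => eval w (p + q)) = fun w => eval w p + eval w q := by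
      ext w; simp
    rw [hfun]
    refine (hp.add hq).congr_fderiv ?_
    ext v
    simp [add_mul, Finset.sum_add_distrib]
  | mul_X p i hp =>
    have h1 : HasFDerivAt (fun w : σ → ℂ => w i) (ContinuousLinearMap.proj i : (σ → ℂ) →L[ℂ] ℂ) w :=
      hasFDerivAt_apply i w
    have hfun : (fun w : σ → ℂ => eval w (p * X i)) = fun w => eval w p * w i := by
      ext w; simp
    rw [hfun]
    refine (hp.mul h1).congr_fderiv ?_
    ext v
    simp only [Derivation.leibniz, pderiv_X, smul_eq_mul, map_add, map_mul, eval_X,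
      sum_apply, add_apply, smul_apply,
      ContinuousLinearMap.proj_apply, add_mul, Finset.sum_add_distrib, Finset.mul_sum]
    congr 1
    · rw [Finset.sum_eq_single i]
      · simp
      · intro b _ hb
        simp [hb.symm]
      · simp
    · refine Finset.sum_congr rfl fun u _ => ?_
      ring

/-- derivative of `F` along a curve. -/
theorem s4fi_hasDerivAt_eval (F : MvPolynomial (Fin 4) ℂ) {c : ℂ → V4} {c' : V4} {τ : ℂ}
    (hc : HasDerivAt c c' τ) :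
    HasDerivAt (fun t => eval (c t) F) (dot (grad F (c τ)) c') τ := by
  have h := (s4fi_hasFDerivAt_eval F (c τ)).comp_hasDerivAt τ hc
  refine h.congr_deriv ?_
  simp [dot, grad]

theorem s4fi_contDiff_eval (F : MvPolynomial (Fin 4) ℂ) : ContDiff ℂ 1 (fun y : V4 => eval y F) :=
  contDiffOn_univ.1 ((AnalyticOnNhd.eval_mvPolynomial F).contDiffOn uniqueDiffOn_univ)

/-- the scalar equation `F (y + μ n) = 0`. -/
noncomputable def s4fiEq (F : MvPolynomial (Fin 4) ℂ) (p : (V4 × V4) × ℂ) : ℂ :=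
  eval (p.1.1 + p.2 • p.1.2) F

theorem s4fi_contDiff_eq (F : MvPolynomial (Fin 4) ℂ) : ContDiff ℂ 1 (s4fiEq F) := by
  unfold s4fiEq
  exact (s4fi_contDiff_eval F).comp (by fun_prop)

theorem s4fi_fderiv_eq (F : MvPolynomial (Fin 4) ℂ) (w : V4 × V4) :
    fderiv ℂ (s4fiEq F) (w, 0) (0, 1) = dot (grad F w.1) w.2 := by
  have hd : HasFDerivAt (s4fiEq F) (fderiv ℂ (s4fiEq F) (w, 0)) (w, 0) :=
    ((s4fi_contDiff_eq F).differentiable (by norm_num) _).hasFDerivAt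
  have hl : HasDerivAt (fun t : ℂ => ((w, t) : (V4 × V4) × ℂ)) (0, 1) 0 :=
    (hasDerivAt_const (0 : ℂ) w).prodMk (hasDerivAt_id 0)
  have h1 := hd.comp_hasDerivAt (0 : ℂ) hl
  have hc : HasDerivAt (fun t : ℂ => w.1 + t • w.2) w.2 0 := by
    have := ((hasDerivAt_id (0 : ℂ)).smul_const w.2).const_add w.1
    simpa using this
  have h2 := s4fi_hasDerivAt_eval F hc
  simp only [zero_smul, add_zero] at h2
  exact h1.unique h2

/-- **The retraction germ.** -/
theorem s4fi_retr (F : MvPolynomial (Fin 4) ℂ) (K : Set (V4 × V4)) (hK : IsCompact K)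
    (h0 : ∀ w ∈ K, w.1 ∈ Cone F) (h1 : ∀ w ∈ K, dot (grad F w.1) w.2 ≠ 0) :
    ∃ (U : Set (V4 × V4)) (G : V4 × V4 → V4), IsOpen U ∧ K ⊆ U ∧ ContDiffOn ℂ 1 G U ∧
      MapsTo G U (Cone F) ∧ ∀ w ∈ U, eval w.1 F = 0 → G w = w.1 := by
  obtain ⟨U, m, hU, hKU, hm, hroot, hzero⟩ := s4fi_root (s4fiEq F) (s4fi_contDiff_eq F) K hK
    (fun w hw => by simpa [s4fiEq] using (h0 w hw).2)
    (fun w hw => by rw [s4fi_fderiv_eq]; exact h1 w hw)
  obtain ⟨G, hG⟩ : ∃ G : V4 × V4 → V4, G = fun w => w.1 + m w • w.2 := ⟨_, rfl⟩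
  have hGc : ContDiffOn ℂ 1 G U := by
    rw [hG]
    exact contDiffOn_fst.add (hm.smul contDiffOn_snd)
  have hfix : ∀ w ∈ U, eval w.1 F = 0 → G w = w.1 := by
    intro w hw hw0
    have : m w = 0 := hzero w hw (by simpa [s4fiEq] using hw0)
    rw [hG]
    simp [this]
  refine ⟨U ∩ G ⁻¹' {0}ᶜ, G, hGc.continuousOn.isOpen_inter_preimage hU isOpen_compl_singleton, ?_,
    hGc.mono inter_subset_left, ?_, fun w hw => hfix w hw.1⟩
  · intro w hw
    refine ⟨hKU hw, ?_⟩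
    simp only [mem_preimage, mem_compl_iff, mem_singleton_iff]
    rw [hfix w (hKU hw) (h0 w hw).2]
    exact (h0 w hw).1
  · intro w hw
    refine ⟨hw.2, ?_⟩
    have := hroot w hw.1
    rw [hG]
    exact this

theorem s4fi_comp_ofReal {E : Type*} [NormedAddCommGroup E] [NormedSpace ℂ E] {e : ℂ → E} {e' : E} {z : ℝ}
    (hf : HasDerivAt e e' (z : ℂ)) : HasDerivAt (fun y : ℝ => e (y : ℂ)) e' z := by
  have h := HasDerivAt.scomp (𝕜 := ℝ) (𝕜' := ℂ) z hf (Complex.ofRealCLM.hasDerivAt (x := z))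
  simpa [Function.comp_def] using h

section param

variable {X : Type*} [NormedAddCommGroup X] [NormedSpace ℂ X] {J : Set ℝ} {N : Set X} {H : ℝ → X → V4}

theorem s4fi_hasDerivAt_param (hJ : IsOpen J) (hN : IsOpen N)
    (hC1 : ContDiffOn ℝ 1 (fun p : ℝ × X => H p.1 p.2) (J ×ˢ N)) {s : ℝ} {x : X} (hs : s ∈ J)
    (hx : x ∈ N) :
    HasDerivAt (fun t => H t x) (fderiv ℝ (fun p : ℝ × X => H p.1 p.2) (s, x) (1, 0)) s := by
  have h1 : HasFDerivAt (fun p : ℝ × X => H p.1 p.2) (fderiv ℝ (fun p : ℝ × X => H p.1 p.2) (s, x))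
      (s, x) :=
    ((hC1.differentiableOn (by norm_num)).differentiableAt
      ((hJ.prod hN).mem_nhds ⟨hs, hx⟩)).hasFDerivAt
  have h2 : HasDerivAt (fun t : ℝ => ((t, x) : ℝ × X)) (1, 0) s :=
    (hasDerivAt_id s).prodMk (hasDerivAt_const s x)
  exact h1.comp_hasDerivAt s h2

theorem s4fi_hasDerivAt_param' (hJ : IsOpen J) (hN : IsOpen N)
    (hC1 : ContDiffOn ℝ 1 (fun p : ℝ × X => H p.1 p.2) (J ×ˢ N)) {s : ℝ} {x : X} (hs : s ∈ J)
    (hx : x ∈ N) : HasDerivAt (fun t => H t x) (deriv (fun t => H t x) s) s :=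
  (s4fi_hasDerivAt_param hJ hN hC1 hs hx).differentiableAt.hasDerivAt

theorem s4fi_continuousOn_deriv (hJ : IsOpen J) (hN : IsOpen N)
    (hC1 : ContDiffOn ℝ 1 (fun p : ℝ × X => H p.1 p.2) (J ×ˢ N)) :
    ContinuousOn (fun p : ℝ × X => deriv (fun t => H t p.2) p.1) (J ×ˢ N) := by
  have h1 : ContinuousOn (fun p : ℝ × X => fderiv ℝ (fun p : ℝ × X => H p.1 p.2) p (1, 0)) (J ×ˢ N) :=
    (hC1.continuousOn_fderiv_of_isOpen (hJ.prod hN) le_rfl).clm_apply continuousOn_const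
  refine h1.congr ?_
  rintro ⟨s, x⟩ ⟨hs, hx⟩
  exact (s4fi_hasDerivAt_param hJ hN hC1 hs hx).deriv

/-- a difference quotient approximates the parameter derivative near `s₀`, uniformly on the compact `C`. -/
theorem s4fi_diffquot (hJ : IsOpen J) (hN : IsOpen N)
    (hC1 : ContDiffOn ℝ 1 (fun p : ℝ × X => H p.1 p.2) (J ×ˢ N))
    (hhol : ∀ s ∈ J, DifferentiableOn ℂ (H s) N) {C : Set X} (hC : IsCompact C) (hCN : C ⊆ N)
    {s₀ : ℝ} (hs₀ : s₀ ∈ J) {η : ℝ} (hη : 0 < η) :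
    ∃ (D : X → V4) (U : Set ℝ), DifferentiableOn ℂ D N ∧ IsOpen U ∧ s₀ ∈ U ∧
      ∀ s ∈ U, ∀ x ∈ C, ‖D x - deriv (fun t => H t x) s‖ ≤ η := by
  have hcont := s4fi_continuousOn_deriv hJ hN hC1
  have hcont2 : ContinuousOn (fun p : ℝ × X => deriv (fun t => H t p.2) s₀) (J ×ˢ N) := by
    have hm : MapsTo (fun p : ℝ × X => ((s₀, p.2) : ℝ × X)) (J ×ˢ N) (J ×ˢ N) := fun p hp => ⟨hs₀, hp.2⟩
    exact hcont.comp (f := fun p : ℝ × X => ((s₀, p.2) : ℝ × X)) (by fun_prop) hm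
  have hopen : IsOpen ((J ×ˢ N) ∩ (fun p : ℝ × X => deriv (fun t => H t p.2) p.1 -
      deriv (fun t => H t p.2) s₀) ⁻¹' ball 0 (η / 2)) :=
    (hcont.sub hcont2).isOpen_inter_preimage (hJ.prod hN) isOpen_ball
  obtain ⟨u, v, hu, -, hsu, hCv, huv⟩ := generalized_tube_lemma (isCompact_singleton (x := s₀)) hC hopen
    (by
      rintro ⟨s, x⟩ ⟨hs, hx⟩
      rw [mem_singleton_iff] at hs
      subst hs
      refine ⟨⟨hs₀, hCN hx⟩, ?_⟩
      simp [hη])
  obtain ⟨δ, hδ, hball⟩ := Metric.isOpen_iff.1 (hu.inter hJ) s₀ ⟨hsu rfl, hs₀⟩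
  have hclose : ∀ s ∈ ball s₀ δ, ∀ x ∈ C,
      ‖deriv (fun t => H t x) s - deriv (fun t => H t x) s₀‖ < η / 2 := by
    intro s hs x hx
    have := (huv (⟨(hball hs).1, hCv hx⟩ : ((s, x) : ℝ × X) ∈ u ×ˢ v)).2
    simpa using this
  obtain ⟨t, ht⟩ : ∃ t : ℝ, t = δ / 2 := ⟨_, rfl⟩
  have ht0 : 0 < t := by rw [ht]; positivity
  have hseg : ∀ τ ∈ Icc s₀ (s₀ + t), τ ∈ ball s₀ δ := by
    intro τ hτ
    rw [mem_ball, Real.dist_eq, abs_of_nonneg (by linarith [hτ.1])]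
    linarith [hτ.2]
  refine ⟨fun x => t⁻¹ • (H (s₀ + t) x - H s₀ x), ball s₀ δ, ?_, isOpen_ball, mem_ball_self hδ, ?_⟩
  · exact ((hhol _ (hball (hseg _ ⟨by linarith, le_rfl⟩)).2).sub (hhol _ hs₀)).const_smul (t⁻¹ : ℝ)
  · intro s hs x hx
    have hmv := norm_image_sub_le_of_norm_deriv_le_segment' (a := s₀) (b := s₀ + t)
      (f := fun τ => H τ x - (τ - s₀) • deriv (fun t => H t x) s₀)
      (f' := fun τ => deriv (fun t => H t x) τ - deriv (fun t => H t x) s₀) (C := η / 2)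
      (fun τ hτ => by
        have h1 := s4fi_hasDerivAt_param' hJ hN hC1 (hball (hseg τ hτ)).2 (hCN hx)
        have h2 : HasDerivAt (fun τ : ℝ => (τ - s₀) • deriv (fun t => H t x) s₀)
            (deriv (fun t => H t x) s₀) τ := by
          have := ((hasDerivAt_id τ).sub_const s₀).smul_const (deriv (fun t => H t x) s₀)
          simpa using this
        exact (h1.sub h2).hasDerivWithinAt)
      (fun τ hτ => (hclose τ (hseg τ ⟨hτ.1, hτ.2.le⟩) x hx).le)
      (s₀ + t) ⟨by linarith, le_rfl⟩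
    simp only [add_sub_cancel_left, sub_self, zero_smul, sub_zero] at hmv
    have e : t⁻¹ • (H (s₀ + t) x - H s₀ x) - deriv (fun t => H t x) s₀ =
        t⁻¹ • (H (s₀ + t) x - t • deriv (fun t => H t x) s₀ - H s₀ x) := by
      rw [smul_sub, smul_sub, smul_sub, smul_smul, inv_mul_cancel₀ ht0.ne', one_smul]
      abel
    have h3 : ‖t⁻¹ • (H (s₀ + t) x - H s₀ x) - deriv (fun t => H t x) s₀‖ ≤ η / 2 := by
      rw [e, norm_smul, Real.norm_eq_abs, abs_of_pos (inv_pos.2 ht0)]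
      calc t⁻¹ * _ ≤ t⁻¹ * (η / 2 * t) := by gcongr
        _ = η / 2 := by field_simp
    have h4 := hclose s hs x hx
    calc ‖t⁻¹ • (H (s₀ + t) x - H s₀ x) - deriv (fun t => H t x) s‖
        = ‖(t⁻¹ • (H (s₀ + t) x - H s₀ x) - deriv (fun t => H t x) s₀) -
          (deriv (fun t => H t x) s - deriv (fun t => H t x) s₀)‖ := by congr 1; abel
      _ ≤ _ + _ := norm_sub_le _ _
      _ ≤ η := by linarith

/-- **The approximant**: polynomial in the complexified parameter, holomorphic in `x`, `C¹`-close to `H`. -/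
theorem s4fi_approx (hJ : IsOpen J) (hN : IsOpen N)
    (hC1 : ContDiffOn ℝ 1 (fun p : ℝ × X => H p.1 p.2) (J ×ˢ N))
    (hhol : ∀ s ∈ J, DifferentiableOn ℂ (H s) N) {C : Set X} (hC : IsCompact C) (hCN : C ⊆ N)
    {a b : ℝ} (hab : a ≤ b) (hIJ : Icc a b ⊆ J) {η : ℝ} (hη : 0 < η) :
    ∃ A : ℂ × X → V4, DifferentiableOn ℂ A (univ ×ˢ N) ∧ ∀ s ∈ Icc a b, ∀ x ∈ C,
      ‖A ((s : ℂ), x) - H s x‖ < η ∧
      ‖deriv (fun σ : ℂ => A (σ, x)) (s : ℂ) - deriv (fun t => H t x) s‖ < η := by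
  obtain ⟨η₁, hη₁⟩ : ∃ η₁ : ℝ, η₁ = η / (4 * (b - a + 1)) := ⟨_, rfl⟩
  have hba : 0 < b - a + 1 := by linarith
  have hη₁0 : 0 < η₁ := by rw [hη₁]; positivity
  have hη₁a : 2 * η₁ * (b - a + 1) < η := by
    rw [hη₁]
    have : 2 * (η / (4 * (b - a + 1))) * (b - a + 1) = η / 2 := by field_simp; ring
    rw [this]; linarith
  have hdq : ∀ i : Icc a b, ∃ (D : X → V4) (U : Set ℝ), DifferentiableOn ℂ D N ∧ IsOpen U ∧ (i : ℝ) ∈ U ∧
      ∀ s ∈ U, ∀ x ∈ C, ‖D x - deriv (fun t => H t x) s‖ ≤ η₁ := fun i =>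
    s4fi_diffquot hJ hN hC1 hhol hC hCN (hIJ i.2) hη₁0
  choose D U hD hUo hiU hDU using hdq
  obtain ⟨t, q, hq⟩ := s4fi_poly_approx a b C (fun i _ x => D i x) (fun s x => deriv (fun t => H t x) s) U hUo
    (fun s hs => mem_iUnion.2 ⟨⟨s, hs⟩, hiU ⟨s, hs⟩⟩) η₁ hη₁0
    (fun i => by
      obtain ⟨M, hM⟩ := hC.exists_bound_of_continuousOn ((hD i).continuousOn.mono hCN)
      exact ⟨M, fun _ _ x hx => hM x hx⟩)
    (fun i s hs _ x hx => hDU i s hs x hx)
  have hP : ∀ i : t, ∃ P : Polynomial ℂ, Polynomial.derivative P = q i ∧ P.eval (a : ℂ) = 0 := fun i =>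
    s4fi_exists_antideriv (q i) a
  choose P hPd hPa using hP
  obtain ⟨A, hA⟩ : ∃ A : ℂ × X → V4, A = fun z => H a z.2 + ∑ i : t, (P i).eval z.1 • D i z.2 := ⟨_, rfl⟩
  have hsnd : MapsTo (Prod.snd : ℂ × X → X) (univ ×ˢ N) N := fun z hz => hz.2
  have hAd : DifferentiableOn ℂ A (univ ×ˢ N) := by
    rw [hA]
    refine ((hhol a (hIJ ⟨le_rfl, hab⟩)).comp differentiableOn_snd hsnd).add
      (DifferentiableOn.fun_sum fun i _ => ?_)
    exact (((P i).differentiable.comp differentiable_fst).differentiableOn).smul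
      ((hD i).comp differentiableOn_snd hsnd)
  have hAder : ∀ (σ : ℂ) (x : X), HasDerivAt (fun σ : ℂ => A (σ, x)) (∑ i : t, (q i).eval σ • D i x) σ := by
    intro σ x
    rw [hA]
    have h1 : ∀ i : t, HasDerivAt (fun σ : ℂ => (P i).eval σ • D i x) ((q i).eval σ • D i x) σ := by
      intro i
      have := ((P i).hasDerivAt σ).smul_const (D i x)
      rwa [hPd i] at this
    exact (HasDerivAt.fun_sum fun i _ => h1 i).const_add (H a x)
  refine ⟨A, hAd, fun s hs x hx => ?_⟩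
  have hder : ∀ τ ∈ Icc a b, ‖∑ i : t, (q i).eval (τ : ℂ) • D i x - deriv (fun t => H t x) τ‖ < 2 * η₁ :=
    fun τ hτ => hq τ hτ x hx
  constructor
  · have hmv := norm_image_sub_le_of_norm_deriv_le_segment' (a := a) (b := b)
      (f := fun τ : ℝ => A ((τ : ℂ), x) - H τ x)
      (f' := fun τ => ∑ i : t, (q i).eval (τ : ℂ) • D i x - deriv (fun t => H t x) τ) (C := 2 * η₁)
      (fun τ hτ => by
        have h1 : HasDerivAt (fun τ : ℝ => A ((τ : ℂ), x)) (∑ i : t, (q i).eval (τ : ℂ) • D i x) τ :=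
          s4fi_comp_ofReal (hAder (τ : ℂ) x)
        exact (h1.fun_sub (s4fi_hasDerivAt_param' hJ hN hC1 (hIJ hτ) (hCN hx))).hasDerivWithinAt)
      (fun τ hτ => (hder τ ⟨hτ.1, hτ.2.le⟩).le) s hs
    have h0 : A ((a : ℂ), x) - H a x = 0 := by
      rw [hA]
      simp [hPa]
    rw [h0, sub_zero] at hmv
    have : 2 * η₁ * (s - a) ≤ 2 * η₁ * (b - a + 1) := by
      have := hs.2
      gcongr
      linarith
    linarith
  · rw [(hAder (s : ℂ) x).deriv]
    have h1 := hder s hs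
    have : 2 * η₁ ≤ 2 * η₁ * (b - a + 1) := by
      have : (1 : ℝ) ≤ b - a + 1 := by linarith
      nlinarith
    linarith

end param

theorem s4fi_continuous_grad (F : MvPolynomial (Fin 4) ℂ) : Continuous (grad F) :=
  continuous_pi fun _ => MvPolynomial.continuous_eval _

theorem s4fi_continuousOn_dot {T : Type*} [TopologicalSpace T] {f g : T → V4} {s : Set T}
    (hf : ContinuousOn f s) (hg : ContinuousOn g s) : ContinuousOn (fun p => dot (f p) (g p)) s := by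
  unfold dot
  fun_prop

theorem s4fi_dot_sum_smul {ι : Type*} (t : Finset ι) (g : V4) (c : ι → ℂ) (v : ι → V4) :
    dot g (∑ i ∈ t, c i • v i) = ∑ i ∈ t, c i • dot g (v i) := by
  unfold dot
  simp only [Finset.sum_apply, Pi.smul_apply, smul_eq_mul, Finset.mul_sum]
  rw [Finset.sum_comm]
  refine Finset.sum_congr rfl fun i _ => Finset.sum_congr rfl fun k _ => ?_
  ring

/-- **The direction field** along the family, polynomial in the complexified parameter. -/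
theorem s4fi_dir (F : MvPolynomial (Fin 4) ℂ) (hnu : NuStmt F) {X : Type} [NormedAddCommGroup X]
    [NormedSpace ℂ X] [FiniteDimensional ℂ X] {J : Set ℝ} {N : Set X} {H : ℝ → X → V4} (hJ : IsOpen J)
    (hN : IsOpen N) (hC1 : ContDiffOn ℝ 1 (fun p : ℝ × X => H p.1 p.2) (J ×ˢ N))
    (hH : ∀ s ∈ J, HolOn F (H s) N) {C : Set X} (hC : IsCompact C) (hCc : Convex ℝ C) (hCN : C ⊆ N)
    {a b : ℝ} (hIJ : Icc a b ⊆ J) :
    ∃ (N' : Set X) (ν : ℂ × X → V4) (M : ℝ), IsOpen N' ∧ C ⊆ N' ∧ N' ⊆ N ∧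
      DifferentiableOn ℂ ν (univ ×ˢ N') ∧
      (∀ s ∈ Icc a b, ∀ x ∈ C, dot (grad F (H s x)) (ν ((s : ℂ), x)) ≠ 0) ∧
      ∀ s ∈ Icc a b, ∀ x ∈ C, ‖deriv (fun σ : ℂ => ν (σ, x)) (s : ℂ)‖ ≤ M := by
  have h1 : ∀ i : Icc a b, ∃ (ν : X → V4) (W : Set X), IsOpen W ∧ C ⊆ W ∧ HolOn F (H i) W ∧
      DifferentiableOn ℂ ν W ∧ ∀ x ∈ W, dot (grad F (H i x)) (ν x) = 1 := fun i =>
    hnu X C (H i) hC hCc ⟨N, hN, hCN, hH i (hIJ i.2)⟩
  choose ν W hWo hCW _ hνd hν1 using h1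
  have hHc : ContinuousOn (fun p : ℝ × X => H p.1 p.2) (J ×ˢ N) := hC1.continuousOn
  have hdc : ∀ i : Icc a b, ContinuousOn (fun p : ℝ × X => dot (grad F (H p.1 p.2)) (ν i p.2))
      (J ×ˢ (N ∩ W i)) := by
    intro i
    have k0 : ContinuousOn (fun p : ℝ × X => H p.1 p.2) (J ×ˢ (N ∩ W i)) :=
      hHc.mono fun p hp => ⟨hp.1, hp.2.1⟩
    have k1 : ContinuousOn (fun p : ℝ × X => grad F (H p.1 p.2)) (J ×ˢ (N ∩ W i)) :=
      (s4fi_continuous_grad F).comp_continuousOn k0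
    have k2 : ContinuousOn (fun p : ℝ × X => ν i p.2) (J ×ˢ (N ∩ W i)) :=
      (hνd i).continuousOn.comp continuousOn_snd fun p hp => hp.2.2
    exact s4fi_continuousOn_dot k1 k2
  have h2 : ∀ i : Icc a b, ∃ U : Set ℝ, IsOpen U ∧ (i : ℝ) ∈ U ∧
      ∀ s ∈ U, ∀ x ∈ C, ‖dot (grad F (H s x)) (ν i x) - 1‖ ≤ 1 / 4 := by
    intro i
    have hopen := (hdc i).isOpen_inter_preimage (hJ.prod (hN.inter (hWo i)))
      (isOpen_ball (x := (1 : ℂ)) (ε := 1 / 4))
    obtain ⟨u, v, hu, -, hsu, hCv, huv⟩ := generalized_tube_lemma (isCompact_singleton (x := (i : ℝ))) hC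
      hopen (by
        rintro ⟨s, x⟩ ⟨hs, hx⟩
        rw [mem_singleton_iff] at hs
        subst hs
        refine ⟨⟨hIJ i.2, hCN hx, hCW i hx⟩, ?_⟩
        simp only [mem_preimage, mem_ball]
        rw [hν1 i x (hCW i hx)]
        simp)
    refine ⟨u, hu, hsu rfl, fun s hs x hx => ?_⟩
    have := (huv (⟨hs, hCv hx⟩ : ((s, x) : ℝ × X) ∈ u ×ˢ v)).2
    simp only [mem_preimage, mem_ball, dist_eq_norm] at this
    exact this.le
  choose U hUo hiU hU using h2
  obtain ⟨t, q, hq⟩ := s4fi_poly_approx a b C (fun i s x => dot (grad F (H s x)) (ν i x))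
    (fun _ _ => (1 : ℂ)) U hUo (fun s hs => mem_iUnion.2 ⟨⟨s, hs⟩, hiU ⟨s, hs⟩⟩) (1 / 4) (by norm_num)
    (fun i => by
      obtain ⟨M, hM⟩ := (isCompact_Icc.prod hC).exists_bound_of_continuousOn
        ((hdc i).mono (prod_mono hIJ fun x hx => ⟨hCN hx, hCW i hx⟩))
      exact ⟨M, fun s hs x hx => hM (s, x) ⟨hs, hx⟩⟩)
    (fun i s hs _ x hx => hU i s hs x hx)
  obtain ⟨N', hN'⟩ : ∃ N' : Set X, N' = N ∩ ⋂ i : t, W i := ⟨_, rfl⟩
  have hN'W : ∀ i : t, N' ⊆ W i := fun i x hx => by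
    rw [hN'] at hx
    exact mem_iInter.1 hx.2 i
  obtain ⟨ν₀, hν₀⟩ : ∃ ν₀ : ℂ × X → V4, ν₀ = fun z => ∑ i : t, (q i).eval z.1 • ν i z.2 := ⟨_, rfl⟩
  have hder : ∀ (σ : ℂ) (x : X), HasDerivAt (fun σ : ℂ => ν₀ (σ, x))
      (∑ i : t, (Polynomial.derivative (q i)).eval σ • ν i x) σ := by
    intro σ x
    rw [hν₀]
    exact HasDerivAt.fun_sum fun i _ => ((q i).hasDerivAt σ).smul_const (ν i x)
  obtain ⟨M, hM⟩ := (isCompact_Icc (a := a) (b := b)).prod hC |>.exists_bound_of_continuousOn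
    (f := fun p : ℝ × X => ∑ i : t, (Polynomial.derivative (q i)).eval (p.1 : ℂ) • ν i p.2)
    (continuousOn_finsetSum _ fun i _ => ContinuousOn.smul
      (Continuous.continuousOn ((Polynomial.derivative (q i)).continuous.comp
        (Complex.continuous_ofReal.comp continuous_fst)))
      ((hνd i).continuousOn.comp continuousOn_snd fun p hp => hCW i hp.2))
  refine ⟨N', ν₀, M, ?_, ?_, ?_, ?_, ?_, ?_⟩
  · rw [hN']
    exact hN.inter (isOpen_iInter_of_finite fun i => hWo i)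
  · intro x hx
    rw [hN']
    exact ⟨hCN hx, mem_iInter.2 fun i => hCW i hx⟩
  · rw [hN']
    exact inter_subset_left
  · rw [hν₀]
    refine DifferentiableOn.fun_sum fun i _ => ?_
    exact (((q i).differentiable.comp differentiable_fst).differentiableOn).smul
      ((hνd i).comp differentiableOn_snd fun z hz => hN'W i hz.2)
  · intro s hs x hx h0
    have := hq s hs x hx
    rw [hν₀] at h0
    simp only at h0
    rw [s4fi_dot_sum_smul] at h0
    rw [h0] at this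
    norm_num at this
  · intro s hs x hx
    rw [(hder (s : ℂ) x).deriv]
    exact hM (s, x) ⟨hs, hx⟩

end Claimed.Agent.R245
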