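/-
Row 245 / S0484, Section 4, block FACE. PACKAGE S4F-INT (Lemma glue:interval).
-/
import Claimed.Agent.R245.S4FDefs
import Claimed.Agent.R245.S4FIntB

set_option autoImplicit false

namespace Claimed.Agent.R245

open MvPolynomial Metric Set Claims.C0412

/-- PACKAGE S4F-INT.  Proof (helper278; neither the paper's nor Gaussian): the approximant `A (σ,x) = H a x + ∑ Pᵢ(σ) Dᵢ(x)`
(`s4fi_approx`: `Dᵢ` difference quotients of `H`, `Pᵢ` antiderivatives of Weierstrass polynomials approximating a partition of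
unity of `[a,b]`), the direction field `ν (σ,x) = ∑ qᵢ(σ) νᵢ(x)` (`s4fi_dir`, from `NuStmt`), the retraction germ
`G (y,n) = y + m(y,n) n` (`s4fi_retr`, implicit function theorem near a compact set) and `Ht = G (A, ν)`; `C¹` closeness from
`H s x = G (H s x, ν (s,x))` and the uniform continuity of `G` and `DG` (`s4fi_c1_stable`).  `hretr` is not used. -/
theorem s4f_interval (F : MvPolynomial (Fin 4) ℂ) (hnu : NuStmt F) (hretr : RetrStmt F) :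
    IntervalStmt F := by
  intro X _ _ _ C N a b J H hC hCc _ hab hJ hIJ hN hCN hH hC1 ε hε
  have hhol : ∀ s ∈ J, DifferentiableOn ℂ (H s) N := fun s hs => (hH s hs).1
  obtain ⟨N', ν, M₁, hN'o, hCN', hN'N, hνd, hνne, hνM⟩ := s4fi_dir F hnu hJ hN hC1 hH hC hCc hCN hIJ
  -- derivative of `ν` in the parameter
  have hνder : ∀ (σ : ℂ) (x : X), x ∈ N' →
      HasDerivAt (fun σ : ℂ => ν (σ, x)) (deriv (fun σ : ℂ => ν (σ, x)) σ) σ := by
    intro σ x hx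
    have h1 : DifferentiableAt ℂ ν (σ, x) :=
      hνd.differentiableAt ((isOpen_univ.prod hN'o).mem_nhds ⟨mem_univ _, hx⟩)
    have h2 : DifferentiableAt ℂ (fun σ : ℂ => ((σ, x) : ℂ × X)) σ := by fun_prop
    exact (h1.comp σ h2).hasDerivAt
  obtain ⟨Φ, hΦ⟩ : ∃ Φ : ℝ × X → V4 × V4, Φ = fun p => (H p.1 p.2, ν ((p.1 : ℂ), p.2)) := ⟨_, rfl⟩
  have hΦc : ContinuousOn Φ (J ×ˢ N') := by
    rw [hΦ]
    refine (hC1.continuousOn.mono fun p hp => ⟨hp.1, hN'N hp.2⟩).prodMk ?_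
    exact hνd.continuousOn.comp (f := fun p : ℝ × X => (((p.1 : ℂ), p.2) : ℂ × X)) (by fun_prop)
      fun p hp => ⟨mem_univ _, hp.2⟩
  obtain ⟨K, hKdef⟩ : ∃ K : Set (V4 × V4), K = Φ '' (Icc a b ×ˢ C) := ⟨_, rfl⟩
  have hK : IsCompact K := by
    rw [hKdef]
    exact (isCompact_Icc.prod hC).image_of_continuousOn (hΦc.mono (prod_mono hIJ hCN'))
  have hmemK : ∀ s ∈ Icc a b, ∀ x ∈ C, Φ (s, x) ∈ K := fun s hs x hx => by
    rw [hKdef]
    exact ⟨(s, x), ⟨hs, hx⟩, rfl⟩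
  obtain ⟨U, G, hUo, hKU, hG, hGcone, hGfix⟩ := s4fi_retr F K hK
    (by
      rw [hKdef, hΦ]
      rintro _ ⟨⟨s, x⟩, ⟨hs, hx⟩, rfl⟩
      exact (hH s (hIJ hs)).2 (hCN hx))
    (by
      rw [hKdef, hΦ]
      rintro _ ⟨⟨s, x⟩, ⟨hs, hx⟩, rfl⟩
      exact hνne s hs x hx)
  obtain ⟨M₂, hM₂⟩ := (isCompact_Icc.prod hC).exists_bound_of_continuousOn
    ((s4fi_continuousOn_deriv hJ hN hC1).mono (prod_mono hIJ hCN))
  obtain ⟨η, hη, hst⟩ := s4fi_c1_stable G U K hUo hK hKU hG (max M₂ M₁) ε hε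
  obtain ⟨A, hAd, hA⟩ := s4fi_approx hJ hN hC1 hhol hC hCN hab hIJ hη
  have hAder : ∀ (σ : ℂ) (x : X), x ∈ N →
      HasDerivAt (fun σ : ℂ => A (σ, x)) (deriv (fun σ : ℂ => A (σ, x)) σ) σ := by
    intro σ x hx
    have h1 : DifferentiableAt ℂ A (σ, x) :=
      hAd.differentiableAt ((isOpen_univ.prod hN).mem_nhds ⟨mem_univ _, hx⟩)
    have h2 : DifferentiableAt ℂ (fun σ : ℂ => ((σ, x) : ℂ × X)) σ := by fun_prop
    exact (h1.comp σ h2).hasDerivAt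
  obtain ⟨Ψ, hΨ⟩ : ∃ Ψ : ℂ × X → V4 × V4, Ψ = fun z => (A z, ν z) := ⟨_, rfl⟩
  have hΨd : DifferentiableOn ℂ Ψ (univ ×ˢ N') := by
    rw [hΨ]
    exact (hAd.mono (prod_mono le_rfl hN'N)).prodMk hνd
  have hGd : DifferentiableOn ℂ G U := hG.differentiableOn (by norm_num)
  -- the pointwise estimate
  have hpt : ∀ s ∈ Icc a b, ∀ x ∈ C, Ψ ((s : ℂ), x) ∈ U ∧ ‖G (Ψ ((s : ℂ), x)) - G (Φ (s, x))‖ < ε ∧
      ‖fderiv ℂ G (Ψ ((s : ℂ), x)) (deriv (fun σ : ℂ => A (σ, x)) s, deriv (fun σ : ℂ => ν (σ, x)) s) -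
        fderiv ℂ G (Φ (s, x)) (deriv (fun t : ℝ => H t x) s, deriv (fun σ : ℂ => ν (σ, x)) s)‖ < ε := by
    intro s hs x hx
    obtain ⟨hA1, hA2⟩ := hA s hs x hx
    refine hst (Φ (s, x)) (hmemK s hs x hx) _ _ _ ?_ ?_ ?_
    · rw [hΨ, hΦ]
      simp only [Prod.mk_sub_mk, sub_self, Prod.norm_mk, norm_zero]
      exact max_lt hA1 hη
    · rw [Prod.norm_mk]
      exact max_le_max (hM₂ (s, x) ⟨hs, hx⟩) (hνM s hs x hx)
    · simp only [Prod.mk_sub_mk, sub_self, Prod.norm_mk, norm_zero]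
      exact max_lt hA2 hη
  have hfix : ∀ s ∈ Icc a b, ∀ x ∈ C, G (Φ (s, x)) = H s x := by
    intro s hs x hx
    have h1 := hGfix (Φ (s, x)) (hKU (hmemK s hs x hx))
    rw [hΦ] at h1 ⊢
    exact h1 ((hH s (hIJ hs)).2 (hCN hx)).2
  refine ⟨fun z => G (Ψ z), ⟨(univ ×ˢ N') ∩ Ψ ⁻¹' U,
    hΨd.continuousOn.isOpen_inter_preimage (isOpen_univ.prod hN'o) hUo, ?_, ?_, ?_⟩, ?_⟩
  · rintro ⟨σ, x⟩ ⟨⟨s, hs, rfl⟩, hx⟩
    exact ⟨⟨mem_univ _, hCN' hx⟩, (hpt s hs x hx).1⟩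
  · exact hGd.comp (hΨd.mono inter_subset_left) fun z hz => hz.2
  · intro z hz
    exact hGcone hz.2
  · intro s hs x hx
    obtain ⟨hU', h1, h2⟩ := hpt s hs x hx
    refine ⟨by rw [← hfix s hs x hx]; exact h1, ?_⟩
    -- complex chain rule
    have c1 : HasFDerivAt G (fderiv ℂ G (Ψ ((s : ℂ), x))) (Ψ ((s : ℂ), x)) :=
      (hGd.differentiableAt (hUo.mem_nhds hU')).hasFDerivAt
    have c2 : HasDerivAt (fun σ : ℂ => Ψ (σ, x))
        (deriv (fun σ : ℂ => A (σ, x)) s, deriv (fun σ : ℂ => ν (σ, x)) s) (s : ℂ) := by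
      rw [hΨ]
      exact (hAder s x (hCN hx)).prodMk (hνder s x (hCN' hx))
    have c3 : HasDerivAt (fun σ : ℂ => G (Ψ (σ, x))) (fderiv ℂ G (Ψ ((s : ℂ), x))
        (deriv (fun σ : ℂ => A (σ, x)) s, deriv (fun σ : ℂ => ν (σ, x)) s)) (s : ℂ) :=
      c1.comp_hasDerivAt (s : ℂ) c2
    -- real chain rule
    have hUΦ : Φ (s, x) ∈ U := hKU (hmemK s hs x hx)
    have r1 : HasFDerivAt G ((fderiv ℂ G (Φ (s, x))).restrictScalars ℝ) (Φ (s, x)) :=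
      ((hGd.differentiableAt (hUo.mem_nhds hUΦ)).hasFDerivAt).restrictScalars ℝ
    have r2 : HasDerivAt (fun t : ℝ => Φ (t, x))
        (deriv (fun t : ℝ => H t x) s, deriv (fun σ : ℂ => ν (σ, x)) s) s := by
      rw [hΦ]
      exact (s4fi_hasDerivAt_param' hJ hN hC1 (hIJ hs) (hCN hx)).prodMk
        (s4fi_comp_ofReal (hνder s x (hCN' hx)))
    have r3 : HasDerivAt (fun t : ℝ => G (Φ (t, x))) (fderiv ℂ G (Φ (s, x))
        (deriv (fun t : ℝ => H t x) s, deriv (fun σ : ℂ => ν (σ, x)) s)) s := by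
      have r3' := r1.comp_hasDerivAt s r2
      exact r3'
    have r4 : ∀ᶠ t in nhds s, H t x = G (Φ (t, x)) := by
      have e1 : ∀ᶠ t in nhds s, Φ (t, x) ∈ U := r2.continuousAt.eventually_mem (hUo.mem_nhds hUΦ)
      have e2 : ∀ᶠ t in nhds s, t ∈ J := hJ.mem_nhds (hIJ hs)
      filter_upwards [e1, e2] with t k1 k2
      have h3 := hGfix (Φ (t, x)) k1
      rw [hΦ] at h3 ⊢
      exact (h3 ((hH t k2).2 (hCN hx)).2).symm
    have r5 : HasDerivAt (fun t : ℝ => H t x) (fderiv ℂ G (Φ (s, x))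
        (deriv (fun t : ℝ => H t x) s, deriv (fun σ : ℂ => ν (σ, x)) s)) s :=
      r3.congr_of_eventuallyEq r4
    have r6 := r5.deriv
    rw [c3.deriv]
    rw [← r6] at h2
    exact h2

end Claimed.Agent.R245
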