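/-
Row 245 / S0484, Section 4, block FACE. PACKAGE S4F-PAR (Lemma ana:parameter-disc).
-/
import Claimed.Agent.R245.S4FDefs
import Claimed.Agent.R245.S4Tr

set_option autoImplicit false

namespace Claimed.Agent.R245

open MvPolynomial Metric Set Claims.C0412

/-! PROOF ACTUALLY USED (helper296): no lens, no Runge.  `p s = exp (k s)` is ENTIRE and `ψ ζ = log ζ / k` is holomorphic on the right
half plane.  The closed disc `D` with diameter `[e^{k(a-d)}, e^{k(b+d)}]` satisfies `ψ D ⊆ {a-d ≤ Re ≤ b+d, |Im| < π/(2k)}`, a thin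
neighbourhood of `[a,b]` for `d` small and `k` large, and `p` maps a neighbourhood of `[a,b]` into `D`, `ψ (p s) = s`.
`PropA'` with the passive polydisc `D × P` applied to `H (ψ ζ, y, u)` gives an entire `E₁`; `G (s,y,u) = E₁ (y, exp (k s), u)`. -/

theorem s4fp_isCompact_CSeg (a b : ℝ) : IsCompact (CSeg a b) :=
  isCompact_Icc.image Complex.continuous_ofReal

/-- geometry of the logarithm on a disc in the right half plane:
`lo = e^{k(a-d)}`, `hi = e^{k(b+d)}`, disc with diameter `[lo, hi]`. -/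
theorem s4fp_log_mem {a b d k η : ℝ} (hab : a ≤ b) (hd : 0 < d) (hk : 0 < k)
    (hη : d + Real.pi / (2 * k) ≤ η) {ζ : ℂ}
    (hζ : ζ ∈ closedBall (((Real.exp (k * (b + d)) + Real.exp (k * (a - d))) / 2 : ℝ) : ℂ)
      ((Real.exp (k * (b + d)) - Real.exp (k * (a - d))) / 2)) :
    ζ ∈ Complex.slitPlane ∧ Complex.log ζ / k ∈ thickening η (CSeg a b) := by
  set lo := Real.exp (k * (a - d)) with hlo
  set hi := Real.exp (k * (b + d)) with hhi
  have hlo0 : 0 < lo := Real.exp_pos _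
  rw [mem_closedBall, Complex.dist_eq] at hζ
  have hre : lo ≤ ζ.re := by
    have h1 : |(ζ - (((hi + lo) / 2 : ℝ) : ℂ)).re| ≤ (hi - lo) / 2 := (Complex.abs_re_le_norm _).trans hζ
    rw [Complex.sub_re, Complex.ofReal_re] at h1
    have := (abs_le.1 h1).1
    linarith
  have hre0 : 0 < ζ.re := lt_of_lt_of_le hlo0 hre
  have hnlo : lo ≤ ‖ζ‖ := hre.trans ((le_abs_self _).trans (Complex.abs_re_le_norm _))
  have hnhi : ‖ζ‖ ≤ hi := by
    have h1 : ‖ζ‖ ≤ ‖ζ - (((hi + lo) / 2 : ℝ) : ℂ)‖ + ‖(((hi + lo) / 2 : ℝ) : ℂ)‖ := by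
      have := norm_add_le (ζ - (((hi + lo) / 2 : ℝ) : ℂ)) (((hi + lo) / 2 : ℝ) : ℂ)
      simpa using this
    have h2 : ‖(((hi + lo) / 2 : ℝ) : ℂ)‖ = (hi + lo) / 2 := by
      rw [Complex.norm_real, Real.norm_of_nonneg]
      have : 0 < hi := Real.exp_pos _
      linarith
    rw [h2] at h1
    linarith
  have hn0 : 0 < ‖ζ‖ := lt_of_lt_of_le hlo0 hnlo
  refine ⟨Or.inl hre0, ?_⟩
  have hlog1 : k * (a - d) ≤ Real.log ‖ζ‖ := by
    rw [Real.le_log_iff_exp_le hn0]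
    exact hnlo
  have hlog2 : Real.log ‖ζ‖ ≤ k * (b + d) := by
    rw [Real.log_le_iff_le_exp hn0]
    exact hnhi
  have harg : |Complex.arg ζ| < Real.pi / 2 := Complex.abs_arg_lt_pi_div_two_iff.2 (Or.inl hre0)
  have hwre : (Complex.log ζ / k).re = Real.log ‖ζ‖ / k := by
    rw [Complex.div_ofReal_re, Complex.log_re]
  have hwim : (Complex.log ζ / k).im = Complex.arg ζ / k := by
    rw [Complex.div_ofReal_im, Complex.log_im]
  have h1 : a - d ≤ Real.log ‖ζ‖ / k := by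
    rw [le_div_iff₀ hk]
    linarith
  have h2 : Real.log ‖ζ‖ / k ≤ b + d := by
    rw [div_le_iff₀ hk]
    linarith
  rw [mem_thickening_iff]
  refine ⟨((max a (min b (Real.log ‖ζ‖ / k)) : ℝ) : ℂ), ⟨_, ⟨le_max_left _ _, max_le hab (min_le_left _ _)⟩, rfl⟩, ?_⟩
  rw [Complex.dist_eq]
  refine lt_of_le_of_lt (Complex.norm_le_abs_re_add_abs_im _) ?_
  rw [Complex.sub_re, Complex.sub_im, Complex.ofReal_re, Complex.ofReal_im, sub_zero, hwre, hwim]
  have h3 : |Real.log ‖ζ‖ / k - max a (min b (Real.log ‖ζ‖ / k))| ≤ d := by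
    rw [abs_le]
    constructor <;> (simp only [max_def, min_def]; split_ifs <;> linarith)
  have h4 : |Complex.arg ζ / k| < Real.pi / (2 * k) := by
    rw [abs_div, abs_of_pos hk, div_lt_div_iff₀ hk (by positivity)]
    have := mul_lt_mul_of_pos_right harg hk
    nlinarith
  linarith

/-- the exponential maps a neighbourhood of the segment into the disc -/
theorem s4fp_exp_mem {a b d k : ℝ} (hd : 0 < d) (hk : 0 < k) :
    ∃ θ : ℝ, 0 < θ ∧ ∀ s ∈ cthickening θ (CSeg a b),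
      Complex.exp (k * s) ∈ closedBall (((Real.exp (k * (b + d)) + Real.exp (k * (a - d))) / 2 : ℝ) : ℂ)
        ((Real.exp (k * (b + d)) - Real.exp (k * (a - d))) / 2) ∧ Complex.log (Complex.exp (k * s)) = k * s := by
  set lo := Real.exp (k * (a - d)) with hlo
  set hi := Real.exp (k * (b + d)) with hhi
  have hO : IsOpen ({s : ℂ | Complex.exp (k * s) ∈ ball (((hi + lo) / 2 : ℝ) : ℂ) ((hi - lo) / 2)} ∩
      {s : ℂ | |(k * s).im| < Real.pi}) := by
    refine IsOpen.inter ?_ ?_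
    · exact isOpen_ball.preimage (by fun_prop)
    · exact isOpen_lt (by fun_prop) continuous_const
  have hsub : CSeg a b ⊆ {s : ℂ | Complex.exp (k * s) ∈ ball (((hi + lo) / 2 : ℝ) : ℂ) ((hi - lo) / 2)} ∩
      {s : ℂ | |(k * s).im| < Real.pi} := by
    rintro _ ⟨t, ht, rfl⟩
    constructor
    · show Complex.exp (k * (t : ℂ)) ∈ ball _ _
      rw [← Complex.ofReal_mul, ← Complex.ofReal_exp, mem_ball, Complex.dist_eq, ← Complex.ofReal_sub,
        Complex.norm_real, Real.norm_eq_abs, abs_lt]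
      have h1 : lo < Real.exp (k * t) := by
        refine Real.exp_lt_exp.2 (mul_lt_mul_of_pos_left ?_ hk)
        linarith [ht.1]
      have h2 : Real.exp (k * t) < hi := by
        refine Real.exp_lt_exp.2 (mul_lt_mul_of_pos_left ?_ hk)
        linarith [ht.2]
      constructor <;> linarith
    · show |((k : ℂ) * (t : ℂ)).im| < Real.pi
      rw [← Complex.ofReal_mul, Complex.ofReal_im, abs_zero]
      exact Real.pi_pos
  obtain ⟨θ, hθ, hsubθ⟩ := (s4fp_isCompact_CSeg a b).exists_cthickening_subset_open hO hsub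
  refine ⟨θ, hθ, fun s hs => ⟨ball_subset_closedBall (hsubθ hs).1, ?_⟩⟩
  have h0 : |((k : ℂ) * s).im| < Real.pi := (hsubθ hs).2
  have h := abs_lt.1 h0
  exact Complex.log_exp h.1 h.2.le

/-- PACKAGE S4F-PAR.  Explicit lens instead of the Riemann mapping theorem:
`V = {z : |arg ((z-a')/(b'-z))| < ϑ}`, `a' < a ≤ b < b'`, `φ = Cayley ∘ ((z-a')/(b'-z))^(π/(2ϑ))`
maps `V` biholomorphically onto the unit disc, with explicit inverse `ψ`.  `H (ψ ζ, y, u)` is
holomorphic near `closedBall 0 ρ × C × P`; `PropA'` with the `ζ`-disc as an extra passive factor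
gives an entire `E`; replace `φ` by a polynomial `p` (one-variable Runge / Taylor on a compact convex
neighbourhood of `[a,b]` inside `V`), `E` being fixed before `p`. -/
theorem s4f_param (F : MvPolynomial (Fin 4) ℂ) (r : ℕ) (h : PropA' F r) : ParamStmt F r := by
  intro E Z _ _ _ _ _ _ hr C P a b hC hCc hCn hP hab H hH
  obtain ⟨W, hW, hSW, hHd, hHm⟩ := hH
  have hPc : IsCompact P := (s4_isPolydisc_props hP).1
  obtain ⟨V0, U, hV0, hU, hsV0, hsU, hVU⟩ :=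
    generalized_tube_lemma (s4fp_isCompact_CSeg a b) (hC.prod hPc) hW hSW
  obtain ⟨η, hη, hηV⟩ := (s4fp_isCompact_CSeg a b).exists_thickening_subset_open hV0 hsV0
  obtain ⟨d, hd⟩ : ∃ d : ℝ, d = η / 2 := ⟨_, rfl⟩
  obtain ⟨k, hkdef⟩ : ∃ k : ℝ, k = 2 * Real.pi / η := ⟨_, rfl⟩
  have hd0 : 0 < d := by rw [hd]; positivity
  have hk0 : 0 < k := by rw [hkdef]; have := Real.pi_pos; positivity
  have hdk : d + Real.pi / (2 * k) ≤ η := by
    have : Real.pi / (2 * k) = η / 4 := by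
      rw [hkdef]
      have := Real.pi_pos
      field_simp
      ring
    rw [this, hd]
    linarith
  obtain ⟨θ, hθ, hθD⟩ := s4fp_exp_mem (a := a) (b := b) hd0 hk0
  obtain ⟨c, hc⟩ : ∃ c : ℝ, c = (Real.exp (k * (b + d)) + Real.exp (k * (a - d))) / 2 := ⟨_, rfl⟩
  obtain ⟨R, hR⟩ : ∃ R : ℝ, R = (Real.exp (k * (b + d)) - Real.exp (k * (a - d))) / 2 := ⟨_, rfl⟩
  rw [← hc, ← hR] at hθD
  have hlogD : ∀ ζ ∈ closedBall (c : ℂ) R,
      ζ ∈ Complex.slitPlane ∧ Complex.log ζ / k ∈ thickening η (CSeg a b) := by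
    intro ζ hζ
    rw [hc, hR] at hζ
    exact s4fp_log_mem hab hd0 hk0 hdk hζ
  have hR0 : 0 < R := by
    rw [hR]
    have : Real.exp (k * (a - d)) < Real.exp (k * (b + d)) :=
      Real.exp_lt_exp.2 (mul_lt_mul_of_pos_left (by linarith) hk0)
    linarith
  refine ⟨θ, hθ, fun ε hε => ?_⟩
  -- the transported map
  let Φ : E × (ℂ × Z) → ℂ × (E × Z) := fun p => (Complex.log p.2.1 / k, (p.1, p.2.2))
  have hS0 : IsOpen {p : E × (ℂ × Z) | p.2.1 ∈ Complex.slitPlane} :=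
    Complex.isOpen_slitPlane.preimage (by fun_prop)
  have hΦ : DifferentiableOn ℂ Φ {p : E × (ℂ × Z) | p.2.1 ∈ Complex.slitPlane} := by
    intro p hp
    have h1 : DifferentiableAt ℂ (fun p : E × (ℂ × Z) => Complex.log p.2.1) p :=
      DifferentiableAt.clog (by fun_prop) hp
    have h1' : DifferentiableAt ℂ (fun p : E × (ℂ × Z) => Complex.log p.2.1 / k) p := by
      simpa only [div_eq_mul_inv] using h1.mul_const ((k : ℂ)⁻¹)
    have h2 : DifferentiableAt ℂ Φ p :=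
      DifferentiableAt.prodMk h1' (by fun_prop)
    exact h2.differentiableWithinAt
  have hH1 : HolNear F (H ∘ Φ) (C ×ˢ (closedBall (c : ℂ) R ×ˢ P)) := by
    refine ⟨{p : E × (ℂ × Z) | p.2.1 ∈ Complex.slitPlane} ∩ Φ ⁻¹' W,
      hΦ.continuousOn.isOpen_inter_preimage hS0 hW, ?_, ?_, ?_⟩
    · rintro ⟨y, ζ, u⟩ ⟨hy, hζ, hu⟩
      obtain ⟨h1, h2⟩ := hlogD ζ hζ
      exact ⟨h1, hVU ⟨hηV h2, hsU ⟨hy, hu⟩⟩⟩
    · exact hHd.comp (hΦ.mono inter_subset_left) fun p hp => hp.2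
    · intro p hp
      exact hHm hp.2
  obtain ⟨E1, ⟨hE1d, hE1c⟩, hE1⟩ := h E (ℂ × Z) hr C (closedBall (c : ℂ) R ×ˢ P) hC hCc hCn
    (s4_isPolydisc_prod (s4_isPolydisc_disc c R hR0) hP) (H ∘ Φ) hH1 ε hε
  refine ⟨fun x => E1 (x.2.1, (Complex.exp (k * x.1), x.2.2)), ⟨hE1d.comp (by fun_prop), fun z => hE1c _⟩, ?_⟩
  rintro ⟨s, y, u⟩ ⟨hs, hy, hu⟩
  obtain ⟨h1, h2⟩ := hθD s hs
  have h3 := hE1 (y, (Complex.exp (k * s), u)) ⟨hy, h1, hu⟩
  have h4 : (H ∘ Φ) (y, (Complex.exp (k * s), u)) = H (s, y, u) := by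
    show H (Complex.log (Complex.exp (k * s)) / k, (y, u)) = _
    rw [h2, mul_div_cancel_left₀ _ (by exact_mod_cast hk0.ne')]
  rw [h4] at h3
  exact h3

/-- PACKAGE S4F-PAR. -/
theorem s4f_param0 (F : MvPolynomial (Fin 4) ℂ) (h : ParamStmt F 0) : Param0Stmt F := by
  intro Z _ _ _ P a b hP hab H hH
  obtain ⟨W, hW, hSW, hHd, hHm⟩ := hH
  let Ψ : ℂ × ((Fin 0 → ℂ) × Z) → ℂ × Z := fun x => (x.1, x.2.2)
  have hΨ : Differentiable ℂ Ψ := by fun_prop
  have hH' : HolNear F (H ∘ Ψ) (CSeg a b ×ˢ ((univ : Set (Fin 0 → ℂ)) ×ˢ P)) := by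
    refine ⟨Ψ ⁻¹' W, hW.preimage hΨ.continuous, ?_, ?_, ?_⟩
    · rintro ⟨s, y, u⟩ ⟨hs, _, hu⟩
      exact hSW ⟨hs, hu⟩
    · exact hHd.comp hΨ.differentiableOn fun p hp => hp
    · intro p hp
      exact hHm hp
  obtain ⟨θ, hθ, hG⟩ := h (Fin 0 → ℂ) Z (by simp) univ P a b isCompact_univ convex_univ univ_nonempty hP hab
    (H ∘ Ψ) hH'
  refine ⟨θ, hθ, fun ε hε => ?_⟩
  obtain ⟨G, ⟨hGd, hGc⟩, hGe⟩ := hG ε hε
  refine ⟨fun x => G (x.1, (0, x.2)), ⟨hGd.comp (by fun_prop), fun z => hGc _⟩, ?_⟩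
  rintro ⟨s, u⟩ ⟨hs, hu⟩
  exact hGe (s, (0, u)) ⟨hs, mem_univ _, hu⟩

end Claimed.Agent.R245
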