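/-
Row 245 / S0484, Section 4, block FACE, package S4F-PATH: tools (helper296).
-/
import Claimed.Agent.R245.S4FDefs
import Claimed.Agent.R245.S4Tr
import Claimed.Agent.R245.SCVOsg

set_option autoImplicit false

namespace Claimed.Agent.R245

open MvPolynomial Metric Set Claims.C0412

/-- complex differentiable on an open set of a finite dimensional space ⇒ real `C¹`. -/
theorem s4fq_contDiffOn {X G : Type*} [NormedAddCommGroup X] [NormedSpace ℂ X]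
    [FiniteDimensional ℂ X] [NormedAddCommGroup G] [NormedSpace ℂ G] [CompleteSpace G]
    {f : X → G} {U : Set X} (hU : IsOpen U) (hf : DifferentiableOn ℂ f U) :
    ContDiffOn ℝ 1 f U :=
  ((scv_analyticOnNhd hU hf).contDiffOn hU.uniqueDiffOn (n := 1)).restrict_scalars ℝ

theorem s4fq_contDiff {X G : Type*} [NormedAddCommGroup X] [NormedSpace ℂ X]
    [FiniteDimensional ℂ X] [NormedAddCommGroup G] [NormedSpace ℂ G] [CompleteSpace G]
    {f : X → G} (hf : Differentiable ℂ f) : ContDiff ℝ 1 f :=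
  contDiffOn_univ.1 (s4fq_contDiffOn isOpen_univ hf.differentiableOn)

/-- a `C¹` step function -/
theorem s4fq_step (α β : ℝ) (h : α < β) : ∃ κ : ℝ → ℝ, ContDiff ℝ 1 κ ∧ (∀ s, 0 ≤ κ s) ∧
    (∀ s, κ s ≤ 1) ∧ (∀ s, s ≤ α → κ s = 0) ∧ (∀ s, β ≤ s → κ s = 1) := by
  have hβ : 0 < β - α := sub_pos.2 h
  refine ⟨fun s => Real.smoothTransition ((s - α) / (β - α)), ?_, fun s => Real.smoothTransition.nonneg _,
    fun s => Real.smoothTransition.le_one _, fun s hs => ?_, fun s hs => ?_⟩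
  · exact Real.smoothTransition.contDiff.comp ((contDiff_id.sub contDiff_const).div_const _)
  · exact Real.smoothTransition.zero_of_nonpos (div_nonpos_of_nonpos_of_nonneg (by linarith) hβ.le)
  · exact Real.smoothTransition.one_of_one_le ((one_le_div hβ).2 (by linarith))

/-- the derivative of a `C¹` function is bounded on `[0,1]` -/
theorem s4fq_deriv_bound {κ : ℝ → ℝ} (h : ContDiff ℝ 1 κ) :
    ∃ c : ℝ, 0 ≤ c ∧ ∀ s ∈ Icc (0 : ℝ) 1, |deriv κ s| ≤ c := by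
  have hc : Continuous (deriv κ) := h.continuous_deriv le_rfl
  obtain ⟨c, hc'⟩ := (isCompact_Icc (a := (0 : ℝ)) (b := 1)).exists_bound_of_continuousOn hc.continuousOn
  refine ⟨max c 0, le_max_right _ _, fun s hs => ?_⟩
  exact (hc' s hs).trans (le_max_left _ _)

theorem s4fq_holOn_congr {F : MvPolynomial (Fin 4) ℂ} {X : Type*} [NormedAddCommGroup X]
    [NormedSpace ℂ X] {f g : X → V4} {N : Set X} (h : HolOn F f N) (e : ∀ x ∈ N, g x = f x) :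
    HolOn F g N :=
  ⟨h.1.congr e, fun x hx => by rw [e x hx]; exact h.2 hx⟩

/-- local-in-`s` criterion for a `C¹` family -/
theorem s4fq_contDiffWithinAt_congr {X : Type*} [NormedAddCommGroup X] [NormedSpace ℂ X]
    {N : Set X} (hN : IsOpen N) {J : Set ℝ} (hJ : IsOpen J) {H H' : ℝ → X → V4}
    (h : ContDiffOn ℝ 1 (fun p : ℝ × X => H' p.1 p.2) (J ×ˢ N))
    (e : ∀ s ∈ J, ∀ x ∈ N, H s x = H' s x) {p : ℝ × X} (hp : p ∈ J ×ˢ N) :
    ContDiffAt ℝ 1 (fun p : ℝ × X => H p.1 p.2) p := by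
  have ho : IsOpen (J ×ˢ N) := hJ.prod hN
  have h1 : ContDiffAt ℝ 1 (fun p : ℝ × X => H' p.1 p.2) p := (h p hp).contDiffAt (ho.mem_nhds hp)
  refine h1.congr_of_eventuallyEq ?_
  filter_upwards [ho.mem_nhds hp] with q hq
  exact e q.1 hq.1 q.2 hq.2

/-- gluing three `C¹` families which agree on overlapping parameter intervals -/
theorem s4fq_glue3 (F : MvPolynomial (Fin 4) ℂ) {X : Type*} [NormedAddCommGroup X] [NormedSpace ℂ X]
    {N : Set X} (hN : IsOpen N) (H₁ H₂ H₃ : ℝ → X → V4) (α₁ c₁ β₁ α₂ c₂ β₂ : ℝ)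
    (h1 : α₁ < c₁) (h2 : c₁ < β₁) (h3 : β₁ ≤ c₂) (h4 : c₁ ≤ α₂) (h5 : α₂ < c₂) (h6 : c₂ < β₂)
    (a1 : ∀ s < β₁, HolOn F (H₁ s) N)
    (b1 : ContDiffOn ℝ 1 (fun p : ℝ × X => H₁ p.1 p.2) (Iio β₁ ×ˢ N))
    (a2 : ∀ s ∈ Ioo α₁ β₂, HolOn F (H₂ s) N)
    (b2 : ContDiffOn ℝ 1 (fun p : ℝ × X => H₂ p.1 p.2) (Ioo α₁ β₂ ×ˢ N))
    (a3 : ∀ s, α₂ < s → HolOn F (H₃ s) N)
    (b3 : ContDiffOn ℝ 1 (fun p : ℝ × X => H₃ p.1 p.2) (Ioi α₂ ×ˢ N))
    (e12 : ∀ s ∈ Ioo α₁ β₁, ∀ x ∈ N, H₁ s x = H₂ s x)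
    (e23 : ∀ s ∈ Ioo α₂ β₂, ∀ x ∈ N, H₂ s x = H₃ s x) :
    ∃ H : ℝ → X → V4, (∀ s, HolOn F (H s) N) ∧
      ContDiffOn ℝ 1 (fun p : ℝ × X => H p.1 p.2) (univ ×ˢ N) ∧
      (∀ s < β₁, ∀ x ∈ N, H s x = H₁ s x) ∧ (∀ s ∈ Ioo α₁ β₂, ∀ x ∈ N, H s x = H₂ s x) ∧
      (∀ s, α₂ < s → ∀ x ∈ N, H s x = H₃ s x) := by
  set H : ℝ → X → V4 := fun s => if s < c₁ then H₁ s else if s < c₂ then H₂ s else H₃ s with hH
  have E1 : ∀ s < β₁, ∀ x ∈ N, H s x = H₁ s x := by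
    intro s hs x hx
    simp only [hH]
    by_cases hc : s < c₁
    · rw [if_pos hc]
    · rw [if_neg hc, if_pos (by linarith)]
      exact (e12 s ⟨by push Not at hc; linarith, hs⟩ x hx).symm
  have E2 : ∀ s ∈ Ioo α₁ β₂, ∀ x ∈ N, H s x = H₂ s x := by
    intro s hs x hx
    simp only [hH]
    by_cases hc : s < c₁
    · rw [if_pos hc]
      exact e12 s ⟨hs.1, by linarith⟩ x hx
    · rw [if_neg hc]
      by_cases hc' : s < c₂
      · rw [if_pos hc']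
      · rw [if_neg hc']
        exact (e23 s ⟨by push Not at hc'; linarith, hs.2⟩ x hx).symm
  have E3 : ∀ s, α₂ < s → ∀ x ∈ N, H s x = H₃ s x := by
    intro s hs x hx
    simp only [hH]
    rw [if_neg (by linarith)]
    by_cases hc' : s < c₂
    · rw [if_pos hc']
      exact e23 s ⟨hs, by linarith⟩ x hx
    · rw [if_neg hc']
  have cover : ∀ s : ℝ, s < β₁ ∨ s ∈ Ioo α₁ β₂ ∨ α₂ < s := by
    intro s
    by_cases hs : s < β₁
    · exact Or.inl hs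
    · by_cases hs' : s < β₂
      · exact Or.inr (Or.inl ⟨by push Not at hs; linarith, hs'⟩)
      · exact Or.inr (Or.inr (by push Not at hs'; linarith))
  refine ⟨H, fun s => ?_, fun p hp => ?_, E1, E2, E3⟩
  · rcases cover s with hs | hs | hs
    · exact s4fq_holOn_congr (a1 s hs) (E1 s hs)
    · exact s4fq_holOn_congr (a2 s hs) (E2 s hs)
    · exact s4fq_holOn_congr (a3 s hs) (E3 s hs)
  · apply ContDiffAt.contDiffWithinAt
    rcases cover p.1 with hs | hs | hs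
    · exact s4fq_contDiffWithinAt_congr hN isOpen_Iio b1 E1 ⟨hs, hp.2⟩
    · exact s4fq_contDiffWithinAt_congr hN isOpen_Ioo b2 E2 ⟨hs, hp.2⟩
    · exact s4fq_contDiffWithinAt_congr hN isOpen_Ioi b3 E3 ⟨hs, hp.2⟩

/-- the retraction onto the cone near the graph of `h` over `K`, with Cauchy estimates -/
theorem s4fq_retr (F : MvPolynomial (Fin 4) ℂ) (hnu : NuStmt F) (hretr : RetrStmt F)
    (X : Type) [NormedAddCommGroup X] [NormedSpace ℂ X] [FiniteDimensional ℂ X]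
    (K : Set X) (h : X → V4) (hK : IsCompact K) (hKc : Convex ℝ K) (hh : HolNear F h K) :
    ∃ (W' : Set X) (r₀ M : ℝ) (R : X × V4 → V4), IsOpen W' ∧ K ⊆ W' ∧ ContinuousOn h W' ∧
      0 < r₀ ∧ 0 < M ∧ IsOpen {p : X × V4 | p.1 ∈ W' ∧ ‖p.2 - h p.1‖ < r₀} ∧
      HolOn F R {p : X × V4 | p.1 ∈ W' ∧ ‖p.2 - h p.1‖ < r₀} ∧
      (∀ p : X × V4, p.1 ∈ W' → ‖p.2 - h p.1‖ < r₀ → p.2 ∈ Cone F → R p = p.2) ∧
      (∀ x ∈ K, ∀ v ∈ ball (h x) (r₀ / 2), ‖fderiv ℂ (fun y => R (x, y)) v‖ ≤ M) ∧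
      (∀ x ∈ K, ∀ v₁ ∈ ball (h x) (r₀ / 2), ∀ v₂ ∈ ball (h x) (r₀ / 2),
        ‖R (x, v₁) - R (x, v₂)‖ ≤ M * ‖v₁ - v₂‖) := by
  obtain ⟨ν, W, hW, hKW, hhW, hν, hdot⟩ := hnu X K h hK hKc hh
  obtain ⟨W', r₀, C₀, R, hW', hKW', hW'W, hr₀, hC₀, hR, hμ⟩ :=
    hretr X K W h ν hK hW hKW hhW hν hdot
  have hhc : ContinuousOn h W' := hhW.1.continuousOn.mono hW'W
  -- bounds
  obtain ⟨Mh, hMh⟩ := hK.exists_bound_of_continuousOn (hhc.mono hKW')
  obtain ⟨Mν, hMν⟩ := hK.exists_bound_of_continuousOn ((hν.continuousOn.mono hW'W).mono hKW')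
  have hFc : Continuous (fun y : V4 => eval y F) := MvPolynomial.continuous_eval F
  obtain ⟨MF, hMF⟩ := (isCompact_closedBall (0 : V4) (|Mh| + r₀)).exists_bound_of_continuousOn
    hFc.continuousOn
  set MR : ℝ := (|Mh| + r₀) + C₀ * |MF| * |Mν| with hMR
  have hbd : ∀ x ∈ K, ∀ v ∈ ball (h x) r₀, ‖R (x, v)‖ ≤ MR := by
    intro x hx v hv
    have hv' : ‖v - h x‖ < r₀ := by rwa [mem_ball, dist_eq_norm] at hv
    obtain ⟨μ, hμ1, hμ2⟩ := hμ (x, v) (hKW' hx) hv'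
    have hvn : ‖v‖ ≤ |Mh| + r₀ := by
      calc ‖v‖ = ‖h x + (v - h x)‖ := by rw [add_sub_cancel]
        _ ≤ ‖h x‖ + ‖v - h x‖ := norm_add_le _ _
        _ ≤ |Mh| + r₀ := add_le_add ((hMh x hx).trans (le_abs_self _)) hv'.le
    have hF : ‖eval v F‖ ≤ |MF| := (hMF v (by simpa using hvn)).trans (le_abs_self _)
    have hν' : ‖ν x‖ ≤ |Mν| := (hMν x hx).trans (le_abs_self _)
    rw [hμ2]
    calc ‖v + μ • ν x‖ ≤ ‖v‖ + ‖μ‖ * ‖ν x‖ := by
          refine (norm_add_le _ _).trans ?_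
          rw [norm_smul]
      _ ≤ (|Mh| + r₀) + (C₀ * |MF|) * |Mν| := by
          refine add_le_add hvn (mul_le_mul (hμ1.trans ?_) hν' (norm_nonneg _) (by positivity))
          exact mul_le_mul_of_nonneg_left hF hC₀.le
  have hΩ : IsOpen {p : X × V4 | p.1 ∈ W' ∧ ‖p.2 - h p.1‖ < r₀} := by
    have hc : ContinuousOn (fun p : X × V4 => ‖p.2 - h p.1‖) (W' ×ˢ univ) :=
      (continuousOn_snd.sub (hhc.comp continuousOn_fst (fun p hp => hp.1))).norm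
    have := hc.isOpen_inter_preimage (hW'.prod isOpen_univ) (isOpen_Iio (a := r₀))
    convert this using 1
    ext p
    simp
  have hdiff : ∀ x ∈ K, DifferentiableOn ℂ (fun y => R (x, y)) (ball (h x) r₀) := by
    intro x hx
    refine hR.1.comp ((differentiableOn_const x).prodMk differentiableOn_id) ?_
    intro v hv
    exact ⟨hKW' hx, by rwa [mem_ball, dist_eq_norm] at hv⟩
  have hMR0 : 0 ≤ MR := by positivity
  refine ⟨W', r₀, 2 * MR / r₀ + 1, R, hW', hKW', hhc, hr₀, by positivity, hΩ, hR, ?_, ?_, ?_⟩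
  · intro p hp1 hp2 hp3
    obtain ⟨μ, hμ1, hμ2⟩ := hμ p hp1 hp2
    rw [hp3.2, norm_zero, mul_zero] at hμ1
    rw [hμ2, norm_le_zero_iff.1 hμ1, zero_smul, add_zero]
  · intro x hx v hv
    have hv' : v ∈ ball (h x) r₀ := ball_subset_ball (by linarith) hv
    refine (scv_norm_fderiv_le (hdiff x hx) (hbd x hx) hv').trans ?_
    have h1 : dist v (h x) < r₀ / 2 := hv
    have h2 : MR / (r₀ - dist v (h x)) ≤ MR / (r₀ / 2) :=
      div_le_div_of_nonneg_left hMR0 (by linarith) (by linarith)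
    have h3 : MR / (r₀ / 2) = 2 * MR / r₀ := by field_simp
    linarith
  · intro x hx v₁ hv₁ v₂ hv₂
    refine (scv_lipschitz (hdiff x hx) (hbd x hx) hv₁ hv₂).trans ?_
    have := norm_nonneg (v₁ - v₂)
    nlinarith

end Claimed.Agent.R245
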