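/-
Row 245 / S0484, Section 4, block FACE, package S4F-PATH: the interpolation lemma (helper296).
-/
import Claimed.Agent.R245.S4FPathA

set_option autoImplicit false

namespace Claimed.Agent.R245

open MvPolynomial Metric Set Claims.C0412

/-- interpolation between `a` and the family `b s` through the retraction near `h` -/
theorem s4fq_interp (F : MvPolynomial (Fin 4) ℂ) (hnu : NuStmt F) (hretr : RetrStmt F)
    (X : Type) [NormedAddCommGroup X] [NormedSpace ℂ X] [FiniteDimensional ℂ X]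
    (K : Set X) (h : X → V4) (hK : IsCompact K) (hKc : Convex ℝ K) (hh : HolNear F h K) :
    ∃ (r M : ℝ), 0 < r ∧ 0 < M ∧
      ∀ (a : X → V4) (b : ℝ → X → V4) (κ : ℝ → ℝ) (N₀ : Set X) (J I : Set ℝ),
        IsOpen N₀ → K ⊆ N₀ → HolOn F a N₀ → (∀ s, HolOn F (b s) N₀) →
        ContDiffOn ℝ 1 (fun p : ℝ × X => b p.1 p.2) (univ ×ˢ N₀) →
        ContDiff ℝ 1 κ → (∀ s, 0 ≤ κ s) → (∀ s, κ s ≤ 1) →
        IsOpen J → IsCompact I → (∀ s ∈ J, s ∈ I ∨ κ s = 0) →
        (∀ x ∈ K, ‖a x - h x‖ < r) → (∀ s ∈ I, ∀ x ∈ K, ‖b s x - h x‖ < r) →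
        ∃ (c : ℝ → X → V4) (N : Set X), IsOpen N ∧ K ⊆ N ∧ N ⊆ N₀ ∧
          (∀ s ∈ J, HolOn F (c s) N) ∧
          ContDiffOn ℝ 1 (fun p : ℝ × X => c p.1 p.2) (J ×ˢ N) ∧
          (∀ s ∈ J, κ s = 0 → ∀ x ∈ N, c s x = a x) ∧
          (∀ s ∈ J, κ s = 1 → ∀ x ∈ N, c s x = b s x) ∧
          (∀ s ∈ J, ∀ x ∈ K, ‖c s x - a x‖ ≤ M * (κ s * ‖b s x - a x‖) ∧
            ‖deriv (fun t => c t x) s‖ ≤
              M * (|deriv κ s| * ‖b s x - a x‖ + κ s * ‖deriv (fun t => b t x) s‖)) := by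
  obtain ⟨W', r₀, M, R, hW', hKW', hhc, hr₀, hM, hΩ, hR, hRid, hRd, hRl⟩ :=
    s4fq_retr F hnu hretr X K h hK hKc hh
  refine ⟨r₀ / 2, M, by positivity, hM, ?_⟩
  intro a b κ N₀ J I hN₀ hKN₀ ha hb hbC hκ hκ0 hκ1 hJ hI hJI hah hbh
  set y : ℝ × X → V4 := fun p => a p.2 + κ p.1 • (b p.1 p.2 - a p.2) with hy
  have haC : ContDiffOn ℝ 1 (fun p : ℝ × X => a p.2) (univ ×ˢ N₀) :=
    (s4fq_contDiffOn hN₀ ha.1).comp contDiffOn_snd (fun p hp => hp.2)
  have hyC : ContDiffOn ℝ 1 y (univ ×ˢ N₀) :=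
    haC.add ((hκ.comp contDiff_fst).contDiffOn.smul (hbC.sub haC))
  -- closeness on `K`
  have hclose : ∀ s ∈ J, ∀ x ∈ K, y (s, x) ∈ ball (h x) (r₀ / 2) := by
    intro s hs x hx
    have h1 : a x ∈ ball (h x) (r₀ / 2) := by rw [mem_ball, dist_eq_norm]; exact hah x hx
    rcases hJI s hs with hsI | h0
    · have h2 : b s x ∈ ball (h x) (r₀ / 2) := by rw [mem_ball, dist_eq_norm]; exact hbh s hsI x hx
      exact (convex_ball (h x) (r₀ / 2)).add_smul_sub_mem h1 h2 ⟨hκ0 s, hκ1 s⟩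
    · simp only [hy, h0, zero_smul, add_zero]
      exact h1
  have hclose' : ∀ s ∈ I, ∀ x ∈ K, y (s, x) ∈ ball (h x) (r₀ / 2) := by
    intro s hsI x hx
    have h1 : a x ∈ ball (h x) (r₀ / 2) := by rw [mem_ball, dist_eq_norm]; exact hah x hx
    have h2 : b s x ∈ ball (h x) (r₀ / 2) := by rw [mem_ball, dist_eq_norm]; exact hbh s hsI x hx
    exact (convex_ball (h x) (r₀ / 2)).add_smul_sub_mem h1 h2 ⟨hκ0 s, hκ1 s⟩
  -- the open set
  have hNW : IsOpen (N₀ ∩ W') := hN₀.inter hW'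
  have hO : IsOpen ((univ ×ˢ (N₀ ∩ W')) ∩ (fun p : ℝ × X => ‖y p - h p.2‖) ⁻¹' Iio r₀) := by
    refine ContinuousOn.isOpen_inter_preimage ?_ (isOpen_univ.prod hNW) isOpen_Iio
    refine ((hyC.continuousOn.mono ?_).sub (hhc.comp continuousOn_snd ?_)).norm
    · exact fun p hp => ⟨hp.1, hp.2.1⟩
    · exact fun p hp => hp.2.2
  obtain ⟨U, V, hU, hV, hIU, hKV, hUV⟩ := generalized_tube_lemma hI hK hO (by
    rintro ⟨s, x⟩ ⟨hs, hx⟩
    refine ⟨⟨mem_univ _, hKN₀ hx, hKW' hx⟩, ?_⟩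
    have := hclose' s hs x hx
    rw [mem_ball, dist_eq_norm] at this
    simp only [mem_preimage, mem_Iio]
    linarith)
  have hNa : IsOpen ((N₀ ∩ W') ∩ (fun x : X => ‖a x - h x‖) ⁻¹' Iio r₀) := by
    refine ContinuousOn.isOpen_inter_preimage ?_ hNW isOpen_Iio
    exact ((ha.1.continuousOn.mono inter_subset_left).sub (hhc.mono inter_subset_right)).norm
  set N : Set X := V ∩ ((N₀ ∩ W') ∩ (fun x : X => ‖a x - h x‖) ⁻¹' Iio r₀) with hNdef
  have hN : IsOpen N := hV.inter hNa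
  have hKN : K ⊆ N := by
    intro x hx
    refine ⟨hKV hx, ⟨hKN₀ hx, hKW' hx⟩, ?_⟩
    have := hah x hx
    simp only [mem_preimage, mem_Iio]
    linarith
  have hNN₀ : N ⊆ N₀ := fun x hx => hx.2.1.1
  have hmem : ∀ s ∈ J, ∀ x ∈ N, (x, y (s, x)) ∈ {p : X × V4 | p.1 ∈ W' ∧ ‖p.2 - h p.1‖ < r₀} := by
    intro s hs x hx
    refine ⟨hx.2.1.2, ?_⟩
    rcases hJI s hs with hsI | h0
    · exact (hUV (show (s, x) ∈ U ×ˢ V from ⟨hIU hsI, hx.1⟩)).2
    · simp only [hy, h0, zero_smul, add_zero]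
      exact hx.2.2
  refine ⟨fun s x => R (x, y (s, x)), N, hN, hKN, hNN₀, ?_, ?_, ?_, ?_, ?_⟩
  · intro s hs
    refine ⟨hR.1.comp (differentiableOn_id.prodMk ?_) (fun x hx => hmem s hs x hx),
      fun x hx => hR.2 (hmem s hs x hx)⟩
    exact (ha.1.mono hNN₀).add ((((hb s).1.mono hNN₀).sub (ha.1.mono hNN₀)).const_smul (κ s))
  · refine (s4fq_contDiffOn hΩ hR.1).comp (contDiffOn_snd.prodMk (hyC.mono ?_)) ?_
    · exact fun p hp => ⟨mem_univ _, hNN₀ hp.2⟩
    · exact fun p hp => hmem p.1 hp.1 p.2 hp.2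
  · intro s hs h0 x hx
    have h1 := hmem s hs x hx
    have h2 : y (s, x) = a x := by simp only [hy, h0, zero_smul, add_zero]
    simp only
    rw [h2] at h1 ⊢
    exact hRid _ h1.1 h1.2 (ha.2 (hNN₀ hx))
  · intro s hs h0 x hx
    have h1 := hmem s hs x hx
    have h2 : y (s, x) = b s x := by simp only [hy, h0, one_smul, add_sub_cancel]
    simp only
    rw [h2] at h1 ⊢
    exact hRid _ h1.1 h1.2 ((hb s).2 (hNN₀ hx))
  · intro s hs x hx
    have hax : a x ∈ ball (h x) (r₀ / 2) := by rw [mem_ball, dist_eq_norm]; exact hah x hx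
    have hyx := hclose s hs x hx
    constructor
    · have h1 : R (x, a x) = a x := by
        refine hRid (x, a x) (hKW' hx) ?_ (ha.2 (hKN₀ hx))
        have := hah x hx
        simp only
        linarith
      have h2 := hRl x hx _ hyx _ hax
      rw [h1] at h2
      refine h2.trans (le_of_eq ?_)
      simp only [hy, add_sub_cancel_left, norm_smul, Real.norm_eq_abs, abs_of_nonneg (hκ0 s)]
    · have hb' : DifferentiableAt ℝ (fun t => b t x) s := by
        have h1 : ContDiffAt ℝ 1 (fun p : ℝ × X => b p.1 p.2) (s, x) :=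
          (hbC (s, x) ⟨mem_univ _, hKN₀ hx⟩).contDiffAt
            ((isOpen_univ.prod hN₀).mem_nhds ⟨mem_univ _, hKN₀ hx⟩)
        have h2 : DifferentiableAt ℝ (fun p : ℝ × X => b p.1 p.2) (s, x) :=
          h1.differentiableAt one_ne_zero
        exact DifferentiableAt.comp (f := fun t : ℝ => (t, x)) s h2
          (differentiableAt_id.prodMk (differentiableAt_const x))
      have hy' : HasDerivAt (fun t => y (t, x))
          (κ s • deriv (fun t => b t x) s + deriv κ s • (b s x - a x)) s :=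
        (((hκ.differentiable one_ne_zero s).hasDerivAt.smul
          (hb'.hasDerivAt.sub_const (a x))).const_add (a x))
      have hRx : DifferentiableAt ℂ (fun v => R (x, v)) (y (s, x)) := by
        have h1 : DifferentiableAt ℂ R (x, y (s, x)) :=
          (hR.1 _ (hmem s hs x (hKN hx))).differentiableAt (hΩ.mem_nhds (hmem s hs x (hKN hx)))
        exact h1.comp _ ((differentiableAt_const x).prodMk differentiableAt_id)
      have hcomp := (hRx.hasFDerivAt.restrictScalars ℝ).comp_hasDerivAt s hy'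
      have hde : deriv (fun t => (fun s x => R (x, y (s, x))) t x) s =
          (fderiv ℂ (fun v => R (x, v)) (y (s, x)))
            (κ s • deriv (fun t => b t x) s + deriv κ s • (b s x - a x)) := hcomp.deriv
      rw [hde]
      have h3 := hRd x hx _ hyx
      calc ‖(fderiv ℂ (fun v => R (x, v)) (y (s, x)))
            (κ s • deriv (fun t => b t x) s + deriv κ s • (b s x - a x))‖
          ≤ ‖fderiv ℂ (fun v => R (x, v)) (y (s, x))‖ *
            ‖κ s • deriv (fun t => b t x) s + deriv κ s • (b s x - a x)‖ :=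
            ContinuousLinearMap.le_opNorm _ _
        _ ≤ M * (|deriv κ s| * ‖b s x - a x‖ + κ s * ‖deriv (fun t => b t x) s‖) := by
            refine mul_le_mul h3 ?_ (norm_nonneg _) hM.le
            refine (norm_add_le _ _).trans ?_
            rw [norm_smul, norm_smul, Real.norm_eq_abs, Real.norm_eq_abs, abs_of_nonneg (hκ0 s)]
            linarith

end Claimed.Agent.R245
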