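/-
Row 245 / S0484, Section 4, block FACE, package S4F-PATH: scaling map, chain rule estimate, Cauchy estimate in the
parameter (helper296).
-/
import Claimed.Agent.R245.S4FPathA

set_option autoImplicit false
set_option linter.unusedSectionVars false

namespace Claimed.Agent.R245

open MvPolynomial Metric Set Claims.C0412

section scaling

variable {E' Z : Type*} [NormedAddCommGroup E'] [NormedSpace ℂ E'] [NormedAddCommGroup Z]
  [NormedSpace ℂ Z]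

/-- the scaling in the `E'` direction about `d` -/
noncomputable def s4fqT (d : E') (l : ℝ) (x : E' × Z) : E' × Z := (d + l • (x.1 - d), x.2)

theorem s4fqT_one (d : E') (x : E' × Z) : s4fqT d 1 x = x := by
  simp [s4fqT]

theorem s4fqT_comp (d : E') {l m : ℝ} (h : l * m = 1) (x : E' × Z) :
    s4fqT d l (s4fqT d m x) = x := by
  simp [s4fqT, smul_smul, h]

theorem s4fqT_snd (d : E') (l : ℝ) (x : E' × Z) : (s4fqT d l x).2 = x.2 := rfl

theorem s4fqT_differentiable (d : E') (l : ℝ) : Differentiable ℂ (s4fqT (Z := Z) d l) :=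
  ((differentiable_const d).add ((differentiable_fst.sub (differentiable_const d)).const_smul l)).prodMk
    differentiable_snd

theorem s4fqT_contDiff (d : E') {μ : ℝ → ℝ} (hμ : ContDiff ℝ 1 μ) :
    ContDiff ℝ 1 (fun p : ℝ × (E' × Z) => s4fqT d (μ p.1) p.2) :=
  (contDiff_const.add ((hμ.comp contDiff_fst).smul
    ((contDiff_fst.comp contDiff_snd).sub contDiff_const))).prodMk (contDiff_snd.comp contDiff_snd)

theorem s4fqT_mem {C : Set E'} (hC : Convex ℝ C) {d : E'} (hd : d ∈ C) {l : ℝ} (h0 : 0 ≤ l)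
    (h1 : l ≤ 1) {P : Set Z} {x : E' × Z} (hx : x ∈ C ×ˢ P) : s4fqT d l x ∈ C ×ˢ P :=
  ⟨hC.add_smul_sub_mem hd hx.1 ⟨h0, h1⟩, hx.2⟩

theorem s4fqT_hasDerivAt (d : E') {μ : ℝ → ℝ} {s : ℝ} (hμ : DifferentiableAt ℝ μ s) (x : E' × Z) :
    HasDerivAt (fun t => s4fqT d (μ t) x) (deriv μ s • (x.1 - d), (0 : Z)) s :=
  ((hμ.hasDerivAt.smul_const (x.1 - d)).const_add d).prodMk (hasDerivAt_const s x.2)

end scaling

/-- the derivative of `t ↦ Et (t, γ t)` along a curve moving in the `E'` direction only -/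
theorem s4fq_key {E' Z : Type*} [NormedAddCommGroup E'] [NormedSpace ℂ E'] [NormedAddCommGroup Z]
    [NormedSpace ℂ Z] (Cm C : Set E') (P : Set Z) (ρ : ℝ) (hρ : 0 < ρ)
    (hCm : ∀ y ∈ Cm, ball y ρ ⊆ C) (N : Set (E' × Z)) (hN : IsOpen N) (hCN : C ×ˢ P ⊆ N)
    (ft : ℝ → E' × Z → V4) (hft : ∀ s, DifferentiableOn ℂ (ft s) N)
    (hftC : ContDiffOn ℝ 1 (fun p : ℝ × (E' × Z) => ft p.1 p.2) (univ ×ˢ N))
    (Et : ℂ × (E' × Z) → V4) (hEt : Differentiable ℂ Et) (η₀ η₁ s : ℝ)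
    (h0 : ∀ x' ∈ C ×ˢ P, ‖Et ((s : ℂ), x') - ft s x'‖ ≤ η₀)
    (γ : ℝ → E' × Z) (w₁ : E') (hγ : HasDerivAt γ (w₁, (0 : Z)) s) (hγs : γ s ∈ Cm ×ˢ P)
    (h1 : ‖deriv (fun σ : ℂ => Et (σ, γ s)) (s : ℂ) - deriv (fun t : ℝ => ft t (γ s)) s‖ ≤ η₁) :
    ‖deriv (fun t : ℝ => Et ((t : ℂ), γ t)) s‖ ≤
      η₁ + η₀ / ρ * ‖w₁‖ + ‖deriv (fun t : ℝ => ft t (γ t)) s‖ := by
  obtain ⟨y', u, hx'⟩ : ∃ (y' : E') (u : Z), γ s = (y', u) := ⟨(γ s).1, (γ s).2, rfl⟩
  have hy' : y' ∈ Cm := by have := hγs.1; rwa [hx'] at this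
  have hu : u ∈ P := by have := hγs.2; rwa [hx'] at this
  have hyC : y' ∈ C := hCm y' hy' (mem_ball_self hρ)
  have hxN : ((y', u) : E' × Z) ∈ N := hCN ⟨hyC, hu⟩
  rw [hx'] at h1
  -- real differentiability
  have hEtR : DifferentiableAt ℝ (fun p : ℝ × (E' × Z) => Et ((p.1 : ℂ), p.2)) (s, (y', u)) := by
    have e1 : DifferentiableAt ℝ Et (((s : ℝ) : ℂ), ((y', u) : E' × Z)) :=
      (hEt _).restrictScalars ℝ
    exact DifferentiableAt.comp (f := fun p : ℝ × (E' × Z) => ((p.1 : ℂ), p.2)) _ e1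
      ((Complex.ofRealCLM.differentiableAt.comp _ differentiableAt_fst).prodMk differentiableAt_snd)
  have hftR : DifferentiableAt ℝ (fun p : ℝ × (E' × Z) => ft p.1 p.2) (s, (y', u)) :=
    ((hftC _ ⟨mem_univ _, hxN⟩).contDiffAt
      ((isOpen_univ.prod hN).mem_nhds ⟨mem_univ _, hxN⟩)).differentiableAt one_ne_zero
  set Φ : ℝ × (E' × Z) → V4 := fun p => Et ((p.1 : ℂ), p.2) - ft p.1 p.2 with hΦdef
  have hΦ : DifferentiableAt ℝ Φ (s, (y', u)) := hEtR.sub hftR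
  set Φ' := fderiv ℝ Φ (s, (y', u)) with hΦ'
  have hcurve : HasDerivAt (fun t : ℝ => (t, γ t)) ((1 : ℝ), (w₁, (0 : Z))) s :=
    (hasDerivAt_id s).prodMk hγ
  have hΦs : HasFDerivAt Φ Φ' (s, γ s) := by rw [hx']; exact hΦ.hasFDerivAt
  have hfts : HasFDerivAt (fun p : ℝ × (E' × Z) => ft p.1 p.2)
      (fderiv ℝ (fun p : ℝ × (E' × Z) => ft p.1 p.2) (s, (y', u))) (s, γ s) := by
    rw [hx']; exact hftR.hasFDerivAt
  have d1 : HasDerivAt (fun t : ℝ => Φ (t, γ t)) (Φ' ((1 : ℝ), (w₁, (0 : Z)))) s := by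
    have := hΦs.comp_hasDerivAt s hcurve
    exact this
  have d2 : HasDerivAt (fun t : ℝ => ft t (γ t))
      (fderiv ℝ (fun p : ℝ × (E' × Z) => ft p.1 p.2) (s, (y', u)) ((1 : ℝ), (w₁, (0 : Z)))) s := by
    have := hfts.comp_hasDerivAt s hcurve
    exact this
  have d12 : HasDerivAt (fun t : ℝ => Et ((t : ℂ), γ t)) (Φ' ((1 : ℝ), (w₁, (0 : Z))) +
      fderiv ℝ (fun p : ℝ × (E' × Z) => ft p.1 p.2) (s, (y', u)) ((1 : ℝ), (w₁, (0 : Z)))) s := by
    refine (d1.add d2).congr_of_eventuallyEq (Filter.Eventually.of_forall fun t => ?_)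
    simp [hΦdef]
  rw [d12.deriv, d2.deriv]
  -- the `s`-direction
  have d3 : HasDerivAt (fun t : ℝ => Φ (t, (y', u))) (Φ' ((1 : ℝ), ((0 : E'), (0 : Z)))) s := by
    have := hΦ.hasFDerivAt.comp_hasDerivAt s
      ((hasDerivAt_id s).prodMk (hasDerivAt_const s ((y', u) : E' × Z)))
    exact this
  have d3a : HasDerivAt (fun t : ℝ => Et ((t : ℂ), (y', u)))
      (deriv (fun σ : ℂ => Et (σ, (y', u))) (s : ℂ)) s := by
    have e1 : DifferentiableAt ℂ (fun σ : ℂ => Et (σ, ((y', u) : E' × Z))) (s : ℂ) :=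
      (hEt _).comp _ (differentiableAt_id.prodMk (differentiableAt_const _))
    have e2 := e1.hasDerivAt.scomp s (Complex.ofRealCLM.hasDerivAt (x := s))
    simpa [Function.comp_def] using e2
  have d3b : HasDerivAt (fun t : ℝ => ft t (y', u)) (deriv (fun t : ℝ => ft t (y', u)) s) s := by
    have e1 : DifferentiableAt ℝ (fun t : ℝ => ft t (y', u)) s :=
      DifferentiableAt.comp (f := fun t : ℝ => (t, ((y', u) : E' × Z))) s hftR
        (differentiableAt_id.prodMk (differentiableAt_const _))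
    exact e1.hasDerivAt
  have e3 : Φ' ((1 : ℝ), ((0 : E'), (0 : Z))) =
      deriv (fun σ : ℂ => Et (σ, (y', u))) (s : ℂ) - deriv (fun t : ℝ => ft t (y', u)) s :=
    d3.unique (d3a.sub d3b)
  -- the `E'`-direction
  set g : E' → V4 := fun y'' => Et ((s : ℂ), (y'', u)) - ft s (y'', u) with hg
  have hgd : DifferentiableOn ℂ g (ball y' ρ) := by
    intro y'' hy''
    have hm : ((y'', u) : E' × Z) ∈ N := hCN ⟨hCm y' hy' hy'', hu⟩
    have e1 : DifferentiableAt ℂ (fun y'' : E' => Et ((s : ℂ), (y'', u))) y'' :=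
      (hEt _).comp _ ((differentiableAt_const _).prodMk
        (differentiableAt_id.prodMk (differentiableAt_const _)))
    have e2 : DifferentiableAt ℂ (fun y'' : E' => ft s (y'', u)) y'' :=
      DifferentiableAt.comp (f := fun y'' : E' => ((y'', u) : E' × Z)) y''
        ((hft s _ hm).differentiableAt (hN.mem_nhds hm))
        (differentiableAt_id.prodMk (differentiableAt_const _))
    exact (e1.sub e2).differentiableWithinAt
  have hgb : ∀ v ∈ ball y' ρ, ‖g v‖ ≤ η₀ := fun v hv => h0 (v, u) ⟨hCm y' hy' hv, hu⟩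
  have hgn : ‖fderiv ℂ g y'‖ ≤ η₀ / ρ := by
    have := scv_norm_fderiv_le hgd hgb (mem_ball_self hρ)
    rwa [dist_self, sub_zero] at this
  have hline : HasDerivAt (fun τ : ℝ => y' + τ • w₁) w₁ 0 := by
    simpa using ((hasDerivAt_id (0 : ℝ)).smul_const w₁).const_add y'
  have d4 : HasDerivAt (fun τ : ℝ => Φ (s, (y' + τ • w₁, u))) (Φ' ((0 : ℝ), (w₁, (0 : Z)))) 0 := by
    have e1 : HasFDerivAt Φ Φ' (s, (y' + (0 : ℝ) • w₁, u)) := by
      rw [zero_smul, add_zero]; exact hΦ.hasFDerivAt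
    have := e1.comp_hasDerivAt (0 : ℝ)
      ((hasDerivAt_const (0 : ℝ) s).prodMk (hline.prodMk (hasDerivAt_const (0 : ℝ) u)))
    exact this
  have d5 : HasDerivAt (fun τ : ℝ => g (y' + τ • w₁)) (fderiv ℂ g y' w₁) 0 := by
    have e1 : HasFDerivAt g (fderiv ℂ g y') (y' + (0 : ℝ) • w₁) := by
      rw [zero_smul, add_zero]
      exact ((hgd y' (mem_ball_self hρ)).differentiableAt (ball_mem_nhds _ hρ)).hasFDerivAt
    have := (e1.restrictScalars ℝ).comp_hasDerivAt (0 : ℝ) hline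
    exact this
  have e4 : Φ' ((0 : ℝ), (w₁, (0 : Z))) = fderiv ℂ g y' w₁ := d4.unique d5
  have esplit : Φ' ((1 : ℝ), (w₁, (0 : Z))) =
      Φ' ((1 : ℝ), ((0 : E'), (0 : Z))) + Φ' ((0 : ℝ), (w₁, (0 : Z))) := by
    rw [← map_add]
    simp
  have hη : ‖Φ' ((1 : ℝ), (w₁, (0 : Z)))‖ ≤ η₁ + η₀ / ρ * ‖w₁‖ := by
    rw [esplit, e3, e4]
    refine (norm_add_le _ _).trans (add_le_add h1 ?_)
    exact (ContinuousLinearMap.le_opNorm _ _).trans (mul_le_mul_of_nonneg_right hgn (norm_nonneg _))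
  exact (norm_add_le _ _).trans (add_le_add hη le_rfl)

theorem s4fq_isCompact_CSeg (a b : ℝ) : IsCompact (CSeg a b) :=
  isCompact_Icc.image Complex.continuous_ofReal

/-- Cauchy estimate in the complexified parameter -/
theorem s4fq_sigma (F : MvPolynomial (Fin 4) ℂ) {X : Type*} [NormedAddCommGroup X] [NormedSpace ℂ X]
    (K : Set X) (hK : IsCompact K) (Ht : ℂ × X → V4) (hHt : HolNear F Ht (CSeg 0 1 ×ˢ K))
    (θ : ℝ) (hθ : 0 < θ) :
    ∃ θ' : ℝ, 0 < θ' ∧ ∀ (Et : ℂ × X → V4) (e₂ : ℝ), Differentiable ℂ Et →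
      (∀ x ∈ cthickening θ (CSeg 0 1) ×ˢ K, ‖Et x - Ht x‖ < e₂) →
      ∀ s ∈ Icc (0 : ℝ) 1, ∀ x ∈ K,
        ‖deriv (fun σ : ℂ => Et (σ, x)) (s : ℂ) - deriv (fun σ : ℂ => Ht (σ, x)) (s : ℂ)‖ ≤
          e₂ / θ' := by
  obtain ⟨W, hW, hKW, hHd, -⟩ := hHt
  obtain ⟨U, V, hU, hV, hSU, hKV, hUV⟩ :=
    generalized_tube_lemma (s4fq_isCompact_CSeg 0 1) hK hW hKW
  obtain ⟨θW, hθW, hθU⟩ := (s4fq_isCompact_CSeg 0 1).exists_cthickening_subset_open hU hSU
  refine ⟨min θ θW, lt_min hθ hθW, ?_⟩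
  intro Et e₂ hEt hclose s hs x hx
  set θ' := min θ θW with hθ'
  have hθ'0 : 0 < θ' := lt_min hθ hθW
  have hsS : (s : ℂ) ∈ CSeg 0 1 := ⟨s, hs, rfl⟩
  have hball : ∀ t : ℝ, θ' ≤ t → ball (s : ℂ) θ' ⊆ cthickening t (CSeg 0 1) := fun t ht =>
    (ball_subset_closedBall.trans (closedBall_subset_cthickening hsS θ')).trans
      (cthickening_mono ht _)
  have hE : ∀ σ : ℂ, DifferentiableAt ℂ (fun σ : ℂ => Et (σ, x)) σ := fun σ =>
    (hEt _).comp _ (differentiableAt_id.prodMk (differentiableAt_const _))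
  have hH : ∀ σ ∈ ball (s : ℂ) θ', DifferentiableAt ℂ (fun σ : ℂ => Ht (σ, x)) σ := by
    intro σ hσ
    have hm : (σ, x) ∈ W := hUV ⟨hθU (hball θW (min_le_right _ _) hσ), hKV hx⟩
    exact DifferentiableAt.comp (f := fun σ : ℂ => (σ, x)) σ
      ((hHd _ hm).differentiableAt (hW.mem_nhds hm))
      (differentiableAt_id.prodMk (differentiableAt_const _))
  have hs' : (s : ℂ) ∈ ball (s : ℂ) θ' := mem_ball_self hθ'0
  have hg : DifferentiableOn ℂ (fun σ : ℂ => Et (σ, x) - Ht (σ, x)) (ball (s : ℂ) θ') :=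
    fun σ hσ => ((hE σ).sub (hH σ hσ)).differentiableWithinAt
  have hb : ∀ σ ∈ ball (s : ℂ) θ', ‖Et (σ, x) - Ht (σ, x)‖ ≤ e₂ := fun σ hσ =>
    (hclose (σ, x) ⟨hball θ (min_le_left _ _) hσ, hx⟩).le
  have h1 := scv_norm_fderiv_le hg hb hs'
  rw [dist_self, sub_zero, ← norm_deriv_eq_norm_fderiv] at h1
  have h2 : deriv (fun σ : ℂ => Et (σ, x) - Ht (σ, x)) (s : ℂ) =
      deriv (fun σ : ℂ => Et (σ, x)) (s : ℂ) - deriv (fun σ : ℂ => Ht (σ, x)) (s : ℂ) :=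
    ((hE _).hasDerivAt.sub (hH _ hs').hasDerivAt).deriv
  rwa [h2] at h1

end Claimed.Agent.R245
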