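/-
Row 245 / S0484, Section 4, block FACE, package S4F-PATH: entire approximation of a family, geometry, scaling factors
(helper296).
-/
import Claimed.Agent.R245.S4FPathB
import Claimed.Agent.R245.S4FPathC

set_option autoImplicit false

namespace Claimed.Agent.R245

open MvPolynomial Metric Set Claims.C0412

/-- a `C¹` family over `C × P` is `C¹`-in-the-parameter close to an entire map -/
theorem s4fq_entire_family (F : MvPolynomial (Fin 4) ℂ) (n : ℕ) (hint : IntervalStmt F)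
    (hpar : ParamStmt F n) (E' Z : Type) [NormedAddCommGroup E'] [NormedSpace ℂ E']
    [FiniteDimensional ℂ E'] [NormedAddCommGroup Z] [NormedSpace ℂ Z] [FiniteDimensional ℂ Z]
    (hn : Module.finrank ℂ E' = n) (C : Set E') (P : Set Z) (hC : IsCompact C) (hCc : Convex ℝ C)
    (hCn : C.Nonempty) (hP : IsPolydisc P) (N : Set (E' × Z)) (hN : IsOpen N) (hCN : C ×ˢ P ⊆ N)
    (ft : ℝ → E' × Z → V4) (hft : ∀ s, HolOn F (ft s) N)
    (hftC : ContDiffOn ℝ 1 (fun p : ℝ × (E' × Z) => ft p.1 p.2) (univ ×ˢ N)) (η : ℝ) (hη : 0 < η) :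
    ∃ Et : ℂ × (E' × Z) → V4, Entire F Et ∧ ∀ s ∈ Icc (0 : ℝ) 1, ∀ x ∈ C ×ˢ P,
      ‖Et ((s : ℂ), x) - ft s x‖ < η ∧
      ‖deriv (fun σ : ℂ => Et (σ, x)) (s : ℂ) - deriv (fun t : ℝ => ft t x) s‖ < η := by
  obtain ⟨hPc, hPv, hPn⟩ := s4_isPolydisc_props hP
  obtain ⟨Ht, hHt, hHte⟩ := hint (E' × Z) (C ×ˢ P) N 0 1 univ ft (hC.prod hPc) (hCc.prod hPv)
    (hCn.prod hPn) zero_le_one isOpen_univ (subset_univ _) hN hCN (fun s _ => hft s) hftC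
    (η / 2) (by positivity)
  obtain ⟨θ, hθ, hθe⟩ := hpar E' Z hn C P 0 1 hC hCc hCn hP zero_le_one Ht hHt
  obtain ⟨θ', hθ', hσ⟩ := s4fq_sigma F (C ×ˢ P) (hC.prod hPc) Ht hHt θ hθ
  have he₂ : 0 < min (η / 2) (θ' * (η / 2)) := lt_min (by positivity) (by positivity)
  obtain ⟨Et, hEt, hEte⟩ := hθe _ he₂
  refine ⟨Et, hEt, fun s hs x hx => ⟨?_, ?_⟩⟩
  · have h1 := (hHte s hs x hx).1
    have h2 : ‖Et ((s : ℂ), x) - Ht ((s : ℂ), x)‖ < min (η / 2) (θ' * (η / 2)) :=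
      hEte _ ⟨self_subset_cthickening _ ⟨s, hs, rfl⟩, hx⟩
    have h3 := h2.trans_le (min_le_left _ _)
    calc ‖Et ((s : ℂ), x) - ft s x‖
        = ‖(Et ((s : ℂ), x) - Ht ((s : ℂ), x)) + (Ht ((s : ℂ), x) - ft s x)‖ := by
          rw [sub_add_sub_cancel]
      _ ≤ ‖Et ((s : ℂ), x) - Ht ((s : ℂ), x)‖ + ‖Ht ((s : ℂ), x) - ft s x‖ := norm_add_le _ _
      _ < η := by linarith
  · have h1 := (hHte s hs x hx).2
    have h2 := hσ Et _ hEt.1 hEte s hs x hx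
    have h3 : min (η / 2) (θ' * (η / 2)) / θ' ≤ η / 2 := by
      rw [div_le_iff₀ hθ']
      exact (min_le_right _ _).trans (le_of_eq (mul_comm _ _))
    calc ‖deriv (fun σ : ℂ => Et (σ, x)) (s : ℂ) - deriv (fun t : ℝ => ft t x) s‖
        = ‖(deriv (fun σ : ℂ => Et (σ, x)) (s : ℂ) - deriv (fun σ : ℂ => Ht (σ, x)) (s : ℂ)) +
            (deriv (fun σ : ℂ => Ht (σ, x)) (s : ℂ) - deriv (fun t : ℝ => ft t x) s)‖ := by
          rw [sub_add_sub_cancel]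
      _ ≤ _ := norm_add_le _ _
      _ < η := by linarith

/-- geometry of the scaling trick -/
theorem s4fq_geom {E' : Type*} [NormedAddCommGroup E'] [NormedSpace ℂ E'] (Cm C B : Set E')
    (hCm : IsCompact Cm) (hCmn : Cm.Nonempty) (hCmC : Cm ⊆ interior C) (hB : IsCompact B) :
    ∃ (d : E') (ρ L M₀ : ℝ), d ∈ Cm ∧ 0 < ρ ∧ 1 ≤ L ∧ 0 ≤ M₀ ∧ (∀ y ∈ Cm, ball y ρ ⊆ C) ∧
      (∀ y ∈ B, d + L⁻¹ • (y - d) ∈ C) ∧ (∀ y ∈ B, ‖y - d‖ ≤ M₀) := by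
  obtain ⟨d, hd⟩ := hCmn
  obtain ⟨ρ, hρ, hρC⟩ := hCm.exists_cthickening_subset_open isOpen_interior hCmC
  obtain ⟨M₀, hM₀⟩ := hB.isBounded.subset_closedBall d
  have hball : ∀ y ∈ Cm, closedBall y ρ ⊆ C := fun y hy =>
    ((closedBall_subset_cthickening hy ρ).trans hρC).trans interior_subset
  refine ⟨d, ρ, max 1 (|M₀| / ρ), |M₀|, hd, hρ, le_max_left _ _, abs_nonneg _,
    fun y hy => ball_subset_closedBall.trans (hball y hy), fun y hy => ?_, fun y hy => ?_⟩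
  · apply hball d hd
    have h1 : ‖y - d‖ ≤ |M₀| := by
      have := hM₀ hy
      rw [mem_closedBall, dist_eq_norm] at this
      exact this.trans (le_abs_self _)
    have hL : 0 < max 1 (|M₀| / ρ) := lt_of_lt_of_le one_pos (le_max_left _ _)
    rw [mem_closedBall, dist_eq_norm, add_sub_cancel_left, norm_smul, norm_inv, Real.norm_eq_abs,
      abs_of_pos hL, inv_mul_le_iff₀ hL]
    have h2 : |M₀| / ρ ≤ max 1 (|M₀| / ρ) := le_max_right _ _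
    rw [div_le_iff₀ hρ] at h2
    linarith
  · have := hM₀ hy
    rw [mem_closedBall, dist_eq_norm] at this
    exact this.trans (le_abs_self _)

/-- the scaling factors -/
theorem s4fq_lam (L : ℝ) (hL : 1 ≤ L) : ∃ lam mu : ℝ → ℝ, ContDiff ℝ 1 lam ∧ ContDiff ℝ 1 mu ∧
    (∀ s, lam s * mu s = 1) ∧ (∀ s, 0 ≤ mu s) ∧ (∀ s, mu s ≤ 1) ∧
    (∀ s, s ≤ 1 / 9 → mu s = L⁻¹) ∧ (∀ s, 8 / 9 ≤ s → mu s = L⁻¹) ∧
    (∀ s ∈ Icc (2 / 9 : ℝ) (7 / 9), lam s = 1) ∧ (∀ s ∈ Icc (2 / 9 : ℝ) (7 / 9), mu s = 1) := by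
  obtain ⟨k₁, hk₁, hk₁0, hk₁1, hk₁a, hk₁b⟩ := s4fq_step (1 / 9) (2 / 9) (by norm_num)
  obtain ⟨k₂, hk₂, hk₂0, hk₂1, hk₂a, hk₂b⟩ := s4fq_step (7 / 9) (8 / 9) (by norm_num)
  set lam : ℝ → ℝ := fun s => 1 + (L - 1) * ((1 - k₁ s) + k₂ s) with hlam
  have hlam1 : ∀ s, 1 ≤ lam s := by
    intro s
    have h1 : 0 ≤ (L - 1) * ((1 - k₁ s) + k₂ s) :=
      mul_nonneg (by linarith) (by linarith [hk₁1 s, hk₂0 s])
    simp only [hlam]
    linarith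
  have hlamC : ContDiff ℝ 1 lam :=
    contDiff_const.add (contDiff_const.mul ((contDiff_const.sub hk₁).add hk₂))
  have hlam0 : ∀ s, lam s ≠ 0 := fun s => (lt_of_lt_of_le one_pos (hlam1 s)).ne'
  refine ⟨lam, fun s => (lam s)⁻¹, hlamC, hlamC.inv hlam0, fun s => mul_inv_cancel₀ (hlam0 s),
    fun s => inv_nonneg.2 (zero_le_one.trans (hlam1 s)), fun s => inv_le_one_of_one_le₀ (hlam1 s),
    fun s hs => ?_, fun s hs => ?_, fun s hs => ?_, fun s hs => ?_⟩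
  · simp only [hlam]
    rw [hk₁a s hs, hk₂a s (by linarith)]
    ring_nf
  · simp only [hlam]
    rw [hk₁b s (by linarith), hk₂b s hs]
    ring_nf
  · simp only [hlam]
    rw [hk₁b s hs.1, hk₂a s hs.2]
    ring
  · simp only [hlam]
    rw [hk₁b s hs.1, hk₂a s hs.2]
    norm_num

end Claimed.Agent.R245
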