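/-
Row 245 / S0484, Section 4, block FACE, package S4F-PATH: the rescaled family, its un-rescaling, the family A
(helper296).
-/
import Claimed.Agent.R245.S4FPathD

set_option autoImplicit false

namespace Claimed.Agent.R245

open MvPolynomial Metric Set Claims.C0412

theorem s4fq_entire_holOn {F : MvPolynomial (Fin 4) ℂ} {X : Type*} [NormedAddCommGroup X]
    [NormedSpace ℂ X] {g : X → V4} (hg : Entire F g) (N : Set X) : HolOn F g N :=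
  ⟨hg.1.differentiableOn, fun x _ => hg.2 x⟩

/-- the rescaled family `f̃` -/
theorem s4fq_ft (F : MvPolynomial (Fin 4) ℂ) {E' Z : Type*} [NormedAddCommGroup E']
    [NormedSpace ℂ E'] [FiniteDimensional ℂ E'] [NormedAddCommGroup Z] [NormedSpace ℂ Z]
    [FiniteDimensional ℂ Z] (d : E') (lam χ : ℝ → ℝ) (hlam : ContDiff ℝ 1 lam)
    (hlam1 : ∀ s ∈ Icc (2 / 9 : ℝ) (7 / 9), lam s = 1)
    (hχa : ∀ s, s ≤ 1 / 3 → χ s = 0) (hχb : ∀ s, 2 / 3 ≤ s → χ s = 1)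
    (g₀ g₁ : E' × Z → V4) (hg₀ : Entire F g₀) (hg₁ : Entire F g₁)
    (c : ℝ → E' × Z → V4) (N : Set (E' × Z)) (hN : IsOpen N)
    (hc : ∀ s ∈ Ioo (2 / 9 : ℝ) (7 / 9), HolOn F (c s) N)
    (hcC : ContDiffOn ℝ 1 (fun p : ℝ × (E' × Z) => c p.1 p.2) (Ioo (2 / 9 : ℝ) (7 / 9) ×ˢ N))
    (hc0 : ∀ s ∈ Ioo (2 / 9 : ℝ) (7 / 9), χ s = 0 → ∀ x ∈ N, c s x = g₀ x)
    (hc1 : ∀ s ∈ Ioo (2 / 9 : ℝ) (7 / 9), χ s = 1 → ∀ x ∈ N, c s x = g₁ x) :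
    ∃ ft : ℝ → E' × Z → V4, (∀ s, HolOn F (ft s) N) ∧
      ContDiffOn ℝ 1 (fun p : ℝ × (E' × Z) => ft p.1 p.2) (univ ×ˢ N) ∧
      (∀ s < 1 / 3, ∀ x ∈ N, ft s x = g₀ (s4fqT d (lam s) x)) ∧
      (∀ s ∈ Ioo (2 / 9 : ℝ) (7 / 9), ∀ x ∈ N, ft s x = c s x) ∧
      (∀ s, 2 / 3 < s → ∀ x ∈ N, ft s x = g₁ (s4fqT d (lam s) x)) := by
  have key : ∀ g : E' × Z → V4, Entire F g → (∀ s, HolOn F (fun x => g (s4fqT d (lam s) x)) N) ∧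
      ∀ S : Set (ℝ × (E' × Z)),
        ContDiffOn ℝ 1 (fun p : ℝ × (E' × Z) => g (s4fqT d (lam p.1) p.2)) S := by
    intro g hg
    refine ⟨fun s => ⟨(hg.1.comp (s4fqT_differentiable d (lam s))).differentiableOn,
      fun x _ => hg.2 _⟩, fun S => ?_⟩
    exact ((s4fq_contDiff hg.1).comp (s4fqT_contDiff d hlam)).contDiffOn
  refine s4fq_glue3 F hN (fun s x => g₀ (s4fqT d (lam s) x)) c (fun s x => g₁ (s4fqT d (lam s) x))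
    (2 / 9) (1 / 4) (1 / 3) (2 / 3) (3 / 4) (7 / 9) (by norm_num) (by norm_num) (by norm_num)
    (by norm_num) (by norm_num) (by norm_num) (fun s _ => (key g₀ hg₀).1 s) ((key g₀ hg₀).2 _)
    hc hcC (fun s _ => (key g₁ hg₁).1 s) ((key g₁ hg₁).2 _) ?_ ?_
  · intro s hs x hx
    have h1 : lam s = 1 := hlam1 s ⟨hs.1.le, by linarith [hs.2]⟩
    simp only [h1, s4fqT_one]
    exact (hc0 s ⟨hs.1, by linarith [hs.2]⟩ (hχa s hs.2.le) x hx).symm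
  · intro s hs x hx
    have h1 : lam s = 1 := hlam1 s ⟨by linarith [hs.1], hs.2.le⟩
    simp only [h1, s4fqT_one]
    exact hc1 s ⟨by linarith [hs.1], hs.2⟩ (hχb s hs.1.le) x hx

/-- the un-rescaled family `φ t = f̃_t (T_{μ(t)} x)` -/
theorem s4fq_phi {E' Z : Type*} [NormedAddCommGroup E']
    [NormedSpace ℂ E'] [NormedAddCommGroup Z] [NormedSpace ℂ Z]
    (C : Set E') (P : Set Z) (hCc : Convex ℝ C) (d : E') (hd : d ∈ C) (lam mu χ : ℝ → ℝ)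
    (hlm : ∀ s, lam s * mu s = 1) (hmu0 : ∀ s, 0 ≤ mu s) (hmu1 : ∀ s, mu s ≤ 1)
    (hmu1' : ∀ s ∈ Icc (2 / 9 : ℝ) (7 / 9), mu s = 1)
    (hχ1 : ∀ s, χ s ≤ 1) (cχ : ℝ) (hcχ : ∀ s ∈ Icc (0 : ℝ) 1, |deriv χ s| ≤ cχ)
    (f g₀ g₁ : E' × Z → V4) (c ft : ℝ → E' × Z → V4) (N : Set (E' × Z)) (hCN : C ×ˢ P ⊆ N)
    (hft1 : ∀ s < 1 / 3, ∀ x ∈ N, ft s x = g₀ (s4fqT d (lam s) x))
    (hft2 : ∀ s ∈ Ioo (2 / 9 : ℝ) (7 / 9), ∀ x ∈ N, ft s x = c s x)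
    (hft3 : ∀ s, 2 / 3 < s → ∀ x ∈ N, ft s x = g₁ (s4fqT d (lam s) x))
    (Mf δ : ℝ) (hMf : 0 < Mf)
    (hcE : ∀ s ∈ Ioo (2 / 9 : ℝ) (7 / 9), ∀ x ∈ C ×ˢ P,
      ‖c s x - g₀ x‖ ≤ Mf * (χ s * ‖g₁ x - g₀ x‖) ∧
      ‖deriv (fun t => c t x) s‖ ≤
        Mf * (|deriv χ s| * ‖g₁ x - g₀ x‖ + χ s * ‖deriv (fun _ : ℝ => g₁ x) s‖))
    (x : E' × Z) (hx : x ∈ C ×ˢ P) (h₀ : ‖g₀ x - f x‖ < δ) (h₁ : ‖g₁ x - f x‖ < δ) (s : ℝ) :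
    ‖ft s (s4fqT d (mu s) x) - f x‖ < δ + 2 * Mf * δ ∧
    ‖deriv (fun t => ft t (s4fqT d (mu t) x)) s‖ ≤ 2 * Mf * cχ * δ ∧
    (s < 1 / 3 ∨ 2 / 3 < s → deriv (fun t => ft t (s4fqT d (mu t) x)) s = 0) := by
  have hδ : 0 < δ := (norm_nonneg _).trans_lt h₀
  have hmem : ∀ t, s4fqT d (mu t) x ∈ N := fun t => hCN (s4fqT_mem hCc hd (hmu0 t) (hmu1 t) hx)
  have e1 : ∀ t < 1 / 3, ft t (s4fqT d (mu t) x) = g₀ x := fun t ht => by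
    rw [hft1 t ht _ (hmem t), s4fqT_comp d (hlm t)]
  have e3 : ∀ t, 2 / 3 < t → ft t (s4fqT d (mu t) x) = g₁ x := fun t ht => by
    rw [hft3 t ht _ (hmem t), s4fqT_comp d (hlm t)]
  have e2 : ∀ t ∈ Ioo (2 / 9 : ℝ) (7 / 9), ft t (s4fqT d (mu t) x) = c t x := fun t ht => by
    rw [hft2 t ht _ (hmem t), hmu1' t ⟨ht.1.le, ht.2.le⟩, s4fqT_one]
  have hcχ0 : 0 ≤ cχ := (abs_nonneg _).trans (hcχ 0 ⟨le_rfl, zero_le_one⟩)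
  have hpos : 0 ≤ 2 * Mf * cχ * δ := by positivity
  have hpos' : 0 ≤ 2 * Mf * δ := by positivity
  have d1 : s < 1 / 3 → deriv (fun t => ft t (s4fqT d (mu t) x)) s = 0 := by
    intro hs
    have : (fun t => ft t (s4fqT d (mu t) x)) =ᶠ[nhds s] fun _ => g₀ x := by
      filter_upwards [isOpen_Iio.mem_nhds hs] with t ht using e1 t ht
    rw [this.deriv_eq, deriv_const]
  have d3 : 2 / 3 < s → deriv (fun t => ft t (s4fqT d (mu t) x)) s = 0 := by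
    intro hs
    have : (fun t => ft t (s4fqT d (mu t) x)) =ᶠ[nhds s] fun _ => g₁ x := by
      filter_upwards [isOpen_Ioi.mem_nhds hs] with t ht using e3 t ht
    rw [this.deriv_eq, deriv_const]
  have h01 : ‖g₁ x - g₀ x‖ ≤ 2 * δ := by
    calc ‖g₁ x - g₀ x‖ = ‖(g₁ x - f x) - (g₀ x - f x)‖ := by rw [sub_sub_sub_cancel_right]
      _ ≤ ‖g₁ x - f x‖ + ‖g₀ x - f x‖ := norm_sub_le _ _
      _ ≤ 2 * δ := by linarith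
  refine ⟨?_, ?_, fun h => h.elim d1 d3⟩
  · by_cases hs1 : s < 1 / 3
    · rw [e1 s hs1]; linarith
    by_cases hs3 : 2 / 3 < s
    · rw [e3 s hs3]; linarith
    push Not at hs1 hs3
    have hs2 : s ∈ Ioo (2 / 9 : ℝ) (7 / 9) := ⟨by linarith, by linarith⟩
    rw [e2 s hs2]
    have h2 := (hcE s hs2 x hx).1
    have h3 : Mf * (χ s * ‖g₁ x - g₀ x‖) ≤ Mf * (1 * (2 * δ)) :=
      mul_le_mul_of_nonneg_left (mul_le_mul (hχ1 s) h01 (norm_nonneg _) zero_le_one) hMf.le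
    calc ‖c s x - f x‖ = ‖(c s x - g₀ x) + (g₀ x - f x)‖ := by rw [sub_add_sub_cancel]
      _ ≤ ‖c s x - g₀ x‖ + ‖g₀ x - f x‖ := norm_add_le _ _
      _ < δ + 2 * Mf * δ := by linarith
  · by_cases hs1 : s < 1 / 3
    · rw [d1 hs1, norm_zero]; exact hpos
    by_cases hs3 : 2 / 3 < s
    · rw [d3 hs3, norm_zero]; exact hpos
    push Not at hs1 hs3
    have hs2 : s ∈ Ioo (2 / 9 : ℝ) (7 / 9) := ⟨by linarith, by linarith⟩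
    have : (fun t => ft t (s4fqT d (mu t) x)) =ᶠ[nhds s] fun t => c t x := by
      filter_upwards [isOpen_Ioo.mem_nhds hs2] with t ht using e2 t ht
    rw [this.deriv_eq]
    have h2 := (hcE s hs2 x hx).2
    rw [deriv_const, norm_zero, mul_zero, add_zero] at h2
    refine h2.trans ?_
    have h3 : |deriv χ s| * ‖g₁ x - g₀ x‖ ≤ cχ * (2 * δ) :=
      mul_le_mul (hcχ s ⟨by linarith, by linarith⟩) h01 (norm_nonneg _) hcχ0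
    calc Mf * (|deriv χ s| * ‖g₁ x - g₀ x‖) ≤ Mf * (cχ * (2 * δ)) :=
          mul_le_mul_of_nonneg_left h3 hMf.le
      _ = 2 * Mf * cχ * δ := by ring

/-- the family `A s x = Et (s, T_{μ(s)} x)` -/
theorem s4fq_A (F : MvPolynomial (Fin 4) ℂ) {E' Z : Type*} [NormedAddCommGroup E']
    [NormedSpace ℂ E'] [FiniteDimensional ℂ E'] [NormedAddCommGroup Z] [NormedSpace ℂ Z]
    [FiniteDimensional ℂ Z] (Cm C B : Set E') (P : Set Z) (hCmc : Convex ℝ Cm)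
    (d : E') (hd : d ∈ Cm) (ρ L M₀ : ℝ) (hρ : 0 < ρ) (hball : ∀ y ∈ Cm, ball y ρ ⊆ C)
    (hBL : ∀ y ∈ B, d + L⁻¹ • (y - d) ∈ C) (hBM : ∀ y ∈ B, ‖y - d‖ ≤ M₀) (hCmB : Cm ⊆ B)
    (lam mu : ℝ → ℝ) (hmuC : ContDiff ℝ 1 mu) (hlm : ∀ s, lam s * mu s = 1) (hmu0 : ∀ s, 0 ≤ mu s)
    (hmu1 : ∀ s, mu s ≤ 1) (hmua : ∀ s, s ≤ 1 / 9 → mu s = L⁻¹) (hmub : ∀ s, 8 / 9 ≤ s → mu s = L⁻¹)
    (cμ : ℝ) (hcμ : ∀ s ∈ Icc (0 : ℝ) 1, |deriv mu s| ≤ cμ)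
    (g₀ g₁ : E' × Z → V4) (ft : ℝ → E' × Z → V4) (N : Set (E' × Z)) (hN : IsOpen N)
    (hCN : C ×ˢ P ⊆ N) (hftH : ∀ s, HolOn F (ft s) N)
    (hftC : ContDiffOn ℝ 1 (fun p : ℝ × (E' × Z) => ft p.1 p.2) (univ ×ˢ N))
    (hft1 : ∀ s < 1 / 3, ∀ x ∈ N, ft s x = g₀ (s4fqT d (lam s) x))
    (hft3 : ∀ s, 2 / 3 < s → ∀ x ∈ N, ft s x = g₁ (s4fqT d (lam s) x))
    (Et : ℂ × (E' × Z) → V4) (hEt : Entire F Et) (η : ℝ)
    (hEte : ∀ s ∈ Icc (0 : ℝ) 1, ∀ x ∈ C ×ˢ P, ‖Et ((s : ℂ), x) - ft s x‖ < η ∧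
      ‖deriv (fun σ : ℂ => Et (σ, x)) (s : ℂ) - deriv (fun t : ℝ => ft t x) s‖ < η) :
    (∀ s : ℝ, Entire F (fun x => Et ((s : ℂ), s4fqT d (mu s) x))) ∧
    ContDiff ℝ 1 (fun p : ℝ × (E' × Z) => Et ((p.1 : ℂ), s4fqT d (mu p.1) p.2)) ∧
    (∀ s ∈ Icc (0 : ℝ) (1 / 9), ∀ x ∈ B ×ˢ P, ‖Et ((s : ℂ), s4fqT d (mu s) x) - g₀ x‖ < η) ∧
    (∀ s ∈ Icc (8 / 9 : ℝ) 1, ∀ x ∈ B ×ˢ P, ‖Et ((s : ℂ), s4fqT d (mu s) x) - g₁ x‖ < η) ∧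
    (∀ s ∈ Icc (0 : ℝ) 1, ∀ x ∈ Cm ×ˢ P,
      ‖Et ((s : ℂ), s4fqT d (mu s) x) - ft s (s4fqT d (mu s) x)‖ < η ∧
      ‖deriv (fun t : ℝ => Et ((t : ℂ), s4fqT d (mu t) x)) s‖ ≤
        η + η / ρ * (cμ * M₀) + ‖deriv (fun t => ft t (s4fqT d (mu t) x)) s‖) := by
  have hCmC : Cm ⊆ C := fun y hy => hball y hy (mem_ball_self hρ)
  refine ⟨fun s => ⟨hEt.1.comp ((differentiable_const _).prodMk (s4fqT_differentiable d _)),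
    fun x => hEt.2 _⟩, ?_, ?_, ?_, ?_⟩
  · exact (s4fq_contDiff hEt.1).comp
      ((Complex.ofRealCLM.contDiff.comp contDiff_fst).prodMk (s4fqT_contDiff d hmuC))
  · intro s hs x hx
    have hm : s4fqT d (mu s) x ∈ C ×ˢ P := by
      rw [hmua s hs.2]
      exact ⟨hBL _ hx.1, hx.2⟩
    have h1 := (hEte s ⟨hs.1, by linarith [hs.2]⟩ _ hm).1
    rwa [hft1 s (by linarith [hs.2]) _ (hCN hm), s4fqT_comp d (hlm s)] at h1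
  · intro s hs x hx
    have hm : s4fqT d (mu s) x ∈ C ×ˢ P := by
      rw [hmub s hs.1]
      exact ⟨hBL _ hx.1, hx.2⟩
    have h1 := (hEte s ⟨by linarith [hs.1], hs.2⟩ _ hm).1
    rwa [hft3 s (by linarith [hs.1]) _ (hCN hm), s4fqT_comp d (hlm s)] at h1
  · intro s hs x hx
    have hm : s4fqT d (mu s) x ∈ Cm ×ˢ P := s4fqT_mem hCmc hd (hmu0 s) (hmu1 s) hx
    have hm' : s4fqT d (mu s) x ∈ C ×ˢ P := ⟨hCmC hm.1, hm.2⟩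
    refine ⟨(hEte s hs _ hm').1, ?_⟩
    have hη : 0 ≤ η := (norm_nonneg _).trans (hEte s hs _ hm').1.le
    have hk := s4fq_key Cm C P ρ hρ hball N hN hCN ft (fun s => (hftH s).1) hftC Et hEt.1 η η s
      (fun x' hx' => (hEte s hs x' hx').1.le) (fun t => s4fqT d (mu t) x)
      (deriv mu s • (x.1 - d)) (s4fqT_hasDerivAt d (hmuC.differentiable one_ne_zero s) x) hm
      (hEte s hs _ hm').2.le
    refine hk.trans ?_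
    have h2 : ‖deriv mu s • (x.1 - d)‖ ≤ cμ * M₀ := by
      rw [norm_smul, Real.norm_eq_abs]
      exact mul_le_mul (hcμ s hs) (hBM _ (hCmB hx.1)) (norm_nonneg _)
        ((abs_nonneg _).trans (hcμ s hs))
    have h3 : η / ρ * ‖deriv mu s • (x.1 - d)‖ ≤ η / ρ * (cμ * M₀) :=
      mul_le_mul_of_nonneg_left h2 (div_nonneg hη hρ.le)
    linarith

end Claimed.Agent.R245
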