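/-
Row 245 / S0484, Section 4, block FACE. PACKAGE S4F-PATH (the scaling trick).
-/
import Claimed.Agent.R245.S4FDefs
import Claimed.Agent.R245.S4Tr
import Claimed.Agent.R245.S4FPathE

set_option autoImplicit false

namespace Claimed.Agent.R245

open MvPolynomial Metric Set Claims.C0412

/-- real arithmetic of the end repair -/
theorem s4fq_end_arith {κ : ℝ → ℝ} {s u v η cκ q : ℝ} (hκ1 : κ s ≤ 1) (hu : 0 ≤ u)
    (hv : 0 ≤ v) (hη : 0 ≤ η)
    (hin : s ∈ Icc (0 : ℝ) 1 → u ≤ η ∧ v ≤ q ∧ |deriv κ s| ≤ cκ)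
    (hout : s ∉ Icc (0 : ℝ) 1 → κ s = 0 ∧ deriv κ s = 0) (hq : 0 ≤ q) (hcκ : 0 ≤ cκ) :
    κ s * u ≤ η ∧ |deriv κ s| * u + κ s * v ≤ cκ * η + q := by
  by_cases hs : s ∈ Icc (0 : ℝ) 1
  · obtain ⟨h1, h2, h3⟩ := hin hs
    refine ⟨?_, add_le_add (mul_le_mul h3 h1 hu hcκ) ?_⟩
    · calc κ s * u ≤ 1 * η := mul_le_mul hκ1 h1 hu zero_le_one
        _ = η := one_mul _
    · calc κ s * v ≤ 1 * q := mul_le_mul hκ1 h2 hv zero_le_one
        _ = q := one_mul _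
  · obtain ⟨h1, h2⟩ := hout hs
    rw [h1, h2]
    simp only [zero_mul, abs_zero, add_zero]
    exact ⟨hη, by positivity⟩

theorem s4fq_deriv_zero_of_eventually {κ : ℝ → ℝ} {c : ℝ} {S : Set ℝ} (hS : IsOpen S)
    (h : ∀ t ∈ S, κ t = c) {s : ℝ} (hs : s ∈ S) : deriv κ s = 0 := by
  have : κ =ᶠ[nhds s] fun _ => c := by
    filter_upwards [hS.mem_nhds hs] with t ht using h t ht
  rw [this.deriv_eq, deriv_const]

theorem s4fq_holOn_mono {F : MvPolynomial (Fin 4) ℂ} {X : Type*} [NormedAddCommGroup X]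
    [NormedSpace ℂ X] {f : X → V4} {N N' : Set X} (h : HolOn F f N) (hs : N' ⊆ N) : HolOn F f N' :=
  ⟨h.1.mono hs, h.2.mono_left hs⟩

set_option maxHeartbeats 1600000 in
/-- PACKAGE S4F-PATH.  See globalization.tex l.196-311 and memo READ-G2.
`f_s = R(·, (1-χ(s)) g₀ + χ(s) g₁)` over `C × P` (`R` the retraction along `ν_f`), `= g₀, g₁` near the
ends; `f̃_s (y,u) = f_s (d + λ(s)(y-d), u)`, `λ = 1` where `f_s` is only local, `λ = L` near the ends,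
`d + L⁻¹ (B - d) ⊆ int C`; `IntervalStmt` + `ParamStmt` give an entire `E (s,y,u)`;
`A_s (y,u) = E (s, d + λ(s)⁻¹ (y-d), u)`; exact end repair with the retraction along `ν_{g₀}`, `ν_{g₁}`
over `B × P`. -/
theorem s4f_path (F : MvPolynomial (Fin 4) ℂ) (n : ℕ) (hnu : NuStmt F) (hretr : RetrStmt F)
    (hint : IntervalStmt F) (hpar : ParamStmt F n) : PathStmt F n := by
  intro E' Z _ _ _ _ _ _ hn Cm C B P hCm hCmc hCmn hC hCc hCmC hB hBc hCB hP f hf ε hε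
  obtain ⟨hPc, hPv, hPn⟩ := s4_isPolydisc_props hP
  obtain ⟨d, ρ, L, M₀, hd, hρ, hL, hM₀, hball, hBL, hBM⟩ := s4fq_geom Cm C B hCm hCmn hCmC hB
  have hCmC' : Cm ⊆ C := hCmC.trans interior_subset
  have hCmB : Cm ⊆ B := hCmC'.trans hCB
  have hCn : C.Nonempty := hCmn.mono hCmC'
  obtain ⟨lam, mu, hlamC, hmuC, hlm, hmu0, hmu1, hmua, hmub, hlam1, hmu1'⟩ := s4fq_lam L hL
  obtain ⟨χ, hχC, hχ0, hχ1, hχa, hχb⟩ := s4fq_step (1 / 3) (2 / 3) (by norm_num)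
  obtain ⟨κ₀, hκ₀C, hκ₀0, hκ₀1, hκ₀a, hκ₀b⟩ := s4fq_step (1 / 27) (2 / 27) (by norm_num)
  obtain ⟨k₁, hk₁C, hk₁0, hk₁1, hk₁a, hk₁b⟩ := s4fq_step (25 / 27) (26 / 27) (by norm_num)
  obtain ⟨κ₁, hκ₁C, hκ₁0, hκ₁1, hκ₁a, hκ₁b⟩ : ∃ κ₁ : ℝ → ℝ, ContDiff ℝ 1 κ₁ ∧ (∀ s, 0 ≤ κ₁ s) ∧
      (∀ s, κ₁ s ≤ 1) ∧ (∀ s, 26 / 27 ≤ s → κ₁ s = 0) ∧ (∀ s, s ≤ 25 / 27 → κ₁ s = 1) :=
    ⟨fun s => 1 - k₁ s, contDiff_const.sub hk₁C, fun s => by linarith [hk₁1 s],
      fun s => by linarith [hk₁0 s], fun s hs => by simp [hk₁b s hs], fun s hs => by simp [hk₁a s hs]⟩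
  obtain ⟨cμ, hcμ0, hcμ⟩ := s4fq_deriv_bound hmuC
  obtain ⟨cχ, hcχ0, hcχ⟩ := s4fq_deriv_bound hχC
  obtain ⟨c₀, hc₀0, hc₀⟩ := s4fq_deriv_bound hκ₀C
  obtain ⟨c₁, hc₁0, hc₁⟩ := s4fq_deriv_bound hκ₁C
  obtain ⟨rf, Mf, hrf, hMf, hIf⟩ :=
    s4fq_interp F hnu hretr (E' × Z) (C ×ˢ P) f (hC.prod hPc) (hCc.prod hPv) hf
  have hD : 0 < 2 * (1 + 2 * Mf + 2 * Mf * cχ) := by positivity
  refine ⟨min rf (ε / (2 * (1 + 2 * Mf + 2 * Mf * cχ))), lt_min hrf (div_pos hε hD), ?_⟩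
  set δ := min rf (ε / (2 * (1 + 2 * Mf + 2 * Mf * cχ))) with hδ
  intro g₀ g₁ hg₀ hg₁ hgf₀ hgf₁
  have hδ0 : 0 < δ := lt_min hrf (div_pos hε hD)
  have hδrf : δ ≤ rf := min_le_left _ _
  have hδε : δ * (1 + 2 * Mf + 2 * Mf * cχ) ≤ ε / 2 := by
    have h1 : δ ≤ ε / (2 * (1 + 2 * Mf + 2 * Mf * cχ)) := min_le_right _ _
    rw [le_div_iff₀ hD] at h1
    linarith
  -- the interpolation over `C × P`
  obtain ⟨c, Nf, hNf, hCNf, -, hcH, hcC, hc0, hc1, hcE⟩ := hIf g₀ (fun _ => g₁) χ univ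
    (Ioo (2 / 9) (7 / 9)) (Icc 0 1) isOpen_univ (subset_univ _) (s4fq_entire_holOn hg₀ _)
    (fun _ => s4fq_entire_holOn hg₁ _) ((s4fq_contDiff hg₁.1).comp contDiff_snd).contDiffOn
    hχC hχ0 hχ1 isOpen_Ioo isCompact_Icc
    (fun s hs => Or.inl ⟨by linarith [hs.1], by linarith [hs.2]⟩)
    (fun x hx => (hgf₀ x hx).trans_le hδrf) (fun s _ x hx => (hgf₁ x hx).trans_le hδrf)
  obtain ⟨ft, hftH, hftC, hft1, hft2, hft3⟩ :=
    s4fq_ft F d lam χ hlamC hlam1 hχa hχb g₀ g₁ hg₀ hg₁ c Nf hNf hcH hcC hc0 hc1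
  -- the retractions at the ends
  have hn₀ : HolNear F g₀ (B ×ˢ P) := ⟨univ, isOpen_univ, subset_univ _, s4fq_entire_holOn hg₀ _⟩
  have hn₁ : HolNear F g₁ (B ×ˢ P) := ⟨univ, isOpen_univ, subset_univ _, s4fq_entire_holOn hg₁ _⟩
  obtain ⟨r₀, M0, hr₀, hM0, hI0⟩ :=
    s4fq_interp F hnu hretr (E' × Z) (B ×ˢ P) g₀ (hB.prod hPc) (hBc.prod hPv) hn₀
  obtain ⟨r₁, M1, hr₁, hM1, hI1⟩ :=
    s4fq_interp F hnu hretr (E' × Z) (B ×ˢ P) g₁ (hB.prod hPc) (hBc.prod hPv) hn₁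
  -- accuracy
  set Q : ℝ := 1 + cμ * M₀ / ρ + c₀ + c₁ with hQ
  set S : ℝ := 1 + M0 + M1 with hS
  have hQ1 : 1 ≤ Q := by
    have : 0 ≤ cμ * M₀ / ρ := by positivity
    linarith
  have hS1 : 1 ≤ S := by linarith
  have hSQ : 0 < 4 * (S * Q) := by positivity
  set η : ℝ := min (min r₀ r₁) (ε / (4 * (S * Q))) with hη
  have hη0 : 0 < η := lt_min (lt_min hr₀ hr₁) (div_pos hε hSQ)
  have hηSQ : η * (S * Q) ≤ ε / 4 := by
    have h1 : η ≤ ε / (4 * (S * Q)) := min_le_right _ _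
    rw [le_div_iff₀ hSQ] at h1
    linarith
  obtain ⟨Et, hEt, hEte⟩ := s4fq_entire_family F n hint hpar E' Z hn C P hC hCc hCn hP Nf hNf hCNf
    ft hftH hftC η hη0
  obtain ⟨hAE, hAC, hA0, hA1, hAm⟩ := s4fq_A F Cm C B P hCmc d hd ρ L M₀ hρ hball hBL hBM hCmB lam mu
    hmuC hlm hmu0 hmu1 hmua hmub cμ hcμ g₀ g₁ ft Nf hNf hCNf hftH hftC hft1 hft3 Et hEt η hEte
  set A : ℝ → E' × Z → V4 := fun s x => Et ((s : ℂ), s4fqT d (mu s) x) with hA
  -- end repairs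
  obtain ⟨e0, N0, hN0, hBN0, -, he0H, he0C, he0a, he0b, he0E⟩ := hI0 g₀ A κ₀ univ (Iio (1 / 10))
    (Icc 0 (1 / 10)) isOpen_univ (subset_univ _) (s4fq_entire_holOn hg₀ _)
    (fun s => s4fq_entire_holOn (hAE s) _) hAC.contDiffOn hκ₀C hκ₀0 hκ₀1 isOpen_Iio isCompact_Icc
    (fun s hs => by
      by_cases h : 0 ≤ s
      · exact Or.inl ⟨h, (mem_Iio.1 hs).le⟩
      · exact Or.inr (hκ₀a s (by push Not at h; linarith)))
    (fun x _ => by rw [sub_self, norm_zero]; exact hr₀)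
    (fun s hs x hx => (hA0 s ⟨hs.1, by linarith [hs.2]⟩ x hx).trans_le
      ((min_le_left _ _).trans (min_le_left _ _)))
  obtain ⟨e1, N1, hN1, hBN1, -, he1H, he1C, he1a, he1b, he1E⟩ := hI1 g₁ A κ₁ univ (Ioi (9 / 10))
    (Icc (9 / 10) 1) isOpen_univ (subset_univ _) (s4fq_entire_holOn hg₁ _)
    (fun s => s4fq_entire_holOn (hAE s) _) hAC.contDiffOn hκ₁C hκ₁0 hκ₁1 isOpen_Ioi isCompact_Icc
    (fun s hs => by
      by_cases h : s ≤ 1
      · exact Or.inl ⟨(mem_Ioi.1 hs).le, h⟩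
      · exact Or.inr (hκ₁a s (by push Not at h; linarith)))
    (fun x _ => by rw [sub_self, norm_zero]; exact hr₁)
    (fun s hs x hx => (hA1 s ⟨by linarith [hs.1], hs.2⟩ x hx).trans_le
      ((min_le_left _ _).trans (min_le_right _ _)))
  -- gluing
  obtain ⟨H, hHH, hHC, hH1, hH2, hH3⟩ := s4fq_glue3 F (hN0.inter hN1) e0 A e1 (2 / 27) (1 / 12)
    (1 / 10) (9 / 10) (11 / 12) (25 / 27) (by norm_num) (by norm_num) (by norm_num) (by norm_num)
    (by norm_num) (by norm_num)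
    (fun s hs => s4fq_holOn_mono (he0H s hs) inter_subset_left)
    (he0C.mono (prod_mono_right inter_subset_left))
    (fun s _ => s4fq_entire_holOn (hAE s) _) hAC.contDiffOn
    (fun s hs => s4fq_holOn_mono (he1H s hs) inter_subset_right)
    (he1C.mono (prod_mono_right inter_subset_right))
    (fun s hs x hx => he0b s hs.2 (hκ₀b s hs.1.le) x hx.1)
    (fun s hs x hx => (he1b s hs.1 (hκ₁b s hs.2.le) x hx.2).symm)
  refine ⟨H, N0 ∩ N1, hN0.inter hN1, fun x hx => ⟨hBN0 hx, hBN1 hx⟩, hHH, hHC, ?_, ?_, ?_⟩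
  · intro s hs x hx
    rw [hH1 s (by linarith) x hx]
    exact he0a s (show s < 1 / 10 by linarith) (hκ₀a s (by linarith)) x hx.1
  · intro s hs x hx
    rw [hH3 s (by linarith) x hx]
    exact he1a s (show 9 / 10 < s by linarith) (hκ₁a s (by linarith)) x hx.2
  · intro s x hx
    have hxB : x ∈ B ×ˢ P := ⟨hCmB hx.1, hx.2⟩
    have hxC : x ∈ C ×ˢ P := ⟨hCmC' hx.1, hx.2⟩
    have hxN : x ∈ N0 ∩ N1 := ⟨hBN0 hxB, hBN1 hxB⟩
    have hφ := s4fq_phi C P hCc d (hCmC' hd) lam mu χ hlm hmu0 hmu1 hmu1' hχ1 cχ hcχ f g₀ g₁ c ft Nf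
      hCNf hft1 hft2 hft3 Mf δ hMf hcE x hxC (hgf₀ x hxC) (hgf₁ x hxC)
    -- arithmetic
    set q : ℝ := η + η / ρ * (cμ * M₀) with hq
    have hq0 : 0 ≤ q := by positivity
    have hqe : η / ρ * (cμ * M₀) = η * (cμ * M₀ / ρ) := by ring
    have hηQ : η * Q ≤ ε / 4 := by
      refine le_trans ?_ hηSQ
      refine mul_le_mul_of_nonneg_left ?_ hη0.le
      nlinarith
    have hηε : η ≤ ε / 4 := by
      refine le_trans ?_ hηQ
      nlinarith
    have hq0Q : c₀ * η + q ≤ η * Q := by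
      rw [hq, hqe, hQ]
      nlinarith
    have hq1Q : c₁ * η + q ≤ η * Q := by
      rw [hq, hqe, hQ]
      nlinarith
    have hqQ : q ≤ η * Q := by
      have : 0 ≤ c₀ * η := by positivity
      linarith
    have hηQ0 : 0 ≤ η * Q := by positivity
    have hM0Q : M0 * (η * Q) ≤ ε / 4 := by
      refine le_trans ?_ hηSQ
      have : M0 * (η * Q) ≤ S * (η * Q) := mul_le_mul_of_nonneg_right (by linarith) hηQ0
      linarith [mul_left_comm S η Q]
    have hM1Q : M1 * (η * Q) ≤ ε / 4 := by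
      refine le_trans ?_ hηSQ
      have : M1 * (η * Q) ≤ S * (η * Q) := mul_le_mul_of_nonneg_right (by linarith) hηQ0
      linarith [mul_left_comm S η Q]
    have hηQ' : η ≤ η * Q := by nlinarith
    have hM0η : M0 * η ≤ ε / 4 := (mul_le_mul_of_nonneg_left hηQ' hM0.le).trans hM0Q
    have hM1η : M1 * η ≤ ε / 4 := (mul_le_mul_of_nonneg_left hηQ' hM1.le).trans hM1Q
    have hδ1 : δ ≤ ε / 2 := by
      refine le_trans ?_ hδε
      have : 0 ≤ δ * (2 * Mf + 2 * Mf * cχ) := by positivity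
      nlinarith
    have hδ2 : δ + 2 * Mf * δ ≤ ε / 2 := by
      refine le_trans ?_ hδε
      have : 0 ≤ δ * (2 * Mf * cχ) := by positivity
      nlinarith
    have hδ3 : 2 * Mf * cχ * δ ≤ ε / 2 := by
      refine le_trans ?_ hδε
      have : 0 ≤ δ * (1 + 2 * Mf) := by positivity
      nlinarith
    rcases lt_or_ge s (1 / 10) with hs | hs
    · -- the left end
      have hev : (fun t => H t x) =ᶠ[nhds s] fun t => e0 t x := by
        filter_upwards [isOpen_Iio.mem_nhds hs] with t ht using hH1 t ht x hxN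
      rw [hev.deriv_eq, hH1 s hs x hxN]
      obtain ⟨b1, b2⟩ := he0E s hs x hxB
      obtain ⟨a1, a2⟩ := s4fq_end_arith (κ := κ₀) (s := s) (u := ‖A s x - g₀ x‖)
        (v := ‖deriv (fun t => A t x) s‖) (η := η) (cκ := c₀) (q := q) (hκ₀1 s) (norm_nonneg _)
        (norm_nonneg _) hη0.le
        (fun h01 => ⟨(hA0 s ⟨h01.1, by linarith⟩ x hxB).le, by
          have h1 := (hAm s h01 x hx).2
          rw [(hφ s).2.2 (Or.inl (by linarith)), norm_zero, add_zero] at h1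
          exact h1, hc₀ s h01⟩)
        (fun h01 => by
          have hs0 : s < 0 := by
            by_contra hcon
            exact h01 ⟨by push Not at hcon; exact hcon, by linarith⟩
          exact ⟨hκ₀a s (by linarith), s4fq_deriv_zero_of_eventually (S := Iio (1 / 27)) isOpen_Iio
            (fun t ht => hκ₀a t (mem_Iio.1 ht).le) (show s < 1 / 27 by linarith)⟩) hq0 hc₀0
      constructor
      · have h1 : ‖e0 s x - g₀ x‖ ≤ M0 * η := b1.trans (mul_le_mul_of_nonneg_left a1 hM0.le)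
        have h2 := hgf₀ x hxC
        calc ‖e0 s x - f x‖ = ‖(e0 s x - g₀ x) + (g₀ x - f x)‖ := by rw [sub_add_sub_cancel]
          _ ≤ ‖e0 s x - g₀ x‖ + ‖g₀ x - f x‖ := norm_add_le _ _
          _ < ε := by linarith
      · have h1 : ‖deriv (fun t => e0 t x) s‖ ≤ M0 * (η * Q) :=
          b2.trans (mul_le_mul_of_nonneg_left (a2.trans hq0Q) hM0.le)
        linarith
    rcases le_or_gt s (9 / 10) with hs' | hs'
    · -- the middle
      have hsI : s ∈ Ioo (2 / 27 : ℝ) (25 / 27) := ⟨by linarith, by linarith⟩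
      have h01 : s ∈ Icc (0 : ℝ) 1 := ⟨by linarith, by linarith⟩
      have hev : (fun t => H t x) =ᶠ[nhds s] fun t => A t x := by
        filter_upwards [isOpen_Ioo.mem_nhds hsI] with t ht using hH2 t ht x hxN
      rw [hev.deriv_eq, hH2 s hsI x hxN]
      obtain ⟨b1, b2⟩ := hAm s h01 x hx
      obtain ⟨p1, p2, -⟩ := hφ s
      constructor
      · calc ‖A s x - f x‖ = ‖(A s x - ft s (s4fqT d (mu s) x)) + (ft s (s4fqT d (mu s) x) - f x)‖ := by
              rw [sub_add_sub_cancel]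
          _ ≤ ‖A s x - ft s (s4fqT d (mu s) x)‖ + ‖ft s (s4fqT d (mu s) x) - f x‖ := norm_add_le _ _
          _ < ε := by linarith
      · have : ‖deriv (fun t => A t x) s‖ ≤ q + ‖deriv (fun t => ft t (s4fqT d (mu t) x)) s‖ := b2
        linarith
    · -- the right end
      have hev : (fun t => H t x) =ᶠ[nhds s] fun t => e1 t x := by
        filter_upwards [isOpen_Ioi.mem_nhds hs'] with t ht using hH3 t ht x hxN
      rw [hev.deriv_eq, hH3 s hs' x hxN]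
      obtain ⟨b1, b2⟩ := he1E s hs' x hxB
      obtain ⟨a1, a2⟩ := s4fq_end_arith (κ := κ₁) (s := s) (u := ‖A s x - g₁ x‖)
        (v := ‖deriv (fun t => A t x) s‖) (η := η) (cκ := c₁) (q := q) (hκ₁1 s) (norm_nonneg _)
        (norm_nonneg _) hη0.le
        (fun h01 => ⟨(hA1 s ⟨by linarith, h01.2⟩ x hxB).le, by
          have h1 := (hAm s h01 x hx).2
          rw [(hφ s).2.2 (Or.inr (by linarith)), norm_zero, add_zero] at h1
          exact h1, hc₁ s h01⟩)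
        (fun h01 => by
          have hs0 : 1 < s := by
            by_contra hcon
            exact h01 ⟨by linarith, by push Not at hcon; exact hcon⟩
          exact ⟨hκ₁a s (by linarith), s4fq_deriv_zero_of_eventually (S := Ioi (26 / 27)) isOpen_Ioi
            (fun t ht => hκ₁a t (mem_Ioi.1 ht).le) (show 26 / 27 < s by linarith)⟩) hq0 hc₁0
      constructor
      · have h1 : ‖e1 s x - g₁ x‖ ≤ M1 * η := b1.trans (mul_le_mul_of_nonneg_left a1 hM1.le)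
        have h2 := hgf₁ x hxC
        calc ‖e1 s x - f x‖ = ‖(e1 s x - g₁ x) + (g₁ x - f x)‖ := by rw [sub_add_sub_cancel]
          _ ≤ ‖e1 s x - g₁ x‖ + ‖g₁ x - f x‖ := norm_add_le _ _
          _ < ε := by linarith
      · have h1 : ‖deriv (fun t => e1 t x) s‖ ≤ M1 * (η * Q) :=
          b2.trans (mul_le_mul_of_nonneg_left (a2.trans hq1Q) hM1.le)
        linarith

end Claimed.Agent.R245
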