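/-
Row 245 / S0484, Section 4. BLOCK S4-FACE (Lemma ana:face): assembly (sorry-free given the imports).
-/
import Claimed.Agent.R245.S4Tools
import Claimed.Agent.R245.S4FInt
import Claimed.Agent.R245.S4FPar
import Claimed.Agent.R245.S4FPath
import Claimed.Agent.R245.S4FFam
import Claimed.Agent.R245.S4FFin

set_option autoImplicit false

namespace Claimed.Agent.R245

open MvPolynomial Metric Set Claims.C0412

/-- BLOCK S4-FACE (Lemma ana:face). -/
theorem s4_face (F : MvPolynomial (Fin 4) ℂ) (hF : IsSmoothQuarticForm F) (n : ℕ)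
    (h0 : PropA' F 0) (hn : PropA' F n) : FaceStmt F n := by
  have hnu := s4_nu F hF
  have hretr := s4_retr F
  have hint := s4f_interval F hnu hretr
  exact s4f_fin F n (s4f_fam F n hn (s4f_path F n hnu hretr hint (s4f_param F n hn))) hint
    (s4f_param0 F (s4f_param F 0 h0))

end Claimed.Agent.R245
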