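/-
Row 245 / S0484, Section 4, block S4-TG (trace gluing).  Architect: helper199.

TGDefs: definitions of the NONLINEAR part (Newton scheme for sections + frames on the real interface `Im z 0 = 0`).
Base space `TgX N = Fin (N+1) → ℂ` (sup norm), normal coordinate `z 0`.  The linear splitting (Lemma 4.4, `lt_main`, helper246) enters
only through the property `TgLT`.

NOTATION.  `D` open set;  `tgUp D / tgLo D` closed sides, `tgUpo D / tgLoo D` open sides, `tgMid D` interface.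
`TgHol α S A a`   : `‖a‖ ≤ A` on `S` and `‖a z - a z'‖ ≤ A ‖z - z'‖^α` on `S`.
`TgCR D u`        : the restriction of `u` to the interface is holomorphic in the tangential complex variables.
`TgCls α O S D A a` : `a` holomorphic on `O`, `TgHol α S A a`, `TgCR D a`.
`TgUpC / TgLoC / TgTr` : the classes of upper side functions, lower side functions, traces.
-/
import Claimed.Agent.R245.SCV
import Claimed.Agent.R245.S4Defs

set_option autoImplicit false

namespace Claimed.Agent.R245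

open Metric Set

/-- the base space -/
abbrev TgX (N : ℕ) : Type := Fin (N + 1) → ℂ

/-- endomorphisms of the fibre -/
abbrev TgL : Type := V4 →L[ℂ] V4

section

variable {N : ℕ}

def tgUp (D : Set (TgX N)) : Set (TgX N) := {z | z ∈ D ∧ 0 ≤ (z 0).im}
def tgUpo (D : Set (TgX N)) : Set (TgX N) := {z | z ∈ D ∧ 0 < (z 0).im}
def tgLo (D : Set (TgX N)) : Set (TgX N) := {z | z ∈ D ∧ (z 0).im ≤ 0}
def tgLoo (D : Set (TgX N)) : Set (TgX N) := {z | z ∈ D ∧ (z 0).im < 0}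
def tgMid (D : Set (TgX N)) : Set (TgX N) := {z | z ∈ D ∧ (z 0).im = 0}

variable {𝔼 : Type*} [NormedAddCommGroup 𝔼] [NormedSpace ℂ 𝔼]

/-- sup bound and Hölder bound with the same constant -/
def TgHol (α : ℝ) (S : Set (TgX N)) (A : ℝ) (a : TgX N → 𝔼) : Prop :=
  (∀ z ∈ S, ‖a z‖ ≤ A) ∧ ∀ z ∈ S, ∀ z' ∈ S, ‖a z - a z'‖ ≤ A * ‖z - z'‖ ^ α

/-- tangential holomorphy on the interface -/
def TgCR (D : Set (TgX N)) (u : TgX N → 𝔼) : Prop :=
  ∀ t : ℝ, DifferentiableOn ℂ (fun z => u (Function.update z 0 (t : ℂ)))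
    {z | Function.update z 0 (t : ℂ) ∈ D}

/-- the common shape of the three classes -/
structure TgCls (α : ℝ) (O S D : Set (TgX N)) (A : ℝ) (a : TgX N → 𝔼) : Prop where
  hol : DifferentiableOn ℂ a O
  bd : TgHol α S A a
  cr : TgCR D a

/-- upper side functions -/
def TgUpC (α : ℝ) (D : Set (TgX N)) (A : ℝ) (a : TgX N → 𝔼) : Prop :=
  TgCls α (tgUpo D) (tgUp D) D A a

/-- lower side functions -/
def TgLoC (α : ℝ) (D : Set (TgX N)) (A : ℝ) (a : TgX N → 𝔼) : Prop :=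
  TgCls α (tgLoo D) (tgLo D) D A a

/-- traces -/
def TgTr (α : ℝ) (D : Set (TgX N)) (A : ℝ) (u : TgX N → 𝔼) : Prop :=
  TgCls α ∅ (tgMid D) D A u

/-- one additive splitting `D → D'` with constant `Λ` -/
def TgSplit (α : ℝ) (D D' : Set (TgX N)) (𝔼 : Type*) [NormedAddCommGroup 𝔼] [NormedSpace ℂ 𝔼]
    (Λ : ℝ) : Prop :=
  ∀ (A : ℝ) (u : TgX N → 𝔼), 0 ≤ A → TgTr α D A u →
    ∃ ap am : TgX N → 𝔼, TgUpC α D' (Λ * A) ap ∧ TgLoC α D' (Λ * A) am ∧
      ∀ z ∈ tgMid D', ap z - am z = u z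

/-- the additive splitting (Lemma 4.4) on a scale of domains `P r`, `0 ≤ r ≤ r₀`, with polynomial loss -/
def TgLT (α : ℝ) (P : ℝ → Set (TgX N)) (r₀ : ℝ) (𝔼 : Type*) [NormedAddCommGroup 𝔼]
    [NormedSpace ℂ 𝔼] (C : ℝ) (p : ℕ) : Prop :=
  ∀ r h : ℝ, 0 < h → h ≤ 1 → 0 ≤ r - h → r ≤ r₀ → TgSplit α (P r) (P (r - h)) 𝔼 (C / h ^ p)

/-- the open polytopes -/
def tgPoly {m : ℕ} (lam : Fin m → TgX N →L[ℂ] ℂ) (c : Fin m → ℝ) (r : ℝ) : Set (TgX N) :=
  {z | ∀ k, (lam k z).re < c k + r}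

/-- the small field `E = G - s` on `interface × closedBall 0 β` -/
structure TgField (α : ℝ) (D : Set (TgX N)) (β e : ℝ) (E : TgX N × V4 → V4) : Prop where
  hol : ∃ W : Set (TgX N × V4), IsOpen W ∧ tgMid D ×ˢ closedBall (0 : V4) β ⊆ W ∧
    DifferentiableOn ℂ E W
  bd : ∀ z ∈ tgMid D, ∀ v ∈ closedBall (0 : V4) β, ‖E (z, v)‖ ≤ e
  hl : ∀ z ∈ tgMid D, ∀ z' ∈ tgMid D, ∀ v ∈ closedBall (0 : V4) β,
    ‖E (z, v) - E (z', v)‖ ≤ e * ‖z - z'‖ ^ α

/-- the fibre derivative of the field along a section -/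
noncomputable def tgN (E : TgX N × V4 → V4) (a : TgX N → V4) (z : TgX N) : TgL :=
  fderiv ℂ (fun v => E (z, v)) (a z)

/-- the state of the Newton scheme on `D`: sections `ap, am`, frames `Bp, Bm`, defects `≤ ε`. -/
structure TgState (α : ℝ) (D : Set (TgX N)) (E : TgX N × V4 → V4) (A b ε : ℝ)
    (ap am : TgX N → V4) (Bp Bm : TgX N → TgL) : Prop where
  ap_c : TgUpC α D A ap
  am_c : TgLoC α D A am
  Bp_c : TgUpC α D b (fun z => Bp z - 1)
  Bm_c : TgLoC α D b (fun z => Bm z - 1)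
  rho : TgHol α (tgMid D) ε (fun z => ap z + E (z, ap z) - am z)
  zed : TgHol α (tgMid D) ε (fun z => (1 + tgN E ap z) * Bp z - Bm z)

end

end Claimed.Agent.R245
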