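/-
Row 245 / S0484, block S4-TG.  PACKAGE TG-ALG: the algebra of the classes `TgHol`, `TgCR`, `TgCls` (architect: helper199).
Everything is pointwise and elementary (no paper).  Statements FROZEN; helper lemmas: prefix `tga_`, in this file.

Routes.  `TgHol`: triangle inequality; products: `P z (a z) - P z' (a z') = P z (a z - a z') + (P z - P z') (a z')`;
`A ≥ 0` follows from `‖P z‖ ≤ A` at any point of `S` (no point: nothing to prove).
Inverse: `‖Q z - 1‖ ≤ q ≤ 1/2` ⇒ `Q z` is a unit (`Units.oneSub` / `NormedRing.inverse_one_sub`, `isUnit_one_sub_of_norm_lt_one`),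
`‖(Q z)⁻¹‖ ≤ 2` (`(Q z)⁻¹ = 1 - (Q z - 1) (Q z)⁻¹`), `(Q z)⁻¹ - 1 = -(Q z)⁻¹ (Q z - 1)`, `(Q z)⁻¹ - (Q z')⁻¹ = (Q z)⁻¹ (Q z' - Q z) (Q z')⁻¹`.
Differentiability of the inverse: `differentiableAt_inverse`.
-/
import Claimed.Agent.R245.TGDefs

set_option autoImplicit false

namespace Claimed.Agent.R245

open Metric Set

variable {N : ℕ} {𝔼 𝔽 : Type*} [NormedAddCommGroup 𝔼] [NormedSpace ℂ 𝔼] [NormedAddCommGroup 𝔽]
  [NormedSpace ℂ 𝔽]

/-! ### the sets -/

theorem tgUpo_subset_tgUp (D : Set (TgX N)) : tgUpo D ⊆ tgUp D := fun _ h => ⟨h.1, h.2.le⟩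
theorem tgLoo_subset_tgLo (D : Set (TgX N)) : tgLoo D ⊆ tgLo D := fun _ h => ⟨h.1, h.2.le⟩
theorem tgMid_subset_tgUp (D : Set (TgX N)) : tgMid D ⊆ tgUp D := fun _ h => ⟨h.1, h.2.ge⟩
theorem tgMid_subset_tgLo (D : Set (TgX N)) : tgMid D ⊆ tgLo D := fun _ h => ⟨h.1, h.2.le⟩
theorem tgUp_mono {D D' : Set (TgX N)} (h : D' ⊆ D) : tgUp D' ⊆ tgUp D := fun _ hz => ⟨h hz.1, hz.2⟩
theorem tgUpo_mono {D D' : Set (TgX N)} (h : D' ⊆ D) : tgUpo D' ⊆ tgUpo D := fun _ hz => ⟨h hz.1, hz.2⟩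
theorem tgLo_mono {D D' : Set (TgX N)} (h : D' ⊆ D) : tgLo D' ⊆ tgLo D := fun _ hz => ⟨h hz.1, hz.2⟩
theorem tgLoo_mono {D D' : Set (TgX N)} (h : D' ⊆ D) : tgLoo D' ⊆ tgLoo D := fun _ hz => ⟨h hz.1, hz.2⟩
theorem tgMid_mono {D D' : Set (TgX N)} (h : D' ⊆ D) : tgMid D' ⊆ tgMid D := fun _ hz => ⟨h hz.1, hz.2⟩

theorem isOpen_tgUpo {D : Set (TgX N)} (hD : IsOpen D) : IsOpen (tgUpo D) := by
  have h : IsOpen {z : TgX N | 0 < (z 0).im} :=
    isOpen_lt continuous_const (Complex.continuous_im.comp (continuous_apply 0))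
  exact hD.inter h

theorem isOpen_tgLoo {D : Set (TgX N)} (hD : IsOpen D) : IsOpen (tgLoo D) := by
  have h : IsOpen {z : TgX N | (z 0).im < 0} :=
    isOpen_lt (Complex.continuous_im.comp (continuous_apply 0)) continuous_const
  exact hD.inter h

/-! ### `TgHol` -/

section hol

variable {α A B A' : ℝ} {S S' : Set (TgX N)} {a b : TgX N → 𝔼}

theorem TgHol.mono (h : TgHol α S A a) (hS : S' ⊆ S) (hA : A ≤ A') : TgHol α S' A' a := by
  refine ⟨fun z hz => (h.1 z (hS hz)).trans hA, fun z hz z' hz' => (h.2 z (hS hz) z' (hS hz')).trans ?_⟩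
  exact mul_le_mul_of_nonneg_right hA (Real.rpow_nonneg (norm_nonneg _) _)

theorem TgHol.congr (h : TgHol α S A a) (hab : ∀ z ∈ S, b z = a z) : TgHol α S A b := by
  refine ⟨fun z hz => ?_, fun z hz z' hz' => ?_⟩
  · rw [hab z hz]
    exact h.1 z hz
  · rw [hab z hz, hab z' hz']
    exact h.2 z hz z' hz'

theorem TgHol.add (ha : TgHol α S A a) (hb : TgHol α S B b) :
    TgHol α S (A + B) (fun z => a z + b z) := by
  refine ⟨fun z hz => (norm_add_le _ _).trans (add_le_add (ha.1 z hz) (hb.1 z hz)),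
    fun z hz z' hz' => ?_⟩
  have h1 : a z + b z - (a z' + b z') = (a z - a z') + (b z - b z') := by abel
  rw [h1, add_mul]
  exact (norm_add_le _ _).trans (add_le_add (ha.2 z hz z' hz') (hb.2 z hz z' hz'))

theorem TgHol.sub (ha : TgHol α S A a) (hb : TgHol α S B b) :
    TgHol α S (A + B) (fun z => a z - b z) := by
  refine ⟨fun z hz => (norm_sub_le _ _).trans (add_le_add (ha.1 z hz) (hb.1 z hz)),
    fun z hz z' hz' => ?_⟩
  have h1 : a z - b z - (a z' - b z') = (a z - a z') - (b z - b z') := by abel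
  rw [h1, add_mul]
  exact (norm_sub_le _ _).trans (add_le_add (ha.2 z hz z' hz') (hb.2 z hz z' hz'))

theorem TgHol.neg (ha : TgHol α S A a) : TgHol α S A (fun z => - a z) := by
  refine ⟨fun z hz => ?_, fun z hz z' hz' => ?_⟩
  · rw [norm_neg]
    exact ha.1 z hz
  · have h1 : - a z - - a z' = -(a z - a z') := by abel
    rw [h1, norm_neg]
    exact ha.2 z hz z' hz'

theorem tgHol_const (c : 𝔼) (hc : ‖c‖ ≤ A) : TgHol α S A (fun _ : TgX N => c) := by
  refine ⟨fun z _ => hc, fun z _ z' _ => ?_⟩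
  rw [sub_self, norm_zero]
  exact mul_nonneg ((norm_nonneg c).trans hc) (Real.rpow_nonneg (norm_nonneg _) _)

theorem TgHol.clm_apply {P : TgX N → 𝔼 →L[ℂ] 𝔽} (hP : TgHol α S A P) (ha : TgHol α S B a) :
    TgHol α S (2 * A * B) (fun z => P z (a z)) := by
  refine ⟨fun z hz => ?_, fun z hz z' hz' => ?_⟩
  · have hA : 0 ≤ A := (norm_nonneg _).trans (hP.1 z hz)
    have hB : 0 ≤ B := (norm_nonneg _).trans (ha.1 z hz)
    have h1 : ‖P z (a z)‖ ≤ A * B :=
      ((P z).le_opNorm _).trans (mul_le_mul (hP.1 z hz) (ha.1 z hz) (norm_nonneg _) hA)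
    nlinarith [mul_nonneg hA hB]
  · have hA : 0 ≤ A := (norm_nonneg _).trans (hP.1 z hz)
    have hB : 0 ≤ B := (norm_nonneg _).trans (ha.1 z hz)
    have hd : 0 ≤ ‖z - z'‖ ^ α := Real.rpow_nonneg (norm_nonneg _) _
    have h1 : P z (a z) - P z' (a z') = P z (a z - a z') + (P z - P z') (a z') := by
      simp
    have h2 : ‖P z (a z - a z')‖ ≤ A * (B * ‖z - z'‖ ^ α) :=
      ((P z).le_opNorm _).trans (mul_le_mul (hP.1 z hz) (ha.2 z hz z' hz') (norm_nonneg _) hA)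
    have h3 : ‖(P z - P z') (a z')‖ ≤ (A * ‖z - z'‖ ^ α) * B :=
      ((P z - P z').le_opNorm _).trans
        (mul_le_mul (hP.2 z hz z' hz') (ha.1 z' hz') (norm_nonneg _) (mul_nonneg hA hd))
    rw [h1]
    refine (norm_add_le _ _).trans ((add_le_add h2 h3).trans (le_of_eq ?_))
    ring

theorem TgHol.mul {P Q : TgX N → TgL} (hP : TgHol α S A P) (hQ : TgHol α S B Q) :
    TgHol α S (2 * A * B) (fun z => P z * Q z) := by
  refine ⟨fun z hz => ?_, fun z hz z' hz' => ?_⟩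
  · have hA : 0 ≤ A := (norm_nonneg _).trans (hP.1 z hz)
    have hB : 0 ≤ B := (norm_nonneg _).trans (hQ.1 z hz)
    have h1 : ‖P z * Q z‖ ≤ A * B :=
      (norm_mul_le _ _).trans (mul_le_mul (hP.1 z hz) (hQ.1 z hz) (norm_nonneg _) hA)
    nlinarith [mul_nonneg hA hB]
  · have hA : 0 ≤ A := (norm_nonneg _).trans (hP.1 z hz)
    have hB : 0 ≤ B := (norm_nonneg _).trans (hQ.1 z hz)
    have hd : 0 ≤ ‖z - z'‖ ^ α := Real.rpow_nonneg (norm_nonneg _) _
    have h1 : P z * Q z - P z' * Q z' = P z * (Q z - Q z') + (P z - P z') * Q z' := by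
      rw [mul_sub, sub_mul]
      abel
    have h2 : ‖P z * (Q z - Q z')‖ ≤ A * (B * ‖z - z'‖ ^ α) :=
      (norm_mul_le _ _).trans (mul_le_mul (hP.1 z hz) (hQ.2 z hz z' hz') (norm_nonneg _) hA)
    have h3 : ‖(P z - P z') * Q z'‖ ≤ (A * ‖z - z'‖ ^ α) * B :=
      (norm_mul_le _ _).trans
        (mul_le_mul (hP.2 z hz z' hz') (hQ.1 z' hz') (norm_nonneg _) (mul_nonneg hA hd))
    rw [h1]
    refine (norm_add_le _ _).trans ((add_le_add h2 h3).trans (le_of_eq ?_))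
    ring

/-- from `Q - 1` to `Q` -/
theorem TgHol.one_add {Q : TgX N → TgL} (hQ : TgHol α S A (fun z => Q z - 1)) :
    TgHol α S (1 + A) Q := by
  refine ⟨fun z hz => ?_, fun z hz z' hz' => ?_⟩
  · have h1 : Q z = 1 + (Q z - 1) := by abel
    rw [h1]
    exact (norm_add_le _ _).trans (add_le_add ContinuousLinearMap.norm_id_le (hQ.1 z hz))
  · have h1 : Q z - Q z' = (Q z - 1) - (Q z' - 1) := by abel
    rw [h1]
    refine (hQ.2 z hz z' hz').trans ?_
    exact mul_le_mul_of_nonneg_right (by linarith) (Real.rpow_nonneg (norm_nonneg _) _)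

theorem TgHol.isUnit {Q : TgX N → TgL} {q : ℝ} (hQ : TgHol α S q (fun z => Q z - 1))
    (hq : q ≤ 1 / 2) : ∀ z ∈ S, IsUnit (Q z) ∧ Q z * Ring.inverse (Q z) = 1 ∧
      Ring.inverse (Q z) * Q z = 1 := by
  intro z hz
  have h1 : IsUnit (Q z) := by
    have h2 : ‖1 - Q z‖ < 1 := by
      rw [norm_sub_rev]
      exact lt_of_le_of_lt ((hQ.1 z hz).trans hq) (by norm_num)
    have h3 := isUnit_one_sub_of_norm_lt_one h2
    rwa [sub_sub_cancel] at h3
  exact ⟨h1, Ring.mul_inverse_cancel _ h1, Ring.inverse_mul_cancel _ h1⟩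

theorem TgHol.inverse {Q : TgX N → TgL} {q : ℝ} (hQ : TgHol α S q (fun z => Q z - 1))
    (hq : q ≤ 1 / 2) : TgHol α S (4 * q) (fun z => Ring.inverse (Q z) - 1) := by
  have hu := hQ.isUnit hq
  have hn : ∀ z ∈ S, ‖Ring.inverse (Q z)‖ ≤ 2 := by
    intro z hz
    obtain ⟨-, h1, -⟩ := hu z hz
    have h2 : Ring.inverse (Q z) = 1 - (Q z - 1) * Ring.inverse (Q z) := by
      rw [sub_mul, h1, one_mul]
      abel
    have h3 : ‖Ring.inverse (Q z)‖ ≤ 1 + 1 / 2 * ‖Ring.inverse (Q z)‖ := by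
      conv_lhs => rw [h2]
      refine (norm_sub_le _ _).trans (add_le_add ContinuousLinearMap.norm_id_le ?_)
      exact (norm_mul_le _ _).trans
        (mul_le_mul_of_nonneg_right ((hQ.1 z hz).trans hq) (norm_nonneg _))
    linarith
  refine ⟨fun z hz => ?_, fun z hz z' hz' => ?_⟩
  · obtain ⟨-, -, h1⟩ := hu z hz
    have hq0 : 0 ≤ q := (norm_nonneg _).trans (hQ.1 z hz)
    have h2 : Ring.inverse (Q z) - 1 = - (Ring.inverse (Q z) * (Q z - 1)) := by
      rw [mul_sub, h1, mul_one]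
      abel
    show ‖Ring.inverse (Q z) - 1‖ ≤ 4 * q
    rw [h2, norm_neg]
    refine (norm_mul_le _ _).trans ((mul_le_mul (hn z hz) (hQ.1 z hz) (norm_nonneg _) (by norm_num)).trans ?_)
    linarith
  · obtain ⟨-, -, h1⟩ := hu z hz
    obtain ⟨-, h1', -⟩ := hu z' hz'
    have hq0 : 0 ≤ q := (norm_nonneg _).trans (hQ.1 z hz)
    have hd : 0 ≤ ‖z - z'‖ ^ α := Real.rpow_nonneg (norm_nonneg _) _
    have h2 : Ring.inverse (Q z) - 1 - (Ring.inverse (Q z') - 1)
        = - (Ring.inverse (Q z) * ((Q z - 1) - (Q z' - 1)) * Ring.inverse (Q z')) := by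
      have e1 : Ring.inverse (Q z) * ((Q z - 1) - (Q z' - 1)) * Ring.inverse (Q z')
          = (Ring.inverse (Q z) * Q z) * Ring.inverse (Q z')
            - Ring.inverse (Q z) * (Q z' * Ring.inverse (Q z')) := by
        rw [sub_sub_sub_cancel_right, mul_sub, sub_mul, mul_assoc (Ring.inverse (Q z)) (Q z')]
      rw [e1, h1, h1', one_mul, mul_one]
      abel
    show ‖Ring.inverse (Q z) - 1 - (Ring.inverse (Q z') - 1)‖ ≤ 4 * q * ‖z - z'‖ ^ α
    rw [h2, norm_neg]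
    have h3 : ‖Ring.inverse (Q z) * ((Q z - 1) - (Q z' - 1))‖ ≤ 2 * (q * ‖z - z'‖ ^ α) :=
      (norm_mul_le _ _).trans
        (mul_le_mul (hn z hz) (hQ.2 z hz z' hz') (norm_nonneg _) (by norm_num))
    refine (norm_mul_le _ _).trans ((mul_le_mul h3 (hn z' hz') (norm_nonneg _)
      (by positivity)).trans (le_of_eq ?_))
    ring

theorem TgHol.continuousOn (hα : 0 < α) (ha : TgHol α S A a) : ContinuousOn a S := by
  intro z hz
  rw [ContinuousWithinAt, tendsto_iff_norm_sub_tendsto_zero]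
  have h1 : Filter.Tendsto (fun z' : TgX N => A * ‖z' - z‖ ^ α) (nhdsWithin z S) (nhds 0) := by
    have h2 : Continuous (fun z' : TgX N => A * ‖z' - z‖ ^ α) :=
      continuous_const.mul ((continuous_id.sub continuous_const).norm.rpow_const
        (fun _ => Or.inr hα.le))
    have h3 := (h2.tendsto z).mono_left (nhdsWithin_le_nhds (s := S))
    simpa [Real.zero_rpow hα.ne'] using h3
  refine squeeze_zero' (Filter.Eventually.of_forall fun _ => norm_nonneg _) ?_ h1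
  filter_upwards [self_mem_nhdsWithin] with z' hz'
  exact ha.2 z' hz' z hz

end hol

/-! ### `TgCR` -/

section cr

variable {D D' : Set (TgX N)} {a b : TgX N → 𝔼}

theorem TgCR.mono (h : TgCR D a) (hD : D' ⊆ D) : TgCR D' a := by
  intro t
  exact (h t).mono fun z hz => hD hz

/-- only the values on the interface matter -/
theorem TgCR.congr (h : TgCR D a) (hab : ∀ z ∈ tgMid D, b z = a z) : TgCR D b := by
  intro t
  refine (h t).congr fun z hz => ?_
  exact hab _ ⟨hz, by simp⟩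

theorem TgCR.add (ha : TgCR D a) (hb : TgCR D b) : TgCR D (fun z => a z + b z) := by
  intro t
  exact (ha t).add (hb t)

theorem TgCR.sub (ha : TgCR D a) (hb : TgCR D b) : TgCR D (fun z => a z - b z) := by
  intro t
  exact (ha t).sub (hb t)

theorem TgCR.neg (ha : TgCR D a) : TgCR D (fun z => - a z) := by
  intro t
  exact (ha t).neg

theorem tgCR_const (c : 𝔼) : TgCR D (fun _ : TgX N => c) := by
  intro t
  exact differentiableOn_const c

theorem TgCR.clm_apply {P : TgX N → 𝔼 →L[ℂ] 𝔽} (hP : TgCR D P) (ha : TgCR D a) :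
    TgCR D (fun z => P z (a z)) := by
  intro t
  exact (hP t).clm_apply (ha t)

theorem TgCR.mul {P Q : TgX N → TgL} (hP : TgCR D P) (hQ : TgCR D Q) :
    TgCR D (fun z => P z * Q z) := by
  intro t
  exact (hP t).mul (hQ t)

theorem TgCR.inverse {Q : TgX N → TgL} (hQ : TgCR D Q) (hu : ∀ z ∈ tgMid D, IsUnit (Q z)) :
    TgCR D (fun z => Ring.inverse (Q z)) := by
  intro t z hz
  have hu' : IsUnit (Q (Function.update z 0 (t : ℂ))) := hu _ ⟨hz, by simp⟩
  exact (differentiableAt_inverse hu').comp_differentiableWithinAt z (hQ t z hz)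

end cr

/-! ### `TgCls` -/

section cls

variable {α A B A' : ℝ} {O S D O' S' D' : Set (TgX N)} {a b : TgX N → 𝔼}

theorem TgCls.mono (h : TgCls α O S D A a) (hO : O' ⊆ O) (hS : S' ⊆ S) (hD : D' ⊆ D)
    (hA : A ≤ A') : TgCls α O' S' D' A' a :=
  ⟨h.hol.mono hO, h.bd.mono hS hA, h.cr.mono hD⟩

theorem TgCls.add (ha : TgCls α O S D A a) (hb : TgCls α O S D B b) :
    TgCls α O S D (A + B) (fun z => a z + b z) :=
  ⟨ha.hol.add hb.hol, ha.bd.add hb.bd, ha.cr.add hb.cr⟩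

theorem TgCls.sub (ha : TgCls α O S D A a) (hb : TgCls α O S D B b) :
    TgCls α O S D (A + B) (fun z => a z - b z) :=
  ⟨ha.hol.sub hb.hol, ha.bd.sub hb.bd, ha.cr.sub hb.cr⟩

theorem TgCls.neg (ha : TgCls α O S D A a) : TgCls α O S D A (fun z => - a z) :=
  ⟨ha.hol.neg, ha.bd.neg, ha.cr.neg⟩

theorem tgCls_const (c : 𝔼) (hc : ‖c‖ ≤ A) : TgCls α O S D A (fun _ : TgX N => c) :=
  ⟨differentiableOn_const c, tgHol_const c hc, tgCR_const c⟩

theorem TgCls.clm_apply {P : TgX N → 𝔼 →L[ℂ] 𝔽} (hP : TgCls α O S D A P)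
    (ha : TgCls α O S D B a) : TgCls α O S D (2 * A * B) (fun z => P z (a z)) :=
  ⟨hP.hol.clm_apply ha.hol, hP.bd.clm_apply ha.bd, hP.cr.clm_apply ha.cr⟩

theorem TgCls.mul {P Q : TgX N → TgL} (hP : TgCls α O S D A P) (hQ : TgCls α O S D B Q) :
    TgCls α O S D (2 * A * B) (fun z => P z * Q z) :=
  ⟨hP.hol.mul hQ.hol, hP.bd.mul hQ.bd, hP.cr.mul hQ.cr⟩

theorem TgCls.one_add {Q : TgX N → TgL} (hQ : TgCls α O S D A (fun z => Q z - 1)) :
    TgCls α O S D (1 + A) Q := by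
  refine ⟨?_, hQ.bd.one_add, ?_⟩
  · have := hQ.hol.add (differentiableOn_const (1 : TgL))
    simpa using this
  · have := hQ.cr.add (tgCR_const (D := D) (1 : TgL))
    simpa using this

theorem TgCls.inverse {Q : TgX N → TgL} {q : ℝ} (hQ : TgCls α O S D q (fun z => Q z - 1))
    (hq : q ≤ 1 / 2) (hOS : O ⊆ S) (hDS : tgMid D ⊆ S) :
    TgCls α O S D (4 * q) (fun z => Ring.inverse (Q z) - 1) := by
  have hu := hQ.bd.isUnit hq
  have h1 := hQ.one_add
  refine ⟨?_, hQ.bd.inverse hq, ?_⟩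
  · refine DifferentiableOn.sub ?_ (differentiableOn_const (1 : TgL))
    intro z hz
    exact (differentiableAt_inverse (hu z (hOS hz)).1).comp_differentiableWithinAt z (h1.hol z hz)
  · exact (h1.cr.inverse fun z hz => (hu z (hDS hz)).1).sub (tgCR_const (1 : TgL))

end cls

/-! ### the three classes -/

section three

variable {α A A' : ℝ} {D D' : Set (TgX N)} {a : TgX N → 𝔼}

theorem TgUpC.toTr (h : TgUpC α D A a) : TgTr α D A a :=
  TgCls.mono h (empty_subset _) (tgMid_subset_tgUp D) subset_rfl le_rfl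

theorem TgLoC.toTr (h : TgLoC α D A a) : TgTr α D A a :=
  TgCls.mono h (empty_subset _) (tgMid_subset_tgLo D) subset_rfl le_rfl

theorem TgUpC.mono (h : TgUpC α D A a) (hD : D' ⊆ D) (hA : A ≤ A') : TgUpC α D' A' a :=
  TgCls.mono h (tgUpo_mono hD) (tgUp_mono hD) hD hA

theorem TgLoC.mono (h : TgLoC α D A a) (hD : D' ⊆ D) (hA : A ≤ A') : TgLoC α D' A' a :=
  TgCls.mono h (tgLoo_mono hD) (tgLo_mono hD) hD hA

theorem TgTr.mono (h : TgTr α D A a) (hD : D' ⊆ D) (hA : A ≤ A') : TgTr α D' A' a :=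
  TgCls.mono h subset_rfl (tgMid_mono hD) hD hA

/-- a trace is determined by `TgHol` on the interface and `TgCR` -/
theorem tgTr_mk (h : TgHol α (tgMid D) A a) (hc : TgCR D a) : TgTr α D A a :=
  ⟨differentiableOn_empty, h, hc⟩

theorem TgSplit.mono {Λ Λ' : ℝ} (h : TgSplit α D D' 𝔼 Λ) (hΛ : Λ ≤ Λ') : TgSplit α D D' 𝔼 Λ' := by
  intro A u hA hu
  obtain ⟨ap, am, h1, h2, h3⟩ := h A u hA hu
  exact ⟨ap, am, TgUpC.mono h1 subset_rfl (mul_le_mul_of_nonneg_right hΛ hA),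
    TgLoC.mono h2 subset_rfl (mul_le_mul_of_nonneg_right hΛ hA), h3⟩

end three

end Claimed.Agent.R245
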