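/-
Row 245 / S0484, block S4-TG.  PACKAGE TG-INIT: geometry and initial data (architect: helper199).
Statements FROZEN; helper lemmas: prefix `tgn_`, in this file.  No paper.

`tg_field_of_c1close`: `E = G - s`.  `bd`: first half of `C1Close`.  `hl`: the segment `[(z,v),(z',v)]` lies in the convex set `(Kp ∩ {Im x 0 = 0}) ×ˢ closedBall 0 β`, where `E` is differentiable with
`‖fderiv ℂ E‖ = ‖fderiv ℂ G - fderiv ℂ s‖ < e` (`Convex.norm_image_sub_le_of_norm_fderiv_le`), so `‖E (z,v) - E (z',v)‖ ≤ e x`, `x = ‖z - z'‖ ≤ 2R`, and `x ≤ (1 + 2R) x^α`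
(`x ≤ 1`: `x ≤ x^α`; `x ≥ 1`: `x = x^(1-α) x^α ≤ x · x^α`... i.e. `x^(1-α) ≤ x ≤ 2R`).
`tg_poly_exists`: `K = ∅`: `m = 1`, `lam = 0`, `c = -2`, `r₀ = 1`.  Otherwise `η > 0` with `cthickening η K ⊆ interior Kp` (`IsCompact.exists_cthickening_subset_open`); `s4_polytope_sandwich` (S4Poly.lean) with
`C := cthickening η K`, `B :=` a closed ball `closedBall 0 R ⊇ cthickening η K`, `W := interior Kp`; the box `closedBall 0 R` (sup norm) is cut out by the `4 (N+1)` conditions `Re (± z j) ≤ R`, `Re (± i z j) ≤ R` (enlarge `R` by 1 for strictness);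
a real functional `φ ≠ 0` is `Re` of the complex functional `StrongDual.extendRCLike φ` of the same norm (see `s4enl_exists_lin` in S4Enl.lean); normalise to norm `≤ 1`;
for `a ∈ K`: `φ a + η ‖φ‖ ≤ sup over cthickening ≤ bound`, so after normalisation `K ⊆ {φ' ≤ b' - η}`; take `c := b' - η/2`, `r₀ := min (η/2) 1`.   Functionals `φ = 0` are dropped (or kept with `c = 1`).
-/
import Claimed.Agent.R245.TGAlg
import Claimed.Agent.R245.S4Poly

set_option autoImplicit false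

namespace Claimed.Agent.R245

open Metric Set

variable {N : ℕ}

theorem tgPoly_mono {m : ℕ} (lam : Fin m → TgX N →L[ℂ] ℂ) (c : Fin m → ℝ) :
    Monotone (tgPoly lam c) := by
  intro r r' h z hz k
  have := hz k
  linarith

theorem isOpen_tgPoly {m : ℕ} (lam : Fin m → TgX N →L[ℂ] ℂ) (c : Fin m → ℝ) (r : ℝ) :
    IsOpen (tgPoly lam c r) := by
  have e : tgPoly lam c r = ⋂ k, {z | (lam k z).re < c k + r} := by
    ext z
    simp only [tgPoly, Set.mem_iInter]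
    exact Iff.rfl
  rw [e]
  exact isOpen_iInter_of_finite fun k =>
    isOpen_lt (Complex.continuous_re.comp (lam k).continuous) continuous_const

/-- the margin of the scale -/
theorem tgPoly_ball {m : ℕ} (lam : Fin m → TgX N →L[ℂ] ℂ) (c : Fin m → ℝ)
    (hlam : ∀ k, ‖lam k‖ ≤ 1) {r h : ℝ} {z : TgX N} (hz : z ∈ tgPoly lam c (r - h)) :
    ball z h ⊆ tgPoly lam c r := by
  intro w hw k
  have h1 : (lam k z).re < c k + (r - h) := hz k
  have h2 : ‖w - z‖ < h := by rwa [mem_ball, dist_eq_norm] at hw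
  have h3 : (lam k (w - z)).re ≤ ‖w - z‖ := by
    calc (lam k (w - z)).re ≤ ‖lam k (w - z)‖ := Complex.re_le_norm _
      _ ≤ ‖lam k‖ * ‖w - z‖ := (lam k).le_opNorm _
      _ ≤ 1 * ‖w - z‖ := by gcongr; exact hlam k
      _ = ‖w - z‖ := one_mul _
  have h4 : (lam k w).re = (lam k z).re + (lam k (w - z)).re := by
    rw [← Complex.add_re, ← map_add]
    congr 2
    abel
  rw [h4]
  linarith

/-- the open polytopes are convex -/
theorem tgn_convex {m : ℕ} (lam : Fin m → TgX N →L[ℂ] ℂ) (c : Fin m → ℝ) (r : ℝ) :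
    Convex ℝ (tgPoly lam c r) := by
  have e : tgPoly lam c r =
      ⋂ k, {z | (Complex.reCLM.comp ((lam k).restrictScalars ℝ)) z < c k + r} := by
    ext z
    simp only [tgPoly, Set.mem_iInter]
    exact Iff.rfl
  rw [e]
  exact convex_iInter fun k => convex_halfSpace_lt
    (Complex.reCLM.comp ((lam k).restrictScalars ℝ)).toLinearMap.isLinear _

/-- strict separation of a point from a closed convex set by a complex functional of norm `≤ 1` -/
theorem tgn_sep {K : Set (TgX N)} (hK : IsClosed K) (hKc : Convex ℝ K) {x : TgX N} (hx : x ∉ K) :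
    ∃ (ℓ : TgX N →L[ℂ] ℂ) (c r : ℝ), ‖ℓ‖ ≤ 1 ∧ 0 < r ∧ (∀ a ∈ K, (ℓ a).re < c) ∧
      c + r < (ℓ x).re := by
  obtain ⟨f, u, h1, h2⟩ := geometric_hahn_banach_closed_point hKc hK hx
  have ht : 0 < (1 + ‖f‖)⁻¹ := by positivity
  obtain ⟨t, htd⟩ : ∃ t : ℝ, t = (1 + ‖f‖)⁻¹ := ⟨_, rfl⟩
  rw [← htd] at ht
  have hre : ∀ z, (((t : ℂ) • (StrongDual.extendRCLike (𝕜 := ℂ) f)) z).re = t * f z := by
    intro z
    have h := StrongDual.re_extendRCLike_apply (𝕜 := ℂ) f z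
    simp only [_root_.smul_apply, smul_eq_mul, Complex.mul_re, Complex.ofReal_re,
      Complex.ofReal_im, zero_mul, sub_zero]
    congr 1
  refine ⟨(t : ℂ) • (StrongDual.extendRCLike (𝕜 := ℂ) f), t * u, t * (f x - u) / 2, ?_, ?_, ?_, ?_⟩
  · rw [norm_smul, StrongDual.norm_extendRCLike, Complex.norm_real, Real.norm_of_nonneg ht.le, htd,
      inv_mul_le_iff₀ (by positivity)]
    linarith [norm_nonneg f]
  · have : 0 < f x - u := by linarith
    positivity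
  · intro a ha
    rw [hre]
    exact mul_lt_mul_of_pos_left (h1 a ha) ht
  · rw [hre]
    have : 0 < t * (f x - u) := mul_pos ht (by linarith)
    nlinarith

/-- a common positive lower bound -/
theorem tgn_lower {ι : Type*} (t : Finset ι) (r : ι → ℝ) (hr : ∀ i ∈ t, 0 < r i) :
    ∃ r₀ : ℝ, 0 < r₀ ∧ r₀ ≤ 1 ∧ ∀ i ∈ t, r₀ ≤ r i := by
  classical
  induction t using Finset.induction_on with
  | empty => exact ⟨1, one_pos, le_rfl, by simp⟩
  | insert i t _ ih =>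
    obtain ⟨r₀, h0, h1, h2⟩ := ih fun j hj => hr j (Finset.mem_insert_of_mem hj)
    refine ⟨min r₀ (r i), lt_min h0 (hr i (Finset.mem_insert_self _ _)),
      (min_le_left _ _).trans h1, fun j hj => ?_⟩
    rcases Finset.mem_insert.1 hj with rfl | hj
    · exact min_le_right _ _
    · exact (min_le_left _ _).trans (h2 j hj)

/-- a scale of open polytopes between `K` and `interior Kp` -/
theorem tg_poly_exists {K Kp : Set (TgX N)} (hK : IsCompact K) (hKc : Convex ℝ K)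
    (hKp : IsCompact Kp) (h : K ⊆ interior Kp) :
    ∃ (m : ℕ) (lam : Fin m → TgX N →L[ℂ] ℂ) (c : Fin m → ℝ) (r₀ : ℝ), 0 < r₀ ∧ r₀ ≤ 1 ∧
      (∀ k, ‖lam k‖ ≤ 1) ∧ K ⊆ tgPoly lam c 0 ∧ tgPoly lam c r₀ ⊆ interior Kp := by
  classical
  rcases K.eq_empty_or_nonempty with rfl | ⟨a₀, ha₀⟩
  · refine ⟨1, fun _ => 0, fun _ => -2, 1, one_pos, le_rfl, fun _ => by simp, empty_subset _, ?_⟩
    intro z hz
    have := hz 0
    simp only [_root_.zero_apply, Complex.zero_re] at this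
    norm_num at this
  have hT : IsCompact (frontier Kp) :=
    hKp.of_isClosed_subset isClosed_frontier
      (by rw [frontier_eq_closure_inter_closure, hKp.isClosed.closure_eq]; exact inter_subset_left)
  have hTK : ∀ x ∈ frontier Kp, x ∉ K := fun x hx hxK => hx.2 (h hxK)
  have key : ∀ x : ↥(frontier Kp), ∃ (ℓ : TgX N →L[ℂ] ℂ) (c r : ℝ), ‖ℓ‖ ≤ 1 ∧ 0 < r ∧
      (∀ a ∈ K, (ℓ a).re < c) ∧ c + r < (ℓ x).re := fun x =>
    tgn_sep hK.isClosed hKc (hTK x x.2)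
  choose ℓ c r hℓ hr hK1 hx1 using key
  obtain ⟨t, ht⟩ := hT.elim_nhds_subcover'
    (fun x hx => {y | c ⟨x, hx⟩ + r ⟨x, hx⟩ < (ℓ ⟨x, hx⟩ y).re})
    (fun x hx => (isOpen_lt continuous_const
      (Complex.continuous_re.comp (ℓ ⟨x, hx⟩).continuous)).mem_nhds (hx1 ⟨x, hx⟩))
  obtain ⟨r₀, hr0, hr1, hr2⟩ := tgn_lower t r fun i _ => hr i
  refine ⟨t.card, fun k => ℓ (t.equivFin.symm k).1, fun k => c (t.equivFin.symm k).1, r₀, hr0, hr1,
    fun k => hℓ _, fun a ha k => (hK1 _ a ha).trans_eq (add_zero _).symm, ?_⟩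
  obtain ⟨P, hP⟩ : ∃ P : Set (TgX N), P = tgPoly (fun k => ℓ (t.equivFin.symm k).1)
    (fun k => c (t.equivFin.symm k).1) r₀ := ⟨_, rfl⟩
  rw [← hP]
  have hPc : IsPreconnected P := by
    rw [hP]
    exact (tgn_convex _ _ _).isPreconnected
  have ha₀P : a₀ ∈ P := by
    rw [hP]
    intro k
    have := hK1 (t.equivFin.symm k).1 a₀ ha₀
    show (ℓ (t.equivFin.symm k).1 a₀).re < c (t.equivFin.symm k).1 + r₀
    linarith
  have hPF : ∀ y ∈ P, y ∉ frontier Kp := by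
    intro y hyP hyF'
    obtain ⟨x, hxt, hyx⟩ := Set.mem_iUnion₂.1 (ht hyF')
    have h1 : c x + r x < (ℓ x y).re := hyx
    rw [hP] at hyP
    have h2 := hyP (t.equivFin ⟨x, hxt⟩)
    simp only [Equiv.symm_apply_apply] at h2
    have h3 := hr2 x hxt
    linarith
  have hcase : ∀ y ∈ P, y ∈ interior Kp ∨ y ∈ Kpᶜ := by
    intro y hy
    by_cases hyi : y ∈ interior Kp
    · exact Or.inl hyi
    · refine Or.inr fun hyK => hPF y hy ⟨subset_closure hyK, hyi⟩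
  intro z hzP
  by_contra hzn
  have hzc : z ∈ Kpᶜ := (hcase z hzP).resolve_left hzn
  obtain ⟨y, -, hy1, hy2⟩ := hPc (interior Kp) Kpᶜ isOpen_interior hKp.isClosed.isOpen_compl
    hcase ⟨a₀, ha₀P, h ha₀⟩ ⟨z, hzP, hzc⟩
  exact hy2 (interior_subset hy1)

theorem tgn_le_rpow {α : ℝ} (hα0 : 0 < α) (hα1 : α ≤ 1) {R x : ℝ} (hx0 : 0 ≤ x) (hx : x ≤ 2 * R) :
    x ≤ (1 + 2 * R) * x ^ α := by
  have hR : 0 ≤ 2 * R := hx0.trans hx
  have hp : 0 ≤ x ^ α := Real.rpow_nonneg hx0 α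
  rcases le_total x 1 with h1 | h1
  · have h2 : x ^ (1 : ℝ) ≤ x ^ α := Real.rpow_le_rpow_of_exponent_ge' hx0 h1 hα0.le hα1
    rw [Real.rpow_one] at h2
    nlinarith
  · have h2 : 1 ≤ x ^ α := Real.one_le_rpow h1 hα0.le
    nlinarith

theorem tgn_convex_mid {Kp : Set (TgX N)} (hKc : Convex ℝ Kp) :
    Convex ℝ (Kp ∩ {x | (x 0).im = 0}) := by
  refine hKc.inter ?_
  intro x hx y hy a b _ _ _
  have hx' : (x 0).im = 0 := hx
  have hy' : (y 0).im = 0 := hy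
  show ((a • x + b • y) 0).im = 0
  simp [hx', hy']

/-- the field `E = G - s` -/
theorem tg_field_of_c1close {α : ℝ} (hα0 : 0 < α) (hα1 : α ≤ 1) {Kp D : Set (TgX N)} {R β e : ℝ}
    (hKc : Convex ℝ Kp) (hKR : Kp ⊆ closedBall 0 R) (hD : D ⊆ Kp) {G s : TgX N × V4 → V4}
    (hG : ∃ W : Set (TgX N × V4), IsOpen W ∧
      (Kp ∩ {x | (x 0).im = 0}) ×ˢ closedBall (0 : V4) β ⊆ W ∧ DifferentiableOn ℂ G W)
    (hs : ∃ W : Set (TgX N × V4), IsOpen W ∧
      (Kp ∩ {x | (x 0).im = 0}) ×ˢ closedBall (0 : V4) β ⊆ W ∧ DifferentiableOn ℂ s W)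
    (h : C1Close G s ((Kp ∩ {x | (x 0).im = 0}) ×ˢ closedBall (0 : V4) β) e) :
    TgField α D β (e * (1 + 2 * R)) (fun p => G p - s p) := by
  obtain ⟨W₁, hW₁o, hW₁s, hW₁d⟩ := hG
  obtain ⟨W₂, hW₂o, hW₂s, hW₂d⟩ := hs
  have hmid : tgMid D ⊆ Kp ∩ {x | (x 0).im = 0} := fun z hz => ⟨hD hz.1, hz.2⟩
  have hM : tgMid D ×ˢ closedBall (0 : V4) β ⊆ (Kp ∩ {x | (x 0).im = 0}) ×ˢ closedBall (0 : V4) β :=
    prod_mono hmid Subset.rfl
  have hnorm : ∀ z ∈ tgMid D, ‖z‖ ≤ R := by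
    intro z hz
    simpa using hKR (hD hz.1)
  refine ⟨⟨W₁ ∩ W₂, hW₁o.inter hW₂o, fun p hp => ⟨hW₁s (hM hp), hW₂s (hM hp)⟩,
    (hW₁d.mono inter_subset_left).sub (hW₂d.mono inter_subset_right)⟩, ?_, ?_⟩
  · intro z hz v hv
    have h1 := (h (z, v) (hM ⟨hz, hv⟩)).1
    have hR : 0 ≤ R := (norm_nonneg z).trans (hnorm z hz)
    have he : 0 ≤ e := (norm_nonneg _).trans h1.le
    nlinarith
  · intro z hz z' hz' v hv
    have hdG : ∀ x ∈ (Kp ∩ {x | (x 0).im = 0}) ×ˢ closedBall (0 : V4) β, DifferentiableAt ℂ G x :=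
      fun x hx => hW₁d.differentiableAt (hW₁o.mem_nhds (hW₁s hx))
    have hds : ∀ x ∈ (Kp ∩ {x | (x 0).im = 0}) ×ˢ closedBall (0 : V4) β, DifferentiableAt ℂ s x :=
      fun x hx => hW₂d.differentiableAt (hW₂o.mem_nhds (hW₂s hx))
    have hconv : Convex ℝ ((Kp ∩ {x | (x 0).im = 0}) ×ˢ closedBall (0 : V4) β) :=
      (tgn_convex_mid hKc).prod (convex_closedBall 0 β)
    have hm1 : ((z, v) : TgX N × V4) ∈ (Kp ∩ {x | (x 0).im = 0}) ×ˢ closedBall (0 : V4) β :=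
      hM (mk_mem_prod hz hv)
    have hm2 : ((z', v) : TgX N × V4) ∈ (Kp ∩ {x | (x 0).im = 0}) ×ˢ closedBall (0 : V4) β :=
      hM (mk_mem_prod hz' hv)
    have key := Convex.norm_image_sub_le_of_norm_fderiv_le (𝕜 := ℂ) (f := fun p => G p - s p)
      (C := e) (s := (Kp ∩ {x | (x 0).im = 0}) ×ˢ closedBall (0 : V4) β)
      (fun x hx => (hdG x hx).sub (hds x hx))
      (fun x hx => by
        rw [fderiv_fun_sub (hdG x hx) (hds x hx)]
        exact (h x hx).2.le)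
      hconv hm2 hm1
    have e1 : ‖((z, v) : TgX N × V4) - (z', v)‖ = ‖z - z'‖ := by
      rw [Prod.mk_sub_mk, sub_self, Prod.norm_mk, norm_zero]
      exact max_eq_left (norm_nonneg _)
    rw [e1] at key
    have he : 0 ≤ e := (norm_nonneg _).trans (h (z, v) hm1).1.le
    have hx : ‖z - z'‖ ≤ 2 * R := by
      have := norm_sub_le z z'
      have h1 := hnorm z hz
      have h2 := hnorm z' hz'
      linarith
    have h3 := tgn_le_rpow hα0 hα1 (norm_nonneg _) hx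
    calc _ ≤ e * ‖z - z'‖ := key
      _ ≤ e * ((1 + 2 * R) * ‖z - z'‖ ^ α) := mul_le_mul_of_nonneg_left h3 he
      _ = _ := by ring

end Claimed.Agent.R245
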