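/-
Row 245 / S0484, block S4-TG.  PACKAGE TG-FIELD: composition of the small field `E` with sections (architect: helper199).
Statements FROZEN; helper lemmas: prefix `tgf_`, in this file.  No paper.  Tools: R245/SCV (scv_norm_fderiv_le, scv_lipschitz, scv_taylor_one,
scv_analyticOnNhd), TGAlg.

`hE : TgField α D β e E`: `E` holomorphic near `tgMid D × closedBall 0 β`, `‖E‖ ≤ e`, `‖E (z,v) - E (z',v)‖ ≤ e ω`, `ω = ‖z - z'‖^α`.
For `z ∈ tgMid D`, `E_z := fun v => E (z, v)` is `DifferentiableOn ℂ` on `ball 0 β` (even near the closed ball), bounded by `e`;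
`E_z - E_z'` is bounded by `e ω`.   `tgN E a z = fderiv ℂ E_z (a z)`.

ROUTES.
(1) `tg_field_comp`: `‖E_z (a z) - E_z' (a z')‖ ≤ ‖(E_z - E_z') (a z)‖ + ‖E_z' (a z) - E_z' (a z')‖ ≤ e ω + (2 e / β) A ω` (scv_lipschitz on `ball 0 β`).
(2) `tg_field_N`: sup: scv_norm_fderiv_le: `≤ e / (β - ‖a z‖) ≤ 4e/(3β)`.  Hölder: `fderiv (E_z - E_z') (a z)` is `≤ e ω / (β - ‖a z‖)`;
    `v ↦ fderiv ℂ E_z' v` is holomorphic on `ball 0 (β/2)` (scv_analyticOnNhd + AnalyticOnNhd.fderiv), bounded there by `2e/β`, hence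
    `(8 e / β²)`-Lipschitz on `ball 0 (β/4)` (scv_lipschitz).  Total `≤ (4/3 + 2) (e/β) ω`.
(3) `tg_field_N_sub`, (4) `tg_field_taylor`: if `d = 0` then `δ = 0` on `tgMid D`: trivial.  Else `R₀ := β / (8 d) ≥ 8`.  For `|λ| < R₀` the section
    `a + λ δ` satisfies `TgHol α (tgMid D) A'` with `A' = A + |λ| d < β/4`.  Fix `z, z'`.
    (3): `Ψ_z λ := fderiv ℂ E_z (a z + λ δ z)`; `Ψ_z` and `Ψ_z - Ψ_z'` are holomorphic on `ball 0 R₀ ⊆ ℂ`, bounded by `8e/β` resp. `(8e/β) ω` by (2);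
         scv_lipschitz (points `1, 0 ∈ ball 0 (R₀/2)`): `‖g 1 - g 0‖ ≤ 2 M / R₀ = 16 M d / β`.
    (4): `ψ_z λ := E_z (a z + λ δ z)`; `ψ_z`, `ψ_z - ψ_z'` bounded by `2e`, `2 e ω` by (1); scv_taylor_one: `‖g 1 - g 0 - deriv g 0‖ ≤ 8 M / R₀²`;
         `deriv ψ_z 0 = tgN E a z (δ z)` (chain rule).
(CR): `E` is differentiable at `(x, a x)`, `x ∈ tgMid D`; `fderiv ℂ E_x (a x) = (fderiv ℂ E (x, a x)).comp (ContinuousLinearMap.inr ℂ _ _)` and `fderiv ℂ E` is
    differentiable on the open set `W` (scv_analyticOnNhd); compose with `z ↦ (update z 0 t, a (update z 0 t))`.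
-/
import Claimed.Agent.R245.TGAlg

set_option autoImplicit false

namespace Claimed.Agent.R245

open Metric Set

variable {N : ℕ} {α β e A d : ℝ} {D : Set (TgX N)} {E : TgX N × V4 → V4} {a δ : TgX N → V4}

theorem tgf_diffAt (hE : TgField α D β e E) {z : TgX N} (hz : z ∈ tgMid D) {v : V4} (hv : ‖v‖ ≤ β) :
    DifferentiableAt ℂ E (z, v) := by
  obtain ⟨W, hW, hsub, hd⟩ := hE.hol
  have hm : (z, v) ∈ W := hsub ⟨hz, mem_closedBall_zero_iff.2 hv⟩
  exact (hd (z, v) hm).differentiableAt (hW.mem_nhds hm)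

theorem tgf_hasFDerivAt_fib (hE : TgField α D β e E) {z : TgX N} (hz : z ∈ tgMid D) {v : V4}
    (hv : ‖v‖ ≤ β) : HasFDerivAt (fun v => E (z, v))
      ((fderiv ℂ E (z, v)).comp (ContinuousLinearMap.inr ℂ (TgX N) V4)) v :=
  (tgf_diffAt hE hz hv).hasFDerivAt.comp v (hasFDerivAt_prodMk_right z v)

theorem tgf_diffOn (hE : TgField α D β e E) {z : TgX N} (hz : z ∈ tgMid D) :
    DifferentiableOn ℂ (fun v => E (z, v)) (ball 0 β) := fun v hv =>
  (tgf_hasFDerivAt_fib hE hz (mem_ball_zero_iff.1 hv).le).differentiableAt.differentiableWithinAt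

theorem tgf_diffOn_fderiv (hE : TgField α D β e E) {z : TgX N} (hz : z ∈ tgMid D) :
    DifferentiableOn ℂ (fderiv ℂ (fun v => E (z, v))) (ball 0 β) :=
  ((scv_analyticOnNhd isOpen_ball (tgf_diffOn hE hz)).fderiv).differentiableOn

theorem tgf_e_nonneg (hβ : 0 < β) (hE : TgField α D β e E) {z : TgX N} (hz : z ∈ tgMid D) : 0 ≤ e :=
  (norm_nonneg _).trans (hE.bd z hz 0 (mem_closedBall_self hβ.le))

theorem tgf_core1 (hE : TgField α D β e E) {z z' : TgX N} (hz : z ∈ tgMid D)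
    (hz' : z' ∈ tgMid D) {v v' : V4} (hv : ‖v‖ < β / 2) (hv' : ‖v'‖ < β / 2) :
    ‖E (z, v) - E (z', v')‖ ≤ e * ‖z - z'‖ ^ α + 2 * e / β * ‖v - v'‖ := by
  have hβ : 0 < β := by linarith [norm_nonneg v]
  have h1 : ‖E (z, v) - E (z', v)‖ ≤ e * ‖z - z'‖ ^ α :=
    hE.hl z hz z' hz' v (mem_closedBall_zero_iff.2 (by linarith))
  have h2 := scv_lipschitz (g := fun v => E (z', v)) (c := 0) (β := β) (M := e) (tgf_diffOn hE hz')
    (fun w hw => hE.bd z' hz' w (ball_subset_closedBall hw)) (v₁ := v) (v₂ := v')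
    (mem_ball_zero_iff.2 hv) (mem_ball_zero_iff.2 hv')
  calc ‖E (z, v) - E (z', v')‖ = ‖(E (z, v) - E (z', v)) + (E (z', v) - E (z', v'))‖ := by
        congr 1; abel
    _ ≤ _ := (norm_add_le _ _).trans (add_le_add h1 h2)

theorem tgf_fderiv_le (hE : TgField α D β e E) {z : TgX N} (hz : z ∈ tgMid D) {v : V4} {r : ℝ}
    (hv : ‖v‖ ≤ r) (hr : r < β) : ‖fderiv ℂ (fun v => E (z, v)) v‖ ≤ e / (β - r) := by
  have hβ : 0 < β := by linarith [norm_nonneg v]
  have he := tgf_e_nonneg hβ hE hz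
  have h := scv_norm_fderiv_le (g := fun v => E (z, v)) (c := 0) (β := β) (M := e) (tgf_diffOn hE hz)
    (fun w hw => hE.bd z hz w (ball_subset_closedBall hw)) (v := v)
    (mem_ball_zero_iff.2 (by linarith))
  refine h.trans (div_le_div_of_nonneg_left he (by linarith) ?_)
  rw [dist_zero_right]; linarith

theorem tgf_core2 (hE : TgField α D β e E) {z z' : TgX N} (hz : z ∈ tgMid D)
    (hz' : z' ∈ tgMid D) {v v' : V4} (hv : ‖v‖ < β / 4) (hv' : ‖v'‖ < β / 4) :
    ‖fderiv ℂ (fun v => E (z, v)) v - fderiv ℂ (fun v => E (z', v)) v'‖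
      ≤ 4 / 3 * (e / β) * ‖z - z'‖ ^ α + 8 * e / β ^ 2 * ‖v - v'‖ := by
  have hβ : 0 < β := by linarith [norm_nonneg v]
  have he := tgf_e_nonneg hβ hE hz
  have hω : 0 ≤ ‖z - z'‖ ^ α := Real.rpow_nonneg (norm_nonneg _) _
  have hvβ : ‖v‖ ≤ β := by linarith
  have h1 : ‖fderiv ℂ (fun v => E (z, v)) v - fderiv ℂ (fun v => E (z', v)) v‖
      ≤ 4 / 3 * (e / β) * ‖z - z'‖ ^ α := by
    have e1 : fderiv ℂ (fun v => E (z, v)) v - fderiv ℂ (fun v => E (z', v)) v
        = fderiv ℂ (fun w => E (z, w) - E (z', w)) v :=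
      ((tgf_hasFDerivAt_fib hE hz hvβ).differentiableAt.hasFDerivAt.sub
        (tgf_hasFDerivAt_fib hE hz' hvβ).differentiableAt.hasFDerivAt).fderiv.symm
    rw [e1]
    have h := scv_norm_fderiv_le (g := fun w => E (z, w) - E (z', w)) (c := 0) (β := β)
      (M := e * ‖z - z'‖ ^ α) ((tgf_diffOn hE hz).sub (tgf_diffOn hE hz'))
      (fun w hw => hE.hl z hz z' hz' w (ball_subset_closedBall hw)) (v := v)
      (mem_ball_zero_iff.2 (by linarith))
    refine h.trans ?_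
    rw [dist_zero_right]
    calc e * ‖z - z'‖ ^ α / (β - ‖v‖) ≤ e * ‖z - z'‖ ^ α / (3 / 4 * β) :=
          div_le_div_of_nonneg_left (mul_nonneg he hω) (by positivity) (by linarith)
      _ = _ := by field_simp
  have h2 := scv_lipschitz (g := fderiv ℂ (fun v => E (z', v))) (c := 0) (β := β / 2) (M := 2 * e / β)
    ((tgf_diffOn_fderiv hE hz').mono (ball_subset_ball (by linarith)))
    (fun w hw => by
      have := tgf_fderiv_le hE hz' (v := w) (r := β / 2) (mem_ball_zero_iff.1 hw).le (by linarith)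
      refine this.trans (le_of_eq ?_)
      field_simp; ring)
    (v₁ := v) (v₂ := v') (mem_ball_zero_iff.2 (by linarith)) (mem_ball_zero_iff.2 (by linarith))
  have e2 : 2 * (2 * e / β) / (β / 2) = 8 * e / β ^ 2 := by field_simp; ring
  rw [e2] at h2
  calc _ = ‖(fderiv ℂ (fun v => E (z, v)) v - fderiv ℂ (fun v => E (z', v)) v)
        + (fderiv ℂ (fun v => E (z', v)) v - fderiv ℂ (fun v => E (z', v)) v')‖ := by
        congr 1; abel
    _ ≤ _ := (norm_add_le _ _).trans (add_le_add h1 h2)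

/-- (1), pointwise -/
theorem tgf_comp_pt (hE : TgField α D β e E) {z z' : TgX N} (hz : z ∈ tgMid D)
    (hz' : z' ∈ tgMid D) {v v' : V4} (hv : ‖v‖ < β / 4) (hv' : ‖v'‖ < β / 4)
    (hvv : ‖v - v'‖ ≤ β / 4 * ‖z - z'‖ ^ α) :
    ‖E (z, v) - E (z', v')‖ ≤ 2 * e * ‖z - z'‖ ^ α := by
  have hβ : 0 < β := by linarith [norm_nonneg v]
  have he := tgf_e_nonneg hβ hE hz
  have hω : 0 ≤ ‖z - z'‖ ^ α := Real.rpow_nonneg (norm_nonneg _) _
  have h := tgf_core1 hE hz hz' (v := v) (v' := v') (by linarith) (by linarith)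
  have h2 : 2 * e / β * ‖v - v'‖ ≤ 2 * e / β * (β / 4 * ‖z - z'‖ ^ α) :=
    mul_le_mul_of_nonneg_left hvv (by positivity)
  have e1 : 2 * e / β * (β / 4 * ‖z - z'‖ ^ α) = e / 2 * ‖z - z'‖ ^ α := by field_simp; ring
  have := mul_nonneg he hω
  nlinarith

/-- (2), pointwise -/
theorem tgf_N_pt (hE : TgField α D β e E) {z z' : TgX N} (hz : z ∈ tgMid D)
    (hz' : z' ∈ tgMid D) {v v' : V4} (hv : ‖v‖ < β / 4) (hv' : ‖v'‖ < β / 4)
    (hvv : ‖v - v'‖ ≤ β / 4 * ‖z - z'‖ ^ α) :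
    ‖fderiv ℂ (fun v => E (z, v)) v - fderiv ℂ (fun v => E (z', v)) v'‖
      ≤ 8 * e / β * ‖z - z'‖ ^ α := by
  have hβ : 0 < β := by linarith [norm_nonneg v]
  have he := tgf_e_nonneg hβ hE hz
  have hω : 0 ≤ ‖z - z'‖ ^ α := Real.rpow_nonneg (norm_nonneg _) _
  have h := tgf_core2 hE hz hz' hv hv'
  have h2 : 8 * e / β ^ 2 * ‖v - v'‖ ≤ 8 * e / β ^ 2 * (β / 4 * ‖z - z'‖ ^ α) :=
    mul_le_mul_of_nonneg_left hvv (by positivity)
  have e1 : 8 * e / β ^ 2 * (β / 4 * ‖z - z'‖ ^ α) = 2 * (e / β) * ‖z - z'‖ ^ α := by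
    field_simp; ring
  have e2 : 8 * e / β * ‖z - z'‖ ^ α = 8 * (e / β) * ‖z - z'‖ ^ α := by ring
  have := mul_nonneg (div_nonneg he hβ.le) hω
  rw [e2]
  nlinarith

theorem tgf_N_sup (hE : TgField α D β e E) {z : TgX N} (hz : z ∈ tgMid D) {v : V4}
    (hv : ‖v‖ < β / 4) : ‖fderiv ℂ (fun v => E (z, v)) v‖ ≤ 8 * e / β := by
  have hβ : 0 < β := by linarith [norm_nonneg v]
  have he := tgf_e_nonneg hβ hE hz
  refine (tgf_fderiv_le hE hz (r := β / 4) hv.le (by linarith)).trans ?_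
  rw [div_le_div_iff₀ (by linarith) hβ]
  nlinarith

/-- (1) -/
theorem tg_field_comp (hβ : 0 < β) (hE : TgField α D β e E) (ha : TgHol α (tgMid D) A a)
    (hA : A < β / 4) : TgHol α (tgMid D) (2 * e) (fun z => E (z, a z)) := by
  refine ⟨fun z hz => ?_, fun z hz z' hz' => ?_⟩
  · have he := tgf_e_nonneg hβ hE hz
    have := hE.bd z hz (a z) (mem_closedBall_zero_iff.2 (by linarith [ha.1 z hz]))
    linarith
  · refine tgf_comp_pt hE hz hz' (by linarith [ha.1 z hz]) (by linarith [ha.1 z' hz']) ?_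
    exact (ha.2 z hz z' hz').trans
      (mul_le_mul_of_nonneg_right hA.le (Real.rpow_nonneg (norm_nonneg _) _))

/-- (2) -/
theorem tg_field_N (hβ : 0 < β) (hE : TgField α D β e E) (ha : TgHol α (tgMid D) A a)
    (hA : A < β / 4) : TgHol α (tgMid D) (8 * e / β) (tgN E a) := by
  refine ⟨fun z hz => tgf_N_sup hE hz (by linarith [ha.1 z hz]), fun z hz z' hz' => ?_⟩
  refine tgf_N_pt hE hz hz' (by linarith [ha.1 z hz]) (by linarith [ha.1 z' hz']) ?_
  exact (ha.2 z hz z' hz').trans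
    (mul_le_mul_of_nonneg_right hA.le (Real.rpow_nonneg (norm_nonneg _) _))


theorem tgf_differentiable_update (c : ℂ) :
    Differentiable ℂ (fun z : TgX N => Function.update z 0 c) := by
  rw [differentiable_pi]
  intro i
  by_cases hi : i = 0
  · subst hi; simp
  · simp only [Function.update_of_ne hi]
    exact differentiable_apply i

theorem tgf_update_mem {z : TgX N} {t : ℝ} (hz : Function.update z 0 (t : ℂ) ∈ D) :
    Function.update z 0 (t : ℂ) ∈ tgMid D := ⟨hz, by simp⟩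

/-- (1), CR part -/
theorem tg_field_comp_cr (hE : TgField α D β e E) (ha : TgCR D a)
    (hA : ∀ z ∈ tgMid D, ‖a z‖ ≤ β) : TgCR D (fun z => E (z, a z)) := by
  intro t z hz
  have hx := tgf_update_mem hz
  have h1 := tgf_diffAt hE hx (hA _ hx)
  have h2 : DifferentiableWithinAt ℂ
      (fun z => (Function.update z 0 (t : ℂ), a (Function.update z 0 (t : ℂ))))
      {z | Function.update z 0 (t : ℂ) ∈ D} z :=
    ((tgf_differentiable_update (t : ℂ)) z).differentiableWithinAt.prodMk (ha t z hz)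
  exact h1.comp_differentiableWithinAt z h2

/-- (2), CR part -/
theorem tg_field_N_cr (hE : TgField α D β e E) (ha : TgCR D a)
    (hA : ∀ z ∈ tgMid D, ‖a z‖ ≤ β) : TgCR D (tgN E a) := by
  intro t
  obtain ⟨W, hW, hsub, hd⟩ := hE.hol
  have hfd : DifferentiableOn ℂ (fderiv ℂ E) W := ((scv_analyticOnNhd hW hd).fderiv).differentiableOn
  have key : DifferentiableOn ℂ (fun z => (fderiv ℂ E (Function.update z 0 (t : ℂ),
      a (Function.update z 0 (t : ℂ)))).comp (ContinuousLinearMap.inr ℂ (TgX N) V4))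
      {z | Function.update z 0 (t : ℂ) ∈ D} := by
    intro z hz
    have hx := tgf_update_mem hz
    have hm : (Function.update z 0 (t : ℂ), a (Function.update z 0 (t : ℂ))) ∈ W :=
      hsub ⟨hx, mem_closedBall_zero_iff.2 (hA _ hx)⟩
    have h1 : DifferentiableAt ℂ (fderiv ℂ E)
        (Function.update z 0 (t : ℂ), a (Function.update z 0 (t : ℂ))) :=
      (hfd _ hm).differentiableAt (hW.mem_nhds hm)
    have h2 : DifferentiableWithinAt ℂ
        (fun z => (Function.update z 0 (t : ℂ), a (Function.update z 0 (t : ℂ))))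
        {z | Function.update z 0 (t : ℂ) ∈ D} z :=
      ((tgf_differentiable_update (t : ℂ)) z).differentiableWithinAt.prodMk (ha t z hz)
    exact (h1.comp_differentiableWithinAt z h2).clm_comp (differentiableWithinAt_const _)
  refine key.congr fun z hz => ?_
  have hx := tgf_update_mem hz
  exact (tgf_hasFDerivAt_fib hE hx (hA _ hx)).fderiv

theorem tgf_lip_one {G : Type*} [NormedAddCommGroup G] [NormedSpace ℂ G] [CompleteSpace G] {g : ℂ → G}
    {R₀ M : ℝ} (hR : 8 ≤ R₀) (hg : DifferentiableOn ℂ g (ball 0 R₀))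
    (hM : ∀ l ∈ ball (0 : ℂ) R₀, ‖g l‖ ≤ M) : ‖g 1 - g 0‖ ≤ 2 * M / R₀ := by
  have := scv_lipschitz hg hM (v₁ := 1) (v₂ := 0) (by simp; linarith) (by simp; linarith)
  simpa using this

theorem tgf_line_norm (ha : TgHol α (tgMid D) A a) (hA : A ≤ β / 8) (hδ : TgHol α (tgMid D) d δ)
    (hd0 : 0 < d) {z : TgX N} (hz : z ∈ tgMid D) {l : ℂ} (hl : l ∈ ball (0 : ℂ) (β / (8 * d))) :
    ‖a z + l • δ z‖ < β / 4 := by
  rw [mem_ball_zero_iff, lt_div_iff₀ (by positivity)] at hl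
  have h1 : ‖l • δ z‖ ≤ ‖l‖ * d := by
    rw [norm_smul]; exact mul_le_mul_of_nonneg_left (hδ.1 z hz) (norm_nonneg _)
  have := norm_add_le (a z) (l • δ z)
  have := ha.1 z hz
  linarith

theorem tgf_line_sub (ha : TgHol α (tgMid D) A a) (hA : A ≤ β / 8) (hδ : TgHol α (tgMid D) d δ)
    (hd0 : 0 < d) {z z' : TgX N} (hz : z ∈ tgMid D) (hz' : z' ∈ tgMid D) {l : ℂ}
    (hl : l ∈ ball (0 : ℂ) (β / (8 * d))) :
    ‖(a z + l • δ z) - (a z' + l • δ z')‖ ≤ β / 4 * ‖z - z'‖ ^ α := by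
  rw [mem_ball_zero_iff, lt_div_iff₀ (by positivity)] at hl
  have hω : 0 ≤ ‖z - z'‖ ^ α := Real.rpow_nonneg (norm_nonneg _) _
  have e1 : (a z + l • δ z) - (a z' + l • δ z') = (a z - a z') + l • (δ z - δ z') := by
    rw [smul_sub]; abel
  have h1 : ‖l • (δ z - δ z')‖ ≤ ‖l‖ * (d * ‖z - z'‖ ^ α) := by
    rw [norm_smul]; exact mul_le_mul_of_nonneg_left (hδ.2 z hz z' hz') (norm_nonneg _)
  have h2 := ha.2 z hz z' hz'
  have h3 : A * ‖z - z'‖ ^ α ≤ β / 8 * ‖z - z'‖ ^ α := mul_le_mul_of_nonneg_right hA hω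
  have h4 : ‖l‖ * (d * ‖z - z'‖ ^ α) ≤ β / 8 * ‖z - z'‖ ^ α := by
    rw [← mul_assoc]; exact mul_le_mul_of_nonneg_right (by linarith) hω
  rw [e1]
  have := norm_add_le (a z - a z') (l • (δ z - δ z'))
  linarith

theorem tgf_differentiable_line (u w : V4) : Differentiable ℂ (fun l : ℂ => u + l • w) := by
  fun_prop

theorem tgf_R₀_ge (hβ : 0 < β) (hd0 : 0 < d) (hd : d ≤ β / 64) : 8 ≤ β / (8 * d) := by
  rw [le_div_iff₀ (by positivity)]; linarith

/-- (3) -/
theorem tg_field_N_sub (hβ : 0 < β) (hE : TgField α D β e E) (ha : TgHol α (tgMid D) A a)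
    (hA : A ≤ β / 8) (hδ : TgHol α (tgMid D) d δ) (hd : d ≤ β / 64) :
    TgHol α (tgMid D) (200 * e * d / β ^ 2)
      (fun z => tgN E (fun x => a x + δ x) z - tgN E a z) := by
  by_cases hd0 : 0 < d
  · have hR := tgf_R₀_ge hβ hd0 hd
    have hdiff : ∀ z ∈ tgMid D, DifferentiableOn ℂ
        (fun l : ℂ => fderiv ℂ (fun v => E (z, v)) (a z + l • δ z)) (ball 0 (β / (8 * d))) := by
      intro z hz
      refine (tgf_diffOn_fderiv hE hz).comp (tgf_differentiable_line (a z) (δ z)).differentiableOn ?_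
      intro l hl
      rw [mem_ball_zero_iff]
      linarith [tgf_line_norm ha hA hδ hd0 hz hl]
    have hnum : 0 ≤ e → ∀ x : ℝ, 0 ≤ x →
        2 * (8 * e / β * x) / (β / (8 * d)) ≤ 200 * e * d / β ^ 2 * x := by
      intro he x hx
      have e1 : 2 * (8 * e / β * x) / (β / (8 * d)) = 128 * e * d / β ^ 2 * x := by
        field_simp; ring
      rw [e1]
      refine mul_le_mul_of_nonneg_right ?_ hx
      refine div_le_div_of_nonneg_right ?_ (by positivity)
      nlinarith [mul_nonneg he hd0.le]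
    refine ⟨fun z hz => ?_, fun z hz z' hz' => ?_⟩
    · have h := tgf_lip_one hR (hdiff z hz) (M := 8 * e / β * 1)
        (fun l hl => by rw [mul_one]; exact tgf_N_sup hE hz (tgf_line_norm ha hA hδ hd0 hz hl))
      have h2 := h.trans (hnum (tgf_e_nonneg hβ hE hz) 1 zero_le_one)
      simpa [tgN] using h2
    · have hω : 0 ≤ ‖z - z'‖ ^ α := Real.rpow_nonneg (norm_nonneg _) _
      have h := tgf_lip_one hR ((hdiff z hz).sub (hdiff z' hz')) (M := 8 * e / β * ‖z - z'‖ ^ α)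
        (fun l hl => tgf_N_pt hE hz hz' (tgf_line_norm ha hA hδ hd0 hz hl)
          (tgf_line_norm ha hA hδ hd0 hz' hl) (tgf_line_sub ha hA hδ hd0 hz hz' hl))
      have h2 := h.trans (hnum (tgf_e_nonneg hβ hE hz) _ hω)
      refine le_trans (le_of_eq ?_) h2
      simp only [tgN, one_smul, zero_smul, add_zero, Pi.sub_apply]
      congr 1
      abel
  · have hδ0 : ∀ z ∈ tgMid D, δ z = 0 := fun z hz =>
      norm_le_zero_iff.1 ((hδ.1 z hz).trans (not_lt.1 hd0))
    have hd' : ∀ z ∈ tgMid D, d = 0 := fun z hz =>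
      le_antisymm (not_lt.1 hd0) ((norm_nonneg _).trans (hδ.1 z hz))
    refine ⟨fun z hz => ?_, fun z hz z' hz' => ?_⟩
    · simp [tgN, hδ0 z hz, hd' z hz]
    · simp [tgN, hδ0 z hz, hδ0 z' hz', hd' z hz]


theorem tgf_hasDerivAt_line (hE : TgField α D β e E) {z : TgX N} (hz : z ∈ tgMid D) {u w : V4}
    (hu : ‖u‖ ≤ β) : HasDerivAt (fun l : ℂ => E (z, u + l • w))
      (fderiv ℂ (fun v => E (z, v)) u w) 0 := by
  have h1 : HasDerivAt (fun l : ℂ => u + l • w) w 0 := by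
    have := ((hasDerivAt_id (0 : ℂ)).smul_const w).const_add u
    simpa using this
  have h2 : HasFDerivAt (fun v => E (z, v)) (fderiv ℂ (fun v => E (z, v)) u) (u + (0 : ℂ) • w) := by
    rw [zero_smul, add_zero]
    exact (tgf_hasFDerivAt_fib hE hz hu).differentiableAt.hasFDerivAt
  exact h2.comp_hasDerivAt (0 : ℂ) h1

/-- (4) -/
theorem tg_field_taylor (hβ : 0 < β) (hE : TgField α D β e E) (ha : TgHol α (tgMid D) A a)
    (hA : A ≤ β / 8) (hδ : TgHol α (tgMid D) d δ) (hd : d ≤ β / 64) :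
    TgHol α (tgMid D) (4000 * e * d ^ 2 / β ^ 2)
      (fun z => E (z, a z + δ z) - E (z, a z) - tgN E a z (δ z)) := by
  by_cases hd0 : 0 < d
  · have hR := tgf_R₀_ge hβ hd0 hd
    have hdiff : ∀ z ∈ tgMid D, DifferentiableOn ℂ
        (fun l : ℂ => E (z, a z + l • δ z)) (ball 0 (β / (8 * d))) := by
      intro z hz
      refine (tgf_diffOn hE hz).comp (tgf_differentiable_line (a z) (δ z)).differentiableOn ?_
      intro l hl
      rw [mem_ball_zero_iff]
      linarith [tgf_line_norm ha hA hδ hd0 hz hl]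
    have hnum : 0 ≤ e → ∀ x : ℝ, 0 ≤ x →
        8 * (2 * e * x) / (β / (8 * d)) ^ 2 ≤ 4000 * e * d ^ 2 / β ^ 2 * x := by
      intro he x hx
      have e1 : 8 * (2 * e * x) / (β / (8 * d)) ^ 2 = 1024 * e * d ^ 2 / β ^ 2 * x := by
        field_simp; ring
      rw [e1]
      refine mul_le_mul_of_nonneg_right ?_ hx
      refine div_le_div_of_nonneg_right ?_ (by positivity)
      nlinarith [mul_nonneg he (sq_nonneg d)]
    have haβ : ∀ z ∈ tgMid D, ‖a z‖ ≤ β := fun z hz => by linarith [ha.1 z hz]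
    refine ⟨fun z hz => ?_, fun z hz z' hz' => ?_⟩
    · have he := tgf_e_nonneg hβ hE hz
      have h := scv_taylor_one (φ := fun l : ℂ => E (z, a z + l • δ z)) (ρ := β / (8 * d))
        (M := 2 * e * 1) (by linarith) (hdiff z hz) (fun l hl => by
          have := hE.bd z hz (a z + l • δ z) (mem_closedBall_zero_iff.2
            (by linarith [tgf_line_norm ha hA hδ hd0 hz hl]))
          linarith)
      rw [(tgf_hasDerivAt_line hE hz (haβ z hz)).deriv] at h
      have h2 := h.trans (hnum he 1 zero_le_one)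
      simpa [tgN] using h2
    · have he := tgf_e_nonneg hβ hE hz
      have hω : 0 ≤ ‖z - z'‖ ^ α := Real.rpow_nonneg (norm_nonneg _) _
      have h := scv_taylor_one
        (φ := fun l : ℂ => E (z, a z + l • δ z) - E (z', a z' + l • δ z')) (ρ := β / (8 * d))
        (M := 2 * e * ‖z - z'‖ ^ α) (by linarith) ((hdiff z hz).sub (hdiff z' hz'))
        (fun l hl => tgf_comp_pt hE hz hz' (tgf_line_norm ha hA hδ hd0 hz hl)
          (tgf_line_norm ha hA hδ hd0 hz' hl) (tgf_line_sub ha hA hδ hd0 hz hz' hl))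
      have hder : deriv (fun l : ℂ => E (z, a z + l • δ z) - E (z', a z' + l • δ z')) 0
          = fderiv ℂ (fun v => E (z, v)) (a z) (δ z) - fderiv ℂ (fun v => E (z', v)) (a z') (δ z') :=
        ((tgf_hasDerivAt_line hE hz (w := δ z) (haβ z hz)).fun_sub
          (tgf_hasDerivAt_line hE hz' (w := δ z') (haβ z' hz'))).deriv
      rw [hder] at h
      have h2 := h.trans (hnum he _ hω)
      refine le_trans (le_of_eq ?_) h2
      simp only [tgN, one_smul, zero_smul, add_zero]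
      congr 1
      abel
  · have hδ0 : ∀ z ∈ tgMid D, δ z = 0 := fun z hz =>
      norm_le_zero_iff.1 ((hδ.1 z hz).trans (not_lt.1 hd0))
    have hd' : ∀ z ∈ tgMid D, d = 0 := fun z hz =>
      le_antisymm (not_lt.1 hd0) ((norm_nonneg _).trans (hδ.1 z hz))
    refine ⟨fun z hz => ?_, fun z hz z' hz' => ?_⟩
    · simp [hδ0 z hz, hd' z hz]
    · simp [hδ0 z hz, hδ0 z' hz', hd' z hz]

theorem TgField.mono {D' : Set (TgX N)} {e' : ℝ} (hE : TgField α D β e E) (hD : D' ⊆ D)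
    (he : e ≤ e') : TgField α D' β e' E := by
  obtain ⟨W, hW, hsub, hd⟩ := hE.hol
  refine ⟨⟨W, hW, (prod_mono (tgMid_mono hD) subset_rfl).trans hsub, hd⟩, ?_, ?_⟩
  · exact fun z hz v hv => (hE.bd z (tgMid_mono hD hz) v hv).trans he
  · exact fun z hz z' hz' v hv => (hE.hl z (tgMid_mono hD hz) z' (tgMid_mono hD hz') v hv).trans
      (mul_le_mul_of_nonneg_right he (Real.rpow_nonneg (norm_nonneg _) _))

end Claimed.Agent.R245
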