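/-
Row 245 / S0484, block S4-TG.  PACKAGE TG-STEP: one step of the Newton scheme for sections + frames (architect: helper199).
Statement FROZEN; helper lemmas: prefix `tgs_`, in this file.  No paper.  Black boxes: TGAlg (algebra of the classes), TGField (1)-(4).

We want `am = ap + E (z, ap)` on the interface.  State on `D`: sections `a± = ap, am` (class bound `A ≤ β/16`), frames `B± = Bp, Bm` (`B± - 1` of class
`b ≤ 1/4`), defects on `tgMid D`:   `ρ = a⁺ + E(·,a⁺) - a⁻`,   `Z = (1 + N) B⁺ - B⁻`,  `N = tgN E a⁺`,   both `TgHol ε`.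

THE STEP  (all products of classes cost a factor 2: `TgCls.clm_apply`, `TgCls.mul`).
 0. `B±` have class `1 + b ≤ 5/4` (`TgCls.one_add`).  `P⁻ := Ring.inverse (B⁻ ·)`: `P⁻ - 1` of class `4 b ≤ 1` on the lower side (`TgCls.inverse`), so `P⁻` of class `2`;
    `B⁻ P⁻ = 1` on `tgLo D` (`TgHol.isUnit`).   `ρ`, `Z` are `TgCR` (TgCR.add/sub/mul, tg_field_comp_cr, tg_field_N_cr), so they are traces (`tgTr_mk`).
 1. `y := - P⁻ ρ`  trace on `D`, bound `4 ε`.   First splitting (`TgSplit α D D' V4 Λ`): `dp - dm = y` on `tgMid D'`, classes `4 Λ ε` on `D'`.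
 2. `δ± := B± d±` classes `10 Λ ε =: d₀` on `D'`;   `a'± := a± + δ±`.
    On `tgMid D'`:   `ρ' = ρ + δ⁺ - δ⁻ + N δ⁺ + T₂ = ρ + (Z + B⁻) dp - B⁻ dm + T₂ = ρ + B⁻ y + Z dp + T₂ = Z dp + T₂`,
    `T₂ = E(a⁺+δ⁺) - E(a⁺) - N δ⁺` (tg_field_taylor: `4000 e d₀²/β²`).   So `ρ'` is `TgHol (8 Λ ε² + 4·10⁵ e Λ² ε²/β²)`.
 3. `N' := tgN E a'⁺`, `N' - N` is `TgHol (200 e d₀/β²)` (tg_field_N_sub).  `Z₁ := (1 + N') B⁺ - B⁻ = Z + (N' - N) B⁺`: `TgHol ζ`, `ζ = ε + 5000 e Λ ε/β²`; it is a trace on `D'`.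
 4. `Y := - P⁻ Z₁` trace on `D'`, bound `4 ζ`.  Second splitting (`TgSplit α D' D'' TgL Λ`): `Cp - Cm = Y` on `tgMid D''`, classes `4 Λ ζ`.
 5. `B'± := B± (1 + C±)`:  `B'± - 1 = (B± - 1) + B± C±` of class `b + 10 Λ ζ`.
    On `tgMid D''`:  `Z' = (1+N') B⁺ (1 + Cp) - B⁻ (1 + Cm) = Z₁ + (Z₁ + B⁻) Cp - B⁻ Cm = Z₁ + B⁻ Y + Z₁ Cp = Z₁ Cp`:  `TgHol (8 Λ ζ²)`.
 With `e ≤ 1`, `Λ ≥ 1`:  all increments are `≤ K Λ ε`, `K Λ² ε`, the new defects `≤ K Λ³ ε²` for `K = K(β)` large (e.g. `K = 10⁹ (1 + 1/β)⁴`);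
 `K Λ² ε ≤ 1` gives `d₀ = 10 Λ ε ≤ β/64` (take `K ≥ 640/β`).  The hypotheses of TGField hold: `A ≤ β/16 ≤ β/8`, `A + d₀ < β/4`.
-/
import Claimed.Agent.R245.TGField

set_option autoImplicit false

namespace Claimed.Agent.R245

open Metric Set

section tgs

variable {N : ℕ} {α β e Λ A b ε d : ℝ} {D D' D'' : Set (TgX N)} {E : TgX N × V4 → V4}
  {ap am δp : TgX N → V4} {Bp Bm : TgX N → TgL}

theorem tgs_inv (hB : TgLoC α D b (fun z => Bm z - 1)) (hb : b ≤ 1 / 4) :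
    TgLoC α D 2 (fun z => Ring.inverse (Bm z)) ∧
      ∀ z ∈ tgLo D, Bm z * Ring.inverse (Bm z) = 1 := by
  have h1 : TgCls α (tgLoo D) (tgLo D) D (4 * b) (fun z => Ring.inverse (Bm z) - 1) :=
    TgCls.inverse hB (by linarith) (tgLoo_subset_tgLo D) (tgMid_subset_tgLo D)
  have h2 : TgCls α (tgLoo D) (tgLo D) D (1 + 4 * b) (fun z => Ring.inverse (Bm z)) :=
    TgCls.one_add (Q := fun z => Ring.inverse (Bm z)) h1
  exact ⟨TgCls.mono h2 subset_rfl subset_rfl subset_rfl (by linarith),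
    fun z hz => ((TgHol.isUnit (TgCls.bd hB) (by linarith)) z hz).2.1⟩

theorem tgs_one_up (hB : TgUpC α D b (fun z => Bp z - 1)) (hb : b ≤ 1 / 4) :
    TgUpC α D (5 / 4) Bp :=
  TgCls.mono (TgCls.one_add hB) subset_rfl subset_rfl subset_rfl (by linarith)

theorem tgs_one_lo (hB : TgLoC α D b (fun z => Bm z - 1)) (hb : b ≤ 1 / 4) :
    TgLoC α D (5 / 4) Bm :=
  TgCls.mono (TgCls.one_add hB) subset_rfl subset_rfl subset_rfl (by linarith)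

/-- the algebraic identity of step 2 -/
theorem tgs_vec_id (a a' Ea Ea' x x' : V4) (Nn B B' P : TgL) (h1 : x - x' = -(P (a + Ea - a')))
    (h2 : B' * P = 1) :
    (a + B x) + Ea' - (a' + B' x') = ((1 + Nn) * B - B') x + (Ea' - Ea - Nn (B x)) := by
  have h3 : B' (P (a + Ea - a')) = a + Ea - a' :=
    congrArg (fun L : TgL => L (a + Ea - a')) h2
  have h4 : B' x - B' x' = -(a + Ea - a') := by rw [← map_sub, h1, map_neg, h3]
  have h5 : ((1 + Nn) * B - B') x = B x + Nn (B x) - B' x := rfl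
  rw [h5, ← sub_eq_zero]
  have h6 : (a + B x) + Ea' - (a' + B' x') - (B x + Nn (B x) - B' x + (Ea' - Ea - Nn (B x)))
      = (a + Ea - a') + (B' x - B' x') := by abel
  rw [h6, h4, add_neg_cancel]

/-- steps 1 and 2 -/
theorem tgs_vec (hβ : 0 < β) (hD : D' ⊆ D) (he : e ≤ 1) (hE : TgField α D β e E)
    (hS : TgSplit α D D' V4 Λ) (hA : A ≤ β / 16) (hb : b ≤ 1 / 4) (hε : 0 ≤ ε)
    (hd : 10 * Λ * ε ≤ β / 64) (st : TgState α D E A b ε ap am Bp Bm) :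
    ∃ δp δm : TgX N → V4, TgUpC α D' (10 * Λ * ε) δp ∧ TgLoC α D' (10 * Λ * ε) δm ∧
      TgHol α (tgMid D') (8 * Λ * ε ^ 2 + 4000 * (10 * Λ * ε) ^ 2 / β ^ 2)
        (fun z => (ap z + δp z) + E (z, ap z + δp z) - (am z + δm z)) := by
  obtain ⟨hP, hBP⟩ := tgs_inv st.Bm_c hb
  have hBp := tgs_one_up st.Bp_c hb
  have hBm := tgs_one_lo st.Bm_c hb
  have hapβ : ∀ z ∈ tgMid D, ‖ap z‖ ≤ β := fun z hz =>
    ((TgCls.bd st.ap_c).1 z (tgMid_subset_tgUp D hz)).trans (by linarith)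
  have hρcr : TgCR D (fun z => ap z + E (z, ap z) - am z) :=
    ((TgCls.cr st.ap_c).add (tg_field_comp_cr hE (TgCls.cr st.ap_c) hapβ)).sub (TgCls.cr st.am_c)
  have hρ : TgTr α D ε (fun z => ap z + E (z, ap z) - am z) := tgTr_mk st.rho hρcr
  have hy : TgTr α D (4 * ε) (fun z => -(Ring.inverse (Bm z) (ap z + E (z, ap z) - am z))) :=
    TgCls.mono (TgCls.neg (TgCls.clm_apply hP.toTr hρ)) subset_rfl subset_rfl subset_rfl
      (by linarith)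
  obtain ⟨dp, dm, hdp, hdm, hdd⟩ := hS (4 * ε) _ (by positivity) hy
  have hδp : TgUpC α D' (10 * Λ * ε) (fun z => Bp z (dp z)) :=
    TgCls.mono (TgCls.clm_apply (hBp.mono hD le_rfl) hdp) subset_rfl subset_rfl subset_rfl
      (le_of_eq (by ring))
  have hδm : TgLoC α D' (10 * Λ * ε) (fun z => Bm z (dm z)) :=
    TgCls.mono (TgCls.clm_apply (hBm.mono hD le_rfl) hdm) subset_rfl subset_rfl subset_rfl
      (le_of_eq (by ring))
  refine ⟨_, _, hδp, hδm, ?_⟩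
  have hT := tg_field_taylor hβ (hE.mono hD le_rfl) (a := ap) (δ := fun z => Bp z (dp z))
    ((TgCls.bd st.ap_c.toTr).mono (tgMid_mono hD) le_rfl) (by linarith) (TgCls.bd hδp.toTr) hd
  have hZd : TgHol α (tgMid D') (2 * ε * (Λ * (4 * ε)))
      (fun z => ((1 + tgN E ap z) * Bp z - Bm z) (dp z)) :=
    TgHol.clm_apply (st.zed.mono (tgMid_mono hD) le_rfl) (TgCls.bd hdp.toTr)
  refine TgHol.congr (TgHol.mono (hZd.add hT) subset_rfl ?_) ?_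
  · have h1 : 4000 * e * (10 * Λ * ε) ^ 2 / β ^ 2 ≤ 4000 * (10 * Λ * ε) ^ 2 / β ^ 2 := by
      have h2 : 0 ≤ 4000 * (10 * Λ * ε) ^ 2 / β ^ 2 := by positivity
      have h3 : 4000 * e * (10 * Λ * ε) ^ 2 / β ^ 2 = e * (4000 * (10 * Λ * ε) ^ 2 / β ^ 2) := by
        ring
      rw [h3]
      exact mul_le_of_le_one_left h2 he
    have h4 : 2 * ε * (Λ * (4 * ε)) = 8 * Λ * ε ^ 2 := by ring
    linarith
  · intro z hz
    exact tgs_vec_id _ _ _ _ _ _ _ _ _ _ (hdd z hz)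
      (hBP z (tgMid_subset_tgLo D (tgMid_mono hD hz)))

/-- the algebraic identity of step 5 -/
theorem tgs_frame_id {𝓡 : Type*} [Ring 𝓡] (Nn B B' P C C' : 𝓡)
    (h1 : C - C' = -(P * ((1 + Nn) * B - B'))) (h2 : B' * P = 1) :
    (1 + Nn) * (B * (1 + C)) - B' * (1 + C') = ((1 + Nn) * B - B') * C := by
  have h4 : B' * C - B' * C' = -((1 + Nn) * B - B') := by
    rw [← mul_sub, h1, mul_neg, ← mul_assoc, h2, one_mul]
  rw [← sub_eq_zero]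
  have h6 : (1 + Nn) * (B * (1 + C)) - B' * (1 + C') - ((1 + Nn) * B - B') * C
      = ((1 + Nn) * B - B') + (B' * C - B' * C') := by noncomm_ring
  rw [h6, h4, add_neg_cancel]

theorem tgs_Z1_id {𝓡 : Type*} [Ring 𝓡] (Nn Nn' B B' : 𝓡) :
    (1 + Nn') * B - B' = ((1 + Nn) * B - B') + (Nn' - Nn) * B := by noncomm_ring

theorem tgs_B_id {𝓡 : Type*} [Ring 𝓡] (B C : 𝓡) :
    B * (1 + C) - 1 = (B - 1) + B * C := by noncomm_ring

/-- step 3 -/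
theorem tgs_Z1 (hβ : 0 < β) (he : e ≤ 1) (hE : TgField α D β e E) (hA : A ≤ β / 16)
    (hb : b ≤ 1 / 4) (hd0 : 0 ≤ d) (hd : d ≤ β / 64) (hap : TgUpC α D A ap)
    (hδ : TgUpC α D d δp) (hBp : TgUpC α D b (fun z => Bp z - 1))
    (hBm : TgLoC α D b (fun z => Bm z - 1))
    (hZ : TgHol α (tgMid D) ε (fun z => (1 + tgN E ap z) * Bp z - Bm z)) :
    TgTr α D (ε + 500 * d / β ^ 2)
      (fun z => (1 + tgN E (fun x => ap x + δp x) z) * Bp z - Bm z) := by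
  have hBp' := tgs_one_up hBp hb
  have hBm' := tgs_one_lo hBm hb
  have hNsub := tg_field_N_sub hβ hE (TgCls.bd hap.toTr) (by linarith) (TgCls.bd hδ.toTr) hd
  have hcr' : TgCR D (fun x => ap x + δp x) := (TgCls.cr hap).add (TgCls.cr hδ)
  have hbd' : ∀ z ∈ tgMid D, ‖ap z + δp z‖ ≤ β := fun z hz =>
    (norm_add_le _ _).trans (by
      have h1 := (TgCls.bd hap).1 z (tgMid_subset_tgUp D hz)
      have h2 := (TgCls.bd hδ).1 z (tgMid_subset_tgUp D hz)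
      linarith)
  refine tgTr_mk ?_ ((((tgCR_const (1 : TgL)).add (tg_field_N_cr hE hcr' hbd')).mul
    (TgCls.cr hBp')).sub (TgCls.cr hBm'))
  refine TgHol.congr (TgHol.mono (hZ.add (hNsub.mul (TgCls.bd hBp'.toTr))) subset_rfl ?_) ?_
  · have h2 : 0 ≤ 500 * d / β ^ 2 := by positivity
    have h3 : 2 * (200 * e * d / β ^ 2) * (5 / 4) = e * (500 * d / β ^ 2) := by ring
    rw [h3]
    have := mul_le_of_le_one_left h2 he
    linarith
  · intro z _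
    exact tgs_Z1_id _ _ _ _

/-- steps 3, 4 and 5 -/
theorem tgs_frame (hβ : 0 < β) (hD : D'' ⊆ D') (he : e ≤ 1) (hE : TgField α D' β e E)
    (hS : TgSplit α D' D'' TgL Λ) (hA : A ≤ β / 16) (hb : b ≤ 1 / 4) (hε : 0 ≤ ε) (hd0 : 0 ≤ d)
    (hd : d ≤ β / 64) (hap : TgUpC α D' A ap) (hδ : TgUpC α D' d δp)
    (hBp : TgUpC α D' b (fun z => Bp z - 1)) (hBm : TgLoC α D' b (fun z => Bm z - 1))
    (hZ : TgHol α (tgMid D') ε (fun z => (1 + tgN E ap z) * Bp z - Bm z)) :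
    ∃ Cp Cm : TgX N → TgL,
      TgUpC α D'' (b + 10 * Λ * (ε + 500 * d / β ^ 2)) (fun z => Bp z * (1 + Cp z) - 1) ∧
      TgLoC α D'' (b + 10 * Λ * (ε + 500 * d / β ^ 2)) (fun z => Bm z * (1 + Cm z) - 1) ∧
      TgHol α (tgMid D'') (8 * Λ * (ε + 500 * d / β ^ 2) ^ 2)
        (fun z => (1 + tgN E (fun x => ap x + δp x) z) * (Bp z * (1 + Cp z))
          - Bm z * (1 + Cm z)) := by
  obtain ⟨hP, hBP⟩ := tgs_inv hBm hb
  have hBp' := tgs_one_up hBp hb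
  have hBm' := tgs_one_lo hBm hb
  have hZ1 := tgs_Z1 hβ he hE hA hb hd0 hd hap hδ hBp hBm hZ
  have hζ : 0 ≤ ε + 500 * d / β ^ 2 := by positivity
  have hY : TgTr α D' (4 * (ε + 500 * d / β ^ 2)) (fun z => -(Ring.inverse (Bm z) *
      ((1 + tgN E (fun x => ap x + δp x) z) * Bp z - Bm z))) :=
    TgCls.mono (TgCls.neg (TgCls.mul hP.toTr hZ1)) subset_rfl subset_rfl subset_rfl
      (le_of_eq (by ring))
  obtain ⟨Cp, Cm, hCp, hCm, hCC⟩ := hS _ _ (by positivity) hY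
  refine ⟨Cp, Cm, ?_, ?_, ?_⟩
  · have e1 : (fun z => Bp z * (1 + Cp z) - 1) = fun z => (Bp z - 1) + Bp z * Cp z := by
      funext z
      exact tgs_B_id _ _
    rw [e1]
    exact TgCls.mono (TgCls.add (hBp.mono hD le_rfl) (TgCls.mul (hBp'.mono hD le_rfl) hCp))
      subset_rfl subset_rfl subset_rfl (le_of_eq (by ring))
  · have e1 : (fun z => Bm z * (1 + Cm z) - 1) = fun z => (Bm z - 1) + Bm z * Cm z := by
      funext z
      exact tgs_B_id _ _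
    rw [e1]
    exact TgCls.mono (TgCls.add (hBm.mono hD le_rfl) (TgCls.mul (hBm'.mono hD le_rfl) hCm))
      subset_rfl subset_rfl subset_rfl (le_of_eq (by ring))
  · refine TgHol.congr (TgHol.mono (TgHol.mul ((TgCls.bd hZ1).mono (tgMid_mono hD) le_rfl)
      (TgCls.bd hCp.toTr)) subset_rfl (le_of_eq (by ring))) ?_
    intro z hz
    exact tgs_frame_id _ _ _ _ _ _ (hCC z hz) (hBP z (tgMid_subset_tgLo D' (tgMid_mono hD hz)))

/-- the arithmetic of the constants; `c = 1 + 5000/β²`, `K = 10 + 640/β + 8 c² + 400 c` -/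
theorem tgs_const (hβ : 0 < β) (hΛ : 1 ≤ Λ) (hε : 0 ≤ ε) {c K : ℝ} (hc : c = 1 + 5000 / β ^ 2)
    (hK : K = 10 + 640 / β + 8 * c ^ 2 + 400 * c) (hs : K * Λ ^ 2 * ε ≤ 1) :
    10 * Λ * ε ≤ β / 64 ∧ 10 * Λ * ε ≤ K * Λ * ε ∧
      10 * Λ * (ε + 500 * (10 * Λ * ε) / β ^ 2) ≤ K * Λ ^ 2 * ε ∧
      8 * Λ * ε ^ 2 + 4000 * (10 * Λ * ε) ^ 2 / β ^ 2 ≤ K * Λ ^ 3 * ε ^ 2 ∧
      8 * Λ * (ε + 500 * (10 * Λ * ε) / β ^ 2) ^ 2 ≤ K * Λ ^ 3 * ε ^ 2 := by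
  have hΛ0 : 0 ≤ Λ := by linarith
  have hu : 0 ≤ 5000 / β ^ 2 := by positivity
  have hc1 : 1 ≤ c := by rw [hc]; linarith
  have hw : 0 ≤ 640 / β := by positivity
  have hc2 : 0 ≤ c ^ 2 := by positivity
  have hΛε : 0 ≤ Λ * ε := by positivity
  have hΛ2 : Λ * ε ≤ Λ ^ 2 * ε := by
    have : Λ * ε ≤ Λ * (Λ * ε) := le_mul_of_one_le_left hΛε hΛ
    calc Λ * ε ≤ Λ * (Λ * ε) := this
      _ = Λ ^ 2 * ε := by ring
  have hζ : ε + 500 * (10 * Λ * ε) / β ^ 2 ≤ c * (Λ * ε) := by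
    have h1 : ε ≤ Λ * ε := le_mul_of_one_le_left hε hΛ
    have h2 : 500 * (10 * Λ * ε) / β ^ 2 = (5000 / β ^ 2) * (Λ * ε) := by ring
    rw [h2, hc, add_mul, one_mul]
    linarith
  have hζ0 : 0 ≤ ε + 500 * (10 * Λ * ε) / β ^ 2 := by positivity
  refine ⟨?_, ?_, ?_, ?_, ?_⟩
  · have h1 : (640 / β) * (Λ * ε) ≤ K * (Λ ^ 2 * ε) := by
      have hK1 : 640 / β ≤ K := by rw [hK]; nlinarith
      calc (640 / β) * (Λ * ε) ≤ K * (Λ * ε) := mul_le_mul_of_nonneg_right hK1 hΛε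
        _ ≤ K * (Λ ^ 2 * ε) := mul_le_mul_of_nonneg_left hΛ2 (hw.trans hK1)
    have h2 : (640 / β) * (Λ * ε) ≤ 1 := h1.trans (by linarith [hs, mul_assoc K (Λ ^ 2) ε])
    have h3 : (640 / β) * (Λ * ε) = (10 * Λ * ε) * 64 / β := by ring
    rw [h3, div_le_one hβ] at h2
    linarith
  · have hK1 : 10 ≤ K := by rw [hK]; nlinarith
    calc 10 * Λ * ε = 10 * (Λ * ε) := by ring
      _ ≤ K * (Λ * ε) := mul_le_mul_of_nonneg_right hK1 hΛε
      _ = K * Λ * ε := by ring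
  · have hK1 : 10 * c ≤ K := by rw [hK]; nlinarith
    calc 10 * Λ * (ε + 500 * (10 * Λ * ε) / β ^ 2) ≤ 10 * Λ * (c * (Λ * ε)) :=
          mul_le_mul_of_nonneg_left hζ (by positivity)
      _ = (10 * c) * (Λ ^ 2 * ε) := by ring
      _ ≤ K * (Λ ^ 2 * ε) := mul_le_mul_of_nonneg_right hK1 (by positivity)
      _ = K * Λ ^ 2 * ε := by ring
  · have hK1 : 80 * c ≤ K := by rw [hK]; nlinarith
    have hε2 : 0 ≤ ε ^ 2 := by positivity
    have h12 : Λ ≤ Λ ^ 3 := by nlinarith [mul_nonneg hΛ0 hΛ0]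
    have h23 : Λ ^ 2 ≤ Λ ^ 3 := by nlinarith [mul_nonneg hΛ0 hΛ0]
    have h1 : 8 * Λ * ε ^ 2 ≤ 8 * (Λ ^ 3 * ε ^ 2) := by nlinarith
    have h2 : 4000 * (10 * Λ * ε) ^ 2 / β ^ 2 = 80 * (5000 / β ^ 2) * (Λ ^ 2 * ε ^ 2) := by ring
    have h3 : 80 * (5000 / β ^ 2) * (Λ ^ 2 * ε ^ 2) ≤ 80 * (5000 / β ^ 2) * (Λ ^ 3 * ε ^ 2) :=
      mul_le_mul_of_nonneg_left (mul_le_mul_of_nonneg_right h23 hε2) (by positivity)
    have h4 : 0 ≤ Λ ^ 3 * ε ^ 2 := by positivity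
    calc 8 * Λ * ε ^ 2 + 4000 * (10 * Λ * ε) ^ 2 / β ^ 2
        ≤ 8 * (Λ ^ 3 * ε ^ 2) + 80 * (5000 / β ^ 2) * (Λ ^ 3 * ε ^ 2) := by rw [h2]; linarith
      _ ≤ (80 * c) * (Λ ^ 3 * ε ^ 2) := by rw [hc]; nlinarith
      _ ≤ K * (Λ ^ 3 * ε ^ 2) := mul_le_mul_of_nonneg_right hK1 h4
      _ = K * Λ ^ 3 * ε ^ 2 := by ring
  · have hK1 : 8 * c ^ 2 ≤ K := by rw [hK]; nlinarith
    have h1 : (ε + 500 * (10 * Λ * ε) / β ^ 2) ^ 2 ≤ (c * (Λ * ε)) ^ 2 :=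
      pow_le_pow_left₀ hζ0 hζ 2
    calc 8 * Λ * (ε + 500 * (10 * Λ * ε) / β ^ 2) ^ 2 ≤ 8 * Λ * (c * (Λ * ε)) ^ 2 :=
          mul_le_mul_of_nonneg_left h1 (by positivity)
      _ = (8 * c ^ 2) * (Λ ^ 3 * ε ^ 2) := by ring
      _ ≤ K * (Λ ^ 3 * ε ^ 2) := mul_le_mul_of_nonneg_right hK1 (by positivity)
      _ = K * Λ ^ 3 * ε ^ 2 := by ring

end tgs

/-- **One Newton step.** -/
theorem tg_step (α β : ℝ) (hβ : 0 < β) : ∃ K : ℝ, 1 ≤ K ∧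
    ∀ (N : ℕ) (D D' D'' : Set (TgX N)) (E : TgX N × V4 → V4) (e Λ A b ε : ℝ)
      (ap am : TgX N → V4) (Bp Bm : TgX N → TgL),
      D' ⊆ D → D'' ⊆ D' → e ≤ 1 → TgField α D β e E → 1 ≤ Λ → TgSplit α D D' V4 Λ →
      TgSplit α D' D'' TgL Λ → A ≤ β / 16 → b ≤ 1 / 4 → 0 ≤ ε → K * Λ ^ 2 * ε ≤ 1 →
      TgState α D E A b ε ap am Bp Bm →
      ∃ (ap' am' : TgX N → V4) (Bp' Bm' : TgX N → TgL),
        TgState α D'' E (A + K * Λ * ε) (b + K * Λ ^ 2 * ε) (K * Λ ^ 3 * ε ^ 2) ap' am' Bp' Bm' ∧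
        (∀ z ∈ tgUp D'', ‖ap' z - ap z‖ ≤ K * Λ * ε) ∧
        (∀ z ∈ tgLo D'', ‖am' z - am z‖ ≤ K * Λ * ε) := by
  refine ⟨10 + 640 / β + 8 * (1 + 5000 / β ^ 2) ^ 2 + 400 * (1 + 5000 / β ^ 2), ?_, ?_⟩
  · have h1 : 0 ≤ 640 / β := by positivity
    have h2 : 0 ≤ 5000 / β ^ 2 := by positivity
    have h3 : 0 ≤ (1 + 5000 / β ^ 2) ^ 2 := by positivity
    linarith
  intro N D D' D'' E e Λ A b ε ap am Bp Bm hD' hD'' he hE hΛ hS1 hS2 hA hb hε hs st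
  obtain ⟨k1, k2, k3, k4, k5⟩ := tgs_const hβ hΛ hε rfl rfl hs
  obtain ⟨δp, δm, hδp, hδm, hρ⟩ := tgs_vec hβ hD' he hE hS1 hA hb hε k1 st
  obtain ⟨Cp, Cm, hCp, hCm, hZ⟩ := tgs_frame hβ hD'' he (hE.mono hD' le_rfl) hS2 hA hb hε
    (by positivity) k1 (st.ap_c.mono hD' le_rfl) hδp (st.Bp_c.mono hD' le_rfl)
    (st.Bm_c.mono hD' le_rfl) (st.zed.mono (tgMid_mono hD') le_rfl)
  refine ⟨fun z => ap z + δp z, fun z => am z + δm z, fun z => Bp z * (1 + Cp z),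
    fun z => Bm z * (1 + Cm z), ⟨?_, ?_, ?_, ?_, ?_, ?_⟩, ?_, ?_⟩
  · exact TgCls.mono (TgCls.add (st.ap_c.mono (hD''.trans hD') le_rfl) (hδp.mono hD'' le_rfl))
      subset_rfl subset_rfl subset_rfl (by linarith)
  · exact TgCls.mono (TgCls.add (st.am_c.mono (hD''.trans hD') le_rfl) (hδm.mono hD'' le_rfl))
      subset_rfl subset_rfl subset_rfl (by linarith)
  · exact hCp.mono subset_rfl (by linarith)
  · exact hCm.mono subset_rfl (by linarith)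
  · exact hρ.mono (tgMid_mono hD'') k4
  · exact hZ.mono subset_rfl k5
  · intro z hz
    have h1 := (TgCls.bd hδp).1 z (tgUp_mono hD'' hz)
    rw [add_sub_cancel_left]
    exact h1.trans k2
  · intro z hz
    have h1 := (TgCls.bd hδm).1 z (tgLo_mono hD'' hz)
    rw [add_sub_cancel_left]
    exact h1.trans k2

/-- **The initial state**: `a± = 0`, `B± = 1`. -/
theorem tg_state_zero {N : ℕ} {α β e : ℝ} (hβ : 0 < β) {D : Set (TgX N)} {E : TgX N × V4 → V4}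
    (he : 0 ≤ e) (hE : TgField α D β e E) :
    TgState α D E 0 0 (e * (1 + 8 / β)) (fun _ => 0) (fun _ => 0) (fun _ => 1) (fun _ => 1) := by
  have h8 : 0 ≤ 8 / β := by positivity
  have h0 : (0 : V4) ∈ closedBall (0 : V4) β := mem_closedBall_self hβ.le
  have hle : e ≤ e * (1 + 8 / β) := le_mul_of_one_le_right he (by linarith)
  refine ⟨tgCls_const 0 (by simp), tgCls_const 0 (by simp), ?_, ?_, ?_, ?_⟩
  · exact tgCls_const ((1 : TgL) - 1) (by simp)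
  · exact tgCls_const ((1 : TgL) - 1) (by simp)
  · have h1 : TgHol α (tgMid D) e (fun z => E (z, (0 : V4))) :=
      ⟨fun z hz => hE.bd z hz 0 h0, fun z hz z' hz' => hE.hl z hz z' hz' 0 h0⟩
    refine TgHol.congr (h1.mono subset_rfl hle) fun z _ => ?_
    simp
  · have h1 := tg_field_N hβ hE (a := fun _ => (0 : V4)) (A := 0) (tgHol_const 0 (by simp))
      (by positivity)
    refine TgHol.congr (h1.mono subset_rfl ?_) fun z _ => ?_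
    · have : e * (1 + 8 / β) = e + 8 * e / β := by ring
      rw [this]
      linarith
    · simp

end Claimed.Agent.R245
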