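/-
Row 245 / S0484, block S4-TG.  PACKAGE TG-ITER: the Newton iteration and its limit (architect: helper199).
Statements FROZEN; helper lemmas: prefix `tgi_`, in this file.  No paper.  Black boxes: `tg_step`, `tg_state_zero` (TGStep), TGAlg.

PLAN of `tg_newton`.  `C₁ := max C 1` (`TgSplit.mono`).  `K` from `tg_step α β`.   `r k := r₀ / 2^k`, `h k := r₀ / 2^(k+2)`, so `r k - 2 h k = r (k+1)`;
`D_k = P (r k)`, `D_k' = P (r k - h k)`, `D_k'' = P (r k - h k - h k) = P (r (k+1))`;  `TgLT` gives both splittings with `Λ_k = C₁ / (h k)^p = L (2^p)^k`,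
`L := C₁ (4 / r₀)^p ≥ 1`.   `Q := 2^(p+1) ≥ 2`, `Λ_k ≤ L Q^k`.   `σ := min (min (β/16) δ) (1/4)`.   `ε₀` from `tg_numeric K L Q σ`,  `ε_k := ε₀ / Q^(4k)`.
`e₀ := min 1 (ε₀ / (1 + 8/β))`.   Invariant at stage `k`:  `TgState α (P (r k)) E (σ (1 - 1/2^k)) (σ (1 - 1/2^k)) ε_k ap am Bp Bm`  (`TgState` is monotone in the three
constants: `TgCls.mono`, `TgHol.mono`).   Stage 0: `tg_state_zero` + `TgField.mono`.   Build the sequence by recursion on a subtype / `exists_seq`-style dependent choice, keeping the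
increments `‖ap_{k+1} z - ap_k z‖ ≤ σ / 2^(k+1)` on `tgUp (P (r (k+1))) ⊇ tgUp (P 0)` (`hP`).
LIMIT (`tg_limit`): uniformly Cauchy on `tgUp (P 0)`; limit = pointwise limit; holomorphic on the open set `tgUpo (P 0)` (`scv_tendsto`, or `TendstoLocallyUniformlyOn.differentiableOn`), continuous on `tgUp (P 0)`
(`TendstoUniformlyOn.continuousOn`, each `ap_k` is continuous there by `TgHol.continuousOn`), `‖ap‖ ≤ σ ≤ δ`.
EQUATION: for `z ∈ tgMid (P 0)`: `‖ap_k z + E (z, ap_k z) - am_k z‖ ≤ ε_k → 0` and `v ↦ E (z, v)` is continuous at `ap z` (`‖ap z‖ ≤ β/16`, `hE.hol`).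
-/
import Claimed.Agent.R245.TGStep

set_option autoImplicit false

namespace Claimed.Agent.R245

open Metric Set Filter Topology

/-- the arithmetic of the quadratic convergence -/
theorem tg_numeric (K L Q σ : ℝ) (hK : 1 ≤ K) (hL : 1 ≤ L) (hQ : 2 ≤ Q) (hσ : 0 < σ) (hσ1 : σ ≤ 1) :
    ∃ ε₀ : ℝ, 0 < ε₀ ∧ ∀ (k : ℕ) (Λ : ℝ), 1 ≤ Λ → Λ ≤ L * Q ^ k →
      K * Λ ^ 2 * (ε₀ / Q ^ (4 * k)) ≤ σ / 2 ^ (k + 1) ∧
      K * Λ * (ε₀ / Q ^ (4 * k)) ≤ σ / 2 ^ (k + 1) ∧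
      K * Λ ^ 3 * (ε₀ / Q ^ (4 * k)) ^ 2 ≤ ε₀ / Q ^ (4 * (k + 1)) := by
  have hK0 : 0 < K := by linarith
  have hL0 : 0 < L := by linarith
  have hQ0 : 0 < Q := by linarith
  have hQ1 : 1 ≤ Q := by linarith
  obtain ⟨e1, he1⟩ : ∃ e1 : ℝ, e1 = σ / (2 * K * L ^ 2) := ⟨_, rfl⟩
  obtain ⟨e2, he2⟩ : ∃ e2 : ℝ, e2 = 1 / (K * L ^ 3 * Q ^ 4) := ⟨_, rfl⟩
  have he1p : 0 < e1 := by rw [he1]; positivity
  have he2p : 0 < e2 := by rw [he2]; positivity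
  refine ⟨min e1 e2, lt_min he1p he2p, ?_⟩
  intro k Λ hΛ1 hΛ
  obtain ⟨ε, hε⟩ : ∃ ε : ℝ, ε = min e1 e2 := ⟨_, rfl⟩
  rw [← hε]
  have hεp : 0 < ε := hε ▸ lt_min he1p he2p
  have hε1 : ε ≤ e1 := hε ▸ min_le_left _ _
  have hε2 : ε ≤ e2 := hε ▸ min_le_right _ _
  obtain ⟨q, hq⟩ : ∃ q : ℝ, q = Q ^ k := ⟨_, rfl⟩
  have hq1 : 1 ≤ q := hq ▸ one_le_pow₀ hQ1
  have hq0 : 0 < q := by linarith
  have hq2 : (2:ℝ) ^ k ≤ q := hq ▸ pow_le_pow_left₀ (by norm_num) hQ k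
  have h4 : Q ^ (4 * k) = q ^ 4 := by rw [hq, ← pow_mul, mul_comm]
  have h4' : Q ^ (4 * (k + 1)) = q ^ 4 * Q ^ 4 := by
    rw [hq, ← pow_mul, ← pow_add]; congr 1; ring
  rw [← hq] at hΛ
  have hΛ0 : 0 < Λ := by linarith
  have A : K * Λ ^ 2 * (ε / Q ^ (4 * k)) ≤ σ / 2 ^ (k + 1) := by
    rw [h4]
    have h1 : K * Λ ^ 2 * (ε / q ^ 4) ≤ K * (L * q) ^ 2 * (e1 / q ^ 4) := by gcongr
    have h2 : K * (L * q) ^ 2 * (e1 / q ^ 4) = σ / (2 * q ^ 2) := by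
      rw [he1]; field_simp
    have h3 : σ / (2 * q ^ 2) ≤ σ / 2 ^ (k + 1) := by
      apply div_le_div_of_nonneg_left hσ.le (by positivity)
      rw [pow_succ, mul_comm]
      have : q ≤ q ^ 2 := by nlinarith
      nlinarith
    linarith
  refine ⟨A, ?_, ?_⟩
  · refine le_trans ?_ A
    have : Λ ≤ Λ ^ 2 := by nlinarith
    gcongr
  · rw [h4, h4']
    have h1 : K * Λ ^ 3 * (ε / q ^ 4) ^ 2 ≤ K * (L * q) ^ 3 * ((ε / q ^ 4) * (e2 / q ^ 4)) := by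
      rw [sq]; gcongr
    have h2 : K * (L * q) ^ 3 * ((ε / q ^ 4) * (e2 / q ^ 4)) = ε / (q ^ 4 * Q ^ 4) * (1 / q) := by
      rw [he2]; field_simp
    have h3 : ε / (q ^ 4 * Q ^ 4) * (1 / q) ≤ ε / (q ^ 4 * Q ^ 4) * 1 := by
      gcongr
      rw [div_le_one hq0]; exact hq1
    linarith

/-- limit of a sequence with geometric increments: `O` open part, `S` the closed side -/
theorem tg_limit {N : ℕ} {O S : Set (TgX N)} (hO : IsOpen O) (hOS : O ⊆ S) {σ : ℝ}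
    (a : ℕ → TgX N → V4) (h0 : ∀ z ∈ S, a 0 z = 0) (hd : ∀ k, DifferentiableOn ℂ (a k) O)
    (hc : ∀ k, ContinuousOn (a k) S) (hi : ∀ k, ∀ z ∈ S, ‖a (k + 1) z - a k z‖ ≤ σ / 2 ^ (k + 1)) :
    ∃ l : TgX N → V4, DifferentiableOn ℂ l O ∧ ContinuousOn l S ∧ (∀ z ∈ S, ‖l z‖ ≤ σ) ∧
      ∀ z ∈ S, Tendsto (fun k => a k z) atTop (𝓝 (l z)) := by
  have hdist : ∀ z ∈ S, ∀ k, dist (a k z) (a (k + 1) z) ≤ σ / 2 / 2 ^ k := by
    intro z hz k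
    rw [dist_comm, dist_eq_norm]
    refine (hi k z hz).trans (le_of_eq ?_)
    rw [pow_succ, div_div, mul_comm]
  have hcs : ∀ z ∈ S, CauchySeq (fun k => a k z) := fun z hz =>
    cauchySeq_of_le_geometric_two (hdist z hz)
  have hlim : ∀ z ∈ S, Tendsto (fun k => a k z) atTop (𝓝 (limUnder atTop (fun k => a k z))) :=
    fun z hz => (hcs z hz).tendsto_limUnder
  have hunif : TendstoUniformlyOn a (fun z => limUnder atTop (fun k => a k z)) atTop S := by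
    rw [Metric.tendstoUniformlyOn_iff]
    intro η hη
    have ht : Tendsto (fun k : ℕ => σ / 2 ^ k) atTop (𝓝 0) := by
      have := (tendsto_pow_atTop_nhds_zero_of_lt_one (by norm_num : (0 : ℝ) ≤ 1 / 2)
        (by norm_num)).const_mul σ
      simp only [mul_zero] at this
      refine this.congr fun k => ?_
      rw [one_div, inv_pow, div_eq_mul_inv]
    filter_upwards [ht.eventually (gt_mem_nhds hη)] with k hk z hz
    rw [dist_comm]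
    exact (dist_le_of_le_geometric_two_of_tendsto (hdist z hz) (hlim z hz) k).trans_lt hk
  refine ⟨fun z => limUnder atTop (fun k => a k z), ?_, ?_, ?_, hlim⟩
  · exact scv_tendsto hO (Eventually.of_forall hd) (hunif.mono hOS).tendstoLocallyUniformlyOn
  · exact hunif.continuousOn (Eventually.of_forall hc).frequently
  · intro z hz
    have := dist_le_of_le_geometric_two_of_tendsto₀ (hdist z hz) (hlim z hz)
    rw [h0 z hz, dist_zero_left] at this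
    exact this

/-- `TgState` is monotone in the domain and in the three constants -/
theorem tgi_state_mono {N : ℕ} {α A b ε A' b' ε' : ℝ} {D D' : Set (TgX N)} {E : TgX N × V4 → V4}
    {ap am : TgX N → V4} {Bp Bm : TgX N → TgL} (h : TgState α D E A b ε ap am Bp Bm)
    (hD : D' ⊆ D) (hA : A ≤ A') (hb : b ≤ b') (hε : ε ≤ ε') :
    TgState α D' E A' b' ε' ap am Bp Bm :=
  ⟨h.ap_c.mono hD hA, h.am_c.mono hD hA, h.Bp_c.mono hD hb, h.Bm_c.mono hD hb,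
    h.rho.mono (tgMid_mono hD) hε, h.zed.mono (tgMid_mono hD) hε⟩

/-- the scale of radii: `r k - 2 h k = r (k+1)` -/
theorem tgi_radii (r₀ : ℝ) (k : ℕ) :
    r₀ / 2 ^ k - r₀ / 2 ^ (k + 2) - r₀ / 2 ^ (k + 2) = r₀ / 2 ^ (k + 1) := by
  field_simp
  ring

/-- the loss at stage `k` -/
theorem tgi_loss {r₀ C₁ : ℝ} (hr₀ : 0 < r₀) (hr₁ : r₀ ≤ 1) (hC₁ : 1 ≤ C₁) (p k : ℕ) :
    1 ≤ C₁ / (r₀ / 2 ^ (k + 2)) ^ p ∧
    C₁ / (r₀ / 2 ^ (k + 2)) ^ p ≤ C₁ * (4 / r₀) ^ p * ((2 : ℝ) ^ (p + 1)) ^ k := by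
  have hh : 0 < r₀ / 2 ^ (k + 2) := by positivity
  have hh1 : r₀ / 2 ^ (k + 2) ≤ 1 := by
    rw [div_le_one (by positivity)]
    exact hr₁.trans (one_le_pow₀ (by norm_num))
  constructor
  · rw [le_div_iff₀ (by positivity), one_mul]
    exact (pow_le_one₀ hh.le hh1).trans hC₁
  · have e : C₁ / (r₀ / 2 ^ (k + 2)) ^ p = C₁ * (4 / r₀) ^ p * ((2 : ℝ) ^ p) ^ k := by
      have : (1 : ℝ) / (r₀ / 2 ^ (k + 2)) = 4 / r₀ * 2 ^ k := by
        field_simp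
        ring
      rw [div_eq_mul_one_div, ← one_div_pow, this, mul_pow, ← pow_mul, ← pow_mul, mul_comm k p,
        mul_assoc]
    rw [e]
    have : ((2 : ℝ) ^ p) ^ k ≤ ((2 : ℝ) ^ (p + 1)) ^ k :=
      pow_le_pow_left₀ (by positivity) (pow_le_pow_right₀ (by norm_num) (Nat.le_succ p)) k
    gcongr

/-- **The nonlinear jump problem** `am = ap + E (·, ap)` on the interface. -/
theorem tg_newton {N : ℕ} (α : ℝ) (hα : 0 < α) (P : ℝ → Set (TgX N)) (hP : Monotone P)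
    (hPo : ∀ r, IsOpen (P r)) (r₀ : ℝ) (hr₀ : 0 < r₀) (hr₁ : r₀ ≤ 1) (C : ℝ) (p : ℕ)
    (hV : TgLT α P r₀ V4 C p) (hL : TgLT α P r₀ TgL C p) (β δ : ℝ) (hβ : 0 < β) (hδ : 0 < δ) :
    ∃ e₀ : ℝ, 0 < e₀ ∧ ∀ E : TgX N × V4 → V4, TgField α (P r₀) β e₀ E →
      ∃ ap am : TgX N → V4,
        DifferentiableOn ℂ ap (tgUpo (P 0)) ∧ ContinuousOn ap (tgUp (P 0)) ∧
        (∀ z ∈ tgUp (P 0), ‖ap z‖ ≤ δ) ∧
        DifferentiableOn ℂ am (tgLoo (P 0)) ∧ ContinuousOn am (tgLo (P 0)) ∧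
        (∀ z ∈ tgLo (P 0), ‖am z‖ ≤ δ) ∧
        ∀ z ∈ tgMid (P 0), am z = ap z + E (z, ap z) := by
  classical
  obtain ⟨K, hK, Hstep⟩ := tg_step α β hβ
  set C₁ : ℝ := max C 1 with hC₁
  have hC₁1 : 1 ≤ C₁ := le_max_right _ _
  have hCC₁ : C ≤ C₁ := le_max_left _ _
  set L : ℝ := C₁ * (4 / r₀) ^ p with hLdef
  have hL1 : 1 ≤ L := by
    have h4 : 1 ≤ (4 / r₀) ^ p := one_le_pow₀ (by rw [le_div_iff₀ hr₀]; linarith)
    exact one_le_mul_of_one_le_of_one_le hC₁1 h4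
  set Q : ℝ := 2 ^ (p + 1) with hQdef
  have hQ2 : 2 ≤ Q := by
    calc (2 : ℝ) = 2 ^ 1 := (pow_one 2).symm
      _ ≤ 2 ^ (p + 1) := pow_le_pow_right₀ (by norm_num) (by omega)
  have hQ0 : 0 < Q := by linarith
  set σ : ℝ := min (min (β / 16) δ) (1 / 4) with hσdef
  have hσ : 0 < σ := by positivity
  have hσβ : σ ≤ β / 16 := (min_le_left _ _).trans (min_le_left _ _)
  have hσδ : σ ≤ δ := (min_le_left _ _).trans (min_le_right _ _)
  have hσ4 : σ ≤ 1 / 4 := min_le_right _ _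
  obtain ⟨ε₀, hε₀, Hnum⟩ := tg_numeric K L Q σ hK hL1 hQ2 hσ (by linarith)
  have hβ8 : 0 < 1 + 8 / β := by positivity
  refine ⟨min 1 (ε₀ / (1 + 8 / β)), by positivity, fun E hE => ?_⟩
  set e₀ : ℝ := min 1 (ε₀ / (1 + 8 / β)) with he₀def
  have he₀ : 0 < e₀ := by positivity
  have he₀1 : e₀ ≤ 1 := min_le_left _ _
  have he₀ε : e₀ * (1 + 8 / β) ≤ ε₀ := by
    have : e₀ ≤ ε₀ / (1 + 8 / β) := min_le_right _ _
    rwa [le_div_iff₀ hβ8] at this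
  have hr_nonneg : ∀ k : ℕ, 0 ≤ r₀ / 2 ^ k := fun k => by positivity
  have hr_le : ∀ k : ℕ, r₀ / 2 ^ k ≤ r₀ := fun k =>
    div_le_self hr₀.le (one_le_pow₀ (by norm_num))
  have hfac : ∀ k : ℕ, 0 ≤ 1 - 1 / (2 : ℝ) ^ k ∧ 1 - 1 / (2 : ℝ) ^ k ≤ 1 := fun k => by
    have h1 : 1 / (2 : ℝ) ^ k ≤ 1 := by
      rw [div_le_one (by positivity)]
      exact one_le_pow₀ (by norm_num)
    have h2 : 0 < 1 / (2 : ℝ) ^ k := by positivity
    constructor <;> linarith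
  let Inv : ℕ → ((TgX N → V4) × (TgX N → V4) × (TgX N → TgL) × (TgX N → TgL)) → Prop :=
    fun k s => TgState α (P (r₀ / 2 ^ k)) E (σ * (1 - 1 / 2 ^ k)) (σ * (1 - 1 / 2 ^ k))
      (ε₀ / Q ^ (4 * k)) s.1 s.2.1 s.2.2.1 s.2.2.2
  have h0 : Inv 0 (fun _ => 0, fun _ => 0, fun _ => 1, fun _ => 1) := by
    refine tgi_state_mono (tg_state_zero hβ he₀.le hE) ?_ ?_ ?_ ?_
    · simp
    · simp
    · simp
    · simpa using he₀ε
  have step : ∀ (k : ℕ) (s : {s // Inv k s}), ∃ s' : {s // Inv (k + 1) s},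
      (∀ z ∈ tgUp (P (r₀ / 2 ^ (k + 1))), ‖s'.1.1 z - s.1.1 z‖ ≤ σ / 2 ^ (k + 1)) ∧
      (∀ z ∈ tgLo (P (r₀ / 2 ^ (k + 1))), ‖s'.1.2.1 z - s.1.2.1 z‖ ≤ σ / 2 ^ (k + 1)) := by
    rintro k ⟨⟨ap, am, Bp, Bm⟩, hs⟩
    obtain ⟨hΛ1, hΛL⟩ := tgi_loss hr₀ hr₁ hC₁1 p k
    obtain ⟨n1, n2, n3⟩ := Hnum k _ hΛ1 hΛL
    have hh : 0 < r₀ / 2 ^ (k + 2) := by positivity
    have hh1 : r₀ / 2 ^ (k + 2) ≤ 1 := (hr_le _).trans hr₁
    have hrad := tgi_radii r₀ k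
    have hr1 := hr_nonneg (k + 1)
    have hrk := hr_le k
    have hmono : C / (r₀ / 2 ^ (k + 2)) ^ p ≤ C₁ / (r₀ / 2 ^ (k + 2)) ^ p :=
      div_le_div_of_nonneg_right hCC₁ (by positivity)
    have sp1 := (hV (r₀ / 2 ^ k) (r₀ / 2 ^ (k + 2)) hh hh1 (by linarith) hrk).mono hmono
    have sp2 := (hL (r₀ / 2 ^ k - r₀ / 2 ^ (k + 2)) (r₀ / 2 ^ (k + 2)) hh hh1 (by linarith)
      (by linarith)).mono hmono
    have hσk : σ * (1 - 1 / 2 ^ k) ≤ σ := mul_le_of_le_one_right hσ.le (hfac k).2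
    have hσ2 : σ / 2 ^ (k + 1) ≤ 1 := by
      have : σ / 2 ^ (k + 1) ≤ σ := div_le_self hσ.le (one_le_pow₀ (by norm_num))
      linarith
    obtain ⟨ap', am', Bp', Bm', hs', hi1, hi2⟩ := Hstep N (P (r₀ / 2 ^ k))
      (P (r₀ / 2 ^ k - r₀ / 2 ^ (k + 2))) (P (r₀ / 2 ^ k - r₀ / 2 ^ (k + 2) - r₀ / 2 ^ (k + 2)))
      E e₀ _ (σ * (1 - 1 / 2 ^ k)) (σ * (1 - 1 / 2 ^ k)) (ε₀ / Q ^ (4 * k)) ap am Bp Bm
      (hP (by linarith)) (hP (by linarith)) he₀1 (hE.mono (hP hrk) le_rfl) hΛ1 sp1 sp2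
      (hσk.trans hσβ) (hσk.trans hσ4) (by positivity) (n1.trans hσ2) hs
    rw [hrad] at hs' hi1 hi2
    have hsum : σ * (1 - 1 / 2 ^ k) + σ / 2 ^ (k + 1) = σ * (1 - 1 / 2 ^ (k + 1)) := by
      field_simp
      ring
    exact ⟨⟨(ap', am', Bp', Bm'), tgi_state_mono hs' subset_rfl (by linarith) (by linarith) n3⟩,
      fun z hz => (hi1 z hz).trans n2, fun z hz => (hi2 z hz).trans n2⟩
  choose nxt hnxt using step
  let seq : (k : ℕ) → {s // Inv k s} := fun k => Nat.rec ⟨_, h0⟩ (fun k s => nxt k s) k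
  have hseq : ∀ k, seq (k + 1) = nxt k (seq k) := fun k => rfl
  have hP0 : ∀ k : ℕ, P 0 ⊆ P (r₀ / 2 ^ k) := fun k => hP (hr_nonneg k)
  obtain ⟨ap, hap1, hap2, hap3, hap4⟩ := tg_limit (isOpen_tgUpo (hPo 0)) (tgUpo_subset_tgUp (P 0))
    (σ := σ) (fun k => (seq k).1.1) (fun z _ => rfl)
    (fun k => (seq k).2.ap_c.hol.mono (tgUpo_mono (hP0 k)))
    (fun k => ((seq k).2.ap_c.bd.continuousOn hα).mono (tgUp_mono (hP0 k)))
    (fun k z hz => by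
      have := (hnxt k (seq k)).1 z (tgUp_mono (hP0 (k + 1)) hz)
      rwa [← hseq] at this)
  obtain ⟨am, ham1, ham2, ham3, ham4⟩ := tg_limit (isOpen_tgLoo (hPo 0)) (tgLoo_subset_tgLo (P 0))
    (σ := σ) (fun k => (seq k).1.2.1) (fun z _ => rfl)
    (fun k => (seq k).2.am_c.hol.mono (tgLoo_mono (hP0 k)))
    (fun k => ((seq k).2.am_c.bd.continuousOn hα).mono (tgLo_mono (hP0 k)))
    (fun k z hz => by
      have := (hnxt k (seq k)).2 z (tgLo_mono (hP0 (k + 1)) hz)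
      rwa [← hseq] at this)
  refine ⟨ap, am, hap1, hap2, fun z hz => (hap3 z hz).trans hσδ, ham1, ham2,
    fun z hz => (ham3 z hz).trans hσδ, fun z hz => ?_⟩
  have hzU := tgMid_subset_tgUp _ hz
  have hzL := tgMid_subset_tgLo _ hz
  have t1 := hap4 z hzU
  have t2 := ham4 z hzL
  -- continuity of the field in the fibre variable
  obtain ⟨W, hW, hsub, hdiff⟩ := hE.hol
  have hzr : z ∈ tgMid (P r₀) := tgMid_mono (hP hr₀.le) hz
  have hmem : (z, ap z) ∈ W := hsub ⟨hzr, by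
    rw [mem_closedBall, dist_zero_right]
    have := hap3 z hzU
    linarith⟩
  have hcont : ContinuousAt E (z, ap z) :=
    (hdiff.differentiableAt (hW.mem_nhds hmem)).continuousAt
  have t3 : Tendsto (fun k => E (z, (seq k).1.1 z)) atTop (𝓝 (E (z, ap z))) :=
    hcont.tendsto.comp (tendsto_const_nhds.prodMk_nhds t1)
  have t4 : Tendsto (fun k => (seq k).1.1 z + E (z, (seq k).1.1 z) - (seq k).1.2.1 z) atTop
      (𝓝 (ap z + E (z, ap z) - am z)) := (t1.add t3).sub t2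
  have t5 : Tendsto (fun k : ℕ => ε₀ / Q ^ (4 * k)) atTop (𝓝 0) := by
    have h1 : (Q ^ 4)⁻¹ < 1 := inv_lt_one_of_one_lt₀ (one_lt_pow₀ (by linarith) (by norm_num))
    have h2 := (tendsto_pow_atTop_nhds_zero_of_lt_one (by positivity) h1).const_mul ε₀
    rw [mul_zero] at h2
    refine h2.congr fun k => ?_
    rw [pow_mul, inv_pow, div_eq_mul_inv]
  have t6 : ∀ k, ‖(seq k).1.1 z + E (z, (seq k).1.1 z) - (seq k).1.2.1 z‖ ≤ ε₀ / Q ^ (4 * k) :=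
    fun k => (seq k).2.rho.1 z (tgMid_mono (hP0 k) hz)
  have t7 : ‖ap z + E (z, ap z) - am z‖ ≤ 0 := le_of_tendsto_of_tendsto' t4.norm t5 t6
  have t8 : ap z + E (z, ap z) - am z = 0 := norm_le_zero_iff.1 t7
  exact (sub_eq_zero.1 t8).symm

end Claimed.Agent.R245
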