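/-
Row 245 / S0484, block S4-TG.  TGCore: the trace gluing statement in the coordinates `TgX N = Fin (N+1) → ℂ`, interface `Im z 0 = 0`
(architect: helper199).  GLUE (proved) from: `spr_exists_convex` (spray over the lower side, `L2Spray.trans` = uniqueness of the small root),
`tg_poly_exists` (scale of polytopes), `TgLTStmt` (Lemma 4.4 on that scale, vector valued), `tg_field_of_c1close`, `tg_newton`, `tg_painleve`.
-/
import Claimed.Agent.R245.TGIter
import Claimed.Agent.R245.TGPain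
import Claimed.Agent.R245.TGInit
import Claimed.Agent.R245.SprayEx

set_option autoImplicit false

namespace Claimed.Agent.R245

open MvPolynomial Metric Set Claims.C0412

/-- Lemma 4.4 (additive splitting at the real interface) on every bounded scale of polytopes, for `V4`- and `End V4`-valued traces. -/
def TgLTStmt (α : ℝ) : Prop :=
  ∀ (N m : ℕ) (lam : Fin m → TgX N →L[ℂ] ℂ) (c : Fin m → ℝ) (r₀ : ℝ), (∀ k, ‖lam k‖ ≤ 1) →
    Bornology.IsBounded (tgPoly lam c r₀) →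
    ∃ (C : ℝ) (p : ℕ), TgLT α (tgPoly lam c) r₀ V4 C p ∧ TgLT α (tgPoly lam c) r₀ TgL C p

/-- `TraceGlueStmt` in coordinates. -/
def TgCoreStmt (F : MvPolynomial (Fin 4) ℂ) : Prop :=
  ∀ (N : ℕ) (K Kp : Set (TgX N)), IsCompact K → Convex ℝ K → IsCompact Kp →
    Convex ℝ Kp → K ⊆ interior Kp → ∀ f : TgX N → V4, HolNear F f (Kp ∩ {x | (x 0).im ≤ 0}) →
    ∃ (β : ℝ) (s : TgX N × V4 → V4), 0 < β ∧
      HolNear F s ((Kp ∩ {x | (x 0).im ≤ 0}) ×ˢ closedBall (0 : V4) β) ∧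
      (∀ x ∈ Kp ∩ {x | (x 0).im ≤ 0}, s (x, 0) = f x) ∧
      ∀ ε : ℝ, 0 < ε → ∃ e₀ : ℝ, 0 < e₀ ∧ ∀ G : TgX N × V4 → V4,
        HolNear F G ((Kp ∩ {x | 0 ≤ (x 0).im}) ×ˢ closedBall (0 : V4) β) →
        C1Close G s ((Kp ∩ {x | (x 0).im = 0}) ×ˢ closedBall (0 : V4) β) e₀ →
        ∃ g : TgX N → V4, HolNear F g K ∧ ∀ x ∈ K, (x 0).im ≤ 0 → ‖g x - f x‖ < ε

theorem tgc_continuous_im (N : ℕ) : Continuous fun x : TgX N => (x 0).im :=
  Complex.continuous_im.comp (continuous_apply 0)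

theorem tgc_continuousOn_glue {N : ℕ} {D : Set (TgX N)} {g : TgX N → V4}
    (hl : ContinuousOn g (tgLo D)) (hu : ContinuousOn g (tgUp D)) : ContinuousOn g D := by
  intro z hz
  have hsub : D ⊆ tgLo D ∪ tgUp D := by
    intro x hx
    rcases le_total (x 0).im 0 with h | h
    · exact Or.inl ⟨hx, h⟩
    · exact Or.inr ⟨hx, h⟩
  refine ContinuousWithinAt.mono ?_ hsub
  refine ContinuousWithinAt.union ?_ ?_
  · by_cases h : (z 0).im ≤ 0
    · exact hl z ⟨hz, h⟩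
    · refine continuousWithinAt_of_notMem_closure fun hcl => h ?_
      have hc : IsClosed {x : TgX N | (x 0).im ≤ 0} :=
        isClosed_le (tgc_continuous_im N) continuous_const
      exact closure_minimal (fun x hx => hx.2) hc hcl
  · by_cases h : 0 ≤ (z 0).im
    · exact hu z ⟨hz, h⟩
    · refine continuousWithinAt_of_notMem_closure fun hcl => h ?_
      have hc : IsClosed {x : TgX N | 0 ≤ (x 0).im} :=
        isClosed_le continuous_const (tgc_continuous_im N)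
      exact closure_minimal (fun x hx => hx.2) hc hcl

/-- **The trace gluing statement in coordinates.** -/
theorem tg_core (F : MvPolynomial (Fin 4) ℂ) (hF : IsSmoothQuarticForm F)
    (hLT : TgLTStmt (1 / 2)) : TgCoreStmt F := by
  intro N K Kp hK hKc hKp hKpc hKK f hf
  have hcl : IsClosed {x : TgX N | (x 0).im ≤ 0} :=
    isClosed_le (tgc_continuous_im N) continuous_const
  have hLc : IsCompact (Kp ∩ {x : TgX N | (x 0).im ≤ 0}) := hKp.inter_right hcl
  have hlin : IsLinearMap ℝ (fun x : TgX N => (x 0).im) :=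
    ⟨fun x y => by simp, fun c x => by simp⟩
  have hLcv : Convex ℝ (Kp ∩ {x : TgX N | (x 0).im ≤ 0}) :=
    hKpc.inter (convex_halfSpace_le hlin 0)
  obtain ⟨U, Φ, β₀, Cs, hU, hLU, hSp⟩ := spr_exists_convex hF hLc hLcv hf
  have hβ₀ : 0 < β₀ := hSp.pos
  have hball : closedBall (0 : V4) (β₀ / 2) ⊆ ball (0 : V4) β₀ :=
    closedBall_subset_ball (by linarith)
  refine ⟨β₀ / 2, Φ, half_pos hβ₀, ⟨U ×ˢ ball (0 : V4) β₀, hU.prod isOpen_ball,
    prod_mono hLU hball, hSp.hol⟩, fun x hx => hSp.zero x (hLU hx), ?_⟩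
  intro ε hε
  obtain ⟨m, lam, c, r₀, hr₀, hr₁, hlam, hK0, hPr⟩ := tg_poly_exists hK hKc hKp hKK
  have hPK : tgPoly lam c r₀ ⊆ Kp := hPr.trans interior_subset
  obtain ⟨C, p, hV, hLL⟩ := hLT N m lam c r₀ hlam (hKp.isBounded.subset hPK)
  obtain ⟨R₁, hR₁⟩ := hKp.isBounded.subset_closedBall (0 : TgX N)
  set R : ℝ := max R₁ 0 with hRdef
  have hR0 : 0 ≤ R := le_max_right _ _
  have hR : Kp ⊆ closedBall (0 : TgX N) R :=
    hR₁.trans (closedBall_subset_closedBall (le_max_left _ _))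
  have hCs : 0 ≤ Cs := hSp.C_nonneg
  set δ : ℝ := min (β₀ / 4) (ε / (2 * (Cs + 1))) with hδdef
  have hδ : 0 < δ := lt_min (by linarith) (by positivity)
  have hδβ : δ < β₀ / 2 := lt_of_le_of_lt (min_le_left _ _) (by linarith)
  obtain ⟨e₁, he₁, hN⟩ := tg_newton (1 / 2) (by norm_num) (tgPoly lam c) (tgPoly_mono lam c)
    (isOpen_tgPoly lam c) r₀ hr₀ hr₁ C p hV hLL (β₀ / 2) δ (half_pos hβ₀) hδ
  have h12R : 0 < 1 + 2 * R := by linarith
  refine ⟨e₁ / (1 + 2 * R), div_pos he₁ h12R, ?_⟩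
  intro G hG hC1
  obtain ⟨WG, hWG, hsubG, hGd, hGm⟩ := hG
  have hmidlo : Kp ∩ {x : TgX N | (x 0).im = 0} ⊆ Kp ∩ {x : TgX N | (x 0).im ≤ 0} :=
    fun x hx => ⟨hx.1, le_of_eq hx.2⟩
  have hmidup : Kp ∩ {x : TgX N | (x 0).im = 0} ⊆ Kp ∩ {x : TgX N | 0 ≤ (x 0).im} :=
    fun x hx => ⟨hx.1, ge_of_eq hx.2⟩
  have hfield : TgField (1 / 2) (tgPoly lam c r₀) (β₀ / 2) e₁ (fun q => G q - Φ q) := by
    have h := tg_field_of_c1close (α := 1 / 2) (by norm_num) (by norm_num) (D := tgPoly lam c r₀)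
      hKpc hR hPK
      ⟨WG, hWG, (prod_mono hmidup subset_rfl).trans hsubG, hGd⟩
      ⟨U ×ˢ ball (0 : V4) β₀, hU.prod isOpen_ball, prod_mono (hmidlo.trans hLU) hball, hSp.hol.1⟩
      hC1
    rwa [div_mul_cancel₀ _ h12R.ne'] at h
  obtain ⟨ap, am, h1, h2, h3, h4, h5, h6, h7⟩ := hN _ hfield
  set D : Set (TgX N) := tgPoly lam c 0 with hD
  have hDo : IsOpen D := isOpen_tgPoly lam c 0
  have hDK : D ⊆ Kp := (tgPoly_mono lam c hr₀.le).trans hPK
  -- membership facts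
  have hloU : ∀ z ∈ tgLo D, (z, am z) ∈ U ×ˢ ball (0 : V4) β₀ := by
    intro z hz
    refine ⟨hLU ⟨hDK hz.1, hz.2⟩, ?_⟩
    rw [mem_ball_zero_iff]
    linarith [h6 z hz]
  have hupW : ∀ z ∈ tgUp D, (z, ap z) ∈ WG := by
    intro z hz
    refine hsubG ⟨⟨hDK hz.1, hz.2⟩, ?_⟩
    rw [mem_closedBall_zero_iff]
    linarith [h3 z hz]
  set g : TgX N → V4 := fun z => if (z 0).im ≤ 0 then Φ (z, am z) else G (z, ap z) with hg
  have hglo : ∀ z ∈ tgLo D, g z = Φ (z, am z) := fun z hz => if_pos hz.2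
  have hmatch : ∀ z ∈ tgMid D, Φ (z, am z) = G (z, ap z) := by
    intro z hz
    have hzU : z ∈ U := hLU ⟨hDK hz.1, le_of_eq hz.2⟩
    have hap : ap z ∈ ball (0 : V4) β₀ := by
      rw [mem_ball_zero_iff]
      linarith [h3 z (tgMid_subset_tgUp D hz)]
    have ham : am z ∈ ball (0 : V4) β₀ := (hloU z (tgMid_subset_tgLo D hz)).2
    have heq : Φ (z, ap z) + (am z - ap z) = G (z, ap z) := by
      rw [h7 z hz]
      abel
    have hcone : Φ (z, ap z) + (am z - ap z) ∈ Cone F := by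
      rw [heq]
      exact hGm (hupW z (tgMid_subset_tgUp D hz))
    rw [hSp.trans z hzU (ap z) hap (am z) ham hcone, heq]
  have hgup : ∀ z ∈ tgUp D, g z = G (z, ap z) := by
    intro z hz
    rcases hz.2.lt_or_eq with h | h
    · exact if_neg (not_le.2 h)
    · rw [hglo z ⟨hz.1, le_of_eq h.symm⟩, hmatch z ⟨hz.1, h.symm⟩]
  -- continuity
  have hclo : ContinuousOn g (tgLo D) := by
    refine ContinuousOn.congr ?_ hglo
    exact hSp.hol.1.continuousOn.comp (continuousOn_id.prodMk h5) hloU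
  have hcup : ContinuousOn g (tgUp D) := by
    refine ContinuousOn.congr ?_ hgup
    exact hGd.continuousOn.comp (continuousOn_id.prodMk h2) hupW
  have hcont : ContinuousOn g D := tgc_continuousOn_glue hclo hcup
  -- holomorphy on the open sides
  have hdlo : DifferentiableOn ℂ g (tgLoo D) := by
    refine DifferentiableOn.congr ?_ (fun z hz => hglo z (tgLoo_subset_tgLo D hz))
    exact hSp.hol.1.comp (differentiableOn_id.prodMk h4)
      (fun z hz => hloU z (tgLoo_subset_tgLo D hz))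
  have hdup : DifferentiableOn ℂ g (tgUpo D) := by
    refine DifferentiableOn.congr ?_ (fun z hz => hgup z (tgUpo_subset_tgUp D hz))
    exact hGd.comp (differentiableOn_id.prodMk h1) (fun z hz => hupW z (tgUpo_subset_tgUp D hz))
  have hdiff : DifferentiableOn ℂ g D := tg_painleve hDo hcont hdup hdlo
  have hmaps : MapsTo g D (Cone F) := by
    intro z hz
    rcases le_total (z 0).im 0 with h | h
    · rw [hglo z ⟨hz, h⟩]
      exact hSp.hol.2 (hloU z ⟨hz, h⟩)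
    · rw [hgup z ⟨hz, h⟩]
      exact hGm (hupW z ⟨hz, h⟩)
  refine ⟨g, ⟨D, hDo, hK0, hdiff, hmaps⟩, ?_⟩
  intro x hx hx0
  have hxlo : x ∈ tgLo D := ⟨hK0 hx, hx0⟩
  rw [hglo x hxlo]
  have hl := hSp.lip x (hloU x hxlo).1 (am x) (hloU x hxlo).2
  have h8 : ‖am x‖ ≤ ε / (2 * (Cs + 1)) := (h6 x hxlo).trans (min_le_right _ _)
  calc ‖Φ (x, am x) - f x‖ ≤ Cs * ‖am x‖ := hl
    _ ≤ Cs * (ε / (2 * (Cs + 1))) := by gcongr
    _ < ε := by
      rw [← mul_div_assoc, div_lt_iff₀ (by positivity)]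
      nlinarith

end Claimed.Agent.R245
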