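/-
Row 245 / S0484, block S4-TG.  PACKAGE TG-LT: adapter from `lt_main` (Lemma 4.4, helper246, R245/LT.lean) to `TgLTStmt` (architect: helper199).
Statements FROZEN; helper lemmas: prefix `tgl_`, in this file.  No paper.

`tg_lt_scalar`: `R` with `tgPoly lam c r₀ ⊆ ball 0 R`; `(C, p)` from `lt_main N R α`; claim with `C' := C * 2^p`.  Given `r, h`: `D := tgPoly lam c r ⊆ tgPoly lam c r₀` (`tgPoly_mono`), `Ω := tgPoly lam c (r - h/2)`,
`D' := tgPoly lam c (r - h)`, step `h/2`; `DbExh Ω` is `db_exh_poly lam (fun k => c k + (r - h/2))` (defeq); margins: `tgPoly_ball`; `LtData D u A α` from `TgTr α D A u` (the definitions agree up to unfolding: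
`tgMid D = D ∩ {z | (z 0).im = 0}`, `ltUp z t = Function.update z 0 t`, `LtHol S f A α ↔ TgHol α S A f`, `LtCR = TgCR`); `C * A / (h/2)^p = C * 2^p / h^p * A`.
`tg_lt_vec`: `e : 𝔼 ≃L[ℂ] (Fin n → ℂ)` (`ContinuousLinearEquiv.ofFinrankEq`, or `(Module.finBasis ℂ 𝔼).equivFunL`).  `u_i z := e (u z) i` is a trace with bound `‖e‖ A` (`TgCls.clm_const` below, with the functional
`(ContinuousLinearMap.proj i).comp e`, of norm `≤ ‖e‖`); split every `u_i`; `ap z := e.symm (fun i => ap_i z)`: `TgCls.pi` + `TgCls.clm_const`.  `C' := ‖e.symm‖ * ‖e‖ * C`.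
-/
import Claimed.Agent.R245.TGCore
import Claimed.Agent.R245.LT

set_option autoImplicit false

namespace Claimed.Agent.R245

open Metric Set

variable {N : ℕ} {𝔼 𝔽 : Type*} [NormedAddCommGroup 𝔼] [NormedSpace ℂ 𝔼] [NormedAddCommGroup 𝔽]
  [NormedSpace ℂ 𝔽]

theorem TgCls.clm_const {α A : ℝ} {O S D : Set (TgX N)} {a : TgX N → 𝔼} (L : 𝔼 →L[ℂ] 𝔽)
    (ha : TgCls α O S D A a) : TgCls α O S D (‖L‖ * A) (fun z => L (a z)) := by
  refine ⟨L.differentiable.comp_differentiableOn ha.hol, ⟨?_, ?_⟩, ?_⟩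
  · intro z hz
    exact (L.le_opNorm _).trans (mul_le_mul_of_nonneg_left (ha.bd.1 z hz) (norm_nonneg _))
  · intro z hz z' hz'
    rw [← map_sub, mul_assoc]
    exact (L.le_opNorm _).trans (mul_le_mul_of_nonneg_left (ha.bd.2 z hz z' hz') (norm_nonneg _))
  · intro t
    exact L.differentiable.comp_differentiableOn (ha.cr t)

theorem TgCls.pi {α A : ℝ} {O S D : Set (TgX N)} {n : ℕ} {a : Fin n → TgX N → ℂ} (hA : 0 ≤ A)
    (ha : ∀ i, TgCls α O S D A (a i)) : TgCls α O S D A (fun z => fun i => a i z) := by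
  refine ⟨differentiableOn_pi.2 (fun i => (ha i).hol), ⟨?_, ?_⟩, ?_⟩
  · intro z hz
    exact (pi_norm_le_iff_of_nonneg hA).2 (fun i => (ha i).bd.1 z hz)
  · intro z hz z' hz'
    refine (pi_norm_le_iff_of_nonneg (by positivity)).2 (fun i => ?_)
    exact (ha i).bd.2 z hz z' hz'
  · intro t
    exact differentiableOn_pi.2 (fun i => (ha i).cr t)

theorem TgLT.mono {α r₀ C C' : ℝ} {p : ℕ} {P : ℝ → Set (TgX N)} (h : TgLT α P r₀ 𝔼 C p)
    (hC : C ≤ C') : TgLT α P r₀ 𝔼 C' p := by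
  intro r h' h1 h2 h3 h4
  exact (h r h' h1 h2 h3 h4).mono (div_le_div_of_nonneg_right hC (by positivity))

theorem tg_lt_scalar {m : ℕ} (lam : Fin m → TgX N →L[ℂ] ℂ) (c : Fin m → ℝ) (r₀ : ℝ)
    (hlam : ∀ k, ‖lam k‖ ≤ 1) (hb : Bornology.IsBounded (tgPoly lam c r₀)) (α : ℝ) (h0 : 0 < α)
    (h1 : α < 1) : ∃ (C : ℝ) (p : ℕ), 0 ≤ C ∧ TgLT α (tgPoly lam c) r₀ ℂ C p := by
  obtain ⟨R, hR⟩ := hb.subset_ball 0
  obtain ⟨C, p, hC, hmain⟩ := lt_main N R α h0 h1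
  refine ⟨C * 2 ^ p, p, by positivity, ?_⟩
  intro r h hh0 hh1 _ hr A u hA hu
  have hΩ : DbExh (tgPoly lam c (r - h / 2)) := db_exh_poly lam (fun k => c k + (r - h / 2))
  obtain ⟨aP, aM, d1, d2, b1, b2, hjump, c1, c2⟩ := hmain (tgPoly lam c r) (tgPoly lam c (r - h / 2))
    (tgPoly lam c (r - h)) (h / 2) (by positivity) (by linarith) (isOpen_tgPoly lam c r)
    ((tgPoly_mono lam c hr).trans hR) (isOpen_tgPoly lam c _) hΩ (isOpen_tgPoly lam c _)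
    (fun z hz => tgPoly_ball lam c hlam hz)
    (fun z hz => tgPoly_ball lam c hlam (by
      have e : r - h / 2 - h / 2 = r - h := by ring
      rw [e]; exact hz))
    u A ⟨hA, hu.bd, hu.cr⟩
  have e : C * A / (h / 2) ^ p = C * 2 ^ p / h ^ p * A := by
    rw [div_pow]
    field_simp
  rw [e] at b1 b2
  exact ⟨aP, aM, ⟨d1, b1, c1⟩, ⟨d2, b2, c2⟩, fun z hz => hjump z hz.1 hz.2⟩

theorem tg_lt_vec {α r₀ C : ℝ} {p : ℕ} {P : ℝ → Set (TgX N)} (𝔼 : Type*) [NormedAddCommGroup 𝔼]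
    [NormedSpace ℂ 𝔼] [FiniteDimensional ℂ 𝔼] (hC : 0 ≤ C) (h : TgLT α P r₀ ℂ C p) :
    ∃ C' : ℝ, TgLT α P r₀ 𝔼 C' p := by
  obtain ⟨n, e⟩ : ∃ n : ℕ, Nonempty (𝔼 ≃L[ℂ] (Fin n → ℂ)) :=
    ⟨Module.finrank ℂ 𝔼, ⟨(Module.finBasis ℂ 𝔼).equivFunL⟩⟩
  obtain ⟨e⟩ := e
  obtain ⟨eL, heL⟩ : ∃ eL : 𝔼 →L[ℂ] (Fin n → ℂ), ∀ x, eL x = e x := ⟨e, fun _ => rfl⟩
  obtain ⟨eS, heS⟩ : ∃ eS : (Fin n → ℂ) →L[ℂ] 𝔼, ∀ x, eS x = e.symm x := ⟨e.symm, fun _ => rfl⟩
  refine ⟨‖eS‖ * ‖eL‖ * C, ?_⟩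
  intro r h' hh0 hh1 hh2 hr A u hA hu
  have hsp := h r h' hh0 hh1 hh2 hr
  have hΛ : 0 ≤ C / h' ^ p := by positivity
  have hA' : 0 ≤ ‖eL‖ * A := by positivity
  have hui : ∀ i, TgTr α (P r) (‖eL‖ * A) (fun z => eL (u z) i) := by
    intro i
    have h1 := TgCls.clm_const
      ((ContinuousLinearMap.proj (R := ℂ) (φ := fun _ : Fin n => ℂ) i).comp eL) hu
    refine TgCls.mono h1 Subset.rfl Subset.rfl Subset.rfl ?_
    apply mul_le_mul_of_nonneg_right _ hA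
    refine ContinuousLinearMap.opNorm_le_bound _ (norm_nonneg _) (fun x => ?_)
    exact (norm_le_pi_norm (eL x) i).trans (eL.le_opNorm x)
  choose ap am h1 h2 h3 using fun i => hsp _ _ hA' (hui i)
  have hB : 0 ≤ C / h' ^ p * (‖eL‖ * A) := by positivity
  have ec : ‖eS‖ * (C / h' ^ p * (‖eL‖ * A)) = ‖eS‖ * ‖eL‖ * C / h' ^ p * A := by
    ring
  refine ⟨fun z => eS (fun i => ap i z), fun z => eS (fun i => am i z), ?_, ?_, ?_⟩
  · have := TgCls.clm_const eS (TgCls.pi hB h1)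
    rw [ec] at this
    exact this
  · have := TgCls.clm_const eS (TgCls.pi hB h2)
    rw [ec] at this
    exact this
  · intro z hz
    rw [← map_sub]
    have : ((fun i => ap i z) - fun i => am i z) = eL (u z) := by
      funext i
      exact h3 i z hz
    rw [this, heS, heL, ContinuousLinearEquiv.symm_apply_apply]

/-- **Lemma 4.4 in the form used by the Newton scheme.** -/
theorem tg_ltStmt : TgLTStmt (1 / 2) := by
  intro N m lam c r₀ hlam hb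
  obtain ⟨C, p, hC, h⟩ := tg_lt_scalar lam c r₀ hlam hb (1 / 2) (by norm_num) (by norm_num)
  obtain ⟨C₁, h₁⟩ := tg_lt_vec V4 hC h
  obtain ⟨C₂, h₂⟩ := tg_lt_vec TgL hC h
  exact ⟨max C₁ C₂, p, h₁.mono (le_max_left _ _), h₂.mono (le_max_right _ _)⟩

end Claimed.Agent.R245
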