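/-
Row 245 / S0484, block S4-TG.  PACKAGE TG-TRANS: transport of the trace gluing statement from the coordinates `TgX N` to an abstract `(X, ℓ, b)` (architect: helper199).
Statements FROZEN; helper lemmas: prefix `tgt_`, in this file.  No paper.

`tg_coords`: `s4enl_coords` (S4Enl.lean) gives `X ≃ᴬ[ℂ] ℂ × ker ℓ` with first component `ℓ x - I b`; `ker ℓ ≃L[ℂ] (Fin N → ℂ)`, `N := finrank (ker ℓ)` (`ContinuousLinearEquiv.ofFinrankEq`);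
`ℂ × (Fin N → ℂ) ≃L[ℂ] (Fin (N+1) → ℂ)`, `(a, w) ↦ Fin.cons a w` (build the `LinearEquiv` by hand or from `Fin.consEquiv` / `Fin.consLinearEquiv`, then `LinearEquiv.toContinuousLinearEquiv`); compose
(`ContinuousAffineEquiv.prodCongr`, `ContinuousLinearEquiv.toContinuousAffineEquiv`, `.trans`).
`tg_transport`: `Ψ` from `tg_coords`; `K' := Ψ '' K`, `Kp' := Ψ '' Kp` (compact; convex: `s4tr_convex_image`; `K' ⊆ interior Kp'`: `s4tr_image_interior`), `f' := f ∘ Ψ.symm`.  `Im ((Ψ x) 0) = Im (ℓ x) - b`.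
`HolNear` transports by `s4enl_holNear_comp`, `C1Close` by `s4enl_c1close_comp` (constant `1 + ‖lin part‖`), both from S4Enl.lean, with `Θ := Ψ.prodCongr (ContinuousAffineEquiv.refl ℂ V4) : X × V4 ≃ᴬ[ℂ] TgX N × V4`.
From the core: `β, s'`; put `s := s' ∘ Θ`.  Given `ε`: `e₀'` from the core, `e₀ := e₀' / (1 + ‖lin part of Θ.symm‖)`.  Given `G`: `G' := G ∘ Θ.symm`; core gives `g'`; `g := g' ∘ Ψ`.
(See the proof of `s4_enlarge` in S4Enl.lean for the same manipulations.)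
-/
import Claimed.Agent.R245.TGCore
import Claimed.Agent.R245.S4Enl

set_option autoImplicit false

namespace Claimed.Agent.R245

open MvPolynomial Metric Set Claims.C0412

theorem tg_coords {X : Type*} [NormedAddCommGroup X] [NormedSpace ℂ X] [FiniteDimensional ℂ X]
    (ℓ : X →L[ℂ] ℂ) (hℓ : ℓ ≠ 0) (b : ℝ) :
    ∃ (N : ℕ) (Ψ : X ≃ᴬ[ℂ] TgX N), ∀ x, (Ψ x) 0 = ℓ x - Complex.I * b := by
  obtain ⟨Ψ₁, hΨ₁⟩ := s4enl_coords ℓ hℓ b
  set N := Module.finrank ℂ (LinearMap.ker ℓ.toLinearMap) with hN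
  have e₂ : LinearMap.ker ℓ.toLinearMap ≃L[ℂ] (Fin N → ℂ) :=
    ContinuousLinearEquiv.ofFinrankEq (by simp [hN])
  let e₃ : (ℂ × (Fin N → ℂ)) ≃L[ℂ] (Fin (N + 1) → ℂ) := Fin.consEquivL ℂ (fun _ => ℂ)
  refine ⟨N, Ψ₁.trans
    (((ContinuousLinearEquiv.refl ℂ ℂ).prodCongr e₂).trans e₃).toContinuousAffineEquiv,
    fun x => ?_⟩
  rw [← hΨ₁ x]
  rfl

theorem tgt_diffAt {F : MvPolynomial (Fin 4) ℂ} {E : Type*} [NormedAddCommGroup E] [NormedSpace ℂ E]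
    {G : E → V4} {S : Set E} (h : HolNear F G S) : ∀ x ∈ S, DifferentiableAt ℂ G x := by
  obtain ⟨W, hW, hSW, hd, -⟩ := h
  exact fun x hx => (hd x (hSW hx)).differentiableAt (hW.mem_nhds (hSW hx))

theorem tg_transport (F : MvPolynomial (Fin 4) ℂ) (h : TgCoreStmt F) : TraceGlueStmt F := by
  intro X _ _ _ ℓ b K Kp hℓ hK hKc hKp hKpc hKK f hf
  obtain ⟨N, Ψ, hΨ⟩ := tg_coords ℓ hℓ b
  have him : ∀ x, ((Ψ x) 0).im = (ℓ x).im - b := by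
    intro x
    rw [hΨ]
    simp
  have hsymm : ∀ x, Ψ.symm (Ψ x) = x := fun x => Ψ.symm_apply_apply x
  have hKK' : Ψ '' K ⊆ interior (Ψ '' Kp) := by
    rw [← s4tr_image_interior]
    exact image_mono hKK
  have hf' : HolNear F (f ∘ Ψ.symm) (Ψ '' Kp ∩ {x | (x 0).im ≤ 0}) := by
    refine s4enl_holNear_comp Ψ.symm hf ?_
    rintro _ ⟨⟨x, hx, rfl⟩, hx0⟩
    rw [hsymm]
    have h0 : ((Ψ x) 0).im ≤ 0 := hx0
    rw [him] at h0
    exact ⟨hx, by show (ℓ x).im ≤ b; linarith⟩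
  obtain ⟨β, s', hβ, hs', hs'f, hcore⟩ := h N (Ψ '' K) (Ψ '' Kp) (hK.image Ψ.continuous_toFun)
    (s4tr_convex_image Ψ hKc) (hKp.image Ψ.continuous_toFun) (s4tr_convex_image Ψ hKpc) hKK'
    (f ∘ Ψ.symm) hf'
  set Θ : X × V4 ≃ᴬ[ℂ] TgX N × V4 := Ψ.prodCongr (ContinuousAffineEquiv.refl ℂ V4) with hΘ
  have hΘa : ∀ p : X × V4, Θ p = (Ψ p.1, p.2) := fun p => rfl
  have hΘs : ∀ p : TgX N × V4, Θ.symm p = (Ψ.symm p.1, p.2) := fun p => rfl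
  refine ⟨β, s' ∘ Θ, hβ, ?_, ?_, ?_⟩
  · refine s4enl_holNear_comp Θ hs' ?_
    rintro ⟨x, v⟩ ⟨⟨hx, hxb⟩, hv⟩
    have hxb' : (ℓ x).im ≤ b := hxb
    exact ⟨⟨⟨x, hx, rfl⟩, by show ((Ψ x) 0).im ≤ 0; rw [him]; linarith⟩, hv⟩
  · rintro x ⟨hx, hxb⟩
    have hxb' : (ℓ x).im ≤ b := hxb
    have := hs'f (Ψ x) ⟨⟨x, hx, rfl⟩, by show ((Ψ x) 0).im ≤ 0; rw [him]; linarith⟩
    simp only [Function.comp_apply, hsymm] at this
    exact this
  · intro ε hε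
    obtain ⟨e₀', he₀', hG'⟩ := hcore ε hε
    set L := Θ.symm.toContinuousAffineMap.contLinear with hL
    have hL0 : 0 < 1 + ‖L‖ := by positivity
    refine ⟨e₀' / (1 + ‖L‖), div_pos he₀' hL0, ?_⟩
    intro G hG hC
    have hGn : HolNear F (G ∘ Θ.symm)
        ((Ψ '' Kp ∩ {x | 0 ≤ (x 0).im}) ×ˢ closedBall (0 : V4) β) := by
      refine s4enl_holNear_comp Θ.symm hG ?_
      rintro ⟨_, v⟩ ⟨⟨⟨x, hx, rfl⟩, hx0⟩, hv⟩
      rw [hΘs]
      simp only [hsymm]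
      have h0 : 0 ≤ ((Ψ x) 0).im := hx0
      rw [him] at h0
      exact ⟨⟨hx, by show b ≤ (ℓ x).im; linarith⟩, hv⟩
    have hsn : HolNear F (s' ∘ Θ) ((Kp ∩ {x | (ℓ x).im ≤ b}) ×ˢ closedBall (0 : V4) β) := by
      refine s4enl_holNear_comp Θ hs' ?_
      rintro ⟨x, v⟩ ⟨⟨hx, hxb⟩, hv⟩
      have hxb' : (ℓ x).im ≤ b := hxb
      exact ⟨⟨⟨x, hx, rfl⟩, by show ((Ψ x) 0).im ≤ 0; rw [him]; linarith⟩, hv⟩
    have hC' : C1Close (G ∘ Θ.symm) s'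
        ((Ψ '' Kp ∩ {x | (x 0).im = 0}) ×ˢ closedBall (0 : V4) β) e₀' := by
      have h1 := s4enl_c1close_comp Θ.symm hC
        (S' := (Ψ '' Kp ∩ {x | (x 0).im = 0}) ×ˢ closedBall (0 : V4) β) (by
          rintro ⟨_, v⟩ ⟨⟨⟨x, hx, rfl⟩, hx0⟩, hv⟩
          rw [hΘs]
          simp only [hsymm]
          have h0 : ((Ψ x) 0).im = 0 := hx0
          rw [him] at h0
          exact ⟨⟨hx, by show (ℓ x).im = b; linarith⟩, hv⟩)
        (fun p hp => tgt_diffAt hG p ⟨⟨hp.1.1, le_of_eq (Eq.symm hp.1.2)⟩, hp.2⟩)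
        (fun p hp => tgt_diffAt hsn p ⟨⟨hp.1.1, le_of_eq hp.1.2⟩, hp.2⟩)
      have h2 : (s' ∘ Θ) ∘ Θ.symm = s' := by
        funext p
        simp only [Function.comp_apply, ContinuousAffineEquiv.apply_symm_apply]
      have h3 : e₀' / (1 + ‖L‖) * (1 + ‖L‖) = e₀' := div_mul_cancel₀ _ hL0.ne'
      rw [h2, ← hL, h3] at h1
      exact h1
    obtain ⟨g', hg', hgf⟩ := hG' (G ∘ Θ.symm) hGn hC'
    refine ⟨g' ∘ Ψ, s4enl_holNear_comp Ψ hg' (mapsTo_image _ _), ?_⟩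
    intro x hx hxb
    have := hgf (Ψ x) ⟨x, hx, rfl⟩ (by rw [him]; linarith)
    simp only [Function.comp_apply, hsymm] at this
    exact this

end Claimed.Agent.R245
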