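/-
Row 245 / S0484, Section 4. BLOCK S4-TG (trace gluing).  Top statement, assembled from R245/TG*.lean (architect helper199) and R245/LT.lean (helper246).
-/
import Claimed.Agent.R245.TGTrans
import Claimed.Agent.R245.TGLT

set_option autoImplicit false

namespace Claimed.Agent.R245

open MvPolynomial Metric Set Claims.C0412

/-- BLOCK S4-TG (spray over the lower side, Lemmas glue:linear-trace and glue:trace). -/
theorem s4_traceGlue (F : MvPolynomial (Fin 4) ℂ) (hF : IsSmoothQuarticForm F) :
    TraceGlueStmt F :=
  tg_transport F (tg_core F hF tg_ltStmt)

end Claimed.Agent.R245
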