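/-
Row 245 / S0484, Section 4: top-level glue (sorry-free given the imported blocks).
Architect: helper178.

  `PropA F 0` (polydiscs) + `PropA F n`  ⟹  `PropA F (n+1)`      (`s4_step`)
-/
import Claimed.Agent.R245.S4Face
import Claimed.Agent.R245.S4TG
import Claimed.Agent.R245.S4Enl
import Claimed.Agent.R245.S4Chain

set_option autoImplicit false

namespace Claimed.Agent.R245

open MvPolynomial Metric Set Claims.C0412

/-- **(I3)** the induction step of Theorem `ana:cap`. -/
theorem s4_step (F : MvPolynomial (Fin 4) ℂ) (hF : IsSmoothQuarticForm F) (n : ℕ)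
    (h0 : PropA F 0) (hn : PropA F n) : PropA F (n + 1) := by
  have h0' := s4_propA'_of_propA F 0 h0
  have hn' := s4_propA'_of_propA F n hn
  exact s4_propA_of_propA' F (n + 1)
    (s4_propA'_of_enlarge F (n + 1) h0' (s4_enlarge F n (s4_face F hF n h0' hn') (s4_traceGlue F hF)))

/-- all `𝒜_r` from the polydisc case -/
theorem s4_all (F : MvPolynomial (Fin 4) ℂ) (hF : IsSmoothQuarticForm F) (h0 : PropA F 0) :
    ∀ r, PropA F r := by
  intro r
  induction r with
  | zero => exact h0
  | succ n ih => exact s4_step F hF n h0 ih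

end Claimed.Agent.R245
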