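/-
Row 245 / S0484.  Tool layer T1 (several complex variables), statements: helper98.
Package T1-INT: integrals with a holomorphic parameter.
ONE FILE = ONE PACKAGE = ONE OWNER.  Do not change the statements; helper lemmas: prefix `scv_`, keep them in this file.
-/
import Mathlib
import Claimed.Agent.R245.SCVEst
import Claimed.Agent.R245.SCVPart

set_option autoImplicit false

namespace Claimed.Agent.R245

open Set Metric Filter Topology MeasureTheory

variable {E E₁ E₂ G : Type*} [NormedAddCommGroup E] [NormedSpace ℂ E]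
  [NormedAddCommGroup E₁] [NormedSpace ℂ E₁] [NormedAddCommGroup E₂] [NormedSpace ℂ E₂]
  [NormedAddCommGroup G] [NormedSpace ℂ G] [CompleteSpace G]

/-- **Integrals with a holomorphic parameter.**  `u` is holomorphic and bounded on `C ×ˢ P` (`C`, `P` open), `k` is
integrable on `C`.  Then `t ↦ ∫ ζ in C, k ζ • u (ζ, t)` is holomorphic on `P`.
Route: `hasFDerivAt_integral_of_dominated_of_fderiv_le` on `μ.restrict C`; derivative
`F' t ζ = k ζ • fderiv ℂ (fun t => u (ζ, t)) t`; it is continuous in `ζ ∈ C` by `scv_continuousOn_partial` (swap the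
factors), hence a.e. strongly measurable on `C`; it is bounded by `‖k ζ‖ * (M / r)` on `ball t₀ r` if
`ball t₀ (2 r) ⊆ P` (`scv_norm_fderiv_le`). -/
theorem scv_integral [FiniteDimensional ℂ E₁] [FiniteDimensional ℂ E₂] [MeasurableSpace E₁]
    [BorelSpace E₁] {μ : Measure E₁} {C : Set E₁} {P : Set E₂} (hC : IsOpen C) (hP : IsOpen P)
    {u : E₁ × E₂ → G} (hu : DifferentiableOn ℂ u (C ×ˢ P)) {M : ℝ}
    (hM : ∀ z ∈ C ×ˢ P, ‖u z‖ ≤ M) {k : E₁ → ℂ} (hk : IntegrableOn k C μ) :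
    DifferentiableOn ℂ (fun t => ∫ ζ in C, k ζ • u (ζ, t) ∂μ) P := by
  intro t₀ ht₀
  have : ProperSpace E₁ := FiniteDimensional.proper ℂ E₁
  have : SecondCountableTopology E₁ := secondCountable_of_proper
  have hCP : IsOpen (C ×ˢ P) := hC.prod hP
  have hat : ∀ ζ ∈ C, ∀ t ∈ P, DifferentiableAt ℂ u (ζ, t) := fun ζ hζ t ht =>
    (hu (ζ, t) ⟨hζ, ht⟩).differentiableAt (hCP.mem_nhds ⟨hζ, ht⟩)
  have hpart : ∀ ζ ∈ C, ∀ t ∈ P, DifferentiableAt ℂ (fun t => u (ζ, t)) t := fun ζ hζ t ht =>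
    (hat ζ hζ t ht).comp t (by fun_prop)
  obtain ⟨ρ, hρ, hball⟩ := Metric.isOpen_iff.1 hP t₀ ht₀
  have hsub : ball t₀ (ρ / 2) ⊆ ball t₀ ρ := ball_subset_ball (by linarith)
  -- measurability in `ζ`
  have hmeas : ∀ t ∈ P, AEStronglyMeasurable (fun ζ => k ζ • u (ζ, t)) (μ.restrict C) := by
    intro t ht
    have hc : ContinuousOn (fun ζ => u (ζ, t)) C := fun ζ hζ =>
      ((hat ζ hζ t ht).continuousAt.comp (f := fun ζ => (ζ, t)) (by fun_prop)).continuousWithinAt
    exact hk.1.smul (hc.aestronglyMeasurable hC.measurableSet)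
  have hcd : ContinuousOn (fun ζ => fderiv ℂ (fun t => u (ζ, t)) t₀) C := by
    have h1 := scv_continuousOn_partial (f := fun z : E₂ × E₁ => u (z.2, z.1)) (U := P ×ˢ C)
      (hP.prod hC)
      (fun z hz => ((hat z.2 hz.2 z.1 hz.1).continuousAt.comp
        (f := fun z : E₂ × E₁ => (z.2, z.1)) (by fun_prop)).continuousWithinAt)
      (fun z hz => hpart z.2 hz.2 z.1 hz.1)
    exact h1.comp (f := fun ζ => (t₀, ζ)) (by fun_prop) (fun ζ hζ => ⟨ht₀, hζ⟩)
  have key := hasFDerivAt_integral_of_dominated_of_fderiv_le (𝕜 := ℂ) (μ := μ.restrict C)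
    (F := fun t ζ => k ζ • u (ζ, t))
    (F' := fun t ζ => k ζ • fderiv ℂ (fun t => u (ζ, t)) t) (x₀ := t₀)
    (bound := fun ζ => ‖k ζ‖ * (M / (ρ / 2))) (s := ball t₀ (ρ / 2))
    (ball_mem_nhds t₀ (by linarith))
    (by filter_upwards [hP.mem_nhds ht₀] with t ht using hmeas t ht)
    ?_ (hk.1.smul (hcd.aestronglyMeasurable hC.measurableSet)) ?_
    (hk.norm.mul_const _) ?_
  · exact key.differentiableAt.differentiableWithinAt
  · refine (hk.norm.mul_const M).mono' (hmeas t₀ ht₀) ?_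
    refine ae_restrict_of_forall_mem hC.measurableSet fun ζ hζ => ?_
    rw [norm_smul]
    gcongr
    exact hM _ ⟨hζ, ht₀⟩
  · refine ae_restrict_of_forall_mem hC.measurableSet fun ζ hζ t ht => ?_
    rw [norm_smul]
    gcongr
    have h1 := scv_norm_fderiv_le (g := fun t => u (ζ, t)) (c := t₀) (β := ρ) (M := M)
      (fun t ht => (hpart ζ hζ t (hball ht)).differentiableWithinAt)
      (fun t ht => hM _ ⟨hζ, hball ht⟩) (hsub ht)
    refine h1.trans ?_
    have hM0 : 0 ≤ M := (norm_nonneg _).trans (hM (ζ, t₀) ⟨hζ, ht₀⟩)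
    have ht' : dist t t₀ < ρ / 2 := mem_ball.1 ht
    gcongr
    linarith
  · refine ae_restrict_of_forall_mem hC.measurableSet fun ζ hζ t ht => ?_
    exact (hpart ζ hζ t (hball (hsub ht))).hasFDerivAt.const_smul (k ζ)

end Claimed.Agent.R245
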