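/-
Row 245 / S0484.  Tool layer T1 (several complex variables), statements: helper98.
Package T1-LIM: locally uniform limits of holomorphic maps.
ONE FILE = ONE PACKAGE = ONE OWNER.  Do not change the statements; helper lemmas: prefix `scv_`, keep them in this file.
-/
import Mathlib
import Claimed.Agent.R245.SCVEst

set_option autoImplicit false

namespace Claimed.Agent.R245

open Set Metric Filter Topology MeasureTheory

variable {E E₁ E₂ G : Type*} [NormedAddCommGroup E] [NormedSpace ℂ E]
  [NormedAddCommGroup E₁] [NormedSpace ℂ E₁] [NormedAddCommGroup E₂] [NormedSpace ℂ E₂]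
  [NormedAddCommGroup G] [NormedSpace ℂ G] [CompleteSpace G]

/-- second order Taylor bound in one complex variable -/
theorem scv_taylor_one {φ : ℂ → G} {ρ M : ℝ} (hρ : 4 < ρ) (hφ : DifferentiableOn ℂ φ (ball 0 ρ))
    (hM : ∀ z ∈ ball (0 : ℂ) ρ, ‖φ z‖ ≤ M) : ‖φ 1 - φ 0 - deriv φ 0‖ ≤ 8 * M / ρ ^ 2 := by
  have hρ0 : 0 < ρ := by linarith
  have hM0 : 0 ≤ M := (norm_nonneg _).trans (hM 0 (mem_ball_self hρ0))
  have hd : DifferentiableOn ℂ (deriv φ) (ball 0 ρ) := hφ.deriv isOpen_ball
  have hsub : ball (0 : ℂ) (ρ / 2) ⊆ ball 0 ρ := ball_subset_ball (by linarith)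
  have hb : ∀ z ∈ ball (0 : ℂ) (ρ / 2), ‖deriv φ z‖ ≤ 2 * M / ρ := by
    intro z hz
    rw [norm_deriv_eq_norm_fderiv]
    refine (scv_norm_fderiv_le hφ hM (hsub hz)).trans ?_
    have hz' : dist z 0 < ρ / 2 := mem_ball.1 hz
    rw [div_le_div_iff₀ (by linarith) hρ0]
    nlinarith
  have hlip : ∀ z ∈ closedBall (0 : ℂ) 1, ‖deriv φ z - deriv φ 0‖ ≤ 8 * M / ρ ^ 2 := by
    intro z hz
    have hz' : dist z 0 ≤ 1 := mem_closedBall.1 hz
    have h1 := scv_lipschitz (hd.mono hsub) hb (v₁ := z) (v₂ := 0)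
      (mem_ball.2 (by linarith)) (mem_ball_self (by linarith))
    refine h1.trans ?_
    rw [sub_zero, ← dist_zero_right]
    have e : 2 * (2 * M / ρ) / (ρ / 2) = 8 * M / ρ ^ 2 := by field_simp; ring
    rw [e]
    have h2 : 0 ≤ 8 * M / ρ ^ 2 := by positivity
    nlinarith
  have hsub1 : closedBall (0 : ℂ) 1 ⊆ ball 0 ρ := closedBall_subset_ball (by linarith)
  have hat : ∀ z ∈ closedBall (0 : ℂ) 1, HasDerivAt (fun z => φ z - z • deriv φ 0)
      (deriv φ z - deriv φ 0) z := by
    intro z hz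
    have h1 : HasDerivAt φ (deriv φ z) z :=
      ((hφ z (hsub1 hz)).differentiableAt (isOpen_ball.mem_nhds (hsub1 hz))).hasDerivAt
    have h2 := h1.sub ((hasDerivAt_id z).smul_const (deriv φ 0))
    simp only [one_smul] at h2
    exact h2
  have key := Convex.norm_image_sub_le_of_norm_deriv_le (𝕜 := ℂ)
    (f := fun z => φ z - z • deriv φ 0) (s := closedBall (0 : ℂ) 1) (C := 8 * M / ρ ^ 2)
    (fun z hz => (hat z hz).differentiableAt)
    (fun z hz => by rw [(hat z hz).deriv]; exact hlip z hz) (convex_closedBall 0 1)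
    (x := 0) (y := 1) (by simp) (by simp)
  simp only [one_smul, zero_smul, sub_zero, norm_one, mul_one] at key
  have e : φ 1 - φ 0 - deriv φ 0 = φ 1 - deriv φ 0 - φ 0 := by abel
  rw [e]
  exact key

/-- second order Taylor bound on a ball of a complex normed space -/
theorem scv_taylor {g : E → G} {c : E} {β M : ℝ} (hg : DifferentiableOn ℂ g (ball c β))
    (hM : ∀ v ∈ ball c β, ‖g v‖ ≤ M) {h : E} (hh : 4 * ‖h‖ < β) :
    ‖g (c + h) - g c - fderiv ℂ g c h‖ ≤ 8 * M / β ^ 2 * ‖h‖ ^ 2 := by
  by_cases h0 : h = 0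
  · simp [h0]
  have hh0 : 0 < ‖h‖ := norm_pos_iff.2 h0
  have hβ : 0 < β := by linarith
  have hmem : ∀ z ∈ ball (0 : ℂ) (β / ‖h‖), c + z • h ∈ ball c β := by
    intro z hz
    rw [mem_ball_zero_iff, lt_div_iff₀ hh0] at hz
    rwa [mem_ball, dist_eq_norm, add_sub_cancel_left, norm_smul]
  have hline : ∀ z : ℂ, HasDerivAt (fun z : ℂ => c + z • h) h z := by
    intro z
    simpa using ((hasDerivAt_id z).smul_const h).const_add c
  have hd : DifferentiableOn ℂ (fun z : ℂ => g (c + z • h)) (ball 0 (β / ‖h‖)) := by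
    intro z hz
    have h1 : DifferentiableAt ℂ g (c + z • h) :=
      (hg _ (hmem z hz)).differentiableAt (isOpen_ball.mem_nhds (hmem z hz))
    exact (h1.comp z (hline z).differentiableAt).differentiableWithinAt
  have key := scv_taylor_one (φ := fun z : ℂ => g (c + z • h)) (ρ := β / ‖h‖) (M := M)
    ((lt_div_iff₀ hh0).2 hh) hd (fun z hz => hM _ (hmem z hz))
  have hderiv : deriv (fun z : ℂ => g (c + z • h)) 0 = fderiv ℂ g c h := by
    have h1 : HasFDerivAt g (fderiv ℂ g c) (c + (0 : ℂ) • h) := by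
      rw [zero_smul, add_zero]
      exact ((hg c (mem_ball_self hβ)).differentiableAt
        (isOpen_ball.mem_nhds (mem_ball_self hβ))).hasFDerivAt
    exact (h1.comp_hasDerivAt (0 : ℂ) (hline 0)).deriv
  rw [hderiv] at key
  simp only [one_smul, zero_smul, add_zero] at key
  refine key.trans (le_of_eq ?_)
  field_simp

/-- **Weierstrass**: a locally uniform limit of complex differentiable maps is complex differentiable
(any complex normed space `E`; Mathlib has this only for `E = ℂ`).
Route: by `scv_norm_fderiv_le` applied to `F n - F m` the derivatives are locally uniformly Cauchy, hence converge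
locally uniformly to some `g'` (`E →L[ℂ] G` is complete); `hasFDerivAt_of_tendstoLocallyUniformlyOn`.
(Proof below: in a space which is not locally compact the neighbourhoods in `TendstoLocallyUniformlyOn` depend on the
accuracy, so instead: the derivatives converge pointwise by the one variable theorem along complex lines, and the second order
Taylor bound `scv_taylor`, uniform in `n`, passes to the limit.) -/
theorem scv_tendsto {ι : Type*} {l : Filter ι} [l.NeBot] {F : ι → E → G} {f : E → G} {U : Set E}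
    (hU : IsOpen U) (hF : ∀ᶠ n in l, DifferentiableOn ℂ (F n) U)
    (hf : TendstoLocallyUniformlyOn F f l U) : DifferentiableOn ℂ f U := by
  intro x hx
  have hfc : ContinuousOn f U := hf.continuousOn (hF.mono fun n h => h.continuousOn).frequently
  obtain ⟨t, ht, htn⟩ := Metric.tendstoLocallyUniformlyOn_iff.1 hf 1 one_pos x hx
  rw [hU.nhdsWithin_eq hx] at ht
  have h1 : ∀ᶠ v in 𝓝 x, ‖f v‖ < ‖f x‖ + 1 :=
    ((hfc.continuousAt (hU.mem_nhds hx)).norm).eventually (gt_mem_nhds (by linarith))
  obtain ⟨β, hβ, hball⟩ := Metric.mem_nhds_iff.1 (inter_mem (inter_mem (hU.mem_nhds hx) ht) h1)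
  set M := ‖f x‖ + 2 with hMdef
  have hgood : ∀ᶠ n in l, DifferentiableOn ℂ (F n) (ball x β) ∧ ∀ v ∈ ball x β, ‖F n v‖ ≤ M := by
    filter_upwards [hF, htn] with n h1 h2
    refine ⟨h1.mono fun v hv => (hball hv).1.1, fun v hv => ?_⟩
    have h3 := h2 v (hball hv).1.2
    have h4 : ‖f v‖ < ‖f x‖ + 1 := (hball hv).2
    rw [dist_eq_norm] at h3
    have h5 : ‖F n v‖ ≤ ‖f v‖ + ‖f v - F n v‖ := by
      have := norm_sub_le (f v) (f v - F n v)
      simpa using this
    linarith
  -- pointwise convergence of the derivatives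
  have hlim : ∀ h : E, Tendsto (fun n => fderiv ℂ (F n) x h) l
      (𝓝 (deriv (fun z : ℂ => f (x + z • h)) 0)) := by
    intro h
    have hline : ∀ z : ℂ, HasDerivAt (fun z : ℂ => x + z • h) h z := by
      intro z
      simpa using ((hasDerivAt_id z).smul_const h).const_add x
    have hγ : Continuous (fun z : ℂ => x + z • h) := by fun_prop
    have hV : IsOpen ((fun z : ℂ => x + z • h) ⁻¹' U) := hU.preimage hγ
    have hcomp := hf.comp (fun z : ℂ => x + z • h) (mapsTo_preimage _ U) hγ.continuousOn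
    have hd : ∀ᶠ n in l, DifferentiableOn ℂ (F n ∘ fun z : ℂ => x + z • h)
        ((fun z : ℂ => x + z • h) ⁻¹' U) :=
      hF.mono fun n hn => hn.comp (fun z _ => (hline z).differentiableAt.differentiableWithinAt)
        (mapsTo_preimage _ U)
    have h0 : (0 : ℂ) ∈ (fun z : ℂ => x + z • h) ⁻¹' U := by simpa using hx
    have h2 := (hcomp.deriv hd hV).tendsto_at h0
    refine h2.congr' ?_
    filter_upwards [hF] with n hn
    have h3 : HasFDerivAt (F n) (fderiv ℂ (F n) x) (x + (0 : ℂ) • h) := by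
      rw [zero_smul, add_zero]
      exact ((hn x hx).differentiableAt (hU.mem_nhds hx)).hasFDerivAt
    exact (h3.comp_hasDerivAt (0 : ℂ) (hline 0)).deriv
  -- the limit is a continuous linear map
  let L₀ : E →ₗ[ℂ] G := linearMapOfTendsto (fun h => deriv (fun z : ℂ => f (x + z • h)) 0)
    (fun n => (fderiv ℂ (F n) x : E →ₗ[ℂ] G)) (tendsto_pi_nhds.2 hlim)
  have hL₀ : ∀ h, L₀ h = deriv (fun z : ℂ => f (x + z • h)) 0 := fun h => rfl
  have hbound : ∀ h, ‖L₀ h‖ ≤ M / β * ‖h‖ := by
    intro h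
    refine le_of_tendsto (hlim h).norm ?_
    filter_upwards [hgood] with n hn
    have h2 := scv_norm_fderiv_le hn.1 hn.2 (mem_ball_self hβ)
    rw [dist_self, sub_zero] at h2
    exact ((fderiv ℂ (F n) x).le_opNorm h).trans (by gcongr)
  let L : E →L[ℂ] G := L₀.mkContinuous (M / β) hbound
  have hquad : ∀ h : E, 4 * ‖h‖ < β → ‖f (x + h) - f x - L h‖ ≤ 8 * M / β ^ 2 * ‖h‖ ^ 2 := by
    intro h hh
    have hxh : x + h ∈ U := by
      refine (hball ?_).1.1
      rw [mem_ball, dist_eq_norm, add_sub_cancel_left]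
      linarith [norm_nonneg h]
    have h2 : Tendsto (fun n => F n (x + h) - F n x - fderiv ℂ (F n) x h) l
        (𝓝 (f (x + h) - f x - L h)) :=
      ((hf.tendsto_at hxh).sub (hf.tendsto_at hx)).sub (hlim h)
    refine le_of_tendsto h2.norm ?_
    filter_upwards [hgood] with n hn
    exact scv_taylor hn.1 hn.2 hh
  have hder : HasFDerivAt f L x := by
    rw [hasFDerivAt_iff_isLittleO_nhds_zero]
    refine Asymptotics.IsBigO.trans_isLittleO (g := fun h : E => ‖h‖ ^ 2) ?_
      (Asymptotics.isLittleO_norm_pow_id one_lt_two)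
    refine Asymptotics.IsBigO.of_bound (8 * M / β ^ 2) ?_
    have h3 : ∀ᶠ h : E in 𝓝 0, h ∈ ball (0 : E) (β / 4) := ball_mem_nhds 0 (by linarith)
    filter_upwards [h3] with h hh
    rw [mem_ball_zero_iff] at hh
    rw [norm_pow, norm_norm]
    exact hquad h (by linarith)
  exact hder.differentiableAt.differentiableWithinAt

end Claimed.Agent.R245
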