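/-
Row 245 / S0484, block S4-TG.  PACKAGE TG-PAIN: Painlevé's theorem across the real hyperplane `Im z 0 = 0` (architect: helper199).
Statements FROZEN; helper lemmas: prefix `tgp_`, in this file.  No paper.

`tg_painleve_one` (one variable).  Morera is in Mathlib: `Complex.isConservativeOn_and_continuousOn_iff_differentiableOn` (Mathlib/Analysis/Complex/HasPrimitives.lean).
For a rectangle in `U`: if it does not meet the real axis in its interior use `Complex.integral_boundary_rect_eq_zero_of_continuousOn_of_differentiableOn`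
(continuous on the closed rectangle, differentiable on the open one); otherwise cut it along the real axis into two such rectangles and add (the two integrals over the common side cancel).
`tg_painleve`.  At `z₀ ∈ tgMid D` choose `ball z₀ (2ρ) ⊆ D` (sup norm: a polydisc).  Transport by a continuous linear equivalence `TgX N ≃L[ℂ] ℂ × (Fin N → ℂ)`
(`z ↦ (z 0, Fin.tail z)`) and use `scv_osgood` (continuous + separately differentiable ⇒ analytic).  In the variable `z 0`: `tg_painleve_one`.  In the tangential variables at a point with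
`Im z 0 = 0`: `w ↦ g (t, w)` is the locally uniform limit (uniform continuity of `g` on a compact polydisc) of the holomorphic functions `w ↦ g (t + i/n, w)`: `scv_tendsto`.
-/
import Claimed.Agent.R245.TGAlg
import Claimed.Agent.R245.Painleve

set_option autoImplicit false

namespace Claimed.Agent.R245

open Metric Set

variable {𝔼 : Type*} [NormedAddCommGroup 𝔼] [NormedSpace ℂ 𝔼] [CompleteSpace 𝔼]

theorem tg_painleve_one {U : Set ℂ} (hU : IsOpen U) {g : ℂ → 𝔼} (hc : ContinuousOn g U)
    (hd : DifferentiableOn ℂ g (U ∩ {z | z.im ≠ 0})) : DifferentiableOn ℂ g U :=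
  pnl_one hU 0 hc hd

theorem tg_painleve {N : ℕ} {D : Set (TgX N)} (hD : IsOpen D) {g : TgX N → 𝔼}
    (hc : ContinuousOn g D) (hu : DifferentiableOn ℂ g (tgUpo D))
    (hl : DifferentiableOn ℂ g (tgLoo D)) : DifferentiableOn ℂ g D := by
  set ℓ : TgX N →L[ℂ] ℂ := ContinuousLinearMap.proj 0 with hℓ
  have hℓ0 : ℓ ≠ 0 := by
    intro h
    have := congrArg (fun L : TgX N →L[ℂ] ℂ => L (fun _ => 1)) h
    simp [hℓ] at this
  have hcont : Continuous fun z : TgX N => (z 0).im := Complex.continuous_im.comp (continuous_apply 0)
  have huo : IsOpen (tgUpo D) := hD.inter (isOpen_lt continuous_const hcont)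
  have hlo : IsOpen (tgLoo D) := hD.inter (isOpen_lt hcont continuous_const)
  refine pnl_main ℓ hℓ0 0 hD hc ?_
  rintro x ⟨hx, hb⟩
  have hb' : (x 0).im ≠ 0 := hb
  rcases lt_or_gt_of_ne hb' with h | h
  · exact ((hl x ⟨hx, h⟩).differentiableAt (hlo.mem_nhds ⟨hx, h⟩)).differentiableWithinAt
  · exact ((hu x ⟨hx, h⟩).differentiableAt (huo.mem_nhds ⟨hx, h⟩)).differentiableWithinAt

end Claimed.Agent.R245
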