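/-
Row 245 / S0484: final assembly (helper178).
`CAPCone F` (sup-norm CAP in the punctured cone) implies the frozen statement.
-/
import Claimed.Agent.R245.Defs

set_option autoImplicit false

namespace Claimed.Agent.R245

open MvPolynomial Metric Set Claims.C0412

/-- algebraic identity behind the chordal estimate -/
lemma top_chordal_identity (a b : V4) :
    (∑ i, a i * (starRingEnd ℂ) (a i)) * (∑ i, b i * (starRingEnd ℂ) (b i))
      - (∑ i, a i * (starRingEnd ℂ) (b i)) * (starRingEnd ℂ) (∑ i, a i * (starRingEnd ℂ) (b i))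
    = (∑ i, b i * (starRingEnd ℂ) (b i)) * (∑ i, (a i - b i) * (starRingEnd ℂ) (a i - b i))
      - (∑ i, (a i - b i) * (starRingEnd ℂ) (b i)) *
        (starRingEnd ℂ) (∑ i, (a i - b i) * (starRingEnd ℂ) (b i)) := by
  simp only [Fin.sum_univ_four, map_add, map_mul, map_sub, Complex.conj_conj]
  ring

lemma top_sum_normSq (a : V4) :
    (∑ i, a i * (starRingEnd ℂ) (a i)) = ((∑ i, ‖a i‖ ^ 2 : ℝ) : ℂ) := by
  push_cast
  refine Finset.sum_congr rfl fun i _ => ?_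
  rw [Complex.mul_conj, Complex.normSq_eq_norm_sq]
  push_cast; rfl

lemma top_chordal_real (a b : V4) :
    (∑ i, ‖a i‖ ^ 2) * (∑ i, ‖b i‖ ^ 2) - ‖∑ i, a i * (starRingEnd ℂ) (b i)‖ ^ 2
      ≤ (∑ i, ‖b i‖ ^ 2) * (∑ i, ‖a i - b i‖ ^ 2) := by
  have h := top_chordal_identity a b
  rw [top_sum_normSq a, top_sum_normSq b, top_sum_normSq (fun i => a i - b i),
    Complex.mul_conj, Complex.mul_conj, Complex.normSq_eq_norm_sq, Complex.normSq_eq_norm_sq] at h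
  have h' : (∑ i, ‖a i‖ ^ 2) * (∑ i, ‖b i‖ ^ 2) - ‖∑ i, a i * (starRingEnd ℂ) (b i)‖ ^ 2
      = (∑ i, ‖b i‖ ^ 2) * (∑ i, ‖a i - b i‖ ^ 2)
        - ‖∑ i, (a i - b i) * (starRingEnd ℂ) (b i)‖ ^ 2 := by
    exact_mod_cast h
  rw [h']
  have : 0 ≤ ‖∑ i, (a i - b i) * (starRingEnd ℂ) (b i)‖ ^ 2 := by positivity
  linarith

/-- the chordal distance is controlled by the sup-norm distance -/
lemma top_projChordalSq_le (a b : V4) (ha : a ≠ 0) (hb : b ≠ 0) :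
    projChordalSq a b ≤ 4 * ‖a - b‖ ^ 2 / ‖a‖ ^ 2 := by
  have hA : ‖a‖ ^ 2 ≤ ∑ i, ‖a i‖ ^ 2 := by
    obtain ⟨i, hi⟩ : ∃ i, ‖a‖ = ‖a i‖ := by
      have := Finset.exists_mem_eq_sup' (Finset.univ_nonempty (α := Fin 4)) (fun i => ‖a i‖₊)
      obtain ⟨i, _, hi⟩ := this
      refine ⟨i, ?_⟩
      have h2 : ‖a‖₊ = Finset.univ.sup (fun i => ‖a i‖₊) := Pi.nnnorm_def a
      rw [← Finset.sup'_eq_sup (Finset.univ_nonempty (α := Fin 4))] at h2
      have : ‖a‖₊ = ‖a i‖₊ := h2.trans hi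
      exact congrArg NNReal.toReal this
    rw [hi]
    exact Finset.single_le_sum (f := fun i => ‖a i‖ ^ 2) (fun j _ => by positivity) (Finset.mem_univ i)
  have hapos : 0 < ‖a‖ ^ 2 := by have := norm_pos_iff.mpr ha; positivity
  have hbpos : 0 < ‖b‖ ^ 2 := by have := norm_pos_iff.mpr hb; positivity
  have hB : ‖b‖ ^ 2 ≤ ∑ i, ‖b i‖ ^ 2 := by
    obtain ⟨i, hi⟩ : ∃ i, ‖b‖ = ‖b i‖ := by
      have := Finset.exists_mem_eq_sup' (Finset.univ_nonempty (α := Fin 4)) (fun i => ‖b i‖₊)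
      obtain ⟨i, _, hi⟩ := this
      refine ⟨i, ?_⟩
      have h2 : ‖b‖₊ = Finset.univ.sup (fun i => ‖b i‖₊) := Pi.nnnorm_def b
      rw [← Finset.sup'_eq_sup (Finset.univ_nonempty (α := Fin 4))] at h2
      have : ‖b‖₊ = ‖b i‖₊ := h2.trans hi
      exact congrArg NNReal.toReal this
    rw [hi]
    exact Finset.single_le_sum (f := fun i => ‖b i‖ ^ 2) (fun j _ => by positivity) (Finset.mem_univ i)
  have hD : ∑ i, ‖a i - b i‖ ^ 2 ≤ 4 * ‖a - b‖ ^ 2 := by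
    have : ∀ i, ‖a i - b i‖ ^ 2 ≤ ‖a - b‖ ^ 2 := fun i => by
      have h1 : ‖a i - b i‖ ≤ ‖a - b‖ := by simpa using norm_le_pi_norm (a - b) i
      gcongr
    calc ∑ i, ‖a i - b i‖ ^ 2 ≤ ∑ _i : Fin 4, ‖a - b‖ ^ 2 := Finset.sum_le_sum fun i _ => this i
      _ = 4 * ‖a - b‖ ^ 2 := by simp
  set A := ∑ i, ‖a i‖ ^ 2
  set B := ∑ i, ‖b i‖ ^ 2
  have hApos : 0 < A := lt_of_lt_of_le hapos hA
  have hBpos : 0 < B := lt_of_lt_of_le hbpos hB
  have key := top_chordal_real a b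
  unfold projChordalSq
  have e1 : 1 - ‖∑ i, a i * (starRingEnd ℂ) (b i)‖ ^ 2 / (A * B)
      = (A * B - ‖∑ i, a i * (starRingEnd ℂ) (b i)‖ ^ 2) / (A * B) := by
    field_simp
  rw [e1]
  calc (A * B - ‖∑ i, a i * (starRingEnd ℂ) (b i)‖ ^ 2) / (A * B)
      ≤ (B * ∑ i, ‖a i - b i‖ ^ 2) / (A * B) := by gcongr
    _ = (∑ i, ‖a i - b i‖ ^ 2) / A := by field_simp
    _ ≤ (4 * ‖a - b‖ ^ 2) / A := by gcongr
    _ ≤ 4 * ‖a - b‖ ^ 2 / ‖a‖ ^ 2 := by gcongr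

/-- **Final reduction.** Sup-norm CAP in the cone gives the frozen statement S0484. -/
theorem top_s0484_of_capCone (F : MvPolynomial (Fin 4) ℂ) (hcap : CAPCone F)
    (m : ℕ) (K U : Set (Fin m → ℂ))
    (hKne : K.Nonempty) (hKc : IsCompact K) (hKconv : Convex ℝ K) (hU : IsOpen U) (hKU : K ⊆ U)
    (g : (Fin m → ℂ) → (Fin 4 → ℂ)) (hg : DifferentiableOn ℂ g U)
    (hgX : ∀ z ∈ U, g z ≠ 0 ∧ eval (g z) F = 0) (ε : ℝ) (hε : 0 < ε) :
    ∃ G : (Fin m → ℂ) → (Fin 4 → ℂ), Differentiable ℂ G ∧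
      (∀ z, G z ≠ 0 ∧ eval (G z) F = 0) ∧ ∀ z ∈ K, projChordalSq (G z) (g z) < ε := by
  have hnear : HolNear F g K := ⟨U, hU, hKU, hg, fun z hz => hgX z hz⟩
  -- lower bound for `‖g‖` on `K`
  obtain ⟨z₀, hz₀K, hz₀⟩ := hKc.exists_isMinOn hKne
    ((hg.continuousOn.mono hKU).norm)
  set μ := ‖g z₀‖ with hμ
  have hμpos : 0 < μ := norm_pos_iff.mpr (hgX z₀ (hKU hz₀K)).1
  have hμle : ∀ z ∈ K, μ ≤ ‖g z‖ := fun z hz => hz₀ hz
  set δ := min (μ / 2) (μ * Real.sqrt ε / 8) with hδ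
  have hδpos : 0 < δ := by
    have : 0 < Real.sqrt ε := Real.sqrt_pos.mpr hε
    positivity
  obtain ⟨G, ⟨hGd, hGc⟩, hGclose⟩ := hcap m K hKc hKconv hKne g hnear δ hδpos
  refine ⟨G, hGd, fun z => hGc z, fun z hz => ?_⟩
  have h1 : ‖G z - g z‖ < δ := hGclose z hz
  have h2 : μ / 2 ≤ ‖G z‖ := by
    have h3 : ‖g z‖ ≤ ‖G z‖ + ‖G z - g z‖ := by
      have := norm_sub_le (G z) (G z - g z)
      simpa using this
    have h4 : δ ≤ μ / 2 := min_le_left _ _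
    have := hμle z hz
    linarith
  have h5 := top_projChordalSq_le (G z) (g z) (hGc z).1 (hgX z (hKU hz)).1
  refine lt_of_le_of_lt h5 ?_
  have h6 : ‖G z - g z‖ < μ * Real.sqrt ε / 8 := lt_of_lt_of_le h1 (min_le_right _ _)
  have hGpos : 0 < ‖G z‖ ^ 2 := by have : 0 < ‖G z‖ := by linarith
                                   positivity
  rw [div_lt_iff₀ hGpos]
  have h7 : ‖G z - g z‖ ^ 2 < (μ * Real.sqrt ε / 8) ^ 2 := by
    have := norm_nonneg (G z - g z)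
    gcongr
  have h8 : (μ * Real.sqrt ε / 8) ^ 2 = μ ^ 2 * ε / 64 := by
    rw [div_pow, mul_pow, Real.sq_sqrt hε.le]; norm_num
  have h9 : (μ / 2) ^ 2 ≤ ‖G z‖ ^ 2 := by
    have : 0 ≤ μ / 2 := by positivity
    gcongr
  nlinarith [h7, h8, h9, hε, mul_pos hε hGpos]

end Claimed.Agent.R245
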